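import Vale.Agent.P225.Seg.Basic

/-!
P225, module 10 (helper8): bounded Lipschitz families in a normed algebra and the scattering
composition on them.  `LBd s K f` says that `f` is bounded by `K` and `K`-Lipschitz on `s`.
-/

namespace Vale.Agent.P225.Loop

noncomputable section

variable {X A : Type*} [PseudoMetricSpace X] [NormedRing A]

/-- Bounded by `K` and `K`-Lipschitz on `s`. -/
def LBd (s : Set X) (K : ℝ) (f : X → A) : Prop :=
  (∀ p ∈ s, ‖f p‖ ≤ K) ∧ ∀ p ∈ s, ∀ q ∈ s, ‖f p - f q‖ ≤ K * dist p q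

variable {s : Set X} {K K' : ℝ} {f g : X → A}

theorem LBd.mono (h : LBd s K f) (hK : K ≤ K') : LBd s K' f :=
  ⟨fun p hp => (h.1 p hp).trans hK, fun p hp q hq =>
    (h.2 p hp q hq).trans (mul_le_mul_of_nonneg_right hK dist_nonneg)⟩

theorem LBd.congr (h : LBd s K f) (e : ∀ p ∈ s, f p = g p) : LBd s K g :=
  ⟨fun p hp => e p hp ▸ h.1 p hp, fun p hp q hq => e p hp ▸ e q hq ▸ h.2 p hp q hq⟩

theorem LBd.const {a : A} (h : ‖a‖ ≤ K) : LBd s K fun _ => a :=
  ⟨fun _ _ => h, fun p _ q _ => by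
    simpa using mul_nonneg ((norm_nonneg a).trans h) dist_nonneg⟩

theorem LBd.add (hf : LBd s K f) (hg : LBd s K' g) : LBd s (K + K') fun p => f p + g p :=
  ⟨fun p hp => (norm_add_le _ _).trans (add_le_add (hf.1 p hp) (hg.1 p hp)),
    fun p hp q hq => by
      calc ‖f p + g p - (f q + g q)‖ = ‖(f p - f q) + (g p - g q)‖ := by congr 1; abel
        _ ≤ ‖f p - f q‖ + ‖g p - g q‖ := norm_add_le _ _
        _ ≤ K * dist p q + K' * dist p q := add_le_add (hf.2 p hp q hq) (hg.2 p hp q hq)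
        _ = (K + K') * dist p q := by ring⟩

theorem LBd.sub (hf : LBd s K f) (hg : LBd s K' g) : LBd s (K + K') fun p => f p - g p := by
  have hn : LBd s K' fun p => -g p :=
    ⟨fun p hp => (norm_neg _).trans_le (hg.1 p hp), fun p hp q hq => by
      rw [neg_sub_neg, norm_sub_rev]; exact hg.2 p hp q hq⟩
  simpa [sub_eq_add_neg] using hf.add hn

theorem LBd.mul (hf : LBd s K f) (hg : LBd s K' g) : LBd s (2 * K * K') fun p => f p * g p := by
  refine ⟨fun p hp => ?_, fun p hp q hq => ?_⟩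
  · have hK := (norm_nonneg _).trans (hf.1 p hp)
    have hK' := (norm_nonneg _).trans (hg.1 p hp)
    refine ((norm_mul_le _ _).trans (mul_le_mul (hf.1 p hp) (hg.1 p hp) (norm_nonneg _) hK)).trans ?_
    nlinarith
  · have hK := (norm_nonneg _).trans (hf.1 p hp)
    calc ‖f p * g p - f q * g q‖ = ‖(f p - f q) * g p + f q * (g p - g q)‖ := by
          congr 1; rw [sub_mul, mul_sub]; abel
      _ ≤ ‖(f p - f q) * g p‖ + ‖f q * (g p - g q)‖ := norm_add_le _ _
      _ ≤ K * dist p q * K' + K * (K' * dist p q) :=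
          add_le_add ((norm_mul_le _ _).trans (mul_le_mul (hf.2 p hp q hq) (hg.1 p hp)
              (norm_nonneg _) (mul_nonneg hK dist_nonneg)))
            ((norm_mul_le _ _).trans (mul_le_mul (hf.1 q hq) (hg.2 p hp q hq) (norm_nonneg _) hK))
      _ = 2 * K * K' * dist p q := by ring

theorem LBd.comp {Y : Type*} [PseudoMetricSpace Y] {t : Set Y} {φ : Y → X} (h : LBd s K f)
    (hK : 0 ≤ K) (hmem : ∀ y ∈ t, φ y ∈ s) (hφ : ∀ y ∈ t, ∀ z ∈ t, dist (φ y) (φ z) ≤ dist y z) :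
    LBd t K (f ∘ φ) :=
  ⟨fun y hy => h.1 _ (hmem y hy), fun y hy z hz => (h.2 _ (hmem y hy) _ (hmem z hz)).trans
    (mul_le_mul_of_nonneg_left (hφ y hy z hz) hK)⟩

variable [CompleteSpace A] [NormOneClass A]

theorem inv_one_sub_bound {x : A} (h : ‖x‖ ≤ 1 / 4) :
    ‖Ring.inverse (1 - x)‖ ≤ 4 / 3 ∧ ‖Ring.inverse (1 - x) - 1‖ ≤ 4 / 3 * ‖x‖ ∧
      IsUnit (1 - x) := by
  have hu : IsUnit (1 - x) := ⟨Units.oneSub x (by linarith), rfl⟩
  have e : Ring.inverse (1 - x) - 1 = x * Ring.inverse (1 - x) := by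
    have h1 := Ring.mul_inverse_cancel _ hu
    rw [sub_mul, one_mul] at h1
    rw [← sub_eq_zero] at h1 ⊢
    rw [← h1]; abel
  set y := Ring.inverse (1 - x)
  have hy : ‖y‖ ≤ 4 / 3 := by
    have : ‖y‖ ≤ 1 + ‖x‖ * ‖y‖ := by
      calc ‖y‖ = ‖1 + (y - 1)‖ := by rw [add_sub_cancel]
        _ ≤ ‖(1 : A)‖ + ‖y - 1‖ := norm_add_le _ _
        _ ≤ 1 + ‖x‖ * ‖y‖ := by
            rw [norm_one, e]
            exact add_le_add le_rfl (norm_mul_le _ _)
    nlinarith [norm_nonneg y]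
  refine ⟨hy, ?_, hu⟩
  rw [e]
  refine (norm_mul_le _ _).trans ?_
  nlinarith [norm_nonneg x]

theorem LBd.inv_sub_one (h : LBd s K f) (hK : K ≤ 1 / 4) :
    LBd s (4 * K) fun p => Ring.inverse (1 - f p) - 1 := by
  refine ⟨fun p hp => ?_, fun p hp q hq => ?_⟩
  · have h1 := h.1 p hp
    refine (inv_one_sub_bound (h1.trans hK)).2.1.trans ?_
    linarith [norm_nonneg (f p)]
  · obtain ⟨hp1, -, hpu⟩ := inv_one_sub_bound ((h.1 p hp).trans hK)
    obtain ⟨hq1, -, hqu⟩ := inv_one_sub_bound ((h.1 q hq).trans hK)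
    have e : Ring.inverse (1 - f p) - Ring.inverse (1 - f q)
        = Ring.inverse (1 - f p) * (f p - f q) * Ring.inverse (1 - f q) := by
      calc Ring.inverse (1 - f p) - Ring.inverse (1 - f q)
          = Ring.inverse (1 - f p) * ((1 - f q) * Ring.inverse (1 - f q))
            - (Ring.inverse (1 - f p) * (1 - f p)) * Ring.inverse (1 - f q) := by
            rw [Ring.mul_inverse_cancel _ hqu, Ring.inverse_mul_cancel _ hpu, mul_one, one_mul]
        _ = _ := by rw [← mul_assoc, ← sub_mul, ← mul_sub]; congr 2; abel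
    rw [sub_sub_sub_cancel_right, e]
    have hd := h.2 p hp q hq
    refine ((norm_mul_le _ _).trans (mul_le_mul ((norm_mul_le _ _).trans
      (mul_le_mul hp1 hd (norm_nonneg _) (by norm_num))) hq1 (norm_nonneg _) ?_)).trans ?_
    · linarith [norm_nonneg (f p - f q)]
    · nlinarith [norm_nonneg (f p - f q), hd]

theorem LBd.inv (h : LBd s K f) (hK : K ≤ 1 / 4) : LBd s 2 fun p => Ring.inverse (1 - f p) :=
  (((h.inv_sub_one hK).add (LBd.const (a := (1 : A)) norm_one.le)).congr fun p _ => by abel).mono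
    (by linarith)

/-- Scattering data in a ring. -/
structure RSeg (A : Type*) where
  /-- value to value -/
  Q : A
  /-- deviation to value -/
  B : A
  /-- value to deviation -/
  C : A
  /-- deviation to deviation -/
  D : A

/-- The segment of length zero. -/
def RSeg.one {A : Type*} [Ring A] : RSeg A := ⟨1, 0, 0, 1⟩

/-- Concatenation, as for `Seg.comp`. -/
def RSeg.comp {A : Type*} [Ring A] (a b : RSeg A) : RSeg A :=
  let N := Ring.inverse (1 - b.B * a.C)
  ⟨a.Q * (N * b.Q), a.B + a.Q * (N * (b.B * a.D)), b.C + b.D * (a.C * (N * b.Q)),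
    b.D * (a.D + a.C * (N * (b.B * a.D)))⟩

/-- A family of segments with bounds, whose `Q` is a central constant times a map near `w`. -/
structure Good (s : Set X) (K δ : ℝ) (S : X → RSeg A) (c : A) (w : X → A) : Prop where
  hQ : LBd s K fun p => (S p).Q
  hB : LBd s K fun p => (S p).B
  hC : LBd s δ fun p => (S p).C
  hD : LBd s K fun p => (S p).D
  hw : LBd s K w
  central : ∀ x, Commute c x
  near : ∃ q : X → A, (∀ p ∈ s, (S p).Q = c * q p) ∧ LBd s δ fun p => q p - w p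

omit [CompleteSpace A] [NormOneClass A] in
theorem Good.mono {δ δ' : ℝ} {S : X → RSeg A} {c : A} {w : X → A} (h : Good s K δ S c w)
    (hK : K ≤ K') (hδ : δ ≤ δ') : Good s K' δ' S c w := by
  obtain ⟨q, hq, hn⟩ := h.near
  exact ⟨h.hQ.mono hK, h.hB.mono hK, h.hC.mono hδ, h.hD.mono hK, h.hw.mono hK, h.central, q, hq,
    hn.mono hδ⟩

theorem good_one {δ : ℝ} (hδ : 0 ≤ δ) (hK : 1 ≤ K) :
    Good s K δ (fun _ => (RSeg.one : RSeg A)) 1 fun _ => 1 where
  hQ := LBd.const (norm_one.le.trans hK)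
  hB := LBd.const (by rw [RSeg.one, norm_zero]; linarith)
  hC := LBd.const (by rw [RSeg.one, norm_zero]; exact hδ)
  hD := LBd.const (norm_one.le.trans hK)
  hw := LBd.const (norm_one.le.trans hK)
  central x := Commute.one_left x
  near := ⟨fun _ => 1, fun _ _ => (mul_one (1 : A)).symm, LBd.const (by simpa using hδ)⟩

/-- Two near segments compose to a near segment. -/
theorem Good.comp {δ : ℝ} {S T : X → RSeg A} {c d : A} {v w : X → A}
    (hS : Good s K δ S c v) (hT : Good s K δ T d w) (hK : 1 ≤ K) (hδ : 0 ≤ δ)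
    (hsmall : K * δ ≤ 1 / 8) :
    Good s (100 * K ^ 3) (100 * K ^ 3 * δ) (fun p => (S p).comp (T p)) (c * d)
      fun p => v p * w p := by
  have hK0 : 0 ≤ K := zero_le_one.trans hK
  have hK23 : K ^ 2 ≤ K ^ 3 := pow_le_pow_right₀ hK (by norm_num)
  have hK13 : K ≤ K ^ 3 := le_self_pow₀ hK (by norm_num)
  have h3 : 1 ≤ K ^ 3 := one_le_pow₀ hK
  have hT' : LBd s (2 * K * δ) fun p => (T p).B * (S p).C := hT.hB.mul hS.hC
  have hN1 := hT'.inv_sub_one (by linarith)
  have hN := hT'.inv (by linarith)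
  refine ⟨(hS.hQ.mul (hN.mul hT.hQ)).mono (by nlinarith),
    (hS.hB.add (hS.hQ.mul (hN.mul (hT.hB.mul hS.hD)))).mono (by nlinarith),
    (hT.hC.add (hT.hD.mul (hS.hC.mul (hN.mul hT.hQ)))).mono ?_,
    (hT.hD.mul (hS.hD.add (hS.hC.mul (hN.mul (hT.hB.mul hS.hD))))).mono ?_,
    (hS.hw.mul hT.hw).mono (by nlinarith),
    fun x => (hS.central x).mul_left (hT.central x), ?_⟩
  · nlinarith [mul_nonneg hδ (sub_nonneg.2 hK23), mul_nonneg hδ (sub_nonneg.2 h3)]
  · nlinarith [mul_le_mul_of_nonneg_left hsmall (sq_nonneg K)]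
  obtain ⟨a, ha, ha'⟩ := hS.near
  obtain ⟨b, hb, hb'⟩ := hT.near
  let N : X → A := fun p => Ring.inverse (1 - (T p).B * (S p).C)
  refine ⟨fun p => a p * (N p * b p), fun p hp => ?_, ?_⟩
  · show (S p).Q * (N p * (T p).Q) = _
    rw [ha p hp, hb p hp, ← mul_assoc (N p), ← (hT.central (N p)).eq, mul_assoc d, ← mul_assoc,
      mul_assoc c, ← (hT.central (a p)).eq]
    simp only [mul_assoc]
  have hδ1 : δ ≤ K := by nlinarith
  have hbK : LBd s (2 * K) b :=
    ((hb'.add hT.hw).congr fun p _ => sub_add_cancel (b p) (w p)).mono (by linarith)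
  refine ((((ha'.mul (hN.mul hbK)).add (hS.hw.mul (hN1.mul hbK))).add (hS.hw.mul hb')).congr
    fun p _ => ?_).mono ?_
  · simp only [N, mul_sub, sub_mul, one_mul, mul_one]
    abel
  · nlinarith [mul_nonneg hδ (sub_nonneg.2 hK13), mul_nonneg hδ (sub_nonneg.2 hK23)]

/-- A chain of segments, composed from the left end. -/
def chain {A : Type*} [Ring A] : ∀ {m : ℕ}, (Fin m → RSeg A) → RSeg A
  | 0, _ => RSeg.one
  | _ + 1, S => (S 0).comp (chain fun k => S k.succ)

/-- A chain of near segments is near the product. -/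
theorem exists_good_chain (m : ℕ) (K : ℝ) (hK : 1 ≤ K) :
    ∃ K' : ℝ, 1 ≤ K' ∧ ∃ δ₀ : ℝ, 0 < δ₀ ∧ ∀ δ, 0 ≤ δ → δ ≤ δ₀ → ∀ (S : Fin m → X → RSeg A)
      (c : Fin m → A) (w : Fin m → X → A), (∀ k, Good s K δ (S k) (c k) (w k)) →
      Good s K' (K' * δ) (fun p => chain fun k => S k p) (List.ofFn c).prod
        fun p => (List.ofFn fun k => w k p).prod := by
  induction m with
  | zero =>
    refine ⟨1, le_rfl, 1, one_pos, fun δ hδ _ S c w _ => ?_⟩
    simpa [chain] using good_one (A := A) (s := s) (K := 1) (δ := 1 * δ) (by linarith) le_rfl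
  | succ m ih =>
    obtain ⟨K₁, hK₁, δ₁, hδ₁, h⟩ := ih
    set L := max K K₁ with hL
    have hL1 : 1 ≤ L := hK.trans (le_max_left _ _)
    refine ⟨100 * L ^ 4, by nlinarith [one_le_pow₀ (n := 4) hL1], min δ₁ (1 / (8 * L ^ 2)),
      lt_min hδ₁ (by positivity), fun δ hδ hδ' S c w hg => ?_⟩
    have hLδ : δ ≤ L * δ := le_mul_of_one_le_left hδ hL1
    have ht := (h δ hδ (hδ'.trans (min_le_left _ _)) (fun k => S k.succ) (fun k => c k.succ)
      (fun k => w k.succ) fun k => hg k.succ).mono (K' := L) (δ' := L * δ) (le_max_right _ _)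
        (mul_le_mul_of_nonneg_right (le_max_right _ _) hδ)
    have hsmall : L * (L * δ) ≤ 1 / 8 := by
      have := (le_div_iff₀ (by positivity)).1 (hδ'.trans (min_le_right _ _))
      nlinarith
    have := ((hg 0).mono (le_max_left _ _) hLδ).comp ht hL1 (by nlinarith) hsmall
    simp only [List.ofFn_succ, List.prod_cons, chain]
    exact this.mono (by nlinarith [pow_nonneg (zero_le_one.trans hL1) 3]) (le_of_eq (by ring))

end

end Vale.Agent.P225.Loop
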