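import Vale.Agent.P225.Weights
import Vale.Agent.P225.Ode.Slope
import Vale.Agent.P225.Loop.LBd

/-!
P225, module 10 (helper8): the first order gain of one excursion on one mode.  The integral of the
slope is, up to `O(δ + 1/L)` in `C^{0,1}` of the amplitude, linear in the amplitude.
-/

open MeasureTheory Set
open scoped Topology

namespace Vale.Agent.P225.Loop

noncomputable section

/-- Profile of an eigenvalue along the raw excursion weights, normalised to `wdet = 1`. -/
def excProfile (P S x : ℝ) : ℝ := (P + x * S) / Real.sqrt (1 + 2 * x)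

/-- `∫₀¹ bump`. -/
def bumpMass : ℝ := ∫ x in (0 : ℝ)..1, bump x

/-- The limiting gain of an excursion: scale `s`, values `P`, `S`, limit `κ` of `2 α + 5`. -/
def excGain (s P S κ : ℝ) : ℝ := s * (S - P) * bumpMass / κ

theorem sqrt_one_add_bounds {x : ℝ} (hx : |x| ≤ 1 / 4) :
    7 / 10 ≤ Real.sqrt (1 + 2 * x) ∧ Real.sqrt (1 + 2 * x) ≤ 13 / 10 ∧
      |Real.sqrt (1 + 2 * x) - 1| ≤ 2 * |x| := by
  rw [abs_le] at hx
  have h := Real.sq_sqrt (by linarith : 0 ≤ 1 + 2 * x)
  have h0 := Real.sqrt_nonneg (1 + 2 * x)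
  refine ⟨by nlinarith, by nlinarith, ?_⟩
  have e : (Real.sqrt (1 + 2 * x) - 1) * (Real.sqrt (1 + 2 * x) + 1) = 2 * x := by
    linear_combination h
  calc |Real.sqrt (1 + 2 * x) - 1| ≤ |Real.sqrt (1 + 2 * x) - 1| * (Real.sqrt (1 + 2 * x) + 1) :=
        le_mul_of_one_le_right (abs_nonneg _) (by linarith)
    _ = |(Real.sqrt (1 + 2 * x) - 1) * (Real.sqrt (1 + 2 * x) + 1)| := by
        rw [abs_mul, abs_of_nonneg (by linarith : 0 ≤ Real.sqrt (1 + 2 * x) + 1)]
    _ = 2 * |x| := by rw [e, abs_mul, abs_two]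

/-- First order expansion of the profile, uniform on `|x|, |y| ≤ 1/4`. -/
theorem excProfile_sub (P S : ℝ) {x y : ℝ} (hx : |x| ≤ 1 / 4) (hy : |y| ≤ 1 / 4) :
    |excProfile P S x - excProfile P S y - (S - P) * (x - y)|
      ≤ 20 * (|P| + |S|) * (|x| + |y|) * |x - y| := by
  obtain ⟨ha, ha', ha1⟩ := sqrt_one_add_bounds hx
  obtain ⟨hb, hb', hb1⟩ := sqrt_one_add_bounds hy
  set a := Real.sqrt (1 + 2 * x) with hadef
  set b := Real.sqrt (1 + 2 * y) with hbdef
  have hqa : a ^ 2 = 1 + 2 * x := Real.sq_sqrt (by linarith [(abs_le.1 hx).1])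
  have hqb : b ^ 2 = 1 + 2 * y := Real.sq_sqrt (by linarith [(abs_le.1 hy).1])
  have hd : 0 < a * b * (a + b) := by positivity
  have hab : a * b * (a + b) ≥ 68 / 100 := by
    nlinarith [mul_le_mul ha hb (by norm_num) (by linarith : (0:ℝ) ≤ a)]
  have e1 : 1 / a - 1 / b = -2 * (x - y) / (a * b * (a + b)) := by
    rw [div_sub_div _ _ (by linarith) (by linarith),
      div_eq_div_iff (by positivity) hd.ne']
    linear_combination (-(a * b)) * hqa + a * b * hqb
  have h2 : |a * b * (a + b) - 2| ≤ 9 * (|x| + |y|) := by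
    have hsplit : a * b * (a + b) - 2
        = (a - 1) * (b * (a + b)) + (b - 1) * (a + b) + ((a - 1) + (b - 1)) := by ring
    rw [hsplit]
    refine (abs_add_three _ _ _).trans ?_
    rw [abs_mul, abs_mul (b - 1)]
    have p1 : |b * (a + b)| ≤ 34 / 10 := by
      rw [abs_of_pos (by positivity)]; nlinarith
    have p2 : |a + b| ≤ 26 / 10 := by rw [abs_of_pos (by positivity)]; linarith
    have q1 := mul_le_mul ha1 p1 (abs_nonneg _) (by positivity)
    have q2 := mul_le_mul hb1 p2 (abs_nonneg _) (by positivity)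
    have q3 := abs_add_le (a - 1) (b - 1)
    linarith [abs_nonneg x, abs_nonneg y]
  have h3 : |1 / a - 1 / b + (x - y)| ≤ 14 * (|x| + |y|) * |x - y| := by
    have e : 1 / a - 1 / b + (x - y)
        = (x - y) * ((a * b * (a + b) - 2) / (a * b * (a + b))) := by
      rw [e1]; field_simp; ring
    rw [e, abs_mul, abs_div, abs_of_pos hd, mul_comm]
    refine mul_le_mul_of_nonneg_right ?_ (abs_nonneg _)
    rw [div_le_iff₀ hd]
    have := mul_le_mul_of_nonneg_left hab (add_nonneg (abs_nonneg x) (abs_nonneg y))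
    linarith [abs_nonneg x, abs_nonneg y]
  have h4 : |1 / a - 1| ≤ 3 * |x| := by
    rw [div_sub_one (by linarith), abs_div, abs_of_pos (by linarith : (0:ℝ) < a),
      div_le_iff₀ (by linarith), abs_sub_comm]
    nlinarith [abs_nonneg x]
  have h5 : |1 / a - 1 / b| ≤ 3 * |x - y| := by
    rw [e1, abs_div, abs_of_pos hd, abs_mul, div_le_iff₀ hd, abs_neg, abs_two]
    have := mul_le_mul_of_nonneg_left hab (abs_nonneg (x - y))
    linarith [abs_nonneg (x - y)]
  have h6 : |(x - y) * (1 / a - 1) + y * (1 / a - 1 / b)| ≤ 6 * (|x| + |y|) * |x - y| := by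
    refine (abs_add_le _ _).trans ?_
    rw [abs_mul, abs_mul]
    have q1 := mul_le_mul_of_nonneg_left h4 (abs_nonneg (x - y))
    have q2 := mul_le_mul_of_nonneg_left h5 (abs_nonneg y)
    have q3 := mul_nonneg (abs_nonneg x) (abs_nonneg (x - y))
    have q4 := mul_nonneg (abs_nonneg y) (abs_nonneg (x - y))
    linarith
  have e : excProfile P S x - excProfile P S y - (S - P) * (x - y)
      = P * (1 / a - 1 / b + (x - y)) + S * ((x - y) * (1 / a - 1) + y * (1 / a - 1 / b)) := by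
    simp only [excProfile, ← hadef, ← hbdef]
    ring
  rw [e]
  refine (abs_add_le _ _).trans ?_
  rw [abs_mul, abs_mul]
  have hpp : 0 ≤ (|x| + |y|) * |x - y| := by positivity
  nlinarith [mul_le_mul_of_nonneg_left h3 (abs_nonneg P), mul_le_mul_of_nonneg_left h6 (abs_nonneg S),
    mul_nonneg (abs_nonneg P) hpp, mul_nonneg (abs_nonneg S) hpp]

theorem continuous_bump : Continuous bump := by
  unfold bump
  exact (Real.smoothTransition.continuous.comp (by fun_prop)).mul
    (Real.smoothTransition.continuous.comp (by fun_prop))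

theorem bump_mem (x : ℝ) : 0 ≤ bump x ∧ bump x ≤ 1 :=
  ⟨mul_nonneg (Real.smoothTransition.nonneg _) (Real.smoothTransition.nonneg _),
    mul_le_one₀ (Real.smoothTransition.le_one _) (Real.smoothTransition.nonneg _)
      (Real.smoothTransition.le_one _)⟩

/-- Time profile of an excursion of amplitude `τ` on `[a, b]`. -/
def excX (a b τ t : ℝ) : ℝ := τ / (b - a) * bump ((t - a) / (b - a))

theorem continuous_excX (a b τ : ℝ) : Continuous (excX a b τ) := by
  unfold excX
  exact continuous_const.mul (continuous_bump.comp (by fun_prop))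

theorem integral_excX {a b : ℝ} (h : a < b) (τ : ℝ) : ∫ t in a..b, excX a b τ t = τ * bumpMass := by
  have hL : b - a ≠ 0 := sub_ne_zero.2 h.ne'
  have e : ∀ t, (t - a) / (b - a) = t / (b - a) - a / (b - a) := fun t => sub_div t a (b - a)
  simp only [excX, intervalIntegral.integral_const_mul, e]
  rw [intervalIntegral.integral_comp_div_sub (f := bump) hL, div_self_eq_one_of hL a b]
  rw [smul_eq_mul, ← mul_assoc, div_mul_cancel₀ _ hL, bumpMass, sub_self]
where
  div_self_eq_one_of (hL : b - a ≠ 0) (a' b' : ℝ) : b / (b - a) - a / (b - a) = 1 := by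
    rw [← sub_div, div_self hL]

/-- A linear equation with almost constant coefficient `κ₀` integrates to `1/κ₀` times its
source. -/
theorem linear_gain {a b k κ₀ δ E Z : ℝ} {κ e m D : ℝ → ℝ} (hab : a ≤ b) (hk : 0 < k)
    (hkκ₀ : k ≤ κ₀) (hδ : 0 ≤ δ) (hκc : Continuous κ) (hec : Continuous e) (hmc : Continuous m)
    (hκ : ∀ t ∈ Icc a b, k ≤ κ t ∧ |κ t - κ₀| ≤ δ) (hE : ∀ t ∈ Icc a b, |e t| ≤ E)
    (hm : ∀ t ∈ Icc a b, |e t + m t| ≤ Z) (hDa : D a = 0) (hDc : Continuous D)
    (hD : ∀ t ∈ Icc a b, HasDerivAt D (-κ t * D t - e t) t) :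
    |(∫ t in a..b, D t) - (∫ t in a..b, m t) / κ₀|
      ≤ (E / k + δ * (E / k) * (b - a) + Z * (b - a)) / k := by
  have hDle : ∀ t ∈ Icc a b, |D t| ≤ E / k := by
    intro t ht
    rw [Ode.eq_linSol hκc hec hD t ht, hDa]
    simpa using Ode.abs_linSol_le (y₀ := 0) hκc hec hk ht.1
      (fun u hu => (hκ u ⟨hu.1, hu.2.trans ht.2⟩).1)
      fun u hu => hE u ⟨hu.1, hu.2.trans ht.2⟩
  have hftc : ∫ t in a..b, (-κ t * D t - e t) = D b := by
    rw [intervalIntegral.integral_eq_sub_of_hasDerivAt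
      (fun t ht => hD t (uIcc_of_le hab ▸ ht))
      (((hκc.neg.mul hDc).sub hec).intervalIntegrable _ _)]
    simp [hDa]
  have hrc : Continuous fun t => (κ t - κ₀) * D t := (hκc.sub continuous_const).mul hDc
  have herrc : Continuous fun t => e t + m t := hec.add hmc
  have i2 : IntervalIntegrable (fun t => -(-κ t * D t - e t)) volume a b :=
    (((hκc.neg.mul hDc).sub hec).neg).intervalIntegrable _ _
  have i3 : IntervalIntegrable (fun t => -(-κ t * D t - e t) - (κ t - κ₀) * D t) volume a b :=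
    i2.sub (hrc.intervalIntegrable _ _)
  have i1 : IntervalIntegrable (fun t => κ₀ * D t) volume a b :=
    (continuous_const.mul hDc).intervalIntegrable _ _
  have key : κ₀ * (∫ t in a..b, D t) - ∫ t in a..b, m t
      = -(D b) - (∫ t in a..b, (κ t - κ₀) * D t) - ∫ t in a..b, (e t + m t) := by
    rw [← hftc, ← intervalIntegral.integral_const_mul, ← intervalIntegral.integral_neg,
      ← intervalIntegral.integral_sub i1 (hmc.intervalIntegrable _ _),
      ← intervalIntegral.integral_sub i2 (hrc.intervalIntegrable _ _),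
      ← intervalIntegral.integral_sub i3 (herrc.intervalIntegrable _ _)]
    refine intervalIntegral.integral_congr fun t _ => ?_
    ring
  have habs : |b - a| = b - a := abs_of_nonneg (sub_nonneg.2 hab)
  have b1 : |∫ t in a..b, (κ t - κ₀) * D t| ≤ δ * (E / k) * (b - a) := by
    rw [← Real.norm_eq_abs, ← habs]
    refine intervalIntegral.norm_integral_le_of_norm_le_const fun t ht => ?_
    rw [uIoc_of_le hab] at ht
    have ht' := Ioc_subset_Icc_self ht
    rw [Real.norm_eq_abs, abs_mul]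
    exact mul_le_mul (hκ t ht').2 (hDle t ht') (abs_nonneg _) hδ
  have b2 : |∫ t in a..b, (e t + m t)| ≤ Z * (b - a) := by
    rw [← Real.norm_eq_abs, ← habs]
    refine intervalIntegral.norm_integral_le_of_norm_le_const fun t ht => ?_
    rw [uIoc_of_le hab] at ht
    exact hm t (Ioc_subset_Icc_self ht)
  have b3 := hDle b (right_mem_Icc.2 hab)
  have hκ0 : 0 < κ₀ := hk.trans_le hkκ₀
  rw [show (∫ t in a..b, D t) - (∫ t in a..b, m t) / κ₀
      = (κ₀ * (∫ t in a..b, D t) - ∫ t in a..b, m t) / κ₀ by field_simp, key, abs_div,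
    abs_of_pos hκ0]
  have hnum := (abs_sub _ _).trans (add_le_add ((abs_sub _ _).trans
    (add_le_add ((abs_neg _).trans_le b3) b1)) b2)
  exact div_le_div₀ ((abs_nonneg _).trans hnum) hnum hk hkκ₀

/-- The constants of `exc_integral_approx`. -/
theorem gain_arith {N s₀ R δ u L t w : ℝ} (hN : 0 ≤ N) (hs : 0 ≤ s₀) (hR : 0 ≤ R) (hδ : 0 ≤ δ)
    (hδ1 : δ ≤ 1) (hu : 0 ≤ u) (hRu : R * u ≤ 1 / 4) (ht : 0 ≤ t) (hw : 0 ≤ w)
    (hL : u * L = 1) :
    t * ((t * ((N * δ + (s₀ + 1) * (40 * N * (R * u))) * (w * u) + s₀ * N * (w * u))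
      + δ * (t * ((N * δ + (s₀ + 1) * (40 * N * (R * u))) * (w * u) + s₀ * N * (w * u))) * L)
      + (N * δ + (s₀ + 1) * (40 * N * (R * u))) * (w * u) * L)
      ≤ 100 * (1 + t) ^ 2 * (s₀ + 1) * N * (1 + R) * (δ + u) * w := by
  set A := N * δ + (s₀ + 1) * (40 * N * (R * u)) with hA
  set T := (s₀ + 1) * N * (1 + R) * (δ + u) * w with hT
  have hT0 : 0 ≤ T := by positivity
  have hA0 : 0 ≤ A := by positivity
  have hs1 : 1 ≤ s₀ + 1 := by linarith
  have hR1 : 1 ≤ 1 + R := by linarith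
  have m1 : A + s₀ * N ≤ 12 * N * (s₀ + 1) := by
    have e : A ≤ N * 1 + (s₀ + 1) * (40 * N * (1 / 4)) := by rw [hA]; gcongr
    nlinarith [mul_nonneg hN hs]
  have m2 : A ≤ 40 * ((s₀ + 1) * N * (1 + R)) * (δ + u) := by
    have e1 : N * δ ≤ 40 * ((s₀ + 1) * N * (1 + R)) * δ := by
      refine mul_le_mul_of_nonneg_right ?_ hδ
      nlinarith [mul_le_mul hs1 hR1 zero_le_one (by linarith)]
    have e2 : (s₀ + 1) * (40 * N * (R * u)) ≤ 40 * ((s₀ + 1) * N * (1 + R)) * u := by
      have : 0 ≤ (s₀ + 1) * N * u := by positivity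
      nlinarith
    rw [hA]; linarith
  have e : t * ((t * (A * (w * u) + s₀ * N * (w * u))
      + δ * (t * (A * (w * u) + s₀ * N * (w * u))) * L) + A * (w * u) * L)
      = t ^ 2 * ((A + s₀ * N) * ((δ + u) * w)) + t * (A * w) := by
    linear_combination (t ^ 2 * δ * (A + s₀ * N) * w + t * A * w) * hL
  rw [e]
  have r1 : (A + s₀ * N) * ((δ + u) * w) ≤ 12 * T := by
    refine (mul_le_mul_of_nonneg_right m1 (by positivity)).trans ?_
    calc 12 * N * (s₀ + 1) * ((δ + u) * w) = 12 * ((s₀ + 1) * N * 1 * (δ + u) * w) := by ring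
      _ ≤ 12 * T := by rw [hT]; gcongr
  have r2 : A * w ≤ 40 * T := (mul_le_mul_of_nonneg_right m2 hw).trans (le_of_eq (by rw [hT]; ring))
  have n1 : t ^ 2 ≤ (1 + t) ^ 2 := by nlinarith
  have n2 : t ≤ (1 + t) ^ 2 := by nlinarith
  calc _ ≤ (1 + t) ^ 2 * (12 * T) + (1 + t) ^ 2 * (40 * T) :=
        add_le_add (mul_le_mul n1 r1 (by positivity) (by positivity))
          (mul_le_mul n2 r2 (by positivity) (by positivity))
    _ ≤ (1 + t) ^ 2 * (100 * T) := by
        have := mul_nonneg (sq_nonneg (1 + t)) hT0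
        linarith
    _ = _ := by rw [hT]; ring

/-- The forcing of the difference of two amplitudes. -/
theorem exc_forcing {a b δ R s₀ P S τ σ : ℝ} {s : ℝ → ℝ} (hab : a < b) (hδ1 : δ ≤ 1)
    (hR : R ≤ (b - a) / 4) (hτ : τ ∈ Icc (-R) R) (hσ : σ ∈ Icc (-R) R) {t : ℝ}
    (hs : |s t - s₀| ≤ δ) :
    |(s t * excProfile P S (excX a b σ t) - s t * excProfile P S (excX a b τ t))
        + s₀ * (S - P) * (excX a b τ t - excX a b σ t)|
      ≤ ((|P| + |S|) * δ + (|s₀| + 1) * (40 * (|P| + |S|) * (R * (1 / (b - a)))))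
          * (|τ - σ| * (1 / (b - a))) ∧
    |s₀ * (S - P) * (excX a b τ t - excX a b σ t)|
      ≤ |s₀| * (|P| + |S|) * (|τ - σ| * (1 / (b - a))) := by
  have hL0 : 0 < b - a := sub_pos.2 hab
  have hR0 : 0 ≤ R := by linarith [hτ.1, hτ.2]
  have hb := bump_mem ((t - a) / (b - a))
  have hxle : ∀ ρ ∈ Icc (-R) R, |excX a b ρ t| ≤ R * (1 / (b - a)) := by
    intro ρ hρ
    simp only [excX, abs_mul, abs_div, abs_of_pos hL0, abs_of_nonneg hb.1, mul_one_div]
    exact (mul_le_of_le_one_right (by positivity) hb.2).trans (by gcongr; exact abs_le.2 hρ)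
  have hΔ : |excX a b τ t - excX a b σ t| ≤ |τ - σ| * (1 / (b - a)) := by
    simp only [excX, ← sub_mul, ← sub_div, abs_mul, abs_div, abs_of_pos hL0,
      abs_of_nonneg hb.1, mul_one_div]
    exact mul_le_of_le_one_right (by positivity) hb.2
  have hq : R * (1 / (b - a)) ≤ 1 / 4 := by
    rw [mul_one_div, div_le_iff₀ hL0]; linarith
  have hSP : |S - P| ≤ |P| + |S| := by linarith [abs_sub S P]
  refine ⟨?_, ?_⟩
  · have h1 := excProfile_sub P S ((hxle τ hτ).trans hq) ((hxle σ hσ).trans hq)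
    set d := excProfile P S (excX a b τ t) - excProfile P S (excX a b σ t)
      - (S - P) * (excX a b τ t - excX a b σ t) with hd
    rw [show (s t * excProfile P S (excX a b σ t) - s t * excProfile P S (excX a b τ t))
        + s₀ * (S - P) * (excX a b τ t - excX a b σ t)
        = -((s t - s₀) * ((S - P) * (excX a b τ t - excX a b σ t)) + s t * d) by rw [hd]; ring,
      abs_neg]
    refine (abs_add_le _ _).trans ?_
    rw [abs_mul, abs_mul, abs_mul]
    have hst : |s t| ≤ |s₀| + 1 := by linarith [abs_sub_abs_le_abs_sub (s t) s₀]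
    have hd' : |d| ≤ 40 * (|P| + |S|) * (R * (1 / (b - a))) * (|τ - σ| * (1 / (b - a))) := by
      refine h1.trans ?_
      refine mul_le_mul ?_ hΔ (abs_nonneg _) (by positivity)
      have h := mul_le_mul_of_nonneg_left (add_le_add (hxle τ hτ) (hxle σ hσ))
        (by positivity : 0 ≤ 20 * (|P| + |S|))
      linarith
    calc |s t - s₀| * (|S - P| * |excX a b τ t - excX a b σ t|) + |s t| * |d|
        ≤ δ * ((|P| + |S|) * (|τ - σ| * (1 / (b - a))))
          + (|s₀| + 1) * (40 * (|P| + |S|) * (R * (1 / (b - a))) * (|τ - σ| * (1 / (b - a)))) :=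
          add_le_add (mul_le_mul hs (mul_le_mul hSP hΔ (abs_nonneg _) (by positivity))
            (by positivity) ((abs_nonneg _).trans hs))
            (mul_le_mul hst hd' (abs_nonneg _) (by positivity))
      _ = _ := by ring
  · rw [abs_mul, abs_mul]
    exact mul_le_mul (mul_le_mul_of_nonneg_left hSP (abs_nonneg _)) hΔ (abs_nonneg _) (by positivity)

/-- Integrated slopes of two amplitudes differ linearly, up to `O(δ + 1/L)`. -/
theorem exc_integral_approx {a b k κ δ R s₀ P S y₀ : ℝ} {c s : ℝ → ℝ} {z : ℝ → ℝ → ℝ}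
    (hab : a < b) (hk : 0 < k) (hkκ : k ≤ κ) (hδ : 0 ≤ δ) (hδ1 : δ ≤ 1)
    (hc : Continuous c) (hs : Continuous s) (hR : R ≤ (b - a) / 4)
    (hs₀ : ∀ t ∈ Icc a b, |s t - s₀| ≤ δ)
    (hz : ∀ τ ∈ Icc (-R) R, Continuous (z τ) ∧ z τ a = y₀ ∧
      ∀ t ∈ Icc a b, ∃ z', HasDerivAt (z τ) z' t ∧
        z' + z τ t ^ 2 + c t * z τ t = s t * excProfile P S (excX a b τ t))
    (hκ : ∀ τ ∈ Icc (-R) R, ∀ σ ∈ Icc (-R) R, ∀ t ∈ Icc a b,
      k ≤ z τ t + z σ t + c t ∧ |z τ t + z σ t + c t - κ| ≤ δ) :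
    ∀ τ ∈ Icc (-R) R, ∀ σ ∈ Icc (-R) R,
      |(Ode.prim (z τ) a b - Ode.prim (z σ) a b) - excGain s₀ P S κ * (τ - σ)|
        ≤ 100 * (1 + 1 / k) ^ 2 * (|s₀| + 1) * (|P| + |S|) * (1 + R)
          * (δ + 1 / (b - a)) * |τ - σ| := by
  intro τ hτ σ hσ
  obtain ⟨hzτ, hzτa, hodeτ⟩ := hz τ hτ
  obtain ⟨hzσ, hzσa, hodeσ⟩ := hz σ hσ
  have hL0 : 0 < b - a := sub_pos.2 hab
  have hR0 : 0 ≤ R := by linarith [hτ.1, hτ.2]
  have hq : ∀ ρ ∈ Icc (-R) R, ∀ t, 0 < 1 + 2 * excX a b ρ t := by
    intro ρ hρ t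
    have hb := bump_mem ((t - a) / (b - a))
    have : -(1 / 4) ≤ ρ / (b - a) := by rw [le_div_iff₀ hL0]; linarith [hρ.1]
    simp only [excX]
    nlinarith [mul_le_mul_of_nonneg_right this hb.1]
  have hp : ∀ ρ ∈ Icc (-R) R, Continuous fun t => excProfile P S (excX a b ρ t) := fun ρ hρ =>
    (continuous_const.add ((continuous_excX a b ρ).mul continuous_const)).div
      (Real.continuous_sqrt.comp (continuous_const.add (continuous_const.mul
        (continuous_excX a b ρ)))) fun t => (Real.sqrt_pos.2 (hq ρ hρ t)).ne'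
  have hmc : Continuous fun t => s₀ * (S - P) * (excX a b τ t - excX a b σ t) :=
    continuous_const.mul ((continuous_excX a b τ).sub (continuous_excX a b σ))
  have h := linear_gain (D := fun t => z τ t - z σ t) hab.le hk hkκ hδ ((hzτ.add hzσ).add hc)
    ((hs.mul (hp σ hσ)).sub (hs.mul (hp τ hτ))) hmc (hκ τ hτ σ hσ)
    (fun t ht => by
      have := exc_forcing (P := P) (S := S) hab hδ1 hR hτ hσ (hs₀ t ht)
      calc |s t * excProfile P S (excX a b σ t) - s t * excProfile P S (excX a b τ t)|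
          = |(s t * excProfile P S (excX a b σ t) - s t * excProfile P S (excX a b τ t)
              + s₀ * (S - P) * (excX a b τ t - excX a b σ t))
              - s₀ * (S - P) * (excX a b τ t - excX a b σ t)| := by congr 1; ring
        _ ≤ _ := (abs_sub _ _).trans (add_le_add this.1 this.2))
    (fun t ht => (exc_forcing (P := P) (S := S) hab hδ1 hR hτ hσ (hs₀ t ht)).1)
    (by simp [hzτa, hzσa]) (hzτ.sub hzσ)
    (fun t ht => by
      obtain ⟨p, hp', ep⟩ := hodeτ t ht
      obtain ⟨q, hq', eq⟩ := hodeσ t ht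
      refine (hp'.sub hq').congr_deriv ?_
      simp only [Pi.add_apply, Pi.sub_apply, Pi.mul_apply]
      linear_combination ep - eq)
  have hI : (∫ t in a..b, s₀ * (S - P) * (excX a b τ t - excX a b σ t)) / κ
      = excGain s₀ P S κ * (τ - σ) := by
    rw [intervalIntegral.integral_const_mul, intervalIntegral.integral_sub
      ((continuous_excX a b τ).intervalIntegrable _ _)
      ((continuous_excX a b σ).intervalIntegrable _ _), integral_excX hab, integral_excX hab,
      excGain]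
    ring
  rw [hI, intervalIntegral.integral_sub (hzτ.intervalIntegrable _ _)
    (hzσ.intervalIntegrable _ _)] at h
  refine h.trans ?_
  have := gain_arith (N := |P| + |S|) (s₀ := |s₀|) (δ := δ) (u := 1 / (b - a)) (L := b - a)
    (t := 1 / k) (w := |τ - σ|) (R := R) (by positivity) (abs_nonneg _) hR0 hδ hδ1
    (by positivity) (by rw [mul_one_div, div_le_iff₀ hL0]; linarith) (by positivity)
    (abs_nonneg _) (div_mul_cancel₀ _ hL0.ne')
  refine le_trans (le_of_eq ?_) this
  field_simp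

/-- An almost linear exponent gives an almost exponential, in `C^{0,1}`. -/
theorem LBd_exp_near {R ε γ : ℝ} (hR : 0 ≤ R) {G : ℝ → ℝ} (hG0 : G 0 = 0)
    (hG : ∀ τ ∈ Icc (-R) R, ∀ σ ∈ Icc (-R) R, |G τ - G σ - γ * (τ - σ)| ≤ ε * |τ - σ|)
    (hε : 0 ≤ ε) (hsmall : ε * (1 + R) ≤ 1 / 4) :
    LBd (Icc (-R) R) (4 * (1 + |γ|) * Real.exp (|γ| * R) * (1 + R) * ε)
      fun τ => Real.exp (-G τ) - Real.exp (-(γ * τ)) := by
  have h0 : (0 : ℝ) ∈ Icc (-R) R := ⟨by linarith, hR⟩
  set E : ℝ → ℝ := fun τ => -(G τ - γ * τ) with hE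
  have hEb : ∀ τ ∈ Icc (-R) R, |E τ| ≤ ε * R := by
    intro τ hτ
    have := hG τ hτ 0 h0
    simp only [hG0, sub_zero] at this
    simp only [hE, abs_neg]
    exact this.trans (mul_le_mul_of_nonneg_left (abs_le.2 hτ) hε)
  have hexp : ∀ u v : ℝ, |u| ≤ 1 / 4 → |v| ≤ 1 / 4 →
      |Real.exp u - Real.exp v| ≤ 2 * |u - v| := by
    intro u v hu hv
    have e : Real.exp u - Real.exp v = Real.exp v * (Real.exp (u - v) - 1) := by
      rw [mul_sub, ← Real.exp_add]; simp
    have huv : |u - v| ≤ 1 := by linarith [abs_sub u v]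
    have h1 := Real.abs_exp_sub_one_le huv
    have hv' : Real.exp v ≤ 4 / 3 := by
      refine (Real.exp_le_exp.2 ((le_abs_self v).trans hv)).trans ?_
      have := Real.exp_bound_div_one_sub_of_interval (x := (1 / 4 : ℝ)) (by norm_num) (by norm_num)
      norm_num at this ⊢
      exact this.trans (by norm_num)
    rw [e, abs_mul, Real.abs_exp]
    have h2 : |Real.exp (u - v) - 1| ≤ 3 / 2 * |u - v| := by
      rcases le_or_gt |u - v| (1 / 2) with h | h
      · have h3 := Real.abs_exp_sub_one_sub_id_le huv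
        have h4 : |Real.exp (u - v) - 1| ≤ |Real.exp (u - v) - 1 - (u - v)| + |u - v| := by
          have := abs_add_le (Real.exp (u - v) - 1 - (u - v)) (u - v)
          simpa using this
        nlinarith [sq_abs (u - v)]
      · linarith [abs_sub u v]
    calc Real.exp v * |Real.exp (u - v) - 1| ≤ 4 / 3 * (3 / 2 * |u - v|) :=
          mul_le_mul hv' h2 (abs_nonneg _) (by norm_num)
      _ = 2 * |u - v| := by ring
  have hEl : ∀ τ ∈ Icc (-R) R, ∀ σ ∈ Icc (-R) R, |E τ - E σ| ≤ ε * |τ - σ| := by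
    intro τ hτ σ hσ
    have := hG τ hτ σ hσ
    rw [show E τ - E σ = -(G τ - G σ - γ * (τ - σ)) by simp only [hE]; ring, abs_neg]
    exact this
  have hEs : ∀ τ ∈ Icc (-R) R, |E τ| ≤ 1 / 4 := fun τ hτ => (hEb τ hτ).trans (by nlinarith)
  have hf : LBd (Icc (-R) R) (2 * (1 + R) * ε) fun τ => Real.exp (E τ) - 1 := by
    refine ⟨fun τ hτ => ?_, fun τ hτ σ hσ => ?_⟩
    · rw [Real.norm_eq_abs]
      have := hexp (E τ) 0 (hEs τ hτ) (by norm_num)
      simp only [Real.exp_zero, sub_zero] at this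
      nlinarith [hEb τ hτ]
    · rw [Real.norm_eq_abs, Real.dist_eq, sub_sub_sub_cancel_right]
      refine (hexp _ _ (hEs τ hτ) (hEs σ hσ)).trans ?_
      nlinarith [hEl τ hτ σ hσ, mul_nonneg (mul_nonneg hε hR) (abs_nonneg (τ - σ))]
  have hg : LBd (Icc (-R) R) ((1 + |γ|) * Real.exp (|γ| * R)) fun τ => Real.exp (-(γ * τ)) := by
    have hb : ∀ τ ∈ Icc (-R) R, Real.exp (-(γ * τ)) ≤ Real.exp (|γ| * R) := fun τ hτ =>
      Real.exp_le_exp.2 ((neg_le_abs _).trans (by
        rw [abs_mul]; exact mul_le_mul_of_nonneg_left (abs_le.2 hτ) (abs_nonneg γ)))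
    refine ⟨fun τ hτ => ?_, fun τ hτ σ hσ => ?_⟩
    · rw [Real.norm_eq_abs, Real.abs_exp]
      nlinarith [hb τ hτ, abs_nonneg γ, Real.exp_pos (|γ| * R)]
    · rw [dist_eq_norm]
      refine Convex.norm_image_sub_le_of_norm_hasDerivWithin_le
        (f := fun u => Real.exp (-(γ * u))) (f' := fun u => -γ * Real.exp (-(γ * u)))
        (fun u _ => HasDerivAt.hasDerivWithinAt ?_) (fun u hu => ?_) (convex_Icc _ _) hσ hτ
      · exact (((hasDerivAt_id u).const_mul γ).neg.exp).congr_deriv (by simp; ring)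
      · rw [Real.norm_eq_abs, abs_mul, abs_neg, Real.abs_exp]
        nlinarith [mul_le_mul_of_nonneg_left (hb u hu) (abs_nonneg γ), Real.exp_pos (|γ| * R)]
  refine ((hg.mul hf).congr fun τ _ => ?_).mono (le_of_eq (by ring))
  simp only [hE]
  rw [mul_sub, ← Real.exp_add, mul_one]
  congr 2
  ring

end

end Vale.Agent.P225.Loop
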