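import Vale.Agent.P225.Loop.Pieces
import Vale.Agent.P225.Loop.ExcLimit

/-!
P225, module 16 (helper2): excursion pieces as families in the amplitude, and Lipschitz dependence
of diagonal segments on their slopes.
-/

open Set MeasureTheory

namespace Vale.Agent.P225

noncomputable section

theorem abs_exp_neg_sub_le {x y m : ℝ} (hx : m ≤ x) (hy : m ≤ y) :
    |Real.exp (-x) - Real.exp (-y)| ≤ Real.exp (-m) * |x - y| := by
  wlog h : x ≤ y generalizing x y
  · rw [abs_sub_comm, abs_sub_comm x]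
    exact this hy hx (le_of_not_ge h)
  rw [abs_of_nonneg (sub_nonneg.2 (Real.exp_le_exp.2 (neg_le_neg h))), abs_sub_comm,
    abs_of_nonneg (sub_nonneg.2 h)]
  have e : Real.exp (-y) = Real.exp (-x) * Real.exp (-(y - x)) := by
    rw [← Real.exp_add]; ring_nf
  calc Real.exp (-x) - Real.exp (-y) = Real.exp (-x) * (1 - Real.exp (-(y - x))) := by rw [e]; ring
    _ ≤ Real.exp (-m) * (y - x) :=
        mul_le_mul (Real.exp_le_exp.2 (neg_le_neg hx))
          (by linarith [Real.add_one_le_exp (-(y - x))])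
          (by linarith [Real.exp_le_one_iff.2 (by linarith : -(y - x) ≤ 0)]) (Real.exp_pos _).le

namespace SlopeFam

variable {a b k δ δ' : ℝ} {c : ℝ → ℝ} {z z' : St → ℝ → ℝ} {ρ : St → ℝ}

/-- The coefficients of a slope family depend Lipschitz on the slopes. -/
theorem coef_sub_le (h : SlopeFam a b c z ρ k δ) (h' : SlopeFam a b c z' ρ k δ') {i : St} {e : ℝ}
    (he : ∀ t ∈ Icc a b, |z i t - z' i t| ≤ e) :
    |h.coef.q i - h'.coef.q i| ≤ e * (b - a) ∧ |h.coef.b i - h'.coef.b i| ≤ 2 * e * (b - a) / k ∧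
      |h.coef.c i - h'.coef.c i| ≤ e / i.blk.mu ∧ |h.coef.d i - h'.coef.d i| ≤ e * (b - a) := by
  have hμ : 0 < i.blk.mu := lt_of_lt_of_le one_pos (Blk.one_le_mu _)
  have hz := h.cont_z i
  have hz' := h'.cont_z i
  have hc := h.cont_c
  have he0 : 0 ≤ e := (abs_nonneg _).trans (he a (left_mem_Icc.2 h.le))
  have hp : ∀ s ∈ Icc a b, |Ode.prim (z i) a s - Ode.prim (z' i) a s| ≤ e * (b - a) := fun s hs =>
    (Ode.abs_prim_sub_le hz hz' hs.1 fun t ht => he t ⟨ht.1, ht.2.trans hs.2⟩).trans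
      (mul_le_mul_of_nonneg_left (by linarith [hs.2]) he0)
  have hpc : ∀ s ∈ Icc a b,
      |Ode.prim (fun t => c t + z i t) a s - Ode.prim (fun t => c t + z' i t) a s| ≤ e * (b - a) := by
    intro s hs
    exact (Ode.abs_prim_sub_le (hc.add hz) (hc.add hz') hs.1 fun t ht => by
      simpa using he t ⟨ht.1, ht.2.trans hs.2⟩).trans
      (mul_le_mul_of_nonneg_left (by linarith [hs.2]) he0)
  have h0 : ∀ {f : ℝ → ℝ}, Continuous f → (∀ t ∈ Icc a b, 0 ≤ f t) → ∀ s ∈ Icc a b,
      0 ≤ Ode.prim f a s := fun hf hf0 s hs => by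
    have := Ode.prim_le_prim (a := a) (k := 0) hf (fun t ht => hf0 t ⟨ht.1, ht.2.trans hs.2⟩) hs.1
    simpa using this
  have hb := right_mem_Icc.2 h.le
  refine ⟨?_, ?_, ?_, ?_⟩
  · simp only [SlopeFam.coef_q, Ode.coefQ]
    refine (abs_exp_neg_sub_le (m := 0) (h0 hz (h.z_nonneg i) b hb)
      (h0 hz' (h'.z_nonneg i) b hb)).trans ?_
    simpa using hp b hb
  · show |i.blk.mu * Ode.coefB c (z i) a b - i.blk.mu * Ode.coefB c (z' i) a b| ≤ _
    rw [← mul_sub, abs_mul, abs_of_pos hμ]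
    have hk := mul_pos h.k_pos hμ
    have hcz : Continuous fun t => c t + z i t := hc.add hz
    have hcz' : Continuous fun t => c t + z' i t := hc.add hz'
    have hi : ∀ {f g : ℝ → ℝ}, Continuous f → Continuous g →
        IntervalIntegrable (fun s => Real.exp (-Ode.prim f a s) * Real.exp (-Ode.prim g a s))
          volume a b := fun hf hg =>
      ((Real.continuous_exp.comp (Ode.continuous_prim hf a).neg).mul
        (Real.continuous_exp.comp (Ode.continuous_prim hg a).neg)).intervalIntegrable _ _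
    have hbnd : ∀ s ∈ Icc a b,
        |Real.exp (-Ode.prim (z i) a s) * Real.exp (-Ode.prim (fun t => c t + z i t) a s)
          - Real.exp (-Ode.prim (z' i) a s) * Real.exp (-Ode.prim (fun t => c t + z' i t) a s)|
          ≤ Real.exp (-(k * i.blk.mu * (s - a))) * (2 * e * (b - a)) := by
      intro s hs
      rw [← Real.exp_add, ← Real.exp_add, ← neg_add, ← neg_add]
      have hlow : ∀ {w : ℝ → ℝ}, Continuous w → (∀ t ∈ Icc a b, k * i.blk.mu ≤ c t + 2 * w t) →
          k * i.blk.mu * (s - a) ≤ Ode.prim w a s + Ode.prim (fun t => c t + w t) a s := by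
        intro w hw hwk
        have hcw : Continuous fun t => c t + w t := hc.add hw
        have := Ode.prim_le_prim (a := a) (κ := fun t => c t + 2 * w t) (by fun_prop)
          (fun t ht => hwk t ⟨ht.1, ht.2.trans hs.2⟩) hs.1
        have e2 : Ode.prim w a s + Ode.prim (fun t => c t + w t) a s
            = Ode.prim (fun t => c t + 2 * w t) a s := by
          simp only [Ode.prim]
          rw [← intervalIntegral.integral_add (hw.intervalIntegrable _ _)
            (hcw.intervalIntegrable _ _)]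
          congr 1; funext t; ring
        simp only [Ode.prim_self, add_zero] at this
        linarith
      refine (abs_exp_neg_sub_le (hlow hz (h.gain i)) (hlow hz' (h'.gain i))).trans ?_
      gcongr
      calc _ = |(Ode.prim (z i) a s - Ode.prim (z' i) a s)
            + (Ode.prim (fun t => c t + z i t) a s - Ode.prim (fun t => c t + z' i t) a s)| := by
            congr 1; ring
        _ ≤ _ := (abs_add_le _ _).trans (by linarith [hp s hs, hpc s hs])
    have hint : |Ode.coefB c (z i) a b - Ode.coefB c (z' i) a b|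
        ≤ ∫ s in a..b, Real.exp (-(k * i.blk.mu * (s - a))) * (2 * e * (b - a)) := by
      simp only [Ode.coefB]
      rw [neg_sub_neg, ← intervalIntegral.integral_sub (hi hz' hcz') (hi hz hcz),
        ← Real.norm_eq_abs]
      refine intervalIntegral.norm_integral_le_of_norm_le h.le
        (Filter.Eventually.of_forall fun s hs => ?_)
        ((by fun_prop : Continuous fun s =>
          Real.exp (-(k * i.blk.mu * (s - a))) * (2 * e * (b - a))).intervalIntegrable _ _)
      rw [Real.norm_eq_abs, abs_sub_comm]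
      exact hbnd s (Ioc_subset_Icc_self hs)
    have hI : ∫ s in a..b, Real.exp (-(k * i.blk.mu * (s - a))) ≤ 1 / (k * i.blk.mu) := by
      have := Ode.abs_coefB_le (a := a) (b := b) (c := fun _ => k * i.blk.mu) (z := fun _ => 0)
        continuous_const continuous_const h.le hk (fun _ _ => by simp)
      simp only [Ode.coefB, abs_neg, add_zero, Ode.prim, intervalIntegral.integral_const,
        smul_eq_mul, mul_zero, neg_zero, Real.exp_zero, one_mul] at this
      refine le_trans (le_of_eq ?_) ((le_abs_self _).trans this)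
      congr 1; funext s; ring_nf
    rw [intervalIntegral.integral_mul_const] at hint
    have hE : 0 ≤ 2 * e * (b - a) := mul_nonneg (by positivity) (sub_nonneg.2 h.le)
    calc i.blk.mu * |Ode.coefB c (z i) a b - Ode.coefB c (z' i) a b|
        ≤ i.blk.mu * (1 / (k * i.blk.mu) * (2 * e * (b - a))) :=
          mul_le_mul_of_nonneg_left (hint.trans (mul_le_mul_of_nonneg_right hI hE)) hμ.le
      _ = 2 * e * (b - a) / k := by field_simp
  · show |(z i b - ρ i) / i.blk.mu - (z' i b - ρ i) / i.blk.mu| ≤ _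
    rw [← sub_div, abs_div, abs_of_pos hμ]
    gcongr
    simpa using he b hb
  · simp only [SlopeFam.coef_d, Ode.coefD]
    refine (abs_exp_neg_sub_le (m := 0)
      (h0 (f := fun t => c t + z i t) (hc.add hz)
        (fun t ht => by linarith [h.z_nonneg i t ht, h.c_nonneg t ht]) b hb)
      (h0 (f := fun t => c t + z' i t) (hc.add hz')
        (fun t ht => by linarith [h'.z_nonneg i t ht, h'.c_nonneg t ht]) b hb)).trans ?_
    simpa using hpc b hb

end SlopeFam

/-- Third label of junction `J`. -/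
def excS (J : Fin 3) (V : Blk) : ℝ := Blk.lam (rotW J ![0, 0, 1]) V

/-- Eigenvalue at junction `J` in raw weights. -/
def excP (J : Fin 3) (V : Blk) : ℝ := Blk.lam (rotW J (rawExc 0)) V

/-- Scale of the weights. -/
def scaleFun (κ t : ℝ) : ℝ := Real.sqrt (1 / dFun κ t)

/-- Limit of `scaleFun`. -/
def scaleInf : ℝ := Real.sqrt (1 / dMin)

theorem lam_rot_exc (J : Fin 3) (x : ℝ) (V : Blk) :
    Blk.lam (rotW J (rawExc x)) V = excP J V + x * excS J V := by
  have e1 : (-1 : Fin 3) = 2 := rfl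
  have e2 : (-2 : Fin 3) = 1 := rfl
  fin_cases J <;> simp [excP, excS, Blk.lam, rotW, rawExc, e1, e2] <;> ring

theorem pieceLam_exc (κ : ℝ) (J : Fin 3) (g k j : ℕ) (τ : ℕ → ℝ) (a : ℝ) (i : St) (t : ℝ) :
    pieceLam κ (.exc J g k) j τ a i t = scaleFun κ t *
      Loop.excProfile (excP J i.blk) (excS J i.blk)
        (Loop.excX a (a + (Piece.exc J g k).len j) (τ k) t) := by
  have hw : ∀ x : ℝ, wdet (rotW J (rawExc x)) = 1 + 2 * x := fun x => by
    rw [wdet_rotW]; simp [wdet, rawExc]; ring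
  simp only [pieceLam, lam_wNorm, Piece.raw, hw, lam_rot_exc, Loop.excX, Loop.excProfile,
    add_sub_cancel_left, scaleFun]
  rw [one_div, mul_inv, Real.sqrt_mul (inv_nonneg.2 (dFun_pos κ t).le), Real.sqrt_inv,
    Real.sqrt_inv, one_div, Real.sqrt_inv]
  ring

theorem excPS_bound (J : Fin 3) (V : Blk) :
    |excP J V| + |excS J V| ≤ 9 * V.mu ^ 2 := by
  have ha := cas_nonneg V.la; have hb := cas_nonneg V.lb; have hc := cas_nonneg V.lc
  have hla : (0 : ℝ) ≤ V.la := Nat.cast_nonneg _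
  have hlb : (0 : ℝ) ≤ V.lb := Nat.cast_nonneg _
  have hlc : (0 : ℝ) ≤ V.lc := Nat.cast_nonneg _
  have hs : Blk.cas V.la + Blk.cas V.lb + Blk.cas V.lc ≤ 3 * V.mu ^ 2 := by
    simp only [Blk.cas, Blk.mu]; nlinarith
  have hw : ∀ w : Fin 3 → ℝ, (∀ m, |w m| ≤ 1) →
      |Blk.lam w V| ≤ Blk.cas V.la + Blk.cas V.lb + Blk.cas V.lc := fun w hw => by
    refine (abs_add_three _ _ _).trans ?_
    rw [abs_mul, abs_mul, abs_mul, abs_of_nonneg ha, abs_of_nonneg hb, abs_of_nonneg hc]
    linarith [mul_le_of_le_one_left ha (hw 0), mul_le_of_le_one_left hb (hw 1),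
      mul_le_of_le_one_left hc (hw 2)]
  have h1 : |excP J V| ≤ _ := hw (rotW J (rawExc 0)) (fun m => rotW_apply_mem J _
    (C := 1) (fun m => by fin_cases m <;> simp [rawExc]) m)
  have h2 : |excS J V| ≤ _ := hw (rotW J ![0, 0, 1]) (fun m => rotW_apply_mem J _
    (C := 1) (fun m => by fin_cases m <;> simp) m)
  nlinarith [sq_nonneg V.mu]

theorem abs_scaleFun_sub {κ t w : ℝ} (hκ : 0 ≤ κ) (hw : 1 ≤ w) (ht : w ^ 5 ≤ t) :
    |scaleFun κ t - scaleInf| ≤ 2 * κ / Real.sqrt w := by
  have hw0 : 0 < w := zero_lt_one.trans_le hw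
  have ht1 : 1 ≤ t := le_trans (one_le_pow₀ hw) ht
  have hu0 : 0 ≤ t ^ (-(1 / 8) : ℝ) := Real.rpow_nonneg (zero_le_one.trans ht1) _
  have hu : t ^ (-(1 / 8) : ℝ) ≤ 1 / Real.sqrt w := by
    rw [Real.sqrt_eq_rpow, one_div (w ^ _), ← Real.rpow_neg hw0.le]
    calc t ^ (-(1 / 8) : ℝ) ≤ (w ^ (5 : ℕ)) ^ (-(1 / 8) : ℝ) :=
          Real.rpow_le_rpow_of_nonpos (by positivity) ht (by norm_num)
      _ = w ^ (-(5 / 8) : ℝ) := by
          rw [← Real.rpow_natCast, ← Real.rpow_mul hw0.le]; norm_num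
      _ ≤ w ^ (-(1 / 2) : ℝ) := Real.rpow_le_rpow_of_exponent_le hw (by norm_num)
  have hdM : (0 : ℝ) < dMin := by norm_num [dMin]
  set u := t ^ (-(1 / 8) : ℝ)
  have e : scaleFun κ t = scaleInf * Real.exp (-(κ * u / 2)) := by
    simp only [scaleFun, scaleInf, dFun, one_div]
    rw [mul_inv, Real.sqrt_mul (inv_nonneg.2 hdM.le)]
    congr 1
    rw [← Real.exp_neg, Real.sqrt_eq_iff_mul_self_eq (Real.exp_pos _).le (Real.exp_pos _).le,
      ← Real.exp_add]
    congr 1
    simp only [u]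
    ring_nf
  have hI : scaleInf ≤ 3 := by
    rw [scaleInf, Real.sqrt_le_iff]; norm_num [dMin]
  have hI0 : 0 ≤ scaleInf := Real.sqrt_nonneg _
  rw [e, abs_of_nonpos (by
    nlinarith [Real.exp_le_one_iff.2 (by nlinarith : -(κ * u / 2) ≤ 0)])]
  have h1 : 1 - Real.exp (-(κ * u / 2)) ≤ κ * u / 2 := by
    linarith [Real.add_one_le_exp (-(κ * u / 2))]
  have h2 : κ * u ≤ κ / Real.sqrt w := (mul_le_mul_of_nonneg_left hu hκ).trans_eq (by ring)
  have h4 : 0 ≤ 1 - Real.exp (-(κ * u / 2)) := by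
    linarith [Real.exp_le_one_iff.2 (by nlinarith : -(κ * u / 2) ≤ 0)]
  calc -(scaleInf * Real.exp (-(κ * u / 2)) - scaleInf)
      = scaleInf * (1 - Real.exp (-(κ * u / 2))) := by ring
    _ ≤ 3 * (κ * u / 2) := mul_le_mul hI h1 h4 (by norm_num)
    _ ≤ 2 * (κ / Real.sqrt w) := by nlinarith [mul_nonneg hκ hu0]
    _ = 2 * κ / Real.sqrt w := by ring

theorem abs_gain_sub_le {c c₀ l l₀ : ℝ} (hc : 4 ≤ c) (hc' : c ≤ 6) (hc₀ : 4 ≤ c₀) (hc₀' : c₀ ≤ 6)
    (hl : 0 ≤ l) (hl₀ : 0 ≤ l₀) :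
    |(2 * Ode.alphaFn c l + c) - (2 * Ode.alphaFn c₀ l₀ + c₀)| ≤ 2 * |c - c₀| + |l - l₀| := by
  rw [Ode.two_alphaFn_add, Ode.two_alphaFn_add]
  set A := Real.sqrt (c ^ 2 + 4 * l)
  set B := Real.sqrt (c₀ ^ 2 + 4 * l₀)
  have hA : 4 ≤ A := Real.le_sqrt_of_sq_le (by nlinarith)
  have hB : 4 ≤ B := Real.le_sqrt_of_sq_le (by nlinarith)
  have h1 : A ^ 2 = c ^ 2 + 4 * l := Real.sq_sqrt (by positivity)
  have h2 : B ^ 2 = c₀ ^ 2 + 4 * l₀ := Real.sq_sqrt (by positivity)
  have e : |A - B| * (A + B) = |(c - c₀) * (c + c₀) + 4 * (l - l₀)| := by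
    rw [← abs_of_pos (by linarith : 0 < A + B), ← abs_mul]
    congr 1
    linear_combination h1 - h2
  have h3 : |(c - c₀) * (c + c₀) + 4 * (l - l₀)| ≤ 12 * |c - c₀| + 4 * |l - l₀| := by
    refine (abs_add_le _ _).trans ?_
    rw [abs_mul, abs_mul, abs_of_nonneg (by linarith : (0 : ℝ) ≤ c + c₀), Nat.abs_ofNat]
    nlinarith [abs_nonneg (c - c₀)]
  nlinarith [abs_nonneg (A - B), abs_nonneg (c - c₀), abs_nonneg (l - l₀)]

/-- Slope differences and bounds on the profile used below. -/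
theorem excProfile_facts (J : Fin 3) (V : Blk) {x y : ℝ} (hx : |x| ≤ 1 / 4) (hy : |y| ≤ 1 / 4) :
    |Loop.excProfile (excP J V) (excS J V) x - Loop.excProfile (excP J V) (excS J V) y|
        ≤ 99 * V.mu ^ 2 * |x - y| ∧
      |Loop.excProfile (excP J V) (excS J V) x| ≤ 36 * V.mu ^ 2 := by
  have hN := excPS_bound J V
  have hP := abs_nonneg (excP J V)
  have hS := abs_nonneg (excS J V)
  have key : ∀ {x y : ℝ}, |x| ≤ 1 / 4 → |y| ≤ 1 / 4 →
      |Loop.excProfile (excP J V) (excS J V) x - Loop.excProfile (excP J V) (excS J V) y|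
        ≤ 99 * V.mu ^ 2 * |x - y| := by
    intro x y hx hy
    have h := Loop.excProfile_sub (excP J V) (excS J V) hx hy
    have h2 := abs_mul (excS J V - excP J V) (x - y)
    have h3 := abs_sub (excS J V) (excP J V)
    have h4 := abs_le.1 h
    have hd := abs_nonneg (x - y)
    have h5 : |(excS J V - excP J V) * (x - y)| ≤ (|excP J V| + |excS J V|) * |x - y| := by
      rw [h2]; exact mul_le_mul_of_nonneg_right (by linarith) hd
    have h6 : 20 * (|excP J V| + |excS J V|) * (|x| + |y|) * |x - y|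
        ≤ 10 * (|excP J V| + |excS J V|) * |x - y| := by
      refine mul_le_mul_of_nonneg_right ?_ hd
      calc 20 * (|excP J V| + |excS J V|) * (|x| + |y|)
          ≤ 20 * (|excP J V| + |excS J V|) * (1 / 2) := by gcongr; linarith
        _ = 10 * (|excP J V| + |excS J V|) := by ring
    have h7 := mul_le_mul_of_nonneg_right hN hd
    have h8 := abs_le.1 h5
    rw [abs_le]
    constructor <;> nlinarith
  refine ⟨key hx hy, ?_⟩
  have h := key hx (y := 0) (by norm_num)
  have h0 : Loop.excProfile (excP J V) (excS J V) 0 = excP J V := by simp [Loop.excProfile]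
  rw [h0, sub_zero] at h
  have := abs_sub_abs_le_abs_sub (Loop.excProfile (excP J V) (excS J V) x) (excP J V)
  nlinarith [mul_le_mul_of_nonneg_left hx (by positivity : (0 : ℝ) ≤ 99 * V.mu ^ 2)]

/-- Excursion pieces as families in the amplitude: slopes, slope families, Lipschitz bounds and
the hypotheses of `Loop.exc_integral_approx`. -/
theorem Piece.exists_exc (κ R D₀ : ℝ) (hκ : 0 ≤ κ) (hR : 0 ≤ R) :
    ∃ (N : ℕ) (C C' : ℝ), D₀ ≤ C ∧ ∀ (J : Fin 3) (g k j : ℕ) (a : ℝ), N ≤ j →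
      2 * ((j : ℝ) + 1) ^ 5 ≤ a →
      ∀ y₀ ρ : St → ℝ, (∀ i : St, i.blk.mu = 1 → y₀ i = 0) →
        (∀ i, |y₀ i - refSlope κ J a i| ≤ C / ((j : ℝ) + 1) ^ 5) →
        (∀ i, |ρ i - refSlope κ J (a + (Piece.exc J g k).len j) i| ≤ C / ((j : ℝ) + 1) ^ 5) →
        R ≤ (Piece.exc J g k).len j / 4 ∧
        ∃ z : ℝ → St → ℝ → ℝ, ∀ θ ∈ Icc (-R) R,
          (∀ i, z θ i a = y₀ i) ∧
          SlopeFam a (a + (Piece.exc J g k).len j) (cPiece κ a) (z θ) ρ (1 / 10)
            (4 * C / ((j : ℝ) + 1) ^ 5) ∧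
          (∀ i, ∀ t ∈ Icc a (a + (Piece.exc J g k).len j), ∃ z', HasDerivAt (z θ i) z' t ∧
            z' + z θ i t ^ 2 + cPiece κ a t * z θ i t = scaleFun κ t *
              Loop.excProfile (excP J i.blk) (excS J i.blk)
                (Loop.excX a (a + (Piece.exc J g k).len j) θ t)) ∧
          (∀ σ ∈ Icc (-R) R, ∀ i, ∀ t ∈ Icc a (a + (Piece.exc J g k).len j),
            |z θ i t - z σ i t| ≤ C' * i.blk.mu * |θ - σ| / ((j : ℝ) + 1) ^ 5) ∧
          (∀ σ ∈ Icc (-R) R, ∀ i, ∀ t ∈ Icc a (a + (Piece.exc J g k).len j),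
            i.blk.mu / 10 ≤ z θ i t + z σ i t + cPiece κ a t ∧
            |z θ i t + z σ i t + cPiece κ a t
                - (2 * Ode.alphaFn 5 (scaleInf * excP J i.blk) + 5)|
              ≤ C' * i.blk.mu ^ 2 / Real.sqrt ((j : ℝ) + 1)) ∧
          ∀ t ∈ Icc a (a + (Piece.exc J g k).len j),
            |scaleFun κ t - scaleInf| ≤ C' / Real.sqrt ((j : ℝ) + 1) := by
  obtain ⟨N₁, C, hC, hex⟩ := Piece.exists_slopes κ R (max D₀ 0) hκ
  have hC0 : 0 ≤ C := (le_max_right _ _).trans hC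
  obtain ⟨N₂, hN₂⟩ := exists_nat_ge (max (20 * R) κ)
  refine ⟨max N₁ N₂, C, 6 * C + 3000 * (1 + R) + 100 * κ, (le_max_left _ _).trans hC,
    fun J g k j a hj ha y₀ ρ hy0 hy hρ => ?_⟩
  have hj1 : (1 : ℝ) ≤ (j : ℝ) + 1 := by linarith [(Nat.cast_nonneg j : (0 : ℝ) ≤ j)]
  have hlen : (Piece.exc J g k).len j = ((j : ℝ) + 1) ^ 5 := rfl
  set L := ((j : ℝ) + 1) ^ 5 with hLdef
  have hL1 : 1 ≤ L := one_le_pow₀ hj1
  have hL0 : 0 < L := zero_lt_one.trans_le hL1
  have hN2 : max (20 * R) κ ≤ L := by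
    refine hN₂.trans (le_trans ?_ (le_self_pow₀ hj1 (by norm_num)))
    have : (N₂ : ℝ) ≤ j := by exact_mod_cast (le_max_right N₁ N₂).trans hj
    linarith
  rw [max_le_iff] at hN2
  have hN20 := hN2.1
  have ha0 : 0 < a := by linarith
  refine ⟨by rw [hlen]; linarith, ?_⟩
  have hch : ∀ θ : ℝ, ∃ z : St → ℝ → ℝ, θ ∈ Icc (-R) R →
      (∀ i, z i a = y₀ i) ∧
      (∀ i, ∀ t ∈ Icc a (a + (Piece.exc J g k).len j),
        |z i t - Ode.alphaFn (cDrift κ t) (pieceLam κ (.exc J g k) j (fun _ => θ) a i t)|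
          ≤ 3 * C / L) ∧
      (∀ i, ∀ t ∈ Icc a (a + (Piece.exc J g k).len j), ∃ z', HasDerivAt (z i) z' t ∧
        z' + z i t ^ 2 + cDrift κ t * z i t = pieceLam κ (.exc J g k) j (fun _ => θ) a i t) ∧
      SlopeFam a (a + (Piece.exc J g k).len j) (cPiece κ a) z ρ (1 / 10) (4 * C / L) := by
    intro θ
    by_cases hθ : θ ∈ Icc (-R) R
    · obtain ⟨z, hz⟩ := hex (.exc J g k) j (fun _ => θ) a ((le_max_left N₁ N₂).trans hj)
        (fun _ => abs_le.2 hθ) ha y₀ ρ hy0 hy hρ
      exact ⟨z, fun _ => hz⟩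
    · exact ⟨fun _ _ => 0, fun h => absurd h hθ⟩
  choose z hz using hch
  refine ⟨z, fun θ hθ => ?_⟩
  obtain ⟨hza, hzc, hzd, hF⟩ := hz θ hθ
  have hc_eq : ∀ t ∈ Icc a (a + (Piece.exc J g k).len j), cPiece κ a t = cDrift κ t :=
    fun t ht => cPiece_of_ge κ ha0 ht.1
  have hode : ∀ θ ∈ Icc (-R) R, ∀ i, ∀ t ∈ Icc a (a + (Piece.exc J g k).len j),
      ∃ z', HasDerivAt (z θ i) z' t ∧
        z' + z θ i t ^ 2 + cPiece κ a t * z θ i t = scaleFun κ t *
          Loop.excProfile (excP J i.blk) (excS J i.blk)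
            (Loop.excX a (a + (Piece.exc J g k).len j) θ t) := by
    intro θ hθ i t ht
    have := (hz θ hθ).2.2.1 i t ht
    rw [pieceLam_exc, ← hc_eq t ht] at this
    exact this
  have hX : ∀ θ ∈ Icc (-R) R, ∀ t, |Loop.excX a (a + (Piece.exc J g k).len j) θ t| ≤ R / L := by
    intro θ hθ t
    have hb := Loop.bump_mem ((t - a) / (a + L - a))
    simp only [Loop.excX, hlen, abs_mul, abs_of_nonneg hb.1]
    rw [add_sub_cancel_left] at hb ⊢
    rw [abs_div, abs_of_pos hL0]
    exact (mul_le_of_le_one_right (by positivity) hb.2).trans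
      (div_le_div_of_nonneg_right (abs_le.2 hθ) hL0.le)
  have hq : R / L ≤ 1 / 4 := by rw [div_le_iff₀ hL0]; linarith
  have hRt : ∀ t ∈ Icc a (a + (Piece.exc J g k).len j), L ≤ t := fun t ht => by linarith [ht.1]
  have hs0 : ∀ t, 0 ≤ scaleFun κ t := fun t => Real.sqrt_nonneg _
  have hs3 : ∀ t ∈ Icc a (a + (Piece.exc J g k).len j), scaleFun κ t ≤ 3 := fun t ht => by
    have h := dMin_le_dFun hκ (hL0.le.trans (hRt t ht))
    rw [scaleFun, Real.sqrt_le_iff]
    refine ⟨by norm_num, ?_⟩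
    rw [div_le_iff₀ (dFun_pos κ t)]
    norm_num [dMin] at h ⊢
    linarith
  have hgain : ∀ θ ∈ Icc (-R) R, ∀ σ ∈ Icc (-R) R, ∀ i : St,
      ∀ t ∈ Icc a (a + (Piece.exc J g k).len j),
      i.blk.mu / 10 ≤ z θ i t + z σ i t + cPiece κ a t := by
    intro θ hθ σ hσ i t ht
    linarith [(hz θ hθ).2.2.2.gain i t ht, (hz σ hσ).2.2.2.gain i t ht]
  have hsc : ∀ t ∈ Icc a (a + (Piece.exc J g k).len j),
      |scaleFun κ t - scaleInf| ≤ 2 * κ / Real.sqrt ((j : ℝ) + 1) := fun t ht =>
    abs_scaleFun_sub hκ hj1 (hRt t ht)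
  have hsw : 0 < Real.sqrt ((j : ℝ) + 1) := Real.sqrt_pos.2 (by linarith)
  refine ⟨hza, hF, hode θ hθ, fun σ hσ i t ht => ?_, fun σ hσ i t ht => ⟨hgain θ hθ σ hσ i t ht, ?_⟩,
    fun t ht => (hsc t ht).trans (div_le_div_of_nonneg_right (by linarith) hsw.le)⟩
  · have hμ : 0 < i.blk.mu := lt_of_lt_of_le one_pos (Blk.one_le_mu _)
    obtain ⟨-, -, -, hFσ⟩ := hz σ hσ
    have hcont : ∀ θ ∈ Icc (-R) R, Continuous fun t => scaleFun κ (clampT a t) *
        Loop.excProfile (excP J i.blk) (excS J i.blk)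
          (Loop.excX a (a + (Piece.exc J g k).len j) θ t) := by
      intro θ hθ
      refine Continuous.mul ?_ ?_
      · refine Real.continuous_sqrt.comp (continuous_const.div ?_ fun t => (dFun_pos _ _).ne')
        refine continuous_const.mul (Real.continuous_exp.comp ?_)
        exact continuous_const.mul ((continuous_clampT a).rpow_const fun t =>
          Or.inl (lt_of_lt_of_le (by linarith) (half_le_clampT ha0 t)).ne')
      · refine ((continuous_const.add ((Loop.continuous_excX _ _ θ).mul continuous_const))).div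
          (Real.continuous_sqrt.comp (continuous_const.add (continuous_const.mul
            (Loop.continuous_excX _ _ θ)))) fun t => ?_
        have := abs_le.1 ((hX θ hθ t).trans hq)
        exact (Real.sqrt_pos.2 (by linarith)).ne'
    have hode' : ∀ θ ∈ Icc (-R) R, ∀ t ∈ Icc a (a + (Piece.exc J g k).len j),
        ∃ z', HasDerivAt (z θ i) z' t ∧
          z' + z θ i t ^ 2 + cPiece κ a t * z θ i t = scaleFun κ (clampT a t) *
            Loop.excProfile (excP J i.blk) (excS J i.blk)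
              (Loop.excX a (a + (Piece.exc J g k).len j) θ t) := by
      intro θ hθ t ht
      rw [(clampT_of_ge ha0 ht.1).1]
      exact hode θ hθ i t ht
    have h := Ode.abs_slope_sub_le (E := 297 * i.blk.mu ^ 2 * |θ - σ| / L)
      (k := i.blk.mu / 10) hF.cont_c (hF.cont_z i) (hFσ.cont_z i) (hcont θ hθ) (hcont σ hσ)
      (by positivity) (fun u hu => hgain θ hθ σ hσ i u hu) (fun u hu => by
        rw [(clampT_of_ge ha0 hu.1).1, ← mul_sub, abs_mul, abs_of_nonneg (hs0 u)]
        have h1 := (excProfile_facts J i.blk ((hX θ hθ u).trans hq) ((hX σ hσ u).trans hq)).1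
        have hb := Loop.bump_mem ((u - a) / L)
        have h2 : |Loop.excX a (a + (Piece.exc J g k).len j) θ u
            - Loop.excX a (a + (Piece.exc J g k).len j) σ u| ≤ |θ - σ| / L := by
          simp only [Loop.excX, hlen, add_sub_cancel_left, ← sub_mul, ← sub_div, abs_mul,
            abs_of_nonneg hb.1, abs_div, abs_of_pos hL0]
          exact mul_le_of_le_one_right (by positivity) hb.2
        calc scaleFun κ u * |_| ≤ 3 * (99 * i.blk.mu ^ 2 * (|θ - σ| / L)) :=
              mul_le_mul (hs3 u hu) (h1.trans (mul_le_mul_of_nonneg_left h2 (by positivity)))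
                (abs_nonneg _) (by norm_num)
          _ = 297 * i.blk.mu ^ 2 * |θ - σ| / L := by ring)
      (hode' θ hθ) (hode' σ hσ) t ht
    rw [hza i, (hz σ hσ).1 i, sub_self, abs_zero, zero_mul, zero_add] at h
    refine h.trans ?_
    calc 297 * i.blk.mu ^ 2 * |θ - σ| / L / (i.blk.mu / 10)
        = 2970 * i.blk.mu * |θ - σ| / L := by field_simp; ring
      _ ≤ _ := by gcongr; nlinarith
  · have ht0 := hRt t ht
    obtain ⟨hv1, -⟩ := abs_vFun_le hκ hL1 ht0
    have hcv : |cDrift κ t - 5| ≤ κ / L := by simpa [cDrift] using hv1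
    have hκL : κ / L ≤ 1 := by rw [div_le_one hL0]; exact hN2.2
    have hcb := abs_le.1 (hcv.trans hκL)
    have hterm : ∀ θ ∈ Icc (-R) R,
        |2 * z θ i t + cDrift κ t - (2 * Ode.alphaFn 5 (scaleInf * excP J i.blk) + 5)|
          ≤ (6 * C + 3000 * (1 + R) + 100 * κ) * i.blk.mu ^ 2 / Real.sqrt ((j : ℝ) + 1) := by
      intro θ hθ
      have h1 := (hz θ hθ).2.1 i t ht
      rw [pieceLam_exc] at h1
      obtain ⟨-, hpb⟩ := excProfile_facts J i.blk ((hX θ hθ t).trans hq) ((hX θ hθ t).trans hq)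
      obtain ⟨hpx, -⟩ := excProfile_facts J i.blk ((hX θ hθ t).trans hq) (y := 0) (by norm_num)
      set p := Loop.excProfile (excP J i.blk) (excS J i.blk)
        (Loop.excX a (a + (Piece.exc J g k).len j) θ t)
      have h0 : Loop.excProfile (excP J i.blk) (excS J i.blk) 0 = excP J i.blk := by
        simp [Loop.excProfile]
      rw [h0, sub_zero] at hpx
      have hP0 : 0 ≤ excP J i.blk :=
        (wide_rot_exc J (by norm_num) (by norm_num)).lam_nonneg i.blk
      have hl0 : 0 ≤ scaleFun κ t * p := by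
        refine mul_nonneg (hs0 t) (div_nonneg ?_ (Real.sqrt_nonneg _))
        have := abs_le.1 ((hX θ hθ t).trans hq)
        have hw := (wide_rot_exc J (x := -(1 / 20)) le_rfl (by norm_num)).lam_nonneg i.blk
        have hx20 : |Loop.excX a (a + (Piece.exc J g k).len j) θ t| ≤ 1 / 20 := by
          refine (hX θ hθ t).trans ?_
          rw [div_le_iff₀ hL0]
          linarith [hN20]
        rw [← lam_rot_exc]
        exact (wide_rot_exc J (abs_le.1 hx20).1 (by linarith [(abs_le.1 hx20).2])).lam_nonneg i.blk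
      have hsI : 0 ≤ scaleInf := Real.sqrt_nonneg _
      have hg := abs_gain_sub_le (c := cDrift κ t) (c₀ := 5) (l := scaleFun κ t * p)
        (l₀ := scaleInf * excP J i.blk) (by linarith) (by linarith) (by norm_num) (by norm_num)
        hl0 (mul_nonneg hsI hP0)
      have hI3 : scaleInf ≤ 3 := by rw [scaleInf, Real.sqrt_le_iff]; norm_num [dMin]
      have hl : |scaleFun κ t * p - scaleInf * excP J i.blk|
          ≤ (2 * κ * 36 + 3 * 99 * R) * i.blk.mu ^ 2 / Real.sqrt ((j : ℝ) + 1) := by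
        rw [show scaleFun κ t * p - scaleInf * excP J i.blk
          = (scaleFun κ t - scaleInf) * p + scaleInf * (p - excP J i.blk) by ring]
        refine (abs_add_le _ _).trans ?_
        rw [abs_mul, abs_mul, abs_of_nonneg hsI]
        have hsq : Real.sqrt ((j : ℝ) + 1) ≤ L := by
          refine le_trans ?_ (le_self_pow₀ hj1 (by norm_num))
          rw [Real.sqrt_le_iff]
          exact ⟨by linarith, by nlinarith⟩
        calc |scaleFun κ t - scaleInf| * |p| + scaleInf * |p - excP J i.blk|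
            ≤ 2 * κ / Real.sqrt ((j : ℝ) + 1) * (36 * i.blk.mu ^ 2)
              + 3 * (99 * i.blk.mu ^ 2 * (R / Real.sqrt ((j : ℝ) + 1))) := by
              refine add_le_add (mul_le_mul (hsc t ht) hpb (abs_nonneg _) (by positivity))
                (mul_le_mul hI3 (hpx.trans (mul_le_mul_of_nonneg_left
                  ((hX θ hθ t).trans (by gcongr)) (by positivity))) (abs_nonneg _) (by norm_num))
          _ = _ := by ring
      have hone : ∀ {A : ℝ}, 0 ≤ A → A / L ≤ A * i.blk.mu ^ 2 / Real.sqrt ((j : ℝ) + 1) := by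
        intro A hA
        calc A / L ≤ A / Real.sqrt ((j : ℝ) + 1) := by
              gcongr
              refine le_trans ?_ (le_self_pow₀ hj1 (by norm_num))
              rw [Real.sqrt_le_iff]; exact ⟨by linarith, by nlinarith⟩
          _ ≤ _ := div_le_div_of_nonneg_right
              (le_mul_of_one_le_right hA (one_le_pow₀ (Blk.one_le_mu _))) hsw.le
      have h2 := abs_le.1 h1
      have h3 := abs_le.1 (hg.trans (add_le_add (mul_le_mul_of_nonneg_left hcv zero_le_two) hl))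
      have h4 := hone (A := 6 * C + 2 * κ) (by positivity)
      have h5 : (2 * κ * 36 + 3 * 99 * R) * i.blk.mu ^ 2 / Real.sqrt ((j : ℝ) + 1)
          + (6 * C + 2 * κ) * i.blk.mu ^ 2 / Real.sqrt ((j : ℝ) + 1)
          ≤ (6 * C + 3000 * (1 + R) + 100 * κ) * i.blk.mu ^ 2 / Real.sqrt ((j : ℝ) + 1) := by
        rw [← add_div, ← add_mul]
        exact div_le_div_of_nonneg_right
          (mul_le_mul_of_nonneg_right (by linarith) (sq_nonneg _)) hsw.le
      have e1 : (6 * C + 2 * κ) / L = 2 * (3 * C / L) + 2 * (κ / L) := by ring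
      rw [abs_le]
      constructor <;> linarith
    rw [hc_eq t ht]
    have h1 := abs_le.1 (hterm θ hθ)
    have h2 := abs_le.1 (hterm σ hσ)
    rw [abs_le]
    constructor <;> linarith

end

end Vale.Agent.P225
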