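import Vale.Agent.P225.Loop.LBd
import Vale.Agent.P225.Loop.PieceExc

/-!
P225, module 10 (helper8): the four coefficients of one excursion on one mode as functions of the
amplitude: bounded and Lipschitz, `C` small, and the normalised `Q` close to an exponential.
-/

open MeasureTheory Set

namespace Vale.Agent.P225.Loop

noncomputable section

theorem abs_prim_sub_le_of {f g : ℝ → ℝ} {a b t D : ℝ} (hf : Continuous f) (hg : Continuous g)
    (hat : a ≤ t) (htb : t ≤ b) (hD : 0 ≤ D) (h : ∀ u ∈ Icc a b, |f u - g u| ≤ D) :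
    |Ode.prim f a t - Ode.prim g a t| ≤ D * (b - a) :=
  (Ode.abs_prim_sub_le hf hg hat fun u hu => h u ⟨hu.1, hu.2.trans htb⟩).trans
    (mul_le_mul_of_nonneg_left (by linarith) hD)

/-- `coefB` and `coefD` depend on the slope with gain at most the length of the interval. -/
theorem coefBD_sub_le {a b k D : ℝ} {c z z' : ℝ → ℝ} (hab : a ≤ b) (hk : 0 < k) (hD : 0 ≤ D)
    (hc : Continuous c) (hz : Continuous z) (hz' : Continuous z') (hc0 : ∀ t ∈ Icc a b, 0 ≤ c t)
    (hz0 : ∀ t ∈ Icc a b, 0 ≤ z t ∧ 0 ≤ z' t)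
    (hg : ∀ t ∈ Icc a b, k ≤ c t + 2 * z t ∧ k ≤ c t + 2 * z' t)
    (h : ∀ t ∈ Icc a b, |z t - z' t| ≤ D) :
    |Ode.coefB c z a b - Ode.coefB c z' a b| ≤ 2 * D * (b - a) / k ∧
      |Ode.coefD c z a b - Ode.coefD c z' a b| ≤ D * (b - a) := by
  constructor
  · have hsum : ∀ w : ℝ → ℝ, Continuous w → ∀ s,
        Real.exp (-Ode.prim w a s) * Real.exp (-Ode.prim (fun u => c u + w u) a s)
          = Real.exp (-Ode.prim (fun u => c u + 2 * w u) a s) := by
      intro w hw s
      rw [← Real.exp_add, ← neg_add]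
      congr 2
      simp only [Ode.prim]
      rw [← intervalIntegral.integral_add (f := w) (g := fun u => c u + w u)
        (hw.intervalIntegrable _ _) ((hc.add hw).intervalIntegrable _ _)]
      congr 1; ext u; ring
    simp only [Ode.coefB, hsum z hz, hsum z' hz', neg_sub_neg]
    have hp : ∀ w : ℝ → ℝ, Continuous w →
        Continuous fun s => Real.exp (-Ode.prim (fun u => c u + 2 * w u) a s) := fun w hw =>
      Real.continuous_exp.comp (Ode.continuous_prim (hc.add (continuous_const.mul hw)) a).neg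
    rw [← intervalIntegral.integral_sub ((hp z' hz').intervalIntegrable _ _)
      ((hp z hz).intervalIntegrable _ _), ← Real.norm_eq_abs]
    refine (intervalIntegral.norm_integral_le_of_norm_le (μ := volume)
      (g := fun s => 2 * D * (b - a) * Real.exp (-(k * (s - a)))) hab
      (Filter.Eventually.of_forall fun s hs => ?_)
      (((continuous_const.mul (Real.continuous_exp.comp (by fun_prop)))).intervalIntegrable _ _)).trans ?_
    · have hs' := Ioc_subset_Icc_self hs
      have hmk : ∀ w : ℝ → ℝ, Continuous w → (∀ t ∈ Icc a b, k ≤ c t + 2 * w t) →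
          k * (s - a) ≤ Ode.prim (fun u => c u + 2 * w u) a s := by
        intro w hw hw'
        have := Ode.prim_le_prim (a := a) (hc.add (continuous_const.mul hw))
          (fun t ht => hw' t ⟨ht.1, ht.2.trans hs'.2⟩) hs'.1
        simp only [Ode.prim_self, add_zero] at this
        exact this
      rw [Real.norm_eq_abs]
      refine (abs_exp_neg_sub_le (hmk z' hz' fun t ht => (hg t ht).2)
        (hmk z hz fun t ht => (hg t ht).1)).trans ?_
      rw [mul_comm (2 * D * (b - a))]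
      refine mul_le_mul_of_nonneg_left ?_ (Real.exp_pos _).le
      refine abs_prim_sub_le_of (hc.add (continuous_const.mul hz'))
        (hc.add (continuous_const.mul hz)) hs'.1 hs'.2 (by linarith) fun u hu => ?_
      calc |c u + 2 * z' u - (c u + 2 * z u)| = 2 * |z u - z' u| := by
            rw [show c u + 2 * z' u - (c u + 2 * z u) = -(2 * (z u - z' u)) by ring, abs_neg,
              abs_mul, abs_two]
        _ ≤ 2 * D := by linarith [h u hu]
    · rw [intervalIntegral.integral_const_mul]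
      have := Ode.abs_coefB_le (a := a) (b := b) (c := fun _ => k) (z := fun _ => 0)
        continuous_const continuous_const hab hk fun t _ => by simp
      have e : Ode.coefB (fun _ => k) (fun _ => 0) a b
          = -∫ s in a..b, Real.exp (-(k * (s - a))) := by
        simp [Ode.coefB, Ode.prim, mul_comm]
      rw [e, abs_neg] at this
      rw [div_eq_mul_one_div (2 * D * (b - a))]
      exact mul_le_mul_of_nonneg_left ((le_abs_self _).trans this)
        (by have := sub_nonneg.2 hab; positivity)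
  · have hpos : ∀ w : ℝ → ℝ, Continuous w → (∀ t ∈ Icc a b, 0 ≤ w t) →
        0 ≤ Ode.prim (fun u => c u + w u) a b := fun w hw hw' =>
      intervalIntegral.integral_nonneg hab fun t ht => add_nonneg (hc0 t ht) (hw' t ht)
    refine (abs_exp_neg_sub_le (hpos z hz fun t ht => (hz0 t ht).1)
      (hpos z' hz' fun t ht => (hz0 t ht).2)).trans ?_
    rw [neg_zero, Real.exp_zero, one_mul]
    exact abs_prim_sub_le_of (hc.add hz) (hc.add hz') hab le_rfl hD fun u hu => by
      simpa using h u hu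

theorem continuous_excProfile {a b R τ : ℝ} (P S : ℝ) (hab : a < b) (hR : R ≤ (b - a) / 4)
    (hτ : τ ∈ Icc (-R) R) : Continuous fun t => excProfile P S (excX a b τ t) := by
  refine (continuous_const.add ((continuous_excX a b τ).mul continuous_const)).div
    (Real.continuous_sqrt.comp (continuous_const.add (continuous_const.mul
      (continuous_excX a b τ)))) fun t => (Real.sqrt_pos.2 ?_).ne'
  have hb := bump_mem ((t - a) / (b - a))
  have : -(1 / 4) ≤ τ / (b - a) := by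
    rw [le_div_iff₀ (sub_pos.2 hab)]; linarith [hτ.1]
  simp only [excX]
  nlinarith [mul_le_mul_of_nonneg_right this hb.1]

/-- The forcing of two amplitudes differs by `O(|τ - σ| / L)`. -/
theorem exc_forcing_le {a b δ R s₀ P S τ σ N : ℝ} {s : ℝ → ℝ} (hab : a < b) (hδ1 : δ ≤ 1)
    (hR : R ≤ (b - a) / 4) (hτ : τ ∈ Icc (-R) R) (hσ : σ ∈ Icc (-R) R) (hPS : |P| + |S| ≤ N)
    {t : ℝ} (hs : |s t - s₀| ≤ δ) :
    |s t * excProfile P S (excX a b τ t) - s t * excProfile P S (excX a b σ t)|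
      ≤ 13 * N * (|s₀| + 1) * (1 / (b - a)) * |τ - σ| := by
  have hL : 0 < b - a := sub_pos.2 hab
  have hN' : 0 ≤ |P| + |S| := by positivity
  have hr : R * (1 / (b - a)) ≤ 1 / 4 := by rw [mul_one_div, div_le_iff₀ hL]; linarith
  obtain ⟨f1, f2⟩ := exc_forcing (P := P) (S := S) hab hδ1 hR hτ hσ hs
  set m := s₀ * (S - P) * (excX a b τ t - excX a b σ t)
  rw [abs_sub_comm]
  calc |s t * excProfile P S (excX a b σ t) - s t * excProfile P S (excX a b τ t)|
      ≤ |s t * excProfile P S (excX a b σ t) - s t * excProfile P S (excX a b τ t) + m| + |m| := by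
        refine le_trans (le_of_eq ?_) (abs_sub _ m)
        congr 1; ring
    _ ≤ ((|P| + |S|) * (11 * (|s₀| + 1)) + |s₀| * (|P| + |S|)) * (|τ - σ| * (1 / (b - a))) := by
        refine (add_le_add f1 f2).trans ?_
        set A := |P| + |S|
        set w := |τ - σ| * (1 / (b - a))
        suffices h : A * δ + (|s₀| + 1) * (40 * A * (R * (1 / (b - a)))) ≤ A * (11 * (|s₀| + 1)) by
          calc _ = (A * δ + (|s₀| + 1) * (40 * A * (R * (1 / (b - a)))) + |s₀| * A) * w := by ring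
            _ ≤ _ := mul_le_mul_of_nonneg_right (by linarith)
              (mul_nonneg (abs_nonneg _) (one_div_nonneg.2 hL.le))
        have r1 := mul_le_mul_of_nonneg_left hδ1 hN'
        have r2 := mul_le_mul_of_nonneg_left hr (by positivity : 0 ≤ (|s₀| + 1) * (|P| + |S|))
        linarith [mul_nonneg hN' (abs_nonneg s₀)]
    _ ≤ _ := by
        have : (|P| + |S|) * (11 * (|s₀| + 1)) + |s₀| * (|P| + |S|) ≤ 13 * N * (|s₀| + 1) := by
          calc _ ≤ N * (11 * (|s₀| + 1)) + |s₀| * N := by gcongr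
            _ ≤ _ := by linarith [mul_nonneg (hN'.trans hPS) (abs_nonneg s₀)]
        refine (mul_le_mul_of_nonneg_right this (by positivity)).trans (le_of_eq ?_)
        ring

theorem abs_excGain_le {k s₀ P S κ N : ℝ} (hk : 0 < k) (hkκ : k ≤ κ) (hPS : |P| + |S| ≤ N) :
    |excGain s₀ P S κ| ≤ |s₀| * N / k := by
  have hN : 0 ≤ N := (by positivity : 0 ≤ |P| + |S|).trans hPS
  have hb : |bumpMass| ≤ 1 := by
    unfold bumpMass
    rw [← Real.norm_eq_abs]
    refine (intervalIntegral.norm_integral_le_of_norm_le_const (C := 1) fun t _ => ?_).trans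
      (by simp)
    rw [Real.norm_eq_abs, abs_of_nonneg (bump_mem t).1]; exact (bump_mem t).2
  rw [excGain, abs_div, abs_of_pos (hk.trans_le hkκ), abs_mul, abs_mul]
  refine div_le_div₀ (by positivity) ?_ hk hkκ
  have hSP : |S - P| ≤ N := by linarith [abs_sub S P]
  calc |s₀| * |S - P| * |bumpMass| ≤ |s₀| * N * 1 := by gcongr
    _ = |s₀| * N := mul_one _

/-- All coefficients of one excursion on one mode. -/
theorem exc_mode (k R s₀ N M : ℝ) (hk : 0 < k) (hR : 0 ≤ R) (hN : 0 ≤ N) :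
    ∃ C : ℝ, 1 ≤ C ∧ ∀ (a b δ κ P S μ y₀ ρ : ℝ) (c s : ℝ → ℝ) (z : ℝ → ℝ → ℝ),
      a < b → 0 ≤ δ → C * (δ + 1 / (b - a)) ≤ 1 → k ≤ κ → |P| + |S| ≤ N → 1 ≤ μ → μ ≤ M →
      Continuous c → Continuous s → (∀ t ∈ Icc a b, 0 ≤ c t) → (∀ t ∈ Icc a b, |s t - s₀| ≤ δ) →
      (∀ τ ∈ Icc (-R) R, Continuous (z τ) ∧ z τ a = y₀ ∧ |z τ b - ρ| ≤ δ * μ ∧
        ∀ t ∈ Icc a b, 0 ≤ z τ t ∧ k ≤ c t + 2 * z τ t ∧ |c t + 2 * z τ t - κ| ≤ δ ∧
          ∃ z', HasDerivAt (z τ) z' t ∧
            z' + z τ t ^ 2 + c t * z τ t = s t * excProfile P S (excX a b τ t)) →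
      LBd (Icc (-R) R) (C * (δ + 1 / (b - a)))
        (fun τ => Ode.coefQ (z τ) a b / Ode.coefQ (z 0) a b
          - Real.exp (-(excGain s₀ P S κ * τ))) ∧
      LBd (Icc (-R) R) C (fun τ => μ * Ode.coefB c (z τ) a b) ∧
      LBd (Icc (-R) R) (C * (δ + 1 / (b - a))) (fun τ => (z τ b - ρ) / μ) ∧
      LBd (Icc (-R) R) C (fun τ => Ode.coefD c (z τ) a b) := by
  set Ce := 100 * (1 + 1 / k) ^ 2 * (|s₀| + 1) * N * (1 + R) + 1 with hCe
  set G := |s₀| * N / k with hG
  set E := 13 * N * (|s₀| + 1) / k with hE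
  set Cq := 4 * (1 + G) * Real.exp (G * R) * (1 + R) * Ce with hCq
  have hG0 : 0 ≤ G := by positivity
  have hE0 : 0 ≤ E := by positivity
  have hCe1 : 1 ≤ Ce := le_add_of_nonneg_left (by positivity)
  refine ⟨Cq + (4 * R + 4 * Ce * (1 + R) + 4) + (|M| + 1) * (1 / k + 2 * E / k) + (E + 1),
    by have : 0 ≤ Cq := by positivity
       have : 0 ≤ 4 * Ce * (1 + R) := by positivity
       have : 0 ≤ (|M| + 1) * (1 / k + 2 * E / k) := by positivity
       linarith,
    fun a b δ κ P S μ y₀ ρ c s z hab hδ hsmall hkκ hPS hμ hμM hc hs hc0 hs₀ hz => ?_⟩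
  set Cs := Cq + (4 * R + 4 * Ce * (1 + R) + 4) + (|M| + 1) * (1 / k + 2 * E / k) + (E + 1)
    with hCs
  set u := 1 / (b - a) with hu
  have hL : 0 < b - a := sub_pos.2 hab
  have hu0 : 0 ≤ u := by positivity
  have hε0 : 0 ≤ δ + u := by positivity
  have p1 : 0 ≤ Cq := by positivity
  have p2 : 0 ≤ (|M| + 1) * (1 / k + 2 * E / k) := by positivity
  have p3 : 0 ≤ 4 * Ce * (1 + R) := by positivity
  have hq4 : (4 * R + 4 * Ce * (1 + R) + 4) * (δ + u) ≤ 1 := by
    refine le_trans (mul_le_mul_of_nonneg_right ?_ hε0) hsmall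
    linarith
  have hδ1 : δ ≤ 1 := by
    linarith [mul_nonneg (mul_nonneg (by norm_num : (0:ℝ) ≤ 4) hR) hε0, mul_nonneg p3 hε0]
  have hRL : R ≤ (b - a) / 4 := by
    have h' : (4 * R) * u ≤ 1 := by
      linarith [mul_nonneg p3 hε0, mul_nonneg (mul_nonneg (by norm_num : (0:ℝ) ≤ 4) hR) hδ]
    rw [hu, mul_one_div, div_le_iff₀ hL] at h'
    linarith
  have hCeε : Ce * (δ + u) * (1 + R) ≤ 1 / 4 := by
    linarith [mul_nonneg (mul_nonneg (by norm_num : (0:ℝ) ≤ 4) hR) hε0]
  have h0 : (0 : ℝ) ∈ Icc (-R) R := ⟨by linarith, hR⟩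
  have hN' : 0 ≤ |P| + |S| := by positivity
  have hgsum : ∀ τ ∈ Icc (-R) R, ∀ σ ∈ Icc (-R) R, ∀ t ∈ Icc a b,
      k ≤ z τ t + z σ t + c t ∧ |z τ t + z σ t + c t - κ| ≤ δ := by
    intro τ hτ σ hσ t ht
    obtain ⟨-, h1, h1', -⟩ := (hz τ hτ).2.2.2 t ht
    obtain ⟨-, h2, h2', -⟩ := (hz σ hσ).2.2.2 t ht
    rw [abs_le] at h1' h2' ⊢
    exact ⟨by linarith, by linarith, by linarith⟩
  have happ := exc_integral_approx (P := P) (S := S) (y₀ := y₀) hab hk hkκ hδ hδ1 hc hs hRL hs₀
    (fun τ hτ => ⟨(hz τ hτ).1, (hz τ hτ).2.1, fun t ht => ((hz τ hτ).2.2.2 t ht).2.2.2⟩) hgsum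
  have hp := fun (τ : ℝ) (hτ : τ ∈ Icc (-R) R) => continuous_excProfile P S hab hRL hτ
  have hdiff : ∀ τ ∈ Icc (-R) R, ∀ σ ∈ Icc (-R) R, ∀ t ∈ Icc a b,
      |z τ t - z σ t| ≤ E * u * |τ - σ| := by
    intro τ hτ σ hσ t ht
    have := Ode.abs_slope_sub_le (E := 13 * N * (|s₀| + 1) * u * |τ - σ|) hc (hz τ hτ).1 (hz σ hσ).1
      (hs.mul (hp τ hτ)) (hs.mul (hp σ hσ)) hk (fun v hv => (hgsum τ hτ σ hσ v hv).1)
      (fun v hv => ?_) (fun v hv => ((hz τ hτ).2.2.2 v hv).2.2.2)
      (fun v hv => ((hz σ hσ).2.2.2 v hv).2.2.2) t ht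
    · rw [(hz τ hτ).2.1, (hz σ hσ).2.1, sub_self, abs_zero, zero_mul, zero_add] at this
      exact this.trans_eq (by rw [hE]; ring)
    · exact exc_forcing_le hab hδ1 hRL hτ hσ hPS (hs₀ v hv)
  have hbd := fun (τ : ℝ) (hτ : τ ∈ Icc (-R) R) (σ : ℝ) (hσ : σ ∈ Icc (-R) R) =>
    coefBD_sub_le (D := E * u * |τ - σ|) hab.le hk (by positivity) hc (hz τ hτ).1 (hz σ hσ).1 hc0
      (fun t ht => ⟨((hz τ hτ).2.2.2 t ht).1, ((hz σ hσ).2.2.2 t ht).1⟩)
      (fun t ht => ⟨((hz τ hτ).2.2.2 t ht).2.1, ((hz σ hσ).2.2.2 t ht).2.1⟩) (hdiff τ hτ σ hσ)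
  have huL : u * (b - a) = 1 := div_mul_cancel₀ _ hL.ne'
  have hDL : ∀ x, E * u * x * (b - a) = E * x := fun x => by linear_combination E * x * huL
  refine ⟨?_, ⟨fun τ hτ => ?_, fun τ hτ σ hσ => ?_⟩, ⟨fun τ hτ => ?_, fun τ hτ σ hσ => ?_⟩,
    ⟨fun τ hτ => ?_, fun τ hτ σ hσ => ?_⟩⟩
  · have hγ : |excGain s₀ P S κ| ≤ G := abs_excGain_le hk hkκ hPS
    have h := LBd_exp_near (R := R) (ε := Ce * (δ + u)) (γ := excGain s₀ P S κ) hR
      (G := fun τ => Ode.prim (z τ) a b - Ode.prim (z 0) a b) (by simp)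
      (fun τ hτ σ hσ => ?_) (by positivity) hCeε
    · refine (h.congr fun τ _ => ?_).mono ?_
      · simp only [Ode.coefQ, ← Real.exp_sub]
        ring_nf
      · calc 4 * (1 + |excGain s₀ P S κ|) * Real.exp (|excGain s₀ P S κ| * R) * (1 + R)
              * (Ce * (δ + u)) ≤ 4 * (1 + G) * Real.exp (G * R) * (1 + R) * (Ce * (δ + u)) := by
              gcongr
          _ = Cq * (δ + u) := by rw [hCq]; ring
          _ ≤ _ := mul_le_mul_of_nonneg_right (by linarith) hε0
    · rw [sub_sub_sub_cancel_right]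
      refine (happ τ hτ σ hσ).trans (mul_le_mul_of_nonneg_right ?_ (abs_nonneg _))
      refine mul_le_mul_of_nonneg_right ?_ hε0
      rw [hCe]
      refine le_trans ?_ (le_add_of_nonneg_right zero_le_one)
      gcongr
  · have h := Ode.abs_coefB_le hc (hz τ hτ).1 hab.le hk fun t ht => ((hz τ hτ).2.2.2 t ht).2.1
    rw [Real.norm_eq_abs, abs_mul, abs_of_pos (by linarith : 0 < μ)]
    refine le_trans (mul_le_mul hμM h (abs_nonneg _) (by linarith)) ?_
    have : M * (1 / k) ≤ (|M| + 1) * (1 / k + 2 * E / k) :=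
      mul_le_mul (by linarith [le_abs_self M]) (le_add_of_nonneg_right (by positivity))
        (by positivity) (by positivity)
    linarith
  · rw [Real.norm_eq_abs, Real.dist_eq, ← mul_sub, abs_mul, abs_of_pos (by linarith : 0 < μ)]
    refine le_trans (mul_le_mul hμM (hbd τ hτ σ hσ).1 (abs_nonneg _) (by linarith)) ?_
    rw [show 2 * (E * u * |τ - σ|) * (b - a) / k = 2 * E / k * |τ - σ| by
      rw [mul_assoc 2, hDL]; ring, ← mul_assoc]
    refine mul_le_mul_of_nonneg_right ?_ (abs_nonneg _)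
    have : M * (2 * E / k) ≤ (|M| + 1) * (1 / k + 2 * E / k) :=
      mul_le_mul (by linarith [le_abs_self M]) (le_add_of_nonneg_left (by positivity))
        (by positivity) (by positivity)
    linarith
  · rw [Real.norm_eq_abs, abs_div, abs_of_pos (by linarith : 0 < μ),
      div_le_iff₀ (by linarith : 0 < μ)]
    refine (hz τ hτ).2.2.1.trans (mul_le_mul_of_nonneg_right ?_ (by linarith))
    have : 1 * δ ≤ Cs * (δ + u) := mul_le_mul (by linarith) (by linarith) hδ (by linarith)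
    linarith
  · rw [Real.norm_eq_abs, Real.dist_eq, div_sub_div_same, sub_sub_sub_cancel_right, abs_div,
      abs_of_pos (by linarith : 0 < μ), div_le_iff₀ (by linarith : 0 < μ)]
    refine (hdiff τ hτ σ hσ b (right_mem_Icc.2 hab.le)).trans ?_
    have h1 : E * u ≤ Cs * (δ + u) := mul_le_mul (by linarith) (by linarith) hu0 (by linarith)
    calc E * u * |τ - σ| ≤ Cs * (δ + u) * |τ - σ| := mul_le_mul_of_nonneg_right h1 (abs_nonneg _)
      _ ≤ Cs * (δ + u) * |τ - σ| * μ := le_mul_of_one_le_right (by positivity) hμ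
  · rw [Real.norm_eq_abs, abs_of_pos (Ode.coefD_pos _ _ _ _)]
    have := Ode.coefD_le (k := 0) hc (hz τ hτ).1 hab.le
      fun t ht => by linarith [((hz τ hτ).2.2.2 t ht).1, hc0 t ht]
    simp only [zero_mul, neg_zero, Real.exp_zero] at this
    linarith
  · rw [Real.norm_eq_abs, Real.dist_eq]
    refine (hbd τ hτ σ hσ).2.trans ?_
    rw [hDL]
    exact mul_le_mul_of_nonneg_right (by linarith) (abs_nonneg _)

end

end Vale.Agent.P225.Loop
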