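import Vale.Agent.P225.Loop.Target
import Vale.Agent.P225.Loop.ExcMode

/-!
P225, module 10 (helper8): an excursion seen in an isometry frame is, on finitely many levels, close
to a central constant times a one-parameter group, as needed by the ideal control.
-/

namespace Vale.Agent.P225.Loop

open NormedSpace Matrix Set
open scoped lp ENNReal Matrix.Norms.L2Operator

noncomputable section

variable {J : Fin 3} {Lv : Finset (ℕ × ℕ)}

/-- Diagonal family on the levels, from values on the states. -/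
def levDiag (f : ∀ L : Lv, Fib J L.1 → ℝ) : LevAlg J Lv := fun L => Matrix.diagonal (f L)

theorem norm_levDiag_le {f : ∀ L : Lv, Fib J L.1 → ℝ} {K : ℝ} (hK : 0 ≤ K)
    (h : ∀ L i, |f L i| ≤ K) : ‖levDiag f‖ ≤ K := by
  refine (pi_norm_le_iff_of_nonneg hK).2 fun L => ?_
  rw [levDiag, Matrix.l2_opNorm_diagonal]
  exact (pi_norm_le_iff_of_nonneg hK).2 fun i => h L i

theorem levDiag_mul (f g : ∀ L : Lv, Fib J L.1 → ℝ) :
    levDiag f * levDiag g = levDiag fun L i => f L i * g L i :=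
  funext fun L => Matrix.diagonal_mul_diagonal (f L) (g L)

theorem levDiag_sub (f g : ∀ L : Lv, Fib J L.1 → ℝ) :
    levDiag f - levDiag g = levDiag fun L i => f L i - g L i :=
  funext fun L => Matrix.diagonal_sub (f L) (g L)

theorem LBd_levDiag {s : Set ℝ} {K : ℝ} (hK : 0 ≤ K) {f : ℝ → ∀ L : Lv, Fib J L.1 → ℝ}
    (h : ∀ L i, LBd s K fun τ => f τ L i) : LBd s K fun τ => levDiag (f τ) := by
  refine ⟨fun τ hτ => norm_levDiag_le hK fun L i => (h L i).1 τ hτ, fun τ hτ σ hσ => ?_⟩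
  rw [levDiag_sub]
  exact norm_levDiag_le (mul_nonneg hK dist_nonneg) fun L i => (h L i).2 τ hτ σ hσ

theorem commute_levDiag {f : ∀ L : Lv, Fib J L.1 → ℝ} (h : ∀ L i j, f L i = f L j)
    (x : LevAlg J Lv) : Commute (levDiag f) x :=
  funext fun L => by
    ext i j
    simp only [levDiag, Pi.mul_apply, Matrix.diagonal_mul, Matrix.mul_diagonal]
    rw [h L i j, mul_comm]

theorem exp_levDiag (f : ∀ L : Lv, Fib J L.1 → ℝ) :
    exp (levDiag f) = levDiag fun L i => Real.exp (f L i) := by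
  have hc : ∀ L : Lv, CompleteSpace (Matrix (Fib J L.1) (Fib J L.1) ℝ) := fun L =>
    FiniteDimensional.complete ℝ _
  let hq : ∀ L : Lv, NormedAlgebra ℚ (Matrix (Fib J L.1) (Fib J L.1) ℝ) := fun L =>
    NormedAlgebra.restrictScalars ℚ ℝ _
  funext L
  rw [Pi.coe_exp, levDiag, Matrix.exp_diagonal]
  show Matrix.diagonal (exp (f L)) = Matrix.diagonal fun i => Real.exp (f L i)
  congr 1
  funext i
  rw [Pi.coe_exp, ← Real.exp_eq_exp_ℝ]

theorem levMat_diagOp' (g : St → ℝ) (K : ℝ) (hK : 0 ≤ K) (hg : ∀ i, |g i| ≤ K) :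
    levMat J Lv (diagOp g K hK hg) = levDiag fun (L : Lv) i => g i.1 := levMat_diagOp g K hK hg

/-- A change of frame at a junction, as seen on the finitely many levels. -/
structure Frame (J : Fin 3) (Lv : Finset (ℕ × ℕ)) (M : ℝ) where
  /-- on values -/
  Uu : HSp →L[ℝ] HSp
  /-- its inverse -/
  Vu : HSp →L[ℝ] HSp
  /-- on deviations -/
  Uw : HSp →L[ℝ] HSp
  /-- its inverse -/
  Vw : HSp →L[ℝ] HSp
  loc : LevelLocal J Uu ∧ LevelLocal J Vu ∧ LevelLocal J Uw ∧ LevelLocal J Vw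
  bd : ‖Uu‖ ≤ M ∧ ‖Vu‖ ≤ M ∧ ‖Uw‖ ≤ M ∧ ‖Vw‖ ≤ M
  inv : levMat J Lv Uu * levMat J Lv Vu = 1 ∧ levMat J Lv Vu * levMat J Lv Uu = 1

/-- Limit of `2 α + 5` at a junction. -/
def excKap (J : Fin 3) (s₀ : ℝ) (V : Blk) : ℝ := Real.sqrt (25 + 4 * (s₀ * excP J V))

/-- Limiting rate of an excursion on a block. -/
def excRate (J : Fin 3) (s₀ : ℝ) (V : Blk) : ℝ :=
  excGain s₀ (excP J V) (excS J V) (excKap J s₀ V)

/-- The generator of an excursion seen in a frame. -/
def excGen {M : ℝ} (F : Frame J Lv M) (s₀ : ℝ) : LevAlg J Lv :=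
  levMat J Lv F.Uu * levDiag (fun _ i => -excRate J s₀ i.1.blk) * levMat J Lv F.Vu

theorem exp_excGen {M : ℝ} (F : Frame J Lv M) (s₀ θ : ℝ) :
    exp (θ • excGen F s₀) = levMat J Lv F.Uu
      * levDiag (fun _ i => Real.exp (-(excRate J s₀ i.1.blk * θ))) * levMat J Lv F.Vu := by
  have : CompleteSpace (LevAlg J Lv) := FiniteDimensional.complete ℝ _
  let : NormedAlgebra ℚ (LevAlg J Lv) := NormedAlgebra.restrictScalars ℚ ℝ _
  let u : (LevAlg J Lv)ˣ := ⟨levMat J Lv F.Uu, levMat J Lv F.Vu, F.inv.1, F.inv.2⟩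
  have e : θ • excGen F s₀
      = (u : LevAlg J Lv) * levDiag (fun _ i => -(excRate J s₀ i.1.blk * θ))
          * ((u⁻¹ : (LevAlg J Lv)ˣ) : LevAlg J Lv) := by
    show θ • excGen F s₀ = levMat J Lv F.Uu * _ * levMat J Lv F.Vu
    rw [excGen, ← smul_mul_assoc, ← mul_smul_comm]
    congr 2
    funext L
    rw [Pi.smul_apply, levDiag, levDiag, ← Matrix.diagonal_smul]
    congr 1
    funext i
    simp; ring
  rw [e, NormedSpace.exp_units_conj, exp_levDiag]
  rfl

/-- Level functions: the junction eigenvalue only depends on the level. -/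
theorem excP_level {V W : Blk} (h : V.level J = W.level J) : excP J V = excP J W := by
  have e1 : (-1 : Fin 3) = 2 := rfl
  have e2 : (-2 : Fin 3) = 1 := rfl
  have h1 := congrArg Prod.fst h
  have h2 := congrArg Prod.snd h
  fin_cases J <;> simp [Blk.level, Blk.la, Blk.lb, Blk.lc] at h1 h2 <;>
    simp [excP, Blk.lam, rotW, rawExc, Blk.la, Blk.lb, Blk.lc, h1, h2, e1, e2]

theorem excP_nonneg (V : Blk) : 0 ≤ excP J V := by
  have e1 : (-1 : Fin 3) = 2 := rfl
  have e2 : (-2 : Fin 3) = 1 := rfl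
  fin_cases J <;> simp [excP, Blk.lam, rotW, rawExc, Blk.cas, e1, e2] <;> positivity

theorem five_le_excKap {s₀ : ℝ} (hs : 0 ≤ s₀) (V : Blk) : 5 ≤ excKap J s₀ V :=
  Real.le_sqrt_of_sq_le (by nlinarith [mul_nonneg hs (excP_nonneg (J := J) V)])

variable (J Lv) in
/-- Excursion segments are `Good` for the ideal control: constants uniform in the window. -/
theorem exists_exc_good (k R s₀ M : ℝ) (hk : 0 < k) (hk5 : k ≤ 5) (hR : 0 ≤ R) (hs : 0 ≤ s₀)
    (hM : 1 ≤ M) :
    ∃ K C : ℝ, 1 ≤ K ∧ 1 ≤ C ∧ ∀ (F : Frame J Lv M) (a b δ δ' : ℝ) (c s : ℝ → ℝ)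
      (z : ℝ → St → ℝ → ℝ) (y₀ ρ : St → ℝ) (Sg : ℝ → Seg HSp),
      a < b → 0 ≤ δ → δ' ≤ δ → C * (δ + 1 / (b - a)) ≤ 1 → Continuous s →
      (∀ t ∈ Icc a b, |s t - s₀| ≤ δ) →
      (∀ i i' : St, i.blk.level J = i'.blk.level J → y₀ i = y₀ i') →
      (∀ τ ∈ Icc (-R) R, ∃ h : SlopeFam a b c (z τ) ρ k δ',
        Sg τ = h.coef.seg.conj F.Uu F.Vu F.Uw F.Vw) →
      (∀ τ ∈ Icc (-R) R, ∀ L : Lv, ∀ i : Fib J L.1,
        z τ i.1 a = y₀ i.1 ∧ ∀ t ∈ Icc a b,
          |c t + 2 * z τ i.1 t - excKap J s₀ i.1.blk| ≤ δ ∧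
          ∃ z', HasDerivAt (z τ i.1) z' t ∧ z' + z τ i.1 t ^ 2 + c t * z τ i.1 t
            = s t * excProfile (excP J i.1.blk) (excS J i.1.blk) (excX a b τ t)) →
      Good (Icc (-R) R) K (C * (δ + 1 / (b - a))) (fun τ => segMat J Lv (Sg τ))
        (levDiag fun (L : Lv) (i : Fib J L.1) => Ode.coefQ (z 0 i.1) a b)
        (fun τ => exp (τ • excGen F s₀)) := by
  set N : ℝ := ∑ L : Lv, ∑ i : Fib J L.1, (|excP J i.1.blk| + |excS J i.1.blk| + i.1.blk.mu)
  have hμ0 : ∀ V : Blk, 0 ≤ V.mu := fun V => zero_le_one.trans (Blk.one_le_mu V)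
  have hN : 0 ≤ N := Finset.sum_nonneg fun L _ => Finset.sum_nonneg fun i _ => by
    have := hμ0 i.1.blk
    positivity
  have hNi : ∀ (L : Lv) (i : Fib J L.1),
      |excP J i.1.blk| + |excS J i.1.blk| ≤ N ∧ i.1.blk.mu ≤ N := by
    intro L i
    have h : |excP J i.1.blk| + |excS J i.1.blk| + i.1.blk.mu ≤ N :=
      le_trans (Finset.single_le_sum (f := fun i : Fib J L.1 =>
          |excP J i.1.blk| + |excS J i.1.blk| + i.1.blk.mu) (fun i _ => by
            have := hμ0 i.1.blk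
            positivity) (Finset.mem_univ i))
        (Finset.single_le_sum (f := fun L : Lv => ∑ i : Fib J L.1,
          (|excP J i.1.blk| + |excS J i.1.blk| + i.1.blk.mu))
          (fun L _ => Finset.sum_nonneg fun i _ => by
            have := hμ0 i.1.blk
            positivity) (Finset.mem_univ L))
    constructor <;> linarith [abs_nonneg (excP J i.1.blk), abs_nonneg (excS J i.1.blk), hμ0 i.1.blk]
  obtain ⟨Cm, hCm, hmode⟩ := exc_mode k R s₀ N N hk hR hN
  set G := s₀ * N / k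
  set Kw := (1 + G) * Real.exp (G * R)
  have hG : 0 ≤ G := by positivity
  have hKw : 0 ≤ Kw := by positivity
  have hM0 : 0 ≤ M := zero_le_one.trans hM
  refine ⟨4 * M ^ 2 * (Cm + Kw) + 1, 4 * M ^ 2 * Cm + Cm,
    le_add_of_nonneg_left (by positivity), hCm.trans (le_add_of_nonneg_left (by positivity)),
    fun F a b δ δ' c s z y₀ ρ Sg hab hδ hδ' hsmall hsc hs₀ hy₀ hSg hz => ?_⟩
  have h0 : (0 : ℝ) ∈ Icc (-R) R := ⟨by linarith, hR⟩
  have hab' : 0 ≤ δ + 1 / (b - a) := by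
    have := sub_pos.2 hab
    positivity
  have hsmall' : Cm * (δ + 1 / (b - a)) ≤ 1 :=
    (mul_le_mul_of_nonneg_right (le_add_of_nonneg_left (by positivity)) hab').trans hsmall
  obtain ⟨hF0, -⟩ := hSg 0 h0
  have hmodes : ∀ (L : Lv) (i : Fib J L.1), _ := fun L i =>
    hmode a b δ (excKap J s₀ i.1.blk) (excP J i.1.blk) (excS J i.1.blk) i.1.blk.mu (y₀ i.1)
      (ρ i.1) c s (fun τ => z τ i.1) hab hδ hsmall' (hk5.trans (five_le_excKap hs _)) (hNi L i).1
      (Blk.one_le_mu _) (hNi L i).2 hF0.cont_c hsc hF0.c_nonneg hs₀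
      (fun τ hτ => by
        obtain ⟨h, -⟩ := hSg τ hτ
        refine ⟨h.cont_z i.1, (hz τ hτ L i).1,
          (h.close i.1).trans (mul_le_mul_of_nonneg_right hδ' (hμ0 _)), fun t ht => ?_⟩
        exact ⟨h.z_nonneg i.1 t ht,
          (le_mul_of_one_le_right hk.le (Blk.one_le_mu _)).trans (h.gain i.1 t ht),
          ((hz τ hτ L i).2 t ht).1, ((hz τ hτ L i).2 t ht).2⟩)
  set U := levMat J Lv F.Uu
  set V := levMat J Lv F.Vu
  have hU : ‖U‖ ≤ M := (norm_levMat_le _).trans F.bd.1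
  have hV : ‖V‖ ≤ M := (norm_levMat_le _).trans F.bd.2.1
  have hUw : ‖levMat J Lv F.Uw‖ ≤ M := (norm_levMat_le _).trans F.bd.2.2.1
  have hVw : ‖levMat J Lv F.Vw‖ ≤ M := (norm_levMat_le _).trans F.bd.2.2.2
  let cc : LevAlg J Lv := levDiag fun _ i => Ode.coefQ (z 0 i.1) a b
  have hccc : ∀ x, Commute cc x := commute_levDiag fun L i j => by
    have hPij : excP J i.1.blk = excP J j.1.blk := excP_level (i.2.trans j.2.symm)
    have hprof : ∀ t, s t * excProfile (excP J i.1.blk) (excS J i.1.blk) (excX a b 0 t)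
        = s t * excP J i.1.blk ∧
        s t * excProfile (excP J j.1.blk) (excS J j.1.blk) (excX a b 0 t)
        = s t * excP J i.1.blk := fun t => by simp [excX, excProfile, hPij]
    have heq : ∀ t ∈ Icc a b, z 0 i.1 t = z 0 j.1 t := by
      intro t ht
      have := Ode.abs_slope_sub_le (z₁ := z 0 i.1) (z₂ := z 0 j.1) (k := k) (E := 0)
        (l₁ := fun t => s t * excP J i.1.blk) (l₂ := fun t => s t * excP J i.1.blk)
        hF0.cont_c (hF0.cont_z _) (hF0.cont_z _) (hsc.mul continuous_const)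
        (hsc.mul continuous_const) hk
        (fun u hu => by
          have g1 := hF0.gain i.1 u hu
          have g2 := hF0.gain j.1 u hu
          have m1 := le_mul_of_one_le_right hk.le (Blk.one_le_mu i.1.blk)
          have m2 := le_mul_of_one_le_right hk.le (Blk.one_le_mu j.1.blk)
          linarith)
        (by simp)
        (fun u hu => by
          obtain ⟨z', h1, h2⟩ := ((hz 0 h0 L i).2 u hu).2
          exact ⟨z', h1, by rw [h2, (hprof u).1]⟩)
        (fun u hu => by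
          obtain ⟨z', h1, h2⟩ := ((hz 0 h0 L j).2 u hu).2
          exact ⟨z', h1, by rw [h2, (hprof u).2]⟩) t ht
      rw [(hz 0 h0 L i).1, (hz 0 h0 L j).1, hy₀ i.1 j.1 (i.2.trans j.2.symm), sub_self, abs_zero,
        zero_mul, zero_div, add_zero] at this
      linarith [abs_eq_zero.1 (le_antisymm this (abs_nonneg _))]
    simp only [Ode.coefQ, Ode.prim]
    congr 2
    exact intervalIntegral.integral_congr fun t ht => heq t (by rwa [uIcc_of_le hab.le] at ht)
  have hcc : ‖cc‖ ≤ 1 := norm_levDiag_le zero_le_one fun L i => by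
    rw [abs_of_pos (Ode.coefQ_pos _ _ _)]
    simpa using Ode.coefQ_le (hF0.cont_z i.1) hab.le (hF0.z_nonneg i.1)
  let q : ℝ → LevAlg J Lv := fun τ =>
    U * levDiag (fun _ i => Ode.coefQ (z τ i.1) a b / Ode.coefQ (z 0 i.1) a b) * V
  have hQ : ∀ τ ∈ Icc (-R) R, (segMat J Lv (Sg τ)).Q = cc * q τ := by
    intro τ hτ
    obtain ⟨h, hS⟩ := hSg τ hτ
    show levMat J Lv (Sg τ).Q = _
    rw [hS]
    simp only [Seg.conj, DiagCoef.seg]
    rw [levMat_mul F.loc.1, levMat_mul (levelLocal_diagOp _ _ _ _ _), levMat_diagOp' h.coef.q]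
    simp only [q, ← mul_assoc]
    rw [(hccc U).eq, mul_assoc U cc, levDiag_mul]
    congr 2
    funext L
    simp only [levDiag]
    congr 1
    funext i
    rw [SlopeFam.coef_q, mul_div_cancel₀ _ (Ode.coefQ_pos _ _ _).ne']
  have hw : LBd (Icc (-R) R) (4 * M ^ 2 * Kw) fun τ => exp (τ • excGen F s₀) := by
    simp only [exp_excGen]
    refine ((((LBd.const hU).mul (LBd_levDiag hKw fun L i => ?_)).mul (LBd.const hV))).mono
      (le_of_eq (by ring))
    have hγ : |excRate J s₀ i.1.blk| ≤ G := by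
      have := abs_excGain_le (s₀ := s₀) hk (hk5.trans (five_le_excKap (J := J) hs i.1.blk))
        (hNi L i).1
      rwa [abs_of_nonneg hs] at this
    have hb : ∀ τ ∈ Icc (-R) R, Real.exp (-(excRate J s₀ i.1.blk * τ)) ≤ Real.exp (G * R) :=
      fun τ hτ => Real.exp_le_exp.2 ((neg_le_abs _).trans (by
        rw [abs_mul]; exact mul_le_mul hγ (abs_le.2 hτ) (abs_nonneg _) hG))
    refine ⟨fun τ hτ => ?_, fun τ hτ σ hσ => ?_⟩
    · rw [Real.norm_eq_abs, Real.abs_exp]
      exact (hb τ hτ).trans (le_mul_of_one_le_left (Real.exp_pos _).le (by linarith))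
    · rw [Real.norm_eq_abs, Real.dist_eq]
      refine le_trans (abs_exp_neg_sub_le (m := -(G * R)) ?_ ?_) ?_
      · have := hb τ hτ; rw [Real.exp_le_exp] at this; linarith
      · have := hb σ hσ; rw [Real.exp_le_exp] at this; linarith
      · rw [neg_neg, ← mul_sub, abs_mul]
        calc Real.exp (G * R) * (|excRate J s₀ i.1.blk| * |τ - σ|)
            ≤ Real.exp (G * R) * ((1 + G) * |τ - σ|) := by gcongr; linarith
          _ = Kw * |τ - σ| := by simp only [Kw]; ring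
  have hqn : LBd (Icc (-R) R) (4 * M ^ 2 * (Cm * (δ + 1 / (b - a))))
      fun τ => q τ - exp (τ • excGen F s₀) := by
    have hd := LBd_levDiag (K := Cm * (δ + 1 / (b - a))) (by positivity)
      (f := fun τ L (i : Fib J L.1) => Ode.coefQ (z τ i.1) a b / Ode.coefQ (z 0 i.1) a b
        - Real.exp (-(excRate J s₀ i.1.blk * τ))) fun L i => (hmodes L i).1
    refine ((((LBd.const hU).mul hd).mul (LBd.const hV)).congr fun τ _ => ?_).mono
      (le_of_eq (by ring))
    simp only [q, U, V, exp_excGen, ← mul_sub, ← sub_mul, levDiag_sub]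
  have hq1 : LBd (Icc (-R) R) (4 * M ^ 2 * (Cm + Kw)) q :=
    ((hqn.add hw).congr fun τ _ => sub_add_cancel (q τ) _).mono (by
      nlinarith [mul_nonneg (mul_nonneg (by norm_num : (0:ℝ) ≤ 4) (sq_nonneg M))
        (sub_nonneg.2 (hsmall'.trans hCm))])
  have hBCD : ∀ (X Y : HSp →L[ℝ] HSp) (K : ℝ) (g : ℝ → St → ℝ),
      LevelLocal J X → ‖levMat J Lv X‖ ≤ M → ‖levMat J Lv Y‖ ≤ M → 0 ≤ K →
      (∀ L : Lv, ∀ i : Fib J L.1, LBd (Icc (-R) R) K fun τ => g τ i.1) →
      LBd (Icc (-R) R) (4 * M ^ 2 * K)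
        fun τ => levMat J Lv X * levDiag (fun _ i => g τ i.1) * levMat J Lv Y :=
    fun X Y K g _ hX hY hK hg =>
      (((LBd.const hX).mul (LBd_levDiag hK hg)).mul (LBd.const hY)).mono (le_of_eq (by ring))
  refine ⟨?_, ?_, ?_, ?_, hw.mono ?_, hccc, q, hQ, hqn.mono ?_⟩
  · have hc' : LBd (Icc (-R) R) (4 * M ^ 2 * (Cm + Kw)) fun τ => cc * q τ := by
      refine ⟨fun τ hτ => ?_, fun τ hτ σ hσ => ?_⟩
      · calc ‖cc * q τ‖ ≤ 1 * ‖q τ‖ :=
              (norm_mul_le _ _).trans (mul_le_mul_of_nonneg_right hcc (norm_nonneg _))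
          _ ≤ _ := by rw [one_mul]; exact hq1.1 τ hτ
      · rw [← mul_sub]
        calc ‖cc * (q τ - q σ)‖ ≤ 1 * ‖q τ - q σ‖ :=
              (norm_mul_le _ _).trans (mul_le_mul_of_nonneg_right hcc (norm_nonneg _))
          _ ≤ _ := by rw [one_mul]; exact hq1.2 τ hτ σ hσ
    exact (hc'.congr fun τ hτ => (hQ τ hτ).symm).mono (le_add_of_nonneg_right zero_le_one)
  · refine ((hBCD F.Uu F.Vw Cm (fun τ i => i.blk.mu * Ode.coefB c (z τ i) a b)
      F.loc.1 hU hVw (zero_le_one.trans hCm) fun L i => (hmodes L i).2.1).congr fun τ hτ => ?_).mono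
      ?_
    · obtain ⟨h, hS⟩ := hSg τ hτ
      show _ = levMat J Lv (Sg τ).B
      rw [hS]
      simp only [Seg.conj, DiagCoef.seg]
      rw [levMat_mul F.loc.1, levMat_mul (levelLocal_diagOp _ _ _ _ _), levMat_diagOp' h.coef.b,
        ← mul_assoc]
      rfl
    · nlinarith [mul_nonneg (sq_nonneg M) hKw]
  · refine ((hBCD F.Uw F.Vu (Cm * (δ + 1 / (b - a)))
      (fun τ i => (z τ i b - ρ i) / i.blk.mu)
      F.loc.2.2.1 hUw hV (by positivity) fun L i => (hmodes L i).2.2.1).congr fun τ hτ => ?_).mono ?_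
    · obtain ⟨h, hS⟩ := hSg τ hτ
      show _ = levMat J Lv (Sg τ).C
      rw [hS]
      simp only [Seg.conj, DiagCoef.seg]
      rw [levMat_mul F.loc.2.2.1, levMat_mul (levelLocal_diagOp _ _ _ _ _),
        levMat_diagOp' h.coef.c, ← mul_assoc]
      rfl
    · rw [← mul_assoc]
      exact mul_le_mul_of_nonneg_right (le_add_of_nonneg_right (zero_le_one.trans hCm)) hab'
  · refine ((hBCD F.Uw F.Vw Cm (fun τ i => Ode.coefD c (z τ i) a b)
      F.loc.2.2.1 hUw hVw (zero_le_one.trans hCm) fun L i => (hmodes L i).2.2.2).congr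
      fun τ hτ => ?_).mono ?_
    · obtain ⟨h, hS⟩ := hSg τ hτ
      show _ = levMat J Lv (Sg τ).D
      rw [hS]
      simp only [Seg.conj, DiagCoef.seg]
      rw [levMat_mul F.loc.2.2.1, levMat_mul (levelLocal_diagOp _ _ _ _ _),
        levMat_diagOp' h.coef.d, ← mul_assoc]
      rfl
    · nlinarith [mul_nonneg (sq_nonneg M) hKw]
  · nlinarith [mul_nonneg (sq_nonneg M) (zero_le_one.trans hCm)]
  · rw [← mul_assoc]
    exact mul_le_mul_of_nonneg_right (le_add_of_nonneg_right (zero_le_one.trans hCm)) hab'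

end

end Vale.Agent.P225.Loop
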