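import Vale.Agent.P225.Metric.Sched
import Vale.Agent.P225.Ode.Family

/-!
P225, module 16 (helper2): slopes and segments of the pieces of the schedule.

`refSlope κ J t` is the quasi-static slope at junction `J`; it is a function of the level at `J`.
For every piece which is not an insertion, late enough, every state has a slope near the
quasi-static one, and the piece gives a diagonal segment with uniform constants.
-/

open Set Filter Topology

namespace Vale.Agent.P225

noncomputable section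

/-- Derivative of the standard transition. -/
def sTd : ℝ → ℝ := deriv Real.smoothTransition

theorem hasDerivAt_sT (x : ℝ) : HasDerivAt Real.smoothTransition (sTd x) x :=
  (Real.smoothTransition.contDiff (n := 1)).differentiable one_ne_zero x |>.hasDerivAt

theorem continuous_sTd : Continuous sTd :=
  (Real.smoothTransition.contDiff (n := 1)).continuous_deriv_one

theorem exists_abs_sTd_le : ∃ M : ℝ, 0 ≤ M ∧ ∀ x, |sTd x| ≤ M := by
  obtain ⟨M, hM⟩ := (isCompact_Icc (a := (0 : ℝ)) (b := 1)).exists_bound_of_continuousOn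
    continuous_sTd.continuousOn
  refine ⟨|M|, abs_nonneg _, fun x => ?_⟩
  by_cases hx : x ∈ Icc (0 : ℝ) 1
  · exact (hM x hx).trans (le_abs_self _)
  · rw [mem_Icc, not_and_or, not_le, not_le] at hx
    have h0 : sTd x = 0 := by
      rcases hx with h | h
      · exact ((hasDerivAt_const x (0 : ℝ)).congr_of_eventuallyEq
          (eventually_of_mem (Iio_mem_nhds h) fun y hy =>
            Real.smoothTransition.zero_of_nonpos (le_of_lt hy))).deriv
      · exact ((hasDerivAt_const x (1 : ℝ)).congr_of_eventuallyEq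
          (eventually_of_mem (Ioi_mem_nhds h) fun y hy =>
            Real.smoothTransition.one_of_one_le (le_of_lt hy))).deriv
    simp [h0]

/-- Derivative of `bump`. -/
def bumpD (x : ℝ) : ℝ :=
  6 * sTd (6 * x - 3 / 2) * Real.smoothTransition (9 / 2 - 6 * x)
    - 6 * Real.smoothTransition (6 * x - 3 / 2) * sTd (9 / 2 - 6 * x)

theorem hasDerivAt_bump (x : ℝ) : HasDerivAt bump (bumpD x) x := by
  have h1 : HasDerivAt (fun y => Real.smoothTransition (6 * y - 3 / 2)) (sTd (6 * x - 3 / 2) * 6) x :=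
    (hasDerivAt_sT _).comp x (by simpa using ((hasDerivAt_id x).const_mul 6).sub_const (3 / 2))
  have h2 : HasDerivAt (fun y => Real.smoothTransition (9 / 2 - 6 * y))
      (sTd (9 / 2 - 6 * x) * (-6)) x :=
    (hasDerivAt_sT _).comp x (by simpa using ((hasDerivAt_id x).const_mul 6).const_sub (9 / 2))
  exact (h1.mul h2).congr_deriv (by simp only [bumpD]; ring)

theorem abs_bump_le (x : ℝ) : |bump x| ≤ 1 := by
  rw [bump, abs_mul, abs_of_nonneg (Real.smoothTransition.nonneg _),
    abs_of_nonneg (Real.smoothTransition.nonneg _)]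
  exact mul_le_one₀ (Real.smoothTransition.le_one _) (Real.smoothTransition.nonneg _)
    (Real.smoothTransition.le_one _)

/-- Raw weights which dominate all three Casimirs uniformly. -/
structure Wide (w : Fin 3 → ℝ) : Prop where
  le_two : ∀ i, |w i| ≤ 2
  det : 1 / 2 ≤ wdet w
  lam : ∀ V : Blk, (Blk.cas V.la + Blk.cas V.lb + Blk.cas V.lc) ≤ 8 * Blk.lam w V

theorem cas_nonneg (x : ℕ) : 0 ≤ Blk.cas x := by unfold Blk.cas; positivity

theorem cas_le_of_le_add {x y z : ℕ} (h : x ≤ y + z) :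
    Blk.cas x ≤ 2 * (Blk.cas y + Blk.cas z) := by
  have h' : (x : ℝ) ≤ y + z := by exact_mod_cast h
  have hx : (0 : ℝ) ≤ x := Nat.cast_nonneg _
  have hy : (0 : ℝ) ≤ y := Nat.cast_nonneg _
  have hz : (0 : ℝ) ≤ z := Nat.cast_nonneg _
  simp only [Blk.cas]
  nlinarith [sq_nonneg ((y : ℝ) - z)]

theorem wide_pair {x : ℝ} (hx : -(1 / 20) ≤ x) (hx' : x ≤ 1) : Wide (rawExc x) := by
  refine ⟨fun i => ?_, ?_, fun V => ?_⟩
  · fin_cases i <;> simp [rawExc, abs_le] <;> constructor <;> linarith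
  · simp [wdet, rawExc]; linarith
  · have h := cas_le_of_le_add V.2.2.2.2
    simp only [Blk.lam, rawExc, Blk.la, Blk.lb, Blk.lc] at h ⊢
    simp
    nlinarith [cas_nonneg V.1.1, cas_nonneg V.1.2.1, cas_nonneg V.1.2.2]

theorem wide_rot (n : Fin 3) {w : Fin 3 → ℝ} (hw : ∀ i, |w i| ≤ 2) (hd : 1 / 2 ≤ wdet w)
    (hl : ∀ a b c : ℕ, a ≤ b + c → b ≤ a + c → c ≤ a + b →
      (Blk.cas a + Blk.cas b + Blk.cas c) ≤
        8 * (w 0 * Blk.cas a + w 1 * Blk.cas b + w 2 * Blk.cas c)) :
    Wide (rotW n w) := by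
  refine ⟨fun i => hw _, by rw [wdet_rotW]; exact hd, fun V => ?_⟩
  obtain ⟨-, h1, h2, h3⟩ := V.2
  have e1 : (-1 : Fin 3) = 2 := rfl
  have e2 : (-2 : Fin 3) = 1 := rfl
  fin_cases n
  · simpa [Blk.lam, rotW, Blk.la, Blk.lb, Blk.lc] using hl V.1.1 V.1.2.1 V.1.2.2 h1 h2 h3
  · have := hl V.1.2.1 V.1.2.2 V.1.1 (by omega) (by omega) (by omega)
    simp [Blk.lam, rotW, Blk.la, Blk.lb, Blk.lc, e1]
    linarith
  · have := hl V.1.2.2 V.1.1 V.1.2.1 (by omega) (by omega) (by omega)
    simp [Blk.lam, rotW, Blk.la, Blk.lb, Blk.lc, e2]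
    linarith

theorem wide_rot_exc (n : Fin 3) {x : ℝ} (hx : -(1 / 20) ≤ x) (hx' : x ≤ 1) :
    Wide (rotW n (rawExc x)) :=
  wide_rot n (wide_pair hx hx').le_two (wide_pair hx hx').det fun a b c _ _ h3 => by
    have h := cas_le_of_le_add h3
    simp [rawExc]
    nlinarith [cas_nonneg a, cas_nonneg b, cas_nonneg c]

theorem wide_rot_transit (n : Fin 3) (x : ℝ) : Wide (rotW n (rawTransit x)) := by
  set p := Real.smoothTransition (4 * x - 2)
  set q := Real.smoothTransition (4 * x - 1)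
  have hp0 : 0 ≤ p := Real.smoothTransition.nonneg _
  have hp1 : p ≤ 1 := Real.smoothTransition.le_one _
  have hq0 : 0 ≤ q := Real.smoothTransition.nonneg _
  have hq1 : q ≤ 1 := Real.smoothTransition.le_one _
  have hcase : p = 0 ∨ q = 1 := by
    rcases le_total x (1 / 2) with h | h
    · exact Or.inl (Real.smoothTransition.zero_of_nonpos (by linarith))
    · exact Or.inr (Real.smoothTransition.one_of_one_le (by linarith))
  refine wide_rot n (fun i => ?_) ?_ fun a b c h1 _ h3 => ?_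
  · fin_cases i <;> simp [rawTransit, abs_le] <;> constructor <;> linarith
  · simp only [wdet, rawTransit]
    simp
    show (2 : ℝ)⁻¹ ≤ (1 - p) + (1 - p) * q + q
    rcases hcase with h | h <;> rw [h] <;> linarith
  · have ha := cas_le_of_le_add h1
    have hc := cas_le_of_le_add h3
    simp only [rawTransit]
    simp
    show _ ≤ 8 * ((1 - p) * Blk.cas a + Blk.cas b + q * Blk.cas c)
    rcases hcase with h | h <;> rw [h] <;>
      nlinarith [cas_nonneg a, cas_nonneg b, cas_nonneg c]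

/-- Derivative of the raw weights of a piece. -/
def Piece.rawD (P : Piece) (j : ℕ) (τ : ℕ → ℝ) (s : ℝ) : Fin 3 → ℝ :=
  let L := P.len j
  let d (x : ℝ) : Fin 3 → ℝ := ![-(4 * sTd (4 * x - 2)) / L, 0, 4 * sTd (4 * x - 1) / L]
  match P with
  | .wait _ _ => 0
  | .exc J _ k => rotW J ![0, 0, τ k / L * (bumpD (s / L) / L)]
  | .out J => if J = 0 then 0 else if J = 1 then d (s / L) else rotW 2 (-d (1 - s / L))
  | .back J => if J = 0 then 0 else if J = 1 then -d (1 - s / L) else rotW 2 (d (s / L))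
  | .ins _ _ => 0

theorem hasDerivAt_rawTransit (i : Fin 3) (x : ℝ) :
    HasDerivAt (fun y => rawTransit y i)
      (![-(4 * sTd (4 * x - 2)), 0, 4 * sTd (4 * x - 1)] i) x := by
  have h : ∀ c, HasDerivAt (fun y => Real.smoothTransition (4 * y - c)) (4 * sTd (4 * x - c)) x :=
    fun c => ((hasDerivAt_sT _).comp x
      (by simpa using ((hasDerivAt_id x).const_mul 4).sub_const c)).congr_deriv (by ring)
  fin_cases i <;> simp [rawTransit]
  · exact (h 2).const_sub 1
  · exact hasDerivAt_const x 1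
  · exact h 1

theorem Piece.hasDerivAt_raw (P : Piece) (j : ℕ) (τ : ℕ → ℝ) (s : ℝ) (i : Fin 3) :
    HasDerivAt (fun r => P.raw j τ r i) (P.rawD j τ s i) s := by
  have hT : ∀ n : Fin 3,
      HasDerivAt (fun r => rotW n (rawTransit (r / P.len j)) i)
          (rotW n (fun i => ![-(4 * sTd (4 * (s / P.len j) - 2)), 0,
            4 * sTd (4 * (s / P.len j) - 1)] i / P.len j) i) s ∧
        HasDerivAt (fun r => rotW n (rawTransit (1 - r / P.len j)) i)
          (rotW n (fun i => -(![-(4 * sTd (4 * (1 - s / P.len j) - 2)), 0,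
            4 * sTd (4 * (1 - s / P.len j) - 1)] i / P.len j)) i) s := by
    intro n
    constructor
    · exact ((hasDerivAt_rawTransit (i - n) _).comp s ((hasDerivAt_id s).div_const _)).congr_deriv
        (by simp [rotW]; ring)
    · exact ((hasDerivAt_rawTransit (i - n) _).comp s
        (((hasDerivAt_id s).div_const _).const_sub 1)).congr_deriv (by simp [rotW]; ring)
  have r0 : ∀ w : Fin 3 → ℝ, rotW 0 w = w := fun w => by funext i; simp [rotW]
  have hvec : ∀ (u v : ℝ) (k : Fin 3), (![u, 0, v] k) / P.len j = ![u / P.len j, 0, v / P.len j] k :=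
    fun u v k => by fin_cases k <;> simp
  cases P with
  | wait J q => exact hasDerivAt_const s _
  | ins f k => exact hasDerivAt_const s _
  | exc J g k =>
      simp only [Piece.raw, Piece.rawD, rotW]
      generalize i - J = m
      fin_cases m <;> simp [rawExc]
      · exact hasDerivAt_const s 1
      · exact hasDerivAt_const s 1
      · exact (((hasDerivAt_bump _).comp s ((hasDerivAt_id s).div_const _)).const_mul
          (τ k / (Piece.exc J g k).len j)).congr_deriv (by simp only [id_eq]; ring)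
  | out J =>
      rcases (by decide : ∀ J : Fin 3, J = 0 ∨ J = 1 ∨ J = 2) J with rfl | rfl | rfl
      · exact hasDerivAt_const s _
      · have := (hT 0).1
        simpa [Piece.raw, Piece.rawD, r0, hvec] using this
      · have := (hT 2).2
        simp only [Piece.raw, Piece.rawD]
        simp only [show (2 : Fin 3) ≠ 0 from by decide, show (2 : Fin 3) ≠ 1 from by decide,
          if_false]
        refine this.congr_deriv ?_
        simp [rotW, hvec]
  | back J =>
      rcases (by decide : ∀ J : Fin 3, J = 0 ∨ J = 1 ∨ J = 2) J with rfl | rfl | rfl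
      · exact hasDerivAt_const s _
      · have := (hT 0).2
        simp only [Piece.raw, Piece.rawD, r0] at this ⊢
        simp only [show (1 : Fin 3) ≠ 0 from by decide, if_false, if_true]
        refine this.congr_deriv ?_
        simp [hvec]
      · have := (hT 2).1
        simp only [Piece.raw, Piece.rawD]
        simp only [show (2 : Fin 3) ≠ 0 from by decide, show (2 : Fin 3) ≠ 1 from by decide,
          if_false]
        refine this.congr_deriv ?_
        simp [rotW, hvec]

theorem rotW_apply_mem (n : Fin 3) (w : Fin 3 → ℝ) {C : ℝ} (h : ∀ i, |w i| ≤ C) (i : Fin 3) :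
    |rotW n w i| ≤ C := h _

theorem Piece.exists_rawD_bound :
    ∃ C : ℝ, 0 ≤ C ∧ ∀ (P : Piece) (j : ℕ) (τ : ℕ → ℝ) (R : ℝ), (∀ k, |τ k| ≤ R) →
      ∀ s i, |P.rawD j τ s i| ≤ C * (1 + R) / ((j : ℝ) + 1) ^ 5 := by
  obtain ⟨M, hM, hd⟩ := exists_abs_sTd_le
  refine ⟨12 * M, by positivity, fun P j τ R hτ s i => ?_⟩
  have hR : 0 ≤ R := (abs_nonneg _).trans (hτ 0)
  set L := ((j : ℝ) + 1) ^ 5 with hLdef
  have hL1 : 1 ≤ L := one_le_pow₀ (by linarith [(Nat.cast_nonneg j : (0 : ℝ) ≤ j)])
  have hL : 0 < L := zero_lt_one.trans_le hL1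
  have h0 : 0 ≤ 12 * M * (1 + R) / L := by positivity
  have hbD : ∀ x, |bumpD x| ≤ 12 * M := by
    intro x
    unfold bumpD
    refine (abs_sub _ _).trans ?_
    have h1 := mul_le_mul (hd (6 * x - 3 / 2)) (Real.smoothTransition.le_one (9 / 2 - 6 * x))
      (Real.smoothTransition.nonneg _) hM
    have h2 := mul_le_mul (Real.smoothTransition.le_one (6 * x - 3 / 2)) (hd (9 / 2 - 6 * x))
      (abs_nonneg _) zero_le_one
    simp only [abs_mul, abs_of_nonneg (Real.smoothTransition.nonneg _), Nat.abs_ofNat]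
    linarith
  have h4 : ∀ x, |4 * sTd x / L| ≤ 12 * M * (1 + R) / L := fun x => by
    rw [abs_div, abs_of_pos hL, abs_mul, Nat.abs_ofNat]
    refine div_le_div_of_nonneg_right ?_ hL.le
    nlinarith [hd x, mul_nonneg hM hR]
  have hvec : ∀ (x y : ℝ) k, |![-(4 * sTd x) / L, 0, 4 * sTd y / L] k| ≤ 12 * M * (1 + R) / L := by
    intro x y k
    fin_cases k <;> simp [neg_div, abs_neg, h0, h4]
  have hneg : ∀ (x y : ℝ) k, |(-![-(4 * sTd x) / L, 0, 4 * sTd y / L]) k| ≤ 12 * M * (1 + R) / L :=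
    fun x y k => by rw [Pi.neg_apply, abs_neg]; exact hvec x y k
  cases P with
  | wait J q => simpa [Piece.rawD] using h0
  | ins f k => simpa [Piece.rawD] using h0
  | exc J g k =>
      show |rotW J ![0, 0, τ k / (Piece.exc J g k).len j *
        (bumpD (s / (Piece.exc J g k).len j) / (Piece.exc J g k).len j)] i| ≤ _
      refine rotW_apply_mem J _ (fun m => ?_) i
      fin_cases m <;> simp [h0]
      rw [abs_div, abs_div, show (Piece.exc J g k).len j = L from rfl, abs_of_pos hL,
        div_mul_div_comm]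
      calc |τ k| * |bumpD (s / L)| / (L * L) ≤ R * (12 * M) / (L * L) := by
            gcongr; exacts [hτ k, hbD _]
        _ ≤ R * (12 * M) / L := by gcongr; exact le_mul_of_one_le_right hL.le hL1
        _ ≤ _ := div_le_div_of_nonneg_right (by nlinarith [mul_nonneg hM hR]) hL.le
  | out J =>
      rcases (by decide : ∀ J : Fin 3, J = 0 ∨ J = 1 ∨ J = 2) J with rfl | rfl | rfl
      · simpa [Piece.rawD] using h0
      · simpa [Piece.rawD, Piece.len, Piece.power] using hvec _ _ i
      · show |rotW 2 (-![-(4 * sTd (4 * (1 - s / L) - 2)) / L, 0,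
          4 * sTd (4 * (1 - s / L) - 1) / L]) i| ≤ _
        exact rotW_apply_mem 2 _ (hneg _ _) i
  | back J =>
      rcases (by decide : ∀ J : Fin 3, J = 0 ∨ J = 1 ∨ J = 2) J with rfl | rfl | rfl
      · simpa [Piece.rawD] using h0
      · show |(-![-(4 * sTd (4 * (1 - s / L) - 2)) / L, 0,
          4 * sTd (4 * (1 - s / L) - 1) / L]) i| ≤ _
        exact hneg _ _ i
      · simpa [Piece.rawD, Piece.len, Piece.power, rotW] using hvec _ _ (i - 2)

theorem Piece.wide (P : Piece) (j : ℕ) {τ : ℕ → ℝ} {R : ℝ} (hτ : ∀ k, |τ k| ≤ R)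
    (hj : 20 * R ≤ ((j : ℝ) + 1) ^ 5) (s : ℝ) : Wide (P.raw j τ s) := by
  have h00 : ∀ n : Fin 3, Wide (rotW n (rawExc 0)) := fun n =>
    wide_rot_exc n (by norm_num) (by norm_num)
  have r0 : ∀ w : Fin 3 → ℝ, rotW 0 w = w := fun w => by funext i; simp [rotW]
  cases P with
  | wait J q => exact h00 J
  | ins f k => simpa [Piece.raw, r0] using h00 0
  | exc J g k =>
      have hL : 0 < ((j : ℝ) + 1) ^ 5 := by positivity
      have h : |τ k / (Piece.exc J g k).len j * bump (s / (Piece.exc J g k).len j)| ≤ 1 / 20 := by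
        rw [show (Piece.exc J g k).len j = ((j : ℝ) + 1) ^ 5 from rfl, abs_mul, abs_div,
          abs_of_pos hL]
        refine le_trans (mul_le_of_le_one_right (by positivity) (abs_bump_le _)) ?_
        rw [div_le_iff₀ hL]
        linarith [hτ k]
      rw [abs_le] at h
      exact wide_rot_exc J h.1 (by linarith)
  | out J =>
      rcases (by decide : ∀ J : Fin 3, J = 0 ∨ J = 1 ∨ J = 2) J with rfl | rfl | rfl
      · simpa [Piece.raw, r0] using h00 0
      · simpa [Piece.raw, r0] using wide_rot_transit 0 _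
      · simpa [Piece.raw] using wide_rot_transit 2 _
  | back J =>
      rcases (by decide : ∀ J : Fin 3, J = 0 ∨ J = 1 ∨ J = 2) J with rfl | rfl | rfl
      · simpa [Piece.raw, r0] using h00 0
      · simpa [Piece.raw, r0] using wide_rot_transit 0 _
      · simpa [Piece.raw] using wide_rot_transit 2 _

/-! ### Eigenvalues along a piece -/

/-- Drift of the radial equation. -/
def cDrift (κ t : ℝ) : ℝ := 5 + vFun κ t

/-- Quasi-static slope at junction `J`; a function of the level at `J`. -/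
def refSlope (κ : ℝ) (J : Fin 3) (t : ℝ) (i : St) : ℝ :=
  Ode.alphaFn (cDrift κ t) (Blk.lam (wNorm (dFun κ t) (rotW J (rawExc 0))) i.blk)

/-- Eigenvalue of a state along a piece which starts at `a`. -/
def pieceLam (κ : ℝ) (P : Piece) (j : ℕ) (τ : ℕ → ℝ) (a : ℝ) (i : St) (t : ℝ) : ℝ :=
  Blk.lam (wNorm (dFun κ t) (P.raw j τ (t - a))) i.blk

theorem refSlope_level (κ : ℝ) (J : Fin 3) (t : ℝ) {i i' : St}
    (h : i.blk.level J = i'.blk.level J) : refSlope κ J t i = refSlope κ J t i' := by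
  have e1 : (-1 : Fin 3) = 2 := rfl
  have e2 : (-2 : Fin 3) = 1 := rfl
  unfold refSlope
  congr 1
  have h1 := congrArg Prod.fst h
  have h2 := congrArg Prod.snd h
  fin_cases J <;> simp [Blk.level, Blk.la, Blk.lb, Blk.lc] at h1 h2 <;>
    simp [Blk.lam, wNorm, rotW, rawExc, Blk.la, Blk.lb, Blk.lc, h1, h2, e1, e2]

theorem pieceLam_start (κ : ℝ) (P : Piece) (j : ℕ) (τ : ℕ → ℝ) (a : ℝ) (i : St) :
    pieceLam κ P j τ a i a = Blk.lam (wNorm (dFun κ a) (rotW P.src (rawExc 0))) i.blk := by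
  rw [pieceLam, Piece.raw_start P j τ (by have := P.len_pos j; linarith)]

theorem pieceLam_end (κ : ℝ) (P : Piece) (j : ℕ) (τ : ℕ → ℝ) (a : ℝ) (i : St) :
    pieceLam κ P j τ a i (a + P.len j)
      = Blk.lam (wNorm (dFun κ (a + P.len j)) (rotW P.dst (rawExc 0))) i.blk := by
  rw [pieceLam, Piece.raw_end P j τ (by have := P.len_pos j; linarith)]

/-- A smooth map to `[a/2, ∞)` which is the identity on `[a, ∞)`. -/
def clampT (a t : ℝ) : ℝ :=
  Real.smoothTransition (2 * (t / a) - 1) * (t - a / 2) + a / 2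

/-- Derivative of `clampT`. -/
def clampD (a t : ℝ) : ℝ :=
  sTd (2 * (t / a) - 1) * (2 / a) * (t - a / 2) + Real.smoothTransition (2 * (t / a) - 1)

theorem hasDerivAt_clampT (a t : ℝ) : HasDerivAt (clampT a) (clampD a t) t := by
  have h1 : HasDerivAt (fun r => 2 * (r / a) - 1) (2 / a) t :=
    ((((hasDerivAt_id t).div_const a).const_mul 2).sub_const 1).congr_deriv (by ring)
  exact ((((hasDerivAt_sT _).comp t h1).mul ((hasDerivAt_id t).sub_const (a / 2))).add_const
    (a / 2)).congr_deriv (by simp [clampD])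

theorem half_le_clampT {a : ℝ} (ha : 0 < a) (t : ℝ) : a / 2 ≤ clampT a t := by
  unfold clampT
  rcases le_total t (a / 2) with h | h
  · have : 2 * (t / a) - 1 ≤ 0 := by
      rw [sub_nonpos, ← mul_div_assoc, div_le_one ha]; linarith
    rw [Real.smoothTransition.zero_of_nonpos this]
    simp
  · nlinarith [Real.smoothTransition.nonneg (2 * (t / a) - 1)]

theorem clampT_of_ge {a t : ℝ} (ha : 0 < a) (h : a ≤ t) : clampT a t = t ∧ clampD a t = 1 := by
  have h1 : 1 ≤ 2 * (t / a) - 1 := by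
    have : 1 ≤ t / a := (one_le_div ha).2 h
    linarith
  have h0 : sTd (2 * (t / a) - 1) = 0 := by
    rcases eq_or_lt_of_le h1 with he | hl
    · have hm : IsLocalMax Real.smoothTransition (2 * (t / a) - 1) :=
        Filter.Eventually.of_forall fun y => by
          rw [Real.smoothTransition.one_of_one_le h1]; exact Real.smoothTransition.le_one y
      exact hm.deriv_eq_zero
    · exact ((hasDerivAt_const _ (1 : ℝ)).congr_of_eventuallyEq
        (eventually_of_mem (Ioi_mem_nhds hl) fun y hy =>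
          Real.smoothTransition.one_of_one_le (le_of_lt hy))).deriv
  simp [clampT, clampD, h0, Real.smoothTransition.one_of_one_le h1]

theorem continuous_clampT (a : ℝ) : Continuous (clampT a) :=
  continuous_iff_continuousAt.2 fun t => (hasDerivAt_clampT a t).continuousAt

theorem continuous_clampD (a : ℝ) : Continuous (clampD a) := by
  have h1 : Continuous fun t => sTd (2 * (t / a) - 1) := continuous_sTd.comp (by fun_prop)
  have h2 : Continuous fun t => Real.smoothTransition (2 * (t / a) - 1) :=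
    Real.smoothTransition.continuous.comp (by fun_prop)
  exact ((h1.mul continuous_const).mul (continuous_id.sub continuous_const)).add h2

/-- Derivative of `vFun`. -/
def vFunD (κ t : ℝ) : ℝ := 27 / 128 * κ * t ^ (-(17 / 8) : ℝ)

theorem hasDerivAt_vFun (κ : ℝ) {t : ℝ} (ht : 0 < t) : HasDerivAt (vFun κ) (vFunD κ t) t := by
  refine ((Real.hasDerivAt_rpow_const (p := (-(9 / 8) : ℝ)) (Or.inl ht.ne')).const_mul
    (-(3 / 16) * κ)).congr_deriv ?_
  rw [vFunD, show (-(9 / 8) - 1 : ℝ) = -(17 / 8) by norm_num]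
  ring

theorem hasDerivAt_dFun (κ : ℝ) {t : ℝ} (ht : 0 < t) :
    HasDerivAt (dFun κ) (2 / 3 * vFun κ t * dFun κ t) t := by
  refine (((Real.hasDerivAt_rpow_const (p := (-(1 / 8) : ℝ)) (Or.inl ht.ne')).const_mul κ).exp
    |>.const_mul dMin).congr_deriv ?_
  rw [vFun, dFun, show (-(1 / 8) - 1 : ℝ) = -(9 / 8) by norm_num]
  ring

theorem dFun_pos (κ t : ℝ) : 0 < dFun κ t := mul_pos (by norm_num [dMin]) (Real.exp_pos _)

theorem abs_vFun_le {κ L t : ℝ} (hκ : 0 ≤ κ) (hL : 1 ≤ L) (ht : L ≤ t) :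
    |vFun κ t| ≤ κ / L ∧ |vFunD κ t| ≤ κ / L := by
  have ht1 : 1 ≤ t := hL.trans ht
  have hL0 : 0 < L := zero_lt_one.trans_le hL
  have key : ∀ p : ℝ, 1 ≤ p → t ^ (-p) ≤ 1 / L := fun p hp => by
    calc t ^ (-p) ≤ t ^ (-1 : ℝ) := Real.rpow_le_rpow_of_exponent_le ht1 (by linarith)
      _ = 1 / t := by rw [Real.rpow_neg_one, one_div]
      _ ≤ 1 / L := by gcongr
  have h1 := key (9 / 8) (by norm_num)
  have h2 := key (17 / 8) (by norm_num)
  have ht0 : 0 ≤ t := zero_le_one.trans ht1
  have e : κ / L = κ * (1 / L) := by ring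
  rw [vFun, vFunD, e]
  constructor
  · rw [abs_mul, abs_mul, abs_of_nonneg hκ, abs_of_nonneg (Real.rpow_nonneg ht0 _)]
    calc |(-(3 / 16) : ℝ)| * κ * t ^ (-(9 / 8) : ℝ) ≤ 1 * κ * t ^ (-(9 / 8) : ℝ) := by
          gcongr; norm_num [abs_le]
      _ ≤ κ * (1 / L) := by rw [one_mul]; gcongr
  · rw [abs_mul, abs_mul, abs_of_nonneg hκ, abs_of_nonneg (Real.rpow_nonneg ht0 _)]
    calc |(27 / 128 : ℝ)| * κ * t ^ (-(17 / 8) : ℝ) ≤ 1 * κ * t ^ (-(17 / 8) : ℝ) := by
          gcongr; norm_num [abs_le]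
      _ ≤ κ * (1 / L) := by rw [one_mul]; gcongr

theorem Wide.lam_nonneg {w : Fin 3 → ℝ} (hw : Wide w) (V : Blk) : 0 ≤ Blk.lam w V := by
  linarith [hw.lam V, cas_nonneg V.la, cas_nonneg V.lb, cas_nonneg V.lc]

theorem Wide.wdet_le {w : Fin 3 → ℝ} (hw : Wide w) : wdet w ≤ 12 := by
  have h : ∀ i k : Fin 3, w i * w k ≤ 4 := fun i k => by
    have h1 := abs_mul (w i) (w k)
    have h2 := mul_le_mul (hw.le_two i) (hw.le_two k) (abs_nonneg _) (by norm_num)
    linarith [le_abs_self (w i * w k)]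
  unfold wdet
  linarith [h 0 1, h 0 2, h 1 2]

theorem sq_mu_sub_one_le (V : Blk) :
    (V.mu - 1) ^ 2 ≤ 3 * (Blk.cas V.la + Blk.cas V.lb + Blk.cas V.lc) := by
  have ha : (0 : ℝ) ≤ V.la := Nat.cast_nonneg _
  have hb : (0 : ℝ) ≤ V.lb := Nat.cast_nonneg _
  have hc : (0 : ℝ) ≤ V.lc := Nat.cast_nonneg _
  simp only [Blk.mu, Blk.cas]
  nlinarith [sq_nonneg ((V.la : ℝ) - V.lb), sq_nonneg ((V.la : ℝ) - V.lc),
    sq_nonneg ((V.lb : ℝ) - V.lc)]

/-- The derivative of `pieceLam`. -/
theorem hasDerivAt_pieceLam (κ : ℝ) (P : Piece) (j : ℕ) (τ : ℕ → ℝ) (a : ℝ) (i : St) {t : ℝ}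
    (ht : 0 < t) (hw : Wide (P.raw j τ (t - a))) :
    HasDerivAt (pieceLam κ P j τ a i)
      (Real.sqrt (1 / (dFun κ t * wdet (P.raw j τ (t - a)))) *
        ((-(1 / 2)) * (2 / 3 * vFun κ t +
            (P.rawD j τ (t - a) 0 * P.raw j τ (t - a) 1 + P.raw j τ (t - a) 0 * P.rawD j τ (t - a) 1
              + (P.rawD j τ (t - a) 0 * P.raw j τ (t - a) 2
                + P.raw j τ (t - a) 0 * P.rawD j τ (t - a) 2)
              + (P.rawD j τ (t - a) 1 * P.raw j τ (t - a) 2
                + P.raw j τ (t - a) 1 * P.rawD j τ (t - a) 2))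
              / wdet (P.raw j τ (t - a))) * Blk.lam (P.raw j τ (t - a)) i.blk
          + Blk.lam (P.rawD j τ (t - a)) i.blk)) t := by
  set w : ℝ → Fin 3 → ℝ := fun r => P.raw j τ (r - a)
  set w' := P.rawD j τ (t - a)
  have hwd : ∀ k, HasDerivAt (fun r => w r k) (w' k) t := fun k => by
    have h := (P.hasDerivAt_raw j τ (t - a) k).comp_sub_const t a
    simpa [w, w'] using h
  set W' := w' 0 * w t 1 + w t 0 * w' 1 + (w' 0 * w t 2 + w t 0 * w' 2)
    + (w' 1 * w t 2 + w t 1 * w' 2) with hW'def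
  have hW : HasDerivAt (fun r => wdet (w r)) W' t :=
    (((hwd 0).mul (hwd 1)).add ((hwd 0).mul (hwd 2))).add ((hwd 1).mul (hwd 2))
  set lw := w' 0 * Blk.cas i.blk.la + w' 1 * Blk.cas i.blk.lb + w' 2 * Blk.cas i.blk.lc
  have hL : HasDerivAt (fun r => Blk.lam (w r) i.blk) lw t :=
    (((hwd 0).mul_const _).add ((hwd 1).mul_const _)).add ((hwd 2).mul_const _)
  have hd := dFun_pos κ t
  have hdet : 0 < wdet (w t) := lt_of_lt_of_le (by norm_num) hw.det
  set X := 1 / (dFun κ t * wdet (w t))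
  have hX : 0 < X := by positivity
  have hS : HasDerivAt (fun r => Real.sqrt (1 / (dFun κ r * wdet (w r))))
      (-(1 / 2) * Real.sqrt X * (2 / 3 * vFun κ t + W' / wdet (w t))) t := by
    have h1 : HasDerivAt (fun r => 1 / (dFun κ r * wdet (w r)))
        (-(2 / 3 * vFun κ t * dFun κ t * wdet (w t) + dFun κ t * W')
          / (dFun κ t * wdet (w t)) ^ 2) t := by
      simp only [one_div]
      exact ((hasDerivAt_dFun κ ht).mul hW).inv (mul_pos hd hdet).ne'
    refine (h1.sqrt hX.ne').congr_deriv ?_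
    have hsq : Real.sqrt X ^ 2 * (dFun κ t * wdet (w t)) = 1 := by
      rw [Real.sq_sqrt hX.le]; simp only [X]; field_simp
    have hne : Real.sqrt X ≠ 0 := (Real.sqrt_pos.2 hX).ne'
    show _ / (2 * Real.sqrt X) = _
    field_simp
    linear_combination (3 * W' + 2 * vFun κ t * wdet (w t)) * hsq
  have hfun : pieceLam κ P j τ a i
      = fun r => Real.sqrt (1 / (dFun κ r * wdet (w r))) * Blk.lam (w r) i.blk :=
    funext fun r => lam_wNorm _ _ _
  rw [hfun]
  refine (hS.mul hL).congr_deriv ?_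
  show _ + _ * lw = Real.sqrt X * (_ + lw)
  simp only [W', X, w, w']
  ring

/-- Data of a piece: the eigenvalue, its derivative and their bounds. -/
theorem pieceLam_facts {κ : ℝ} {P : Piece} {j : ℕ} {τ : ℕ → ℝ} {a t D : ℝ} (i : St) (ht : 0 < t)
    (hw : Wide (P.raw j τ (t - a))) (hD : ∀ k, |P.rawD j τ (t - a) k| ≤ D) :
    0 ≤ pieceLam κ P j τ a i t ∧
    ∃ l' : ℝ, HasDerivAt (pieceLam κ P j τ a i) l' t ∧
      |l'| ≤ (|vFun κ t| + 40 * D) * pieceLam κ P j τ a i t := by
  have hlam := hw.lam_nonneg i.blk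
  refine ⟨?_, ?_⟩
  · rw [pieceLam, lam_wNorm]
    positivity
  set w : ℝ → Fin 3 → ℝ := fun r => P.raw j τ (r - a)
  set w' := P.rawD j τ (t - a)
  have hwd : ∀ k, HasDerivAt (fun r => w r k) (w' k) t := fun k => by
    have h := (P.hasDerivAt_raw j τ (t - a) k).comp_sub_const t a
    simpa [w, w'] using h
  set W' := w' 0 * w t 1 + w t 0 * w' 1 + (w' 0 * w t 2 + w t 0 * w' 2)
    + (w' 1 * w t 2 + w t 1 * w' 2) with hW'def
  have hW : HasDerivAt (fun r => wdet (w r)) W' t :=
    (((hwd 0).mul (hwd 1)).add ((hwd 0).mul (hwd 2))).add ((hwd 1).mul (hwd 2))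
  set lw := w' 0 * Blk.cas i.blk.la + w' 1 * Blk.cas i.blk.lb + w' 2 * Blk.cas i.blk.lc
  have hL : HasDerivAt (fun r => Blk.lam (w r) i.blk) lw t :=
    (((hwd 0).mul_const _).add ((hwd 1).mul_const _)).add ((hwd 2).mul_const _)
  have hd := dFun_pos κ t
  have hdet : 0 < wdet (w t) := lt_of_lt_of_le (by norm_num) hw.det
  set X := 1 / (dFun κ t * wdet (w t))
  have hX : 0 < X := by positivity
  have hS : HasDerivAt (fun r => Real.sqrt (1 / (dFun κ r * wdet (w r))))
      (-(1 / 2) * Real.sqrt X * (2 / 3 * vFun κ t + W' / wdet (w t))) t := by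
    have h1 : HasDerivAt (fun r => 1 / (dFun κ r * wdet (w r)))
        (-(2 / 3 * vFun κ t * dFun κ t * wdet (w t) + dFun κ t * W')
          / (dFun κ t * wdet (w t)) ^ 2) t := by
      simp only [one_div]
      exact ((hasDerivAt_dFun κ ht).mul hW).inv (mul_pos hd hdet).ne'
    refine (h1.sqrt hX.ne').congr_deriv ?_
    have hsq : Real.sqrt X ^ 2 * (dFun κ t * wdet (w t)) = 1 := by
      rw [Real.sq_sqrt hX.le]; simp only [X]; field_simp
    have hne : Real.sqrt X ≠ 0 := (Real.sqrt_pos.2 hX).ne'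
    show _ / (2 * Real.sqrt X) = _
    field_simp
    linear_combination (3 * W' + 2 * vFun κ t * wdet (w t)) * hsq
  have hfun : pieceLam κ P j τ a i
      = fun r => Real.sqrt (1 / (dFun κ r * wdet (w r))) * Blk.lam (w r) i.blk :=
    funext fun r => lam_wNorm _ _ _
  rw [hfun]
  refine ⟨_, hS.mul hL, ?_⟩
  have hD0 : 0 ≤ D := (abs_nonneg _).trans (hD 0)
  have hm : ∀ k m : Fin 3, |w' k * w t m| ≤ 2 * D := fun k m => by
    rw [abs_mul, mul_comm 2 D]
    exact mul_le_mul (hD k) (hw.le_two m) (abs_nonneg _) hD0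
  have hm' : ∀ k m : Fin 3, |w t m * w' k| ≤ 2 * D := fun k m => by rw [mul_comm]; exact hm k m
  have hW' : |W' / wdet (w t)| ≤ 24 * D := by
    rw [abs_div, abs_of_pos hdet, div_le_iff₀ hdet]
    have h6 : |W'| ≤ 12 * D := by
      have := abs_le.1 (hm 0 1); have := abs_le.1 (hm' 1 0); have := abs_le.1 (hm 0 2)
      have := abs_le.1 (hm' 2 0); have := abs_le.1 (hm 1 2); have := abs_le.1 (hm' 2 1)
      rw [abs_le, hW'def]
      constructor <;> linarith
    nlinarith [hw.det]
  have hlw : |lw| ≤ 8 * D * Blk.lam (w t) i.blk := by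
    have h : |lw| ≤ D * (Blk.cas i.blk.la + Blk.cas i.blk.lb + Blk.cas i.blk.lc) := by
      refine (abs_add_three _ _ _).trans ?_
      rw [abs_mul, abs_mul, abs_mul, abs_of_nonneg (cas_nonneg _), abs_of_nonneg (cas_nonneg _),
        abs_of_nonneg (cas_nonneg _)]
      nlinarith [mul_le_mul_of_nonneg_right (hD 0) (cas_nonneg i.blk.la),
        mul_le_mul_of_nonneg_right (hD 1) (cas_nonneg i.blk.lb),
        mul_le_mul_of_nonneg_right (hD 2) (cas_nonneg i.blk.lc)]
    nlinarith [mul_le_mul_of_nonneg_left (hw.lam i.blk) hD0]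
  have hrel : |-(1 / 2 : ℝ) * (2 / 3 * vFun κ t + W' / wdet (w t))| ≤ |vFun κ t| + 12 * D := by
    rw [abs_mul]
    norm_num
    linarith [abs_add_le (2 / 3 * vFun κ t) (W' / wdet (w t)), abs_mul (2 / 3 : ℝ) (vFun κ t),
      abs_of_pos (by norm_num : (0 : ℝ) < 2 / 3), abs_nonneg (vFun κ t)]
  have hsX := Real.sqrt_nonneg X
  set Z := Real.sqrt (1 / (dFun κ t * wdet (w t))) * Blk.lam (w t) i.blk
  have e : -(1 / 2) * Real.sqrt X * (2 / 3 * vFun κ t + W' / wdet (w t)) * Blk.lam (w t) i.blk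
      = (-(1 / 2) * (2 / 3 * vFun κ t + W' / wdet (w t))) * Z := by
    simp only [Z, X]; ring
  refine (abs_add_le _ _).trans ?_
  have hZ : 0 ≤ Z := mul_nonneg (Real.sqrt_nonneg _) (hw.lam_nonneg i.blk)
  rw [e, abs_mul, abs_mul (Real.sqrt _) lw, abs_of_nonneg (Real.sqrt_nonneg _), abs_of_nonneg hZ]
  calc _ ≤ (|vFun κ t| + 12 * D) * Z
        + Real.sqrt (1 / (dFun κ t * wdet (w t))) * (8 * D * Blk.lam (w t) i.blk) :=
        add_le_add (mul_le_mul_of_nonneg_right hrel (mul_nonneg (Real.sqrt_nonneg _) hlam))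
          (mul_le_mul_of_nonneg_left hlw (Real.sqrt_nonneg _))
    _ = (|vFun κ t| + 20 * D) * Z := by simp only [Z]; ring
    _ ≤ (|vFun κ t| + 40 * D) * Z :=
        mul_le_mul_of_nonneg_right (by linarith) (mul_nonneg (Real.sqrt_nonneg _) hlam)

theorem continuous_rawD (P : Piece) (j : ℕ) (τ : ℕ → ℝ) (k : Fin 3) :
    Continuous fun s => P.rawD j τ s k := by
  have hb : Continuous bumpD := by
    unfold bumpD
    have hT : Continuous Real.smoothTransition := Real.smoothTransition.continuous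
    have hd := continuous_sTd
    fun_prop
  have hd := continuous_sTd
  have hv : ∀ (f : ℝ → ℝ), Continuous f → ∀ m : Fin 3,
      Continuous fun s => (![-(4 * sTd (4 * f s - 2)) / P.len j, 0,
        4 * sTd (4 * f s - 1) / P.len j] m) := by
    intro f hf m
    fin_cases m <;> simp <;> fun_prop
  have hf1 : Continuous fun s : ℝ => s / P.len j := by fun_prop
  have hf2 : Continuous fun s : ℝ => 1 - s / P.len j := by fun_prop
  cases P with
  | wait J q => exact continuous_const
  | ins f k' => exact continuous_const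
  | exc J g k' =>
      simp only [Piece.rawD, rotW]
      generalize k - J = m
      fin_cases m <;> simp <;> fun_prop
  | out J =>
      rcases (by decide : ∀ J : Fin 3, J = 0 ∨ J = 1 ∨ J = 2) J with rfl | rfl | rfl
      · exact continuous_const
      · simpa [Piece.rawD] using hv _ hf1 k
      · exact (hv _ hf2 (k - 2)).neg
  | back J =>
      rcases (by decide : ∀ J : Fin 3, J = 0 ∨ J = 1 ∨ J = 2) J with rfl | rfl | rfl
      · exact continuous_const
      · exact (hv _ hf2 k).neg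
      · simpa [Piece.rawD, rotW] using hv _ hf1 (k - 2)

theorem cas_eq_zero_of_mu_eq_one {V : Blk} (h : V.mu = 1) :
    Blk.cas V.la = 0 ∧ Blk.cas V.lb = 0 ∧ Blk.cas V.lc = 0 := by
  have ha : (0 : ℝ) ≤ V.la := Nat.cast_nonneg _
  have hb : (0 : ℝ) ≤ V.lb := Nat.cast_nonneg _
  have hc : (0 : ℝ) ≤ V.lc := Nat.cast_nonneg _
  simp only [Blk.mu] at h
  have a0 : (V.la : ℝ) = 0 := by linarith
  have b0 : (V.lb : ℝ) = 0 := by linarith
  have c0 : (V.lc : ℝ) = 0 := by linarith
  simp [Blk.cas, a0, b0, c0]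

/-- The drift on a piece which starts at `a`, continued constantly to the far left. -/
def cPiece (κ a t : ℝ) : ℝ := cDrift κ (clampT a t)

theorem cPiece_of_ge (κ : ℝ) {a t : ℝ} (ha : 0 < a) (h : a ≤ t) : cPiece κ a t = cDrift κ t := by
  rw [cPiece, (clampT_of_ge ha h).1]

/-- Slopes of a piece, with uniform constants.  For all large `j`, a piece which starts at
`a ≥ 2 (j+1)^5` and has amplitudes `≤ R` has, for every left datum within `C/(j+1)^5` of the
reference slope, slopes solving the Riccati equation and within `3 C/(j+1)^5` of the quasi-static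
ones; with right reference equally close to `refSlope` at the target junction this is a slope
family. -/
theorem Piece.exists_slopes (κ R D₀ : ℝ) (hκ : 0 ≤ κ) :
    ∃ (N : ℕ) (C : ℝ), D₀ ≤ C ∧ ∀ (P : Piece) (j : ℕ) (τ : ℕ → ℝ) (a : ℝ), N ≤ j →
      (∀ k, |τ k| ≤ R) → 2 * ((j : ℝ) + 1) ^ 5 ≤ a →
      ∀ y₀ ρ : St → ℝ, (∀ i : St, i.blk.mu = 1 → y₀ i = 0) →
        (∀ i, |y₀ i - refSlope κ P.src a i| ≤ C / ((j : ℝ) + 1) ^ 5) →
        (∀ i, |ρ i - refSlope κ P.dst (a + P.len j) i| ≤ C / ((j : ℝ) + 1) ^ 5) →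
        ∃ z : St → ℝ → ℝ, (∀ i, z i a = y₀ i) ∧
          (∀ i, ∀ t ∈ Icc a (a + P.len j),
            |z i t - Ode.alphaFn (cDrift κ t) (pieceLam κ P j τ a i t)|
              ≤ 3 * C / ((j : ℝ) + 1) ^ 5) ∧
          (∀ i, ∀ t ∈ Icc a (a + P.len j), ∃ z', HasDerivAt (z i) z' t ∧
            z' + z i t ^ 2 + cDrift κ t * z i t = pieceLam κ P j τ a i t) ∧
          SlopeFam a (a + P.len j) (cPiece κ a) z ρ (1 / 10)
            (4 * C / ((j : ℝ) + 1) ^ 5) := by
  obtain ⟨C₀, hC₀, hraw⟩ := Piece.exists_rawD_bound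
  set Rp := max R 0 with hRp
  set C := max (max D₀ 0) (2 * κ + 40 * C₀ * (1 + Rp)) with hCdef
  have hC : 0 ≤ C := le_trans (le_max_right _ _) (le_max_left _ _)
  obtain ⟨N, hN⟩ := exists_nat_ge (max (max (20 * Rp) (3000 * C)) (κ ^ 8))
  refine ⟨N, C, le_trans (le_max_left _ _) (le_max_left _ _), fun P j τ a hj hτ ha y₀ ρ hy0 hy hρ => ?_⟩
  have hj1 : (1 : ℝ) ≤ (j : ℝ) + 1 := by linarith [(Nat.cast_nonneg j : (0 : ℝ) ≤ j)]
  set L := ((j : ℝ) + 1) ^ 5 with hLdef
  have hL1 : 1 ≤ L := one_le_pow₀ hj1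
  have hL0 : 0 < L := zero_lt_one.trans_le hL1
  have hNL : max (max (20 * Rp) (3000 * C)) (κ ^ 8) ≤ L := by
    refine hN.trans (le_trans ?_ (le_self_pow₀ hj1 (by norm_num)))
    have : (N : ℝ) ≤ j := by exact_mod_cast hj
    linarith
  simp only [max_le_iff] at hNL
  obtain ⟨⟨hN1, hN2⟩, hN3⟩ := hNL
  set η := C / L with hη
  have hη0 : 0 ≤ η := div_nonneg hC hL0.le
  have hηs : η ≤ 1 / 3000 := by rw [hη, div_le_iff₀ hL0]; linarith
  have ha0 : 0 < a := by linarith
  have hψ : ∀ t, L ≤ clampT a t := fun t => le_trans (by linarith) (half_le_clampT ha0 t)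
  have hψ0 : ∀ t, 0 < clampT a t := fun t => hL0.trans_le (hψ t)
  have hτ' : ∀ k, |τ k| ≤ Rp := fun k => (hτ k).trans (le_max_left _ _)
  have hwide : ∀ s, Wide (P.raw j τ s) := fun s => P.wide j hτ' hN1 s
  set D := C₀ * (1 + Rp) / L with hDdef
  have hrawD : ∀ s k, |P.rawD j τ s k| ≤ D := fun s k => hraw P j τ Rp hτ' s k
  have hv : ∀ t, |vFun κ (clampT a t)| ≤ κ / L ∧ |vFunD κ (clampT a t)| ≤ κ / L := fun t =>
    abs_vFun_le hκ hL1 (hψ t)
  have hκη : κ / L ≤ η := by
    refine div_le_div_of_nonneg_right ?_ hL0.le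
    nlinarith [le_max_right (max D₀ 0) (2 * κ + 40 * C₀ * (1 + Rp)),
      mul_nonneg hC₀ (by positivity : (0 : ℝ) ≤ 1 + Rp)]
  have hbig : κ / L + 40 * D ≤ η := by
    rw [hη, hDdef, ← mul_div_assoc, ← add_div]
    refine div_le_div_of_nonneg_right ?_ hL0.le
    nlinarith [le_max_right (max D₀ 0) (2 * κ + 40 * C₀ * (1 + Rp))]
  -- extended data
  have hcl : ∀ t, HasDerivAt (cPiece κ a) (vFunD κ (clampT a t) * clampD a t) t := fun t =>
    (((hasDerivAt_vFun κ (hψ0 t)).comp t (hasDerivAt_clampT a t))).const_add 5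
  have hc' : Continuous fun t => vFunD κ (clampT a t) * clampD a t := by
    refine Continuous.mul ?_ (continuous_clampD a)
    exact continuous_const.mul ((continuous_clampT a).rpow_const fun t => Or.inl (hψ0 t).ne')
  have hfacts := fun i t => pieceLam_facts (κ := κ) (P := P) (j := j) (τ := τ) (a := a) i (hψ0 t)
    (hwide _) (hrawD _)
  choose hl0 lD hlD hlB using hfacts
  have hldiff : ∀ i t, HasDerivAt (fun r => pieceLam κ P j τ a i (clampT a r))
      (lD i t * clampD a t) t := fun i t => (hlD i t).comp t (hasDerivAt_clampT a t)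
  have hlam_cont : ∀ i, Continuous fun t => pieceLam κ P j τ a i (clampT a t) := fun i =>
    continuous_iff_continuousAt.2 fun t => (hldiff i t).continuousAt
  have hl'c : ∀ i, Continuous fun t => lD i t * clampD a t := by
    intro i
    refine Continuous.mul ?_ (continuous_clampD a)
    -- the derivative is given by an explicit continuous expression
    have hw : ∀ k, Continuous fun t => P.raw j τ (clampT a t - a) k := fun k =>
      (continuous_iff_continuousAt.2 fun s => (P.hasDerivAt_raw j τ s k).continuousAt).comp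
        ((continuous_clampT a).sub continuous_const)
    have hw' : ∀ k, Continuous fun t => P.rawD j τ (clampT a t - a) k := fun k =>
      (continuous_rawD P j τ k).comp ((continuous_clampT a).sub continuous_const)
    have hd : Continuous fun t => dFun κ (clampT a t) := by
      refine continuous_const.mul (Real.continuous_exp.comp ?_)
      exact continuous_const.mul ((continuous_clampT a).rpow_const fun t => Or.inl (hψ0 t).ne')
    have hvc : Continuous fun t => vFun κ (clampT a t) :=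
      continuous_const.mul ((continuous_clampT a).rpow_const fun t => Or.inl (hψ0 t).ne')
    have key : ∀ t, lD i t =
        (fun r => Real.sqrt (1 / (dFun κ r * wdet (P.raw j τ (r - a))))) (clampT a t) *
          ((-(1 / 2)) * (2 / 3 * vFun κ (clampT a t) +
            (P.rawD j τ (clampT a t - a) 0 * P.raw j τ (clampT a t - a) 1
              + P.raw j τ (clampT a t - a) 0 * P.rawD j τ (clampT a t - a) 1
              + (P.rawD j τ (clampT a t - a) 0 * P.raw j τ (clampT a t - a) 2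
                + P.raw j τ (clampT a t - a) 0 * P.rawD j τ (clampT a t - a) 2)
              + (P.rawD j τ (clampT a t - a) 1 * P.raw j τ (clampT a t - a) 2
                + P.raw j τ (clampT a t - a) 1 * P.rawD j τ (clampT a t - a) 2))
              / wdet (P.raw j τ (clampT a t - a))) * Blk.lam (P.raw j τ (clampT a t - a)) i.blk
          + Blk.lam (P.rawD j τ (clampT a t - a)) i.blk) := fun t => by
      refine (hlD i t).unique ?_
      exact hasDerivAt_pieceLam κ P j τ a i (hψ0 t) (hwide _)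
    rw [funext key]
    simp only [Blk.lam, wdet]
    have hden : ∀ t, (P.raw j τ (clampT a t - a) 0 * P.raw j τ (clampT a t - a) 1
        + P.raw j τ (clampT a t - a) 0 * P.raw j τ (clampT a t - a) 2
        + P.raw j τ (clampT a t - a) 1 * P.raw j τ (clampT a t - a) 2) ≠ 0 := fun t =>
      (lt_of_lt_of_le (by norm_num) (hwide (clampT a t - a)).det).ne'
    fun_prop (disch := intro t; first
      | exact hden t | exact (mul_ne_zero (dFun_pos _ _).ne' (hden t)))
  have hagree : ∀ t ∈ Icc a (a + P.len j), clampT a t = t ∧ clampD a t = 1 := fun t ht =>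
    clampT_of_ge ha0 ht.1
  have hlenpos := P.len_pos j
  have hlow : ∀ i : St, ∀ t ∈ Icc a (a + P.len j),
      1 / 100 * (i.blk.mu - 1) ^ 2 ≤ pieceLam κ P j τ a i (clampT a t) := by
    intro i t ht
    rw [(hagree t ht).1, pieceLam, lam_wNorm]
    have h1 := hwide (t - a)
    have h2 := sq_mu_sub_one_le i.blk
    have h3 := h1.lam i.blk
    have hd1 : dFun κ t ≤ 1 := by
      have ht1 : 1 ≤ t := le_trans (by linarith) ht.1
      have hκt : κ * t ^ (-(1 / 8) : ℝ) ≤ 1 := by
        have h8 : κ ^ 8 ≤ t := le_trans hN3 (le_trans (by linarith) ht.1)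
        have : κ ≤ t ^ (1 / 8 : ℝ) := by
          calc κ = (κ ^ 8) ^ (1 / 8 : ℝ) := by
                rw [← Real.rpow_natCast, ← Real.rpow_mul hκ]; norm_num
            _ ≤ t ^ (1 / 8 : ℝ) := Real.rpow_le_rpow (by positivity) h8 (by norm_num)
        rw [show (-(1 / 8) : ℝ) = -(1 / 8 : ℝ) from rfl, Real.rpow_neg (by linarith),
          ← div_eq_mul_inv, div_le_one (Real.rpow_pos_of_pos (by linarith) _)]
        exact this
      calc dFun κ t ≤ dMin * Real.exp 1 := by
            unfold dFun; gcongr; norm_num [dMin]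
        _ ≤ dMin * 3 := by
            gcongr
            · norm_num [dMin]
            · linarith [Real.exp_one_lt_d9]
        _ ≤ 1 := by norm_num [dMin]
    have hs : (1 / 4 : ℝ) ≤ Real.sqrt (1 / (dFun κ t * wdet (P.raw j τ (t - a)))) := by
      refine Real.le_sqrt_of_sq_le ?_
      have hp : 0 < dFun κ t * wdet (P.raw j τ (t - a)) :=
        mul_pos (dFun_pos _ _) (lt_of_lt_of_le (by norm_num) h1.det)
      rw [le_div_iff₀ hp]
      nlinarith [h1.wdet_le, dFun_pos κ t, h1.det]
    nlinarith [mul_le_mul_of_nonneg_right hs (h1.lam_nonneg i.blk)]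
  obtain ⟨z, hza, hzc, hzd, hF⟩ := exists_slopeFam (a := a) (b := a + P.len j) (m := 1 / 100)
    (η := η) (c := cPiece κ a) (l := fun i t => pieceLam κ P j τ a i (clampT a t))
    (y₀ := y₀) (ρ := ρ) (by linarith) hcl hc' hldiff hl'c
    (fun t => by
      have := abs_le.1 (hv t).1
      simp only [cPiece, cDrift]; linarith)
    (fun i t => hl0 i t) (by norm_num) (by norm_num) hη0 (by linarith)
    (fun t _ => by have := abs_le.1 (hv t).1; simp only [cPiece, cDrift]; linarith)
    (fun t _ => by have := abs_le.1 (hv t).1; simp only [cPiece, cDrift]; linarith)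
    (fun t ht => by rw [(hagree t ht).2, mul_one]; exact (hv t).2.trans hκη)
    (fun i t ht => by
      rw [(hagree t ht).2, mul_one]
      exact (hlB i t).trans (mul_le_mul_of_nonneg_right (by linarith [(hv t).1]) (hl0 i t)))
    (fun i hi => by
      obtain ⟨h1, h2, h3⟩ := cas_eq_zero_of_mu_eq_one hi
      exact ⟨fun t => by simp [pieceLam, Blk.lam, h1, h2, h3], hy0 i hi⟩)
    hlow
    (fun i => by
      have e1 := (clampT_of_ge ha0 (le_refl a)).1
      simp only [cPiece, e1, pieceLam_start]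
      exact hy i)
    (fun i => by
      have e1 := (clampT_of_ge ha0 (show a ≤ a + P.len j by linarith)).1
      simp only [cPiece, e1, pieceLam_end]
      exact hρ i)
  have hs : Real.sqrt (1 / 100) = 1 / 10 := by
    rw [show (1 / 100 : ℝ) = (1 / 10) ^ 2 by norm_num, Real.sqrt_sq (by norm_num)]
  rw [hs] at hF
  refine ⟨z, hza, fun i t ht => ?_, fun i t ht => ?_, by rw [mul_div_assoc]; exact hF⟩
  · have := hzc i t ht
    simp only [cPiece, (hagree t ht).1] at this
    rw [mul_div_assoc]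
    exact this
  · have := hzd i t ht
    simp only [cPiece, (hagree t ht).1] at this
    exact this

/-- Two states of equal eigenvalues and data have equal slopes; so a wait carries level functions
to level functions. -/
theorem slope_eq_of_eq {a b : ℝ} {c l : ℝ → ℝ} {z₁ z₂ : ℝ → ℝ} (hc : Continuous c)
    (hl : Continuous l) (hz₁ : Continuous z₁) (hz₂ : Continuous z₂)
    (hc1 : ∀ t ∈ Icc a b, 1 ≤ c t) (h₁0 : ∀ t ∈ Icc a b, 0 ≤ z₁ t)
    (h₂0 : ∀ t ∈ Icc a b, 0 ≤ z₂ t)
    (h₁ : ∀ t ∈ Icc a b, ∃ z', HasDerivAt z₁ z' t ∧ z' + z₁ t ^ 2 + c t * z₁ t = l t)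
    (h₂ : ∀ t ∈ Icc a b, ∃ z', HasDerivAt z₂ z' t ∧ z' + z₂ t ^ 2 + c t * z₂ t = l t)
    (he : z₁ a = z₂ a) : ∀ t ∈ Icc a b, z₁ t = z₂ t := by
  intro t ht
  have := Ode.abs_slope_sub_le (k := 1) (E := 0) hc hz₁ hz₂ hl hl one_pos
    (fun s hs => by linarith [hc1 s hs, h₁0 s hs, h₂0 s hs]) (by simp) h₁ h₂ t ht
  rw [he, sub_self, abs_zero, zero_mul, zero_div, add_zero] at this
  linarith [abs_eq_zero.1 (le_antisymm this (abs_nonneg _))]

end

end Vale.Agent.P225
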