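import Vale.Agent.P225.Loop.PieceExc
import Vale.Agent.P225.Seg.Levels

/-!
P225, module 16 (helper2): small facts on the slopes of pieces, and the segment of an insertion.

An insertion perturbs the diagonal operator at `J3` by `f₁(t) O₁ + f₂(t) O₂` with banded blocks
`O` between levels, `‖O g h‖ ≤ K μ_g²`, which do not act on the zero level.
-/

open Set MeasureTheory

namespace Vale.Agent.P225

noncomputable section

/-! ### Small facts on slopes of pieces -/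

theorem cPiece_eq (κ a t : ℝ) : cPiece κ a t = 5 + vFun κ (clampT a t) := rfl

/-- Late pieces have drift between `4` and `6`. -/
theorem exists_cPiece_bounds (κ : ℝ) (hκ : 0 ≤ κ) :
    ∃ N : ℕ, ∀ (j : ℕ) (a : ℝ), N ≤ j → 2 * ((j : ℝ) + 1) ^ 5 ≤ a →
      ∀ t, 4 ≤ cPiece κ a t ∧ cPiece κ a t ≤ 6 := by
  obtain ⟨N, hN⟩ := exists_nat_ge κ
  refine ⟨N, fun j a hj ha t => ?_⟩
  have hj1 : (1 : ℝ) ≤ (j : ℝ) + 1 := by linarith [(Nat.cast_nonneg j : (0 : ℝ) ≤ j)]
  have hL : (1 : ℝ) ≤ ((j : ℝ) + 1) ^ 5 := one_le_pow₀ hj1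
  have hjN : (N : ℝ) ≤ j := by exact_mod_cast hj
  have hκL : κ ≤ ((j : ℝ) + 1) ^ 5 := by
    have := le_self_pow₀ hj1 (by norm_num : 5 ≠ 0)
    linarith
  have h := (abs_vFun_le hκ hL ((by linarith : ((j : ℝ) + 1) ^ 5 ≤ a / 2).trans
    (half_le_clampT (by linarith) t))).1
  have h1 : κ / ((j : ℝ) + 1) ^ 5 ≤ 1 := (div_le_one (by linarith)).2 hκL
  rw [cPiece_eq]
  constructor <;> linarith [abs_le.1 h]

/-- A buffer damps the deviation by `exp (-4 len)`. -/
theorem SlopeFam.norm_D_le_buffer {a b k δ : ℝ} {c : ℝ → ℝ} {z : St → ℝ → ℝ} {ρ : St → ℝ}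
    (h : SlopeFam a b c z ρ k δ) (hc : ∀ t ∈ Icc a b, 4 ≤ c t) :
    ‖h.coef.seg.D‖ ≤ Real.exp (-(4 * (b - a))) :=
  h.norm_D_le hc

/-- The integral of a slope against the quasi-static one. -/
theorem abs_prim_slope_sub_alpha_le {a b e : ℝ} {z α : ℝ → ℝ} (hz : Continuous z)
    (hα : Continuous α) (hab : a ≤ b) (h : ∀ t ∈ Icc a b, |z t - α t| ≤ e) :
    |Ode.prim z a b - Ode.prim α a b| ≤ e * (b - a) :=
  Ode.abs_prim_sub_le hz hα hab h

/-- Slopes of a wait started at a function of the level stay functions of the level. -/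
theorem wait_slope_level {κ : ℝ} {J : Fin 3} {q j : ℕ} {τ : ℕ → ℝ} {a : ℝ}
    (ha : 0 < a) {z : St → ℝ → ℝ} (hz : ∀ i, Continuous (z i))
    (hz0 : ∀ i, ∀ t ∈ Icc a (a + (Piece.wait J q).len j), 0 ≤ z i t)
    (hc : ∀ t ∈ Icc a (a + (Piece.wait J q).len j), 1 ≤ cDrift κ t)
    (hode : ∀ i, ∀ t ∈ Icc a (a + (Piece.wait J q).len j), ∃ z', HasDerivAt (z i) z' t ∧
      z' + z i t ^ 2 + cDrift κ t * z i t = pieceLam κ (Piece.wait J q) j τ a i t)
    {i i' : St} (hi : i.blk.level J = i'.blk.level J) (h0 : z i a = z i' a) :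
    ∀ t ∈ Icc a (a + (Piece.wait J q).len j), z i t = z i' t := by
  have hψ : ∀ t, 0 < clampT a t := fun t => (by linarith : 0 < a / 2).trans_le (half_le_clampT ha t)
  have hl : ∀ t, pieceLam κ (Piece.wait J q) j τ a i t = pieceLam κ (Piece.wait J q) j τ a i' t :=
    fun t => by
    have e : ∀ k : St, pieceLam κ (Piece.wait J q) j τ a k t
        = Blk.lam (wNorm (dFun κ t) (rotW J (rawExc 0))) k.blk := fun k => rfl
    rw [e, e, lam_wNorm, lam_wNorm]
    congr 1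
    simp only [Blk.level] at hi
    fin_cases J <;> simp at hi <;>
      simp [Blk.lam, rotW, rawExc, hi.1, hi.2,
        show (-1 : Fin 3) = 2 from rfl, show (-2 : Fin 3) = 1 from rfl]
  have hcc : Continuous (cPiece κ a) := by
    have : Continuous fun t => vFun κ (clampT a t) :=
      continuous_iff_continuousAt.2 fun t => ((hasDerivAt_vFun κ (hψ t)).continuousAt).comp
        (continuous_clampT a).continuousAt
    exact continuous_const.add this
  have hlc : Continuous fun t => pieceLam κ (Piece.wait J q) j τ a i (clampT a t) := by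
    have e : (fun t => pieceLam κ (Piece.wait J q) j τ a i (clampT a t)) = fun t =>
        Real.sqrt (1 / (dFun κ (clampT a t) * wdet (rotW J (rawExc 0))))
          * Blk.lam (rotW J (rawExc 0)) i.blk := funext fun t => lam_wNorm _ _ _
    rw [e]
    refine Continuous.mul (Real.continuous_sqrt.comp (Continuous.div₀ continuous_const ?_ fun t => ?_))
      continuous_const
    · refine Continuous.mul ?_ continuous_const
      exact continuous_iff_continuousAt.2 fun t => ((hasDerivAt_dFun κ (hψ t)).continuousAt).comp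
        (continuous_clampT a).continuousAt
    · rw [wdet_rotW]
      exact mul_ne_zero (dFun_pos _ _).ne' (by simp [wdet, rawExc])
  refine slope_eq_of_eq hcc hlc (hz i) (hz i') (fun t ht => ?_) (hz0 i) (hz0 i') (fun t ht => ?_)
    (fun t ht => ?_) h0
  · rw [cPiece_of_ge κ ha ht.1]; exact hc t ht
  · rw [cPiece_of_ge κ ha ht.1, (clampT_of_ge ha ht.1).1]; exact hode i t ht
  · rw [cPiece_of_ge κ ha ht.1, (clampT_of_ge ha ht.1).1, hl]; exact hode i' t ht

/-! ### Levels of `J3` -/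

/-- Weight of a level. -/
def muL (g : ℕ × ℕ) : ℝ := 1 + g.1 + g.2

theorem one_le_muL (g : ℕ × ℕ) : 1 ≤ muL g := by
  unfold muL
  linarith [(Nat.cast_nonneg g.1 : (0 : ℝ) ≤ g.1), (Nat.cast_nonneg g.2 : (0 : ℝ) ≤ g.2)]

theorem muL_pos (g : ℕ × ℕ) : 0 < muL g := zero_lt_one.trans_le (one_le_muL g)

theorem muL_le_mu (i : St) : muL (i.blk.level 0) ≤ i.blk.mu := by
  simp [muL, Blk.level, Blk.mu]

theorem mu_le_muL (i : St) : i.blk.mu ≤ 2 * muL (i.blk.level 0) := Blk.mu_le_level 0 _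

/-- A state on a given level. -/
def levRep (g : ℕ × ℕ) : St :=
  ⟨⟨(g.1, g.2, g.1 + g.2),
      ⟨by show (g.1 + g.2 + (g.1 + g.2)) % 2 = 0; omega, by show g.1 ≤ g.2 + (g.1 + g.2); omega,
        by show g.2 ≤ g.1 + (g.1 + g.2); omega, le_refl _⟩⟩,
    ⟨0, by simp [Blk.dim]⟩⟩

theorem levRep_level (g : ℕ × ℕ) : (levRep g).blk.level 0 = g := by
  simp [levRep, St.blk, Blk.level, Blk.la, Blk.lb]

/-- Levels within distance `N` in both labels. -/
def bandSet (N : ℕ) (g : ℕ × ℕ) : Finset (ℕ × ℕ) :=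
  Finset.Icc (g.1 - N) (g.1 + N) ×ˢ Finset.Icc (g.2 - N) (g.2 + N)

theorem mem_bandSet_comm {N : ℕ} {g h : ℕ × ℕ} : h ∈ bandSet N g ↔ g ∈ bandSet N h := by
  simp only [bandSet, Finset.mem_product, Finset.mem_Icc]
  omega

theorem card_bandSet_le (N : ℕ) (g : ℕ × ℕ) :
    ((bandSet N g).card : ℝ) ≤ ((2 * N + 1 : ℕ) : ℝ) ^ 2 := by
  have h : (bandSet N g).card ≤ (2 * N + 1) ^ 2 := by
    rw [bandSet, Finset.card_product, Nat.card_Icc, Nat.card_Icc, pow_two]
    exact Nat.mul_le_mul (by omega) (by omega)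
  exact_mod_cast h

/-- Banded blocks between levels of `J3`, second order and without action on the zero level. -/
structure InsOp where
  N : ℕ
  K : ℝ
  K_nonneg : 0 ≤ K
  O₁ : ∀ g h : ℕ × ℕ, LevSp 0 h →L[ℝ] LevSp 0 g
  O₂ : ∀ g h : ℕ × ℕ, LevSp 0 h →L[ℝ] LevSp 0 g
  band : ∀ g h, h ∉ bandSet N g → O₁ g h = 0 ∧ O₂ g h = 0
  zero_row : ∀ h, O₁ 0 h = 0 ∧ O₂ 0 h = 0
  norm_le : ∀ g h, ‖O₁ g h‖ ≤ K * muL g ^ 2 ∧ ‖O₂ g h‖ ≤ K * muL g ^ 2

/-! ### Base segment on levels -/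

/-- The base data on levels given by slopes that are bounded below linearly in the level. -/
def SlopeFam.levBase {a b k δ m : ℝ} {c : ℝ → ℝ} {z : St → ℝ → ℝ} {ρ : St → ℝ}
    (h : SlopeFam a b c z ρ k δ) (hm : 0 < m)
    (hz : ∀ g : ℕ × ℕ, g ≠ 0 → ∀ t ∈ Icc a b, m * muL g ≤ z (levRep g) t) :
    PicardBase (ℕ × ℕ) where
  a := a
  b := b
  c := c
  z g := z (levRep g)
  ρ g := ρ (levRep g)
  μ := muL
  kw g := k * muL g / 2
  gy g := if g = 0 then b - a else 1 / (m * muL g)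
  K := 1 / k
  δ := 2 * δ
  le := h.le
  cont_c := h.cont_c
  cont_z g := h.cont_z _
  z_nonneg g := h.z_nonneg _
  one_le_μ := one_le_muL
  kw_pos g := by have := muL_pos g; have := h.k_pos; positivity
  kw_le g t ht := by
    have h1 := muL_le_mu (levRep g)
    rw [levRep_level] at h1
    have h2 := (mul_le_mul_of_nonneg_left h1 h.k_pos.le).trans (h.gain (levRep g) t ht)
    linarith [h.c_nonneg t ht]
  gy_nonneg g := by
    have := muL_pos g
    split_ifs
    · linarith [h.le]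
    · positivity
  gy_le g t ht := by
    split_ifs with hg
    · exact (integral_exp_prim_le_len (h.cont_z _) ht.2
        fun s hs => h.z_nonneg _ s ⟨ht.1.trans hs.1, hs.2⟩).trans (by linarith [ht.1])
    · exact integral_exp_prim_le_inv (h.cont_z _) ht.2 (mul_pos hm (muL_pos g))
        fun s hs => hz g hg s ⟨ht.1.trans hs.1, hs.2⟩
  K_nonneg := (div_pos one_pos h.k_pos).le
  δ_nonneg := mul_nonneg zero_le_two h.δ_nonneg
  gain g t ht := by
    have h1 := muL_le_mu (levRep g)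
    rw [levRep_level] at h1
    rw [one_div, inv_mul_eq_div, le_div_iff₀ h.k_pos, mul_comm (muL g)]
    exact (mul_le_mul_of_nonneg_left h1 h.k_pos.le).trans (h.gain (levRep g) t ht)
  close g := by
    refine (h.close _).trans ?_
    have h1 := mu_le_muL (levRep g)
    rw [levRep_level] at h1
    linarith [mul_le_mul_of_nonneg_left h1 h.δ_nonneg]

namespace InsOp

variable (O : InsOp) {a b k δ m : ℝ} {c : ℝ → ℝ} {z : St → ℝ → ℝ} {ρ : St → ℝ}
  (h : SlopeFam a b c z ρ k δ) (hm : 0 < m)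
  (hz : ∀ g : ℕ × ℕ, g ≠ 0 → ∀ t ∈ Icc a b, m * muL g ≤ z (levRep g) t)

/-- Size of the perturbation per unit amplitude. -/
def size (k m : ℝ) : ℝ := ((2 * O.N + 1 : ℕ) : ℝ) ^ 2 * (4 * O.K * (1 / m + 1) / k)

theorem size_nonneg {k m : ℝ} (hk : 0 < k) (hm : 0 < m) : 0 ≤ O.size k m := by
  have := O.K_nonneg
  unfold size
  positivity

/-- Block bound per unit amplitude. -/
def blockBd (g h : ℕ × ℕ) : ℝ :=
  if h ∈ bandSet O.N g ∧ g ≠ 0 then 2 * O.K * muL g ^ 2 else 0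

theorem blockBd_nonneg (g h : ℕ × ℕ) : 0 ≤ O.blockBd g h := by
  have := O.K_nonneg
  unfold blockBd
  split_ifs <;> positivity

/-- A kernel supported in the band, bounded by a constant, has small rows and columns. -/
theorem sum_band_le {M : ℕ × ℕ → ℕ × ℕ → ℝ} {B : ℝ} (hB : 0 ≤ B)
    (h0 : ∀ g h, h ∉ bandSet O.N g → M g h ≤ 0) (h1 : ∀ g h, M g h ≤ B) :
    (∀ g, ∑ h ∈ bandSet O.N g, M g h ≤ ((2 * O.N + 1 : ℕ) : ℝ) ^ 2 * B) ∧
      ∀ h (s : Finset (ℕ × ℕ)), ∑ g ∈ s, M g h ≤ ((2 * O.N + 1 : ℕ) : ℝ) ^ 2 * B := by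
  classical
  refine ⟨fun g => ?_, fun h s => ?_⟩
  · refine (Finset.sum_le_card_nsmul _ _ B fun x _ => h1 g x).trans ?_
    rw [nsmul_eq_mul]
    exact mul_le_mul_of_nonneg_right (card_bandSet_le _ _) hB
  · calc ∑ g ∈ s, M g h ≤ ∑ g ∈ s, if g ∈ bandSet O.N h then B else 0 := by
          refine Finset.sum_le_sum fun g _ => ?_
          split_ifs with hg
          · exact h1 g h
          · exact h0 g h fun hh => hg (mem_bandSet_comm.1 hh)
      _ = ((s.filter fun g => g ∈ bandSet O.N h).card : ℝ) * B := by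
          rw [← Finset.sum_filter, Finset.sum_const, nsmul_eq_mul]
      _ ≤ ((bandSet O.N h).card : ℝ) * B :=
          mul_le_mul_of_nonneg_right (Nat.cast_le.2
            (Finset.card_le_card fun g hg => (Finset.mem_filter.1 hg).2)) hB
      _ ≤ _ := mul_le_mul_of_nonneg_right (card_bandSet_le _ _) hB

theorem gain_band_le (A : ℝ) (hA : 0 ≤ A) (g g' : ℕ × ℕ) :
    (h.levBase hm hz).gy g * (A * O.blockBd g g') / (h.levBase hm hz).kw g
        ≤ A * (4 * O.K * (1 / m + 1) / k) ∧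
      A * O.blockBd g g' / ((h.levBase hm hz).kw g * (h.levBase hm hz).μ g)
        ≤ A * (4 * O.K * (1 / m + 1) / k) := by
  have hk := h.k_pos
  have hK := O.K_nonneg
  have hμ := muL_pos g
  show (if g = 0 then b - a else 1 / (m * muL g)) * (A * O.blockBd g g') / (k * muL g / 2) ≤ _ ∧
    A * O.blockBd g g' / (k * muL g / 2 * muL g) ≤ _
  rw [blockBd]
  by_cases hc : g' ∈ bandSet O.N g ∧ g ≠ 0
  · rw [if_pos hc, if_neg hc.2]
    constructor
    · have e : 1 / (m * muL g) * (A * (2 * O.K * muL g ^ 2)) / (k * muL g / 2)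
          = A * (4 * O.K * (1 / m) / k) := by field_simp; ring
      rw [e]
      gcongr
      linarith
    · have e : A * (2 * O.K * muL g ^ 2) / (k * muL g / 2 * muL g) = A * (4 * O.K * 1 / k) := by
        field_simp; ring
      rw [e]
      gcongr
      linarith [one_div_pos.2 hm]
  · rw [if_neg hc]
    simp only [mul_zero, zero_div]
    exact ⟨by positivity, by positivity⟩

/-- The perturbation `f₁ O₁ + f₂ O₂` on the levels of `J3`. -/
def pert (f₁ f₂ : ℝ → ℝ) (hf₁ : Continuous f₁) (hf₂ : Continuous f₂) (A : ℝ) (hA : 0 ≤ A)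
    (hb : ∀ t ∈ Icc a b, |f₁ t| ≤ A ∧ |f₂ t| ≤ A) :
    PicardPert (h.levBase hm hz) (LevSp 0) where
  P t g g' := f₁ t • O.O₁ g g' + f₂ t • O.O₂ g g'
  cont g g' := (hf₁.smul continuous_const).add (hf₂.smul continuous_const)
  nb := bandSet O.N
  p g g' := A * O.blockBd g g'
  θ := A * O.size k m
  p_nonneg g g' := mul_nonneg hA (O.blockBd_nonneg g g')
  p_le t ht g g' := by
    by_cases hc : g' ∈ bandSet O.N g ∧ g ≠ 0
    · rw [blockBd, if_pos hc]
      refine (norm_add_le _ _).trans ?_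
      rw [norm_smul, norm_smul, Real.norm_eq_abs, Real.norm_eq_abs]
      have := mul_le_mul (hb t ht).1 (O.norm_le g g').1 (norm_nonneg _) hA
      have := mul_le_mul (hb t ht).2 (O.norm_le g g').2 (norm_nonneg _) hA
      linarith
    · have h0 : O.O₁ g g' = 0 ∧ O.O₂ g g' = 0 := by
        by_cases hband : g' ∈ bandSet O.N g
        · obtain rfl : g = 0 := by simpa [hband] using hc
          exact O.zero_row g'
        · exact O.band g g' hband
      rw [blockBd, if_neg hc, h0.1, h0.2, mul_zero]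
      refine le_of_eq (norm_eq_zero.2 ?_)
      exact (congrArg₂ (· + ·) (smul_zero (f₁ t)) (smul_zero (f₂ t))).trans (add_zero _)
  θ_nonneg := mul_nonneg hA (O.size_nonneg h.k_pos hm)
  rowY g := by
    refine ((O.sum_band_le (B := A * (4 * O.K * (1 / m + 1) / k)) ?_ (fun g g' hg => ?_)
      fun g g' => (O.gain_band_le h hm hz A hA g g').1).1 g).trans_eq (by simp [size]; ring)
    · have := O.K_nonneg; have := h.k_pos; positivity
    · simp [blockBd, hg]
  colY g' s := by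
    refine ((O.sum_band_le (B := A * (4 * O.K * (1 / m + 1) / k)) ?_ (fun g g' hg => ?_)
      fun g g' => (O.gain_band_le h hm hz A hA g g').1).2 g' s).trans_eq (by simp [size]; ring)
    · have := O.K_nonneg; have := h.k_pos; positivity
    · simp [blockBd, hg]
  rowW g := by
    refine ((O.sum_band_le (B := A * (4 * O.K * (1 / m + 1) / k)) ?_ (fun g g' hg => ?_)
      fun g g' => (O.gain_band_le h hm hz A hA g g').2).1 g).trans_eq (by simp [size]; ring)
    · have := O.K_nonneg; have := h.k_pos; positivity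
    · simp [blockBd, hg]
  colW g' s := by
    refine ((O.sum_band_le (B := A * (4 * O.K * (1 / m + 1) / k)) ?_ (fun g g' hg => ?_)
      fun g g' => (O.gain_band_le h hm hz A hA g g').2).2 g' s).trans_eq (by simp [size]; ring)
    · have := O.K_nonneg; have := h.k_pos; positivity
    · simp [blockBd, hg]

theorem pert_θ (f₁ f₂ : ℝ → ℝ) (hf₁ : Continuous f₁) (hf₂ : Continuous f₂) (A : ℝ) (hA : 0 ≤ A)
    (hb : ∀ t ∈ Icc a b, |f₁ t| ≤ A ∧ |f₂ t| ≤ A) :
    (O.pert h hm hz f₁ f₂ hf₁ hf₂ A hA hb).θ = A * O.size k m := rfl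

/-- `Q` is Lipschitz in the profiles. -/
theorem norm_pert_Q_sub_le {f₁ f₂ g₁ g₂ : ℝ → ℝ} (hf₁ : Continuous f₁) (hf₂ : Continuous f₂)
    (hg₁ : Continuous g₁) (hg₂ : Continuous g₂) {A A' e : ℝ} (hA : 0 ≤ A) (hA' : 0 ≤ A')
    (he : 0 ≤ e) (hb : ∀ t ∈ Icc a b, |f₁ t| ≤ A ∧ |f₂ t| ≤ A)
    (hb' : ∀ t ∈ Icc a b, |g₁ t| ≤ A' ∧ |g₂ t| ≤ A')
    (hd : ∀ t ∈ Icc a b, |f₁ t - g₁ t| ≤ e ∧ |f₂ t - g₂ t| ≤ e)
    (hs : A * O.size k m ≤ 1 / 2) (hs' : A' * O.size k m ≤ 1 / 2) :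
    ‖(O.pert h hm hz f₁ f₂ hf₁ hf₂ A hA hb).seg.Q
        - (O.pert h hm hz g₁ g₂ hg₁ hg₂ A' hA' hb').seg.Q‖ ≤ 4 * e * O.size k m := by
  set D := O.pert h hm hz (fun t => f₁ t - g₁ t) (fun t => f₂ t - g₂ t) (hf₁.sub hg₁) (hf₂.sub hg₂)
    e he hd
  refine (PicardPert.norm_seg_Q_sub_le_of_step _ _ hs hs').trans ?_
  rw [PicardPert.step_sub (O.pert h hm hz f₁ f₂ hf₁ hf₂ A hA hb)
    (O.pert h hm hz g₁ g₂ hg₁ hg₂ A' hA' hb') D (fun g => ⟨rfl, rfl⟩) fun t g g' => by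
      show (f₁ t - g₁ t) • O.O₁ g g' + (f₂ t - g₂ t) • O.O₂ g g'
        = f₁ t • O.O₁ g g' + f₂ t • O.O₂ g g' - (g₁ t • O.O₁ g g' + g₂ t • O.O₂ g g')
      module]
  exact (mul_le_mul_of_nonneg_left D.norm_step_le (by norm_num)).trans_eq
    (mul_assoc _ _ _).symm

/-! ### The segment on the state space -/

/-- Ratio of the weight of a state to the weight of its level. -/
def muRatio : HSp →L[ℝ] HSp :=
  diagOp (fun i => i.blk.mu / muL (i.blk.level 0)) 2 zero_le_two fun i => by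
    have := muL_pos (i.blk.level 0)
    rw [abs_of_nonneg (div_nonneg (zero_le_one.trans (Blk.one_le_mu _)) this.le), div_le_iff₀ this]
    exact mu_le_muL i

/-- Inverse of `muRatio`. -/
def muRatioInv : HSp →L[ℝ] HSp :=
  diagOp (fun i => muL (i.blk.level 0) / i.blk.mu) 1 zero_le_one fun i => by
    have := lt_of_lt_of_le one_pos (Blk.one_le_mu i.blk)
    rw [abs_of_nonneg (div_nonneg (muL_pos _).le this.le), div_le_one this]
    exact muL_le_mu i

theorem muRatio_apply (x : HSp) (i : St) :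
    muRatio x i = i.blk.mu / muL (i.blk.level 0) * x i := rfl

theorem muRatioInv_muRatio (x : HSp) : muRatioInv (muRatio x) = x := by
  ext i
  have h1 : i.blk.mu ≠ 0 := (lt_of_lt_of_le one_pos (Blk.one_le_mu _)).ne'
  have h2 := (muL_pos (i.blk.level 0)).ne'
  simp only [muRatio, muRatioInv, diagOp_apply]
  field_simp

theorem muRatio_muRatioInv (x : HSp) : muRatio (muRatioInv x) = x := by
  ext i
  have h1 : i.blk.mu ≠ 0 := (lt_of_lt_of_le one_pos (Blk.one_le_mu _)).ne'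
  have h2 := (muL_pos (i.blk.level 0)).ne'
  simp only [muRatio, muRatioInv, diagOp_apply]
  field_simp

/-- The segment of an insertion on the state space, deviations normalised per state. -/
def segH (f₁ f₂ : ℝ → ℝ) (hf₁ : Continuous f₁) (hf₂ : Continuous f₂) (A : ℝ) (hA : 0 ≤ A)
    (hb : ∀ t ∈ Icc a b, |f₁ t| ≤ A ∧ |f₂ t| ≤ A) : Seg HSp :=
  (O.pert h hm hz f₁ f₂ hf₁ hf₂ A hA hb).seg.ofLevels.conj 1 1 muRatioInv muRatio

theorem norm_segH_le (f₁ f₂ : ℝ → ℝ) (hf₁ : Continuous f₁) (hf₂ : Continuous f₂) (A : ℝ)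
    (hA : 0 ≤ A) (hb : ∀ t ∈ Icc a b, |f₁ t| ≤ A ∧ |f₂ t| ≤ A) (hs : A * O.size k m ≤ 1 / 2) :
    ‖(O.segH h hm hz f₁ f₂ hf₁ hf₂ A hA hb).Q‖ ≤ 2 ∧
      ‖(O.segH h hm hz f₁ f₂ hf₁ hf₂ A hA hb).B‖ ≤ 4 / k ∧
      ‖(O.segH h hm hz f₁ f₂ hf₁ hf₂ A hA hb).C‖ ≤ 2 * δ + 2 * (A * O.size k m) ∧
      ‖(O.segH h hm hz f₁ f₂ hf₁ hf₂ A hA hb).D‖ ≤ 2 * (1 + 2 * (A * O.size k m) / k) := by
  set P := O.pert h hm hz f₁ f₂ hf₁ hf₂ A hA hb
  obtain ⟨hQ, hB, hC, hD⟩ := Seg.norm_ofLevels_le P.seg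
  have hk := h.k_pos
  have hθ : P.θ ≤ 1 / 2 := hs
  have h1 : ‖(1 : HSp →L[ℝ] HSp)‖ ≤ 1 := ContinuousLinearMap.norm_id_le
  have hR : ‖muRatio‖ ≤ 2 := norm_diagOp_le _ _ _ _
  have hRi : ‖muRatioInv‖ ≤ 1 := norm_diagOp_le _ _ _ _
  have key : ∀ {U X V : HSp →L[ℝ] HSp} {M K M' : ℝ}, ‖U‖ ≤ M → ‖X‖ ≤ K → ‖V‖ ≤ M' →
      0 ≤ M → 0 ≤ K → ‖U.comp (X.comp V)‖ ≤ M * (K * M') := fun hU hX hV hM hK =>
    (ContinuousLinearMap.opNorm_comp_le _ _).trans (mul_le_mul hU
      ((ContinuousLinearMap.opNorm_comp_le _ _).trans (mul_le_mul hX hV (norm_nonneg _) hK))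
      (norm_nonneg _) hM)
  have hKP : (h.levBase hm hz).K = 1 / k := rfl
  have hδ := h.δ_nonneg
  have hθ0 : 0 ≤ A * O.size k m := mul_nonneg hA (O.size_nonneg hk hm)
  refine ⟨?_, ?_, ?_, ?_⟩
  · exact (key h1 (hQ.trans (P.norm_seg_Q_le hθ)) h1 zero_le_one zero_le_two).trans_eq (by ring)
  · refine (key h1 (hB.trans (P.norm_seg_B_le hθ)) hR zero_le_one (by rw [hKP]; positivity)).trans_eq ?_
    rw [hKP]; ring
  · exact (key hRi (hC.trans (P.norm_seg_C_le hθ)) h1 zero_le_one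
      (by show 0 ≤ 2 * δ + 2 * (A * O.size k m); positivity)).trans_eq
      (by show 1 * ((2 * δ + 2 * (A * O.size k m)) * 1) = _; ring)
  · exact (key hRi (hD.trans (P.norm_seg_D_le hθ)) hR zero_le_one
      (by rw [hKP]; show 0 ≤ 1 + 2 * (A * O.size k m) * (1 / k); positivity)).trans_eq
      (by rw [hKP]; show 1 * ((1 + 2 * (A * O.size k m) * (1 / k)) * 2) = _; ring)

/-- Coordinate of a solution of the insertion segment. -/
def valueH (f₁ f₂ : ℝ → ℝ) (hf₁ : Continuous f₁) (hf₂ : Continuous f₂) (A : ℝ) (hA : 0 ≤ A)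
    (hb : ∀ t ∈ Icc a b, |f₁ t| ≤ A ∧ |f₂ t| ≤ A) (ur wl : HSp) (i : St) (t : ℝ) : ℝ :=
  (O.pert h hm hz f₁ f₂ hf₁ hf₂ A hA hb).value (toLev 0 ur) (toLev 0 (muRatio wl))
    (i.blk.level 0) t ⟨i, rfl⟩

/-- Derivative of `valueH`. -/
def derivH (f₁ f₂ : ℝ → ℝ) (hf₁ : Continuous f₁) (hf₂ : Continuous f₂) (A : ℝ) (hA : 0 ≤ A)
    (hb : ∀ t ∈ Icc a b, |f₁ t| ≤ A ∧ |f₂ t| ≤ A) (ur wl : HSp) (i : St) (t : ℝ) : ℝ :=
  z (levRep (i.blk.level 0)) t * O.valueH h hm hz f₁ f₂ hf₁ hf₂ A hA hb ur wl i t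
    + (O.pert h hm hz f₁ f₂ hf₁ hf₂ A hA hb).dev (toLev 0 ur) (toLev 0 (muRatio wl))
      (i.blk.level 0) t ⟨i, rfl⟩

/-- The segment relations are the two-point data of a solution of the perturbed equation. -/
theorem sol_valueH (f₁ f₂ : ℝ → ℝ) (hf₁ : Continuous f₁) (hf₂ : Continuous f₂) (A : ℝ) (hA : 0 ≤ A)
    (hb : ∀ t ∈ Icc a b, |f₁ t| ≤ A ∧ |f₂ t| ≤ A) (hs : A * O.size k m ≤ 1 / 2)
    {ul wl ur wr : HSp} (hsol : (O.segH h hm hz f₁ f₂ hf₁ hf₂ A hA hb).Sol ul wl ur wr)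
    (i : St) :
    O.valueH h hm hz f₁ f₂ hf₁ hf₂ A hA hb ur wl i a = ul i ∧
      O.valueH h hm hz f₁ f₂ hf₁ hf₂ A hA hb ur wl i b = ur i ∧
      O.derivH h hm hz f₁ f₂ hf₁ hf₂ A hA hb ur wl i a - z (levRep (i.blk.level 0)) a * ul i
        = i.blk.mu * wl i ∧
      O.derivH h hm hz f₁ f₂ hf₁ hf₂ A hA hb ur wl i b - ρ (levRep (i.blk.level 0)) * ur i
        = i.blk.mu * wr i := by
  set P := O.pert h hm hz f₁ f₂ hf₁ hf₂ A hA hb with hP
  obtain ⟨h1, h2⟩ := hsol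
  have hL : P.seg.ofLevels.Sol ul (muRatio wl) ur (muRatio wr) := by
    constructor
    · simpa [segH, Seg.conj] using h1
    · have := congrArg muRatio h2
      simpa [segH, Seg.conj, muRatio_muRatioInv] using this
  obtain ⟨e1, e2, e3, e4⟩ := P.sol_value (hθ := show A * O.size k m < 1 by linarith)
    ((Seg.ofLevels_sol_iff _ _ _ _ _).1 hL) (i.blk.level 0)
  have hμ : i.blk.mu / muL (i.blk.level 0) * muL (i.blk.level 0) = i.blk.mu :=
    div_mul_cancel₀ _ (muL_pos _).ne'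
  have p1 := congrArg (fun v : LevSp 0 (i.blk.level 0) => v ⟨i, rfl⟩) e1
  have p2 := congrArg (fun v : LevSp 0 (i.blk.level 0) => v ⟨i, rfl⟩) e2
  have p3 := congrArg (fun v : LevSp 0 (i.blk.level 0) => v ⟨i, rfl⟩) e3
  have p4 := congrArg (fun v : LevSp 0 (i.blk.level 0) => v ⟨i, rfl⟩) e4
  simp only [SlopeFam.levBase, toLev_apply, PiLp.smul_apply, PiLp.add_apply, PiLp.sub_apply,
    smul_eq_mul, muRatio_apply] at p1 p2 p3 p4
  have q1 : O.valueH h hm hz f₁ f₂ hf₁ hf₂ A hA hb ur wl i a = ul i := p1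
  have q2 : O.valueH h hm hz f₁ f₂ hf₁ hf₂ A hA hb ur wl i b = ur i := p2
  refine ⟨q1, q2, ?_, ?_⟩
  · rw [derivH, q1, ← hP]
    rw [show (P.dev (toLev 0 ur) (toLev 0 (muRatio wl)) (i.blk.level 0) a) ⟨i, rfl⟩
      = muL (i.blk.level 0) * (i.blk.mu / muL (i.blk.level 0) * wl i) from p3]
    linear_combination wl i * hμ
  · rw [derivH, q2, ← hP]
    refine Eq.trans ?_ ((p4.trans (mul_left_comm _ _ _)).trans (by
      field_simp [(muL_pos (i.blk.level 0)).ne']))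
    rfl

theorem hasDerivAt_valueH (f₁ f₂ : ℝ → ℝ) (hf₁ : Continuous f₁) (hf₂ : Continuous f₂) (A : ℝ)
    (hA : 0 ≤ A) (hb : ∀ t ∈ Icc a b, |f₁ t| ≤ A ∧ |f₂ t| ≤ A) (ur wl : HSp) (i : St) (t : ℝ) :
    HasDerivAt (O.valueH h hm hz f₁ f₂ hf₁ hf₂ A hA hb ur wl i)
      (O.derivH h hm hz f₁ f₂ hf₁ hf₂ A hA hb ur wl i t) t := by
  have := ((EuclideanSpace.proj (⟨i, rfl⟩ : Fib 0 (i.blk.level 0))).hasFDerivAt.comp_hasDerivAt t
    ((O.pert h hm hz f₁ f₂ hf₁ hf₂ A hA hb).hasDerivAt_value (toLev 0 ur) (toLev 0 (muRatio wl))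
      (i.blk.level 0) t))
  exact this.congr_deriv (by simp [derivH, valueH, SlopeFam.levBase])

/-- The second order equation with the perturbation. -/
theorem hasDerivAt_derivH (f₁ f₂ : ℝ → ℝ) (hf₁ : Continuous f₁) (hf₂ : Continuous f₂) (A : ℝ)
    (hA : 0 ≤ A) (hb : ∀ t ∈ Icc a b, |f₁ t| ≤ A ∧ |f₂ t| ≤ A) (hs : A * O.size k m ≤ 1 / 2)
    (ur wl : HSp) (i : St) {t l : ℝ} (ht : t ∈ Icc a b)
    (hl : ∃ z', HasDerivAt (z (levRep (i.blk.level 0))) z' t ∧
      z' + z (levRep (i.blk.level 0)) t ^ 2 + c t * z (levRep (i.blk.level 0)) t = l) :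
    HasDerivAt (O.derivH h hm hz f₁ f₂ hf₁ hf₂ A hA hb ur wl i)
      (l * O.valueH h hm hz f₁ f₂ hf₁ hf₂ A hA hb ur wl i t
        - c t * O.derivH h hm hz f₁ f₂ hf₁ hf₂ A hA hb ur wl i t
        + ∑ g ∈ bandSet O.N (i.blk.level 0),
          (f₁ t * O.O₁ (i.blk.level 0) g ((O.pert h hm hz f₁ f₂ hf₁ hf₂ A hA hb).value
              (toLev 0 ur) (toLev 0 (muRatio wl)) g t) ⟨i, rfl⟩
            + f₂ t * O.O₂ (i.blk.level 0) g ((O.pert h hm hz f₁ f₂ hf₁ hf₂ A hA hb).value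
              (toLev 0 ur) (toLev 0 (muRatio wl)) g t) ⟨i, rfl⟩)) t := by
  set P := O.pert h hm hz f₁ f₂ hf₁ hf₂ A hA hb with hP
  have := (EuclideanSpace.proj (⟨i, rfl⟩ : Fib 0 (i.blk.level 0))).hasFDerivAt.comp_hasDerivAt t
    (P.hasDerivAt_deriv_value (hθ := show A * O.size k m < 1 by linarith) (toLev 0 ur)
      (toLev 0 (muRatio wl)) (i.blk.level 0) (l := l) ht hl)
  refine (this.congr_deriv ?_).congr_of_eventuallyEq ?_
  · simp only [map_add, map_sub, map_smul, map_sum, smul_eq_mul]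
    rfl
  · refine Filter.Eventually.of_forall fun s => ?_
    simp [derivH, valueH, SlopeFam.levBase, hP]

/-! ### First order -/

theorem integral_sum_smul₂ {ι V : Type*} [NormedAddCommGroup V] [NormedSpace ℝ V] [CompleteSpace V]
    (s : Finset ι) {φ ψ : ι → ℝ → ℝ} (hφ : ∀ i, Continuous (φ i)) (hψ : ∀ i, Continuous (ψ i))
    (v w : ι → V) (p q : ℝ) :
    ∫ r in p..q, ∑ i ∈ s, (φ i r • v i + ψ i r • w i)
      = ∑ i ∈ s, ((∫ r in p..q, φ i r) • v i + (∫ r in p..q, ψ i r) • w i) := by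
  rw [intervalIntegral.integral_finsetSum (f := fun i r => φ i r • v i + ψ i r • w i) fun i _ =>
    (((hφ i).smul continuous_const).add ((hψ i).smul continuous_const)).intervalIntegrable p q]
  refine Finset.sum_congr rfl fun i _ => ?_
  rw [intervalIntegral.integral_add (f := fun r => φ i r • v i) (g := fun r => ψ i r • w i)
      (((hφ i).smul continuous_const).intervalIntegrable p q)
      (((hψ i).smul continuous_const).intervalIntegrable p q),
    intervalIntegral.integral_smul_const, intervalIntegral.integral_smul_const]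

/-- Kernel of the first order response of level `g` to level `g'`. -/
def firstKer (z : St → ℝ → ℝ) (c f : ℝ → ℝ) (a b : ℝ) (g g' : ℕ × ℕ) : ℝ :=
  kerY (z (levRep g)) b 0
    (kerW c (z (levRep g)) a 0 fun r => f r * Real.exp (Ode.prim (z (levRep g')) b r)) a

/-- The first order response of `Q`. -/
theorem step_baseU_left (f₁ f₂ : ℝ → ℝ) (hf₁ : Continuous f₁) (hf₂ : Continuous f₂) (A : ℝ)
    (hA : 0 ≤ A) (hb : ∀ t ∈ Icc a b, |f₁ t| ≤ A ∧ |f₂ t| ≤ A) (x : HLev 0) (g : ℕ × ℕ) :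
    (h.levBase hm hz).evA ((O.pert h hm hz f₁ f₂ hf₁ hf₂ A hA hb).step
        ((h.levBase hm hz).baseU x)) g
      = ∑ g' ∈ bandSet O.N g,
          (firstKer z c f₁ a b g g' • O.O₁ g g' (x g') + firstKer z c f₂ a b g g' • O.O₂ g g' (x g')) := by
  rw [PicardBase.evA_apply]
  show kerY (z (levRep g)) b 0 ((O.pert h hm hz f₁ f₂ hf₁ hf₂ A hA hb).devPert _ g) a = _
  set φ : (ℝ → ℝ) → (ℕ × ℕ) → ℝ → ℝ :=
    fun f g' r => f r * Real.exp (Ode.prim (z (levRep g')) b r)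
  have hφ : ∀ {f : ℝ → ℝ}, Continuous f → ∀ g', Continuous (φ f g') := fun hf g' =>
    hf.mul (Real.continuous_exp.comp (Ode.continuous_prim (h.cont_z _) b))
  have hforce : ∀ r ∈ Icc a b,
      (O.pert h hm hz f₁ f₂ hf₁ hf₂ A hA hb).force ((h.levBase hm hz).baseU x) g r
        = ∑ g' ∈ bandSet O.N g, (φ f₁ g' r • O.O₁ g g' (x g') + φ f₂ g' r • O.O₂ g g' (x g')) := by
    intro r hr
    refine Finset.sum_congr rfl fun g' _ => ?_
    have e : PicardPert.ext ((h.levBase hm hz).baseU x) g' r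
        = Real.exp (Ode.prim (z (levRep g')) b r) • x g' := by
      refine (IccExtend_of_mem _ _ hr).trans ?_
      show (h.levBase hm hz).profU g' r • x g' = _
      rw [PicardBase.profU_eq]
      rfl
    show (f₁ r • O.O₁ g g' + f₂ r • O.O₂ g g') _ = _
    rw [e]
    simp only [_root_.add_apply, _root_.smul_apply, map_smul, φ]
    module
  have hw : ∀ t ∈ Icc a b, (O.pert h hm hz f₁ f₂ hf₁ hf₂ A hA hb).devPert
      ((h.levBase hm hz).baseU x) g t
        = ∑ g' ∈ bandSet O.N g, (kerW c (z (levRep g)) a 0 (φ f₁ g') t • O.O₁ g g' (x g')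
            + kerW c (z (levRep g)) a 0 (φ f₂ g') t • O.O₂ g g' (x g')) := by
    intro t ht
    have he : Continuous fun s => Real.exp (Ode.prim (fun r => c r + z (levRep g) r) a s) :=
      Real.continuous_exp.comp (Ode.continuous_prim (h.cont_c.add (h.cont_z _)) a)
    simp only [PicardPert.devPert, kerW, zero_add]
    show Real.exp (-Ode.prim (fun s => c s + z (levRep g) s) a t) • (∫ s in a..t, _) = _
    rw [intervalIntegral.integral_congr (g := fun s => ∑ g' ∈ bandSet O.N g,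
      ((Real.exp (Ode.prim (fun r => c r + z (levRep g) r) a s) * φ f₁ g' s) • O.O₁ g g' (x g')
        + (Real.exp (Ode.prim (fun r => c r + z (levRep g) r) a s) * φ f₂ g' s) • O.O₂ g g' (x g')))
      fun s hs => ?_,
      integral_sum_smul₂ _
        (φ := fun g' r => Real.exp (Ode.prim (fun r => c r + z (levRep g) r) a r) * φ f₁ g' r)
        (ψ := fun g' r => Real.exp (Ode.prim (fun r => c r + z (levRep g) r) a r) * φ f₂ g' r)
        (fun g' => he.mul (hφ hf₁ g')) (fun g' => he.mul (hφ hf₂ g'))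
        (fun g' => O.O₁ g g' (x g')) fun g' => O.O₂ g g' (x g'), Finset.smul_sum]
    · refine Finset.sum_congr rfl fun g' _ => ?_
      simp only [smul_add, smul_smul, smul_eq_mul]
    · rw [uIcc_of_le ht.1] at hs
      show Real.exp (Ode.prim (fun r => c r + z (levRep g) r) a s) • _ = _
      rw [hforce s ⟨hs.1, hs.2.trans ht.2⟩, Finset.smul_sum]
      exact Finset.sum_congr rfl fun g' _ => by rw [smul_add, smul_smul, smul_smul]
  have hk : ∀ {f : ℝ → ℝ}, Continuous f → ∀ g',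
      Continuous fun s => Real.exp (-Ode.prim (z (levRep g)) b s) * kerW c (z (levRep g)) a 0 (φ f g') s :=
    fun hf g' => (Real.continuous_exp.comp (Ode.continuous_prim (h.cont_z _) b).neg).mul
      (continuous_kerW h.cont_c (h.cont_z _) a 0 (hφ hf g'))
  simp only [kerY, zero_add]
  rw [intervalIntegral.integral_congr (g := fun s => ∑ g' ∈ bandSet O.N g,
    ((Real.exp (-Ode.prim (z (levRep g)) b s) * kerW c (z (levRep g)) a 0 (φ f₁ g') s)
        • O.O₁ g g' (x g')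
      + (Real.exp (-Ode.prim (z (levRep g)) b s) * kerW c (z (levRep g)) a 0 (φ f₂ g') s)
        • O.O₂ g g' (x g')))
    fun s hs => ?_,
    integral_sum_smul₂ _
      (φ := fun g' s => Real.exp (-Ode.prim (z (levRep g)) b s) * kerW c (z (levRep g)) a 0 (φ f₁ g') s)
      (ψ := fun g' s => Real.exp (-Ode.prim (z (levRep g)) b s) * kerW c (z (levRep g)) a 0 (φ f₂ g') s)
      (fun g' => hk hf₁ g') (fun g' => hk hf₂ g')
      (fun g' => O.O₁ g g' (x g')) fun g' => O.O₂ g g' (x g'), Finset.smul_sum]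
  · refine Finset.sum_congr rfl fun g' _ => ?_
    simp only [firstKer, kerY, zero_add, smul_add, smul_smul, smul_eq_mul, φ]
  · rw [uIcc_comm, uIcc_of_le h.le] at hs
    show Real.exp (-Ode.prim (z (levRep g)) b s) • _ = _
    rw [hw s hs, Finset.smul_sum]
    exact Finset.sum_congr rfl fun g' _ => by rw [smul_add, smul_smul, smul_smul]

end InsOp

/-! ### Insertions of the schedule -/

/-- Amplitude profile of an insertion. -/
def insAmp (ε L a t : ℝ) : ℝ := ε * bump ((t - a) / L)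

/-- Profile of the linear term. -/
def insF₁ (κ ε L a t : ℝ) : ℝ := scaleFun κ (clampT a t) * insAmp ε L a t

/-- Profile of the quadratic term. -/
def insF₂ (κ ε L a t : ℝ) : ℝ := scaleFun κ (clampT a t) * insAmp ε L a t ^ 2

theorem continuous_insF (κ ε L : ℝ) {a : ℝ} (ha : 0 < a) :
    Continuous (insF₁ κ ε L a) ∧ Continuous (insF₂ κ ε L a) := by
  have hψ : ∀ t, 0 < clampT a t := fun t => (by linarith : 0 < a / 2).trans_le (half_le_clampT ha t)
  have hs : Continuous fun t => scaleFun κ (clampT a t) := by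
    refine Real.continuous_sqrt.comp (Continuous.div₀ continuous_const ?_ fun t => (dFun_pos _ _).ne')
    exact continuous_iff_continuousAt.2 fun t => ((hasDerivAt_dFun κ (hψ t)).continuousAt).comp
      (continuous_clampT a).continuousAt
  have hx : Continuous (insAmp ε L a) := by
    refine continuous_const.mul ((?_ : Continuous bump).comp (by fun_prop))
    exact continuous_iff_continuousAt.2 fun t => (hasDerivAt_bump t).continuousAt
  exact ⟨hs.mul hx, hs.mul (hx.pow 2)⟩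

theorem scaleFun_le_three {κ t : ℝ} (hκ : 0 ≤ κ) (ht : 0 ≤ t) : scaleFun κ t ≤ 3 := by
  rw [scaleFun, Real.sqrt_le_iff]
  refine ⟨by norm_num, (div_le_iff₀ (dFun_pos _ _)).2 ?_⟩
  have := dMin_le_dFun hκ ht
  simp only [dMin] at this
  linarith

theorem abs_insF_le {κ ε L a : ℝ} (hκ : 0 ≤ κ) (hε : |ε| ≤ 1) (ha : 0 < a) (t : ℝ) :
    |insF₁ κ ε L a t| ≤ 3 * |ε| ∧ |insF₂ κ ε L a t| ≤ 3 * |ε| := by
  have hs := scaleFun_le_three (t := clampT a t) hκ
    (((by linarith : (0 : ℝ) ≤ a / 2)).trans (half_le_clampT ha t))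
  have hx : |insAmp ε L a t| ≤ |ε| := by
    rw [insAmp, abs_mul]
    exact mul_le_of_le_one_right (abs_nonneg _) (abs_bump_le _)
  have hx2 : |insAmp ε L a t ^ 2| ≤ |ε| := by
    rw [abs_pow]
    exact (pow_le_pow_left₀ (abs_nonneg _) hx 2).trans (by nlinarith [abs_nonneg ε])
  constructor
  · rw [insF₁, abs_mul, abs_of_nonneg (show 0 ≤ scaleFun κ (clampT a t) from Real.sqrt_nonneg _)]
    exact mul_le_mul hs hx (abs_nonneg _) (by norm_num)
  · rw [insF₂, abs_mul, abs_of_nonneg (show 0 ≤ scaleFun κ (clampT a t) from Real.sqrt_nonneg _)]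
    exact mul_le_mul hs hx2 (abs_nonneg _) (by norm_num)

theorem le_alphaFn {c l x : ℝ} (hc : 0 ≤ c) (hx : 0 ≤ x) (h : x ^ 2 + c * x ≤ l) :
    x ≤ Ode.alphaFn c l := by
  refine le_trans (le_of_eq ?_) (Ode.alphaFn_mono h)
  rw [Ode.alphaFn, show c ^ 2 + 4 * (x ^ 2 + c * x) = (c + 2 * x) ^ 2 by ring,
    Real.sqrt_sq (by linarith)]
  ring

/-- Slopes of a late insertion piece, with the gain needed for its segment. -/
theorem Piece.exists_ins (κ R D₀ : ℝ) (hκ : 0 ≤ κ) :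
    ∃ (N : ℕ) (C : ℝ), D₀ ≤ C ∧ ∀ (f p j : ℕ) (τ : ℕ → ℝ) (a : ℝ), N ≤ j →
      (∀ k, |τ k| ≤ R) → 2 * ((j : ℝ) + 1) ^ 5 ≤ a →
      ∀ y₀ ρ : St → ℝ, (∀ i : St, i.blk.mu = 1 → y₀ i = 0) →
        (∀ i, |y₀ i - refSlope κ 0 a i| ≤ C / ((j : ℝ) + 1) ^ 5) →
        (∀ i, |ρ i - refSlope κ 0 (a + (Piece.ins f p).len j) i| ≤ C / ((j : ℝ) + 1) ^ 5) →
        ∃ z : St → ℝ → ℝ, (∀ i, z i a = y₀ i) ∧
          (∀ i, ∀ t ∈ Icc a (a + (Piece.ins f p).len j), ∃ z', HasDerivAt (z i) z' t ∧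
            z' + z i t ^ 2 + cPiece κ a t * z i t
              = scaleFun κ t * (Blk.cas i.blk.la + Blk.cas i.blk.lb)) ∧
          (∀ g : ℕ × ℕ, g ≠ 0 → ∀ t ∈ Icc a (a + (Piece.ins f p).len j),
            1 / 16 * muL g ≤ z (levRep g) t) ∧
          (∀ i, (y₀ i = y₀ (levRep (i.blk.level 0))) →
            ∀ t ∈ Icc a (a + (Piece.ins f p).len j), z i t = z (levRep (i.blk.level 0)) t) ∧
          SlopeFam a (a + (Piece.ins f p).len j) (cPiece κ a) z ρ (1 / 10)
            (4 * C / ((j : ℝ) + 1) ^ 5) := by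
  obtain ⟨N₁, C, hC, hN₁⟩ := Piece.exists_slopes κ R (max D₀ 0) hκ
  obtain ⟨N₂, hN₂⟩ := exists_cPiece_bounds κ hκ
  obtain ⟨N₃, hN₃⟩ := exists_nat_ge (max (4 * κ ^ 2) (100 * C))
  refine ⟨max N₁ (max N₂ N₃), C, (le_max_left _ _).trans hC,
    fun f p j τ a hj hτ ha y₀ ρ hy0 hy hρ => ?_⟩
  simp only [max_le_iff] at hj
  obtain ⟨hj1, hj2, hj3⟩ := hj
  obtain ⟨z, hz0, hzc, hzode, hfam⟩ := hN₁ (Piece.ins f p) j τ a hj1 hτ ha y₀ ρ hy0 hy hρ
  have hj0 : (1 : ℝ) ≤ (j : ℝ) + 1 := by linarith [(Nat.cast_nonneg j : (0 : ℝ) ≤ j)]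
  have hL : (1 : ℝ) ≤ ((j : ℝ) + 1) ^ 5 := one_le_pow₀ hj0
  have ha0 : 0 < a := by linarith
  have hC0 : 0 ≤ C := (le_max_right _ _).trans hC
  have hbig : max (4 * κ ^ 2) (100 * C) ≤ j := hN₃.trans (by exact_mod_cast hj3)
  simp only [max_le_iff] at hbig
  have hlam : ∀ (i : St) (t : ℝ), pieceLam κ (Piece.ins f p) j τ a i t
      = scaleFun κ t * (Blk.cas i.blk.la + Blk.cas i.blk.lb) := fun i t => by
    show Blk.lam (wNorm (dFun κ t) (rawExc 0)) i.blk = _
    rw [lam_wNorm]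
    simp [scaleFun, wdet, rawExc, Blk.lam]
  have hscale : ∀ t, a ≤ t → 1 ≤ scaleFun κ t := fun t ht => by
    have h := abs_scaleFun_sub (t := t) hκ hj0 (by linarith)
    have h2 : 2 * κ / Real.sqrt ((j : ℝ) + 1) ≤ 1 := by
      rw [div_le_one (Real.sqrt_pos.2 (by linarith))]
      exact Real.le_sqrt_of_sq_le (by nlinarith [hbig.1])
    have hI : 2 ≤ scaleInf := Real.le_sqrt_of_sq_le (by norm_num [dMin])
    linarith [abs_le.1 h]
  have hode : ∀ i, ∀ t ∈ Icc a (a + (Piece.ins f p).len j), ∃ z', HasDerivAt (z i) z' t ∧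
      z' + z i t ^ 2 + cPiece κ a t * z i t
        = scaleFun κ t * (Blk.cas i.blk.la + Blk.cas i.blk.lb) := fun i t ht => by
    rw [cPiece_of_ge κ ha0 ht.1, ← hlam i t]
    exact hzode i t ht
  refine ⟨z, hz0, hode, fun g hg t ht => ?_, fun i hi t ht => ?_, hfam⟩
  · have hclose := abs_le.1 (hzc (levRep g) t ht)
    rw [hlam] at hclose
    have ela : (levRep g).blk.la = g.1 := rfl
    have elb : (levRep g).blk.lb = g.2 := rfl
    rw [ela, elb] at hclose
    have hn : (1 : ℝ) ≤ (g.1 : ℝ) + g.2 := by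
      have : 1 ≤ g.1 + g.2 := Nat.one_le_iff_ne_zero.2 fun h0 => hg (by
        obtain ⟨x, y⟩ := g; simp at h0; simp [h0.1, h0.2])
      exact_mod_cast this
    have h1 := hscale t ht.1
    have hc := hN₂ j a hj2 ha t
    rw [cPiece_of_ge κ ha0 ht.1] at hc
    have hcas : muL g ^ 2 / 2 ≤ Blk.cas g.1 + Blk.cas g.2 := by
      simp only [muL, Blk.cas]
      nlinarith [sq_nonneg ((g.1 : ℝ) - g.2), (Nat.cast_nonneg g.1 : (0 : ℝ) ≤ g.1),
        (Nat.cast_nonneg g.2 : (0 : ℝ) ≤ g.2)]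
    have hμ : 2 ≤ muL g := by simp only [muL]; linarith
    have hα : muL g / 8 ≤ Ode.alphaFn (cDrift κ t) (scaleFun κ t * (Blk.cas g.1 + Blk.cas g.2)) := by
      refine le_alphaFn (by linarith) (by linarith) ?_
      nlinarith [mul_le_mul_of_nonneg_right hc.2 (by linarith : (0 : ℝ) ≤ muL g / 8),
        mul_le_mul_of_nonneg_right h1 ((by nlinarith : (0 : ℝ) ≤ muL g ^ 2 / 2).trans hcas)]
    have hη : 3 * C / ((j : ℝ) + 1) ^ 5 ≤ 1 / 8 := by
      rw [div_le_iff₀ (by linarith)]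
      have := le_self_pow₀ hj0 (by norm_num : 5 ≠ 0)
      nlinarith [hbig.2]
    linarith
  · have hψ : ∀ s, 0 < clampT a s := fun s => (by linarith : 0 < a / 2).trans_le (half_le_clampT ha0 s)
    have hls : Continuous fun s => scaleFun κ (clampT a s) * (Blk.cas i.blk.la + Blk.cas i.blk.lb) := by
      refine Continuous.mul (Real.continuous_sqrt.comp
        (Continuous.div₀ continuous_const ?_ fun s => (dFun_pos _ _).ne')) continuous_const
      exact continuous_iff_continuousAt.2 fun s => ((hasDerivAt_dFun κ (hψ s)).continuousAt).comp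
        (continuous_clampT a).continuousAt
    refine slope_eq_of_eq hfam.cont_c hls (hfam.cont_z _) (hfam.cont_z _)
      (fun s _ => le_trans (by norm_num) (hN₂ j a hj2 ha s).1) (hfam.z_nonneg _) (hfam.z_nonneg _)
      (fun s hs => ?_) (fun s hs => ?_) (by rw [hz0, hz0, hi]) t ht
    · rw [(clampT_of_ge ha0 hs.1).1]; exact hode i s hs
    · rw [(clampT_of_ge ha0 hs.1).1]
      have e := hode (levRep (i.blk.level 0)) s hs
      have ela : (levRep (i.blk.level 0)).blk.la = i.blk.la := rfl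
      have elb : (levRep (i.blk.level 0)).blk.lb = i.blk.lb := rfl
      rwa [ela, elb] at e

end

end Vale.Agent.P225
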