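import Vale.Agent.P225.Seg.Basic

/-!
P225, module 11 (helper8): one loop, exact factorisation and bounds.

A loop is a corrector segment, a buffer with `C = 0`, and the rest (transit out, one control,
transit back, hold). Its true backward map factors *exactly* as `loopFactor ∘ (Qbuf ∘ Qrest)`, where
`Qbuf ∘ Qrest` is the ideal map and `loopFactor` differs from the corrector's map by a term that
carries the damping `Dbuf` of the buffer.
-/

namespace Vale.Agent.P225

noncomputable section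

variable {H : Type*} [NormedAddCommGroup H] [NormedSpace ℝ H]

theorem neumann_sub_one {T : H →L[ℝ] H} [CompleteSpace H] (h : ‖T‖ < 1) :
    ‖neumann T - 1‖ ≤ ‖T‖ / (1 - ‖T‖) := by
  refine ContinuousLinearMap.opNorm_le_bound _ (div_nonneg (norm_nonneg _) (by linarith)) fun x => ?_
  have e : neumann T x - x = T (neumann T x) := by
    have := neumann_mul h x
    simp only [sub_apply, one_apply_eq_self] at this
    rw [sub_eq_iff_eq_add] at this
    nth_rewrite 1 [this]
    abel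
  simp only [sub_apply, one_apply_eq_self]
  rw [e, div_mul_eq_mul_div]
  refine (T.le_opNorm _).trans ?_
  rw [mul_div_assoc]
  exact mul_le_mul_of_nonneg_left (norm_neumann_le h x) (norm_nonneg _)

theorem neumann_sub {T T' : H →L[ℝ] H} [CompleteSpace H] (h : ‖T‖ < 1) (h' : ‖T'‖ < 1) :
    neumann T - neumann T' = (neumann T).comp ((T - T').comp (neumann T')) := by
  ext x
  have e : (1 - T) (neumann T' x) + (T - T') (neumann T' x) = x := by
    conv_rhs => rw [← neumann_mul h' x]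
    simp
  have := congrArg (neumann T) e
  rw [map_add, neumann_mul' h] at this
  simp only [sub_apply, ContinuousLinearMap.comp_apply]
  rw [← this]
  abel_nf
  simp

theorem norm_neumann {T : H →L[ℝ] H} [CompleteSpace H] (h : ‖T‖ < 1) :
    ‖neumann T‖ ≤ 1 / (1 - ‖T‖) :=
  ContinuousLinearMap.opNorm_le_bound _ (div_nonneg zero_le_one (by linarith)) fun x =>
    (norm_neumann_le h x).trans_eq (by ring)

theorem norm_neumann_two {T : H →L[ℝ] H} [CompleteSpace H] (h : ‖T‖ ≤ 1 / 2) :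
    ‖neumann T‖ ≤ 2 :=
  (norm_neumann (by linarith)).trans (by rw [div_le_iff₀ (by linarith)]; linarith)

theorem norm_neumann_sub_one_two {T : H →L[ℝ] H} [CompleteSpace H] (h : ‖T‖ ≤ 1 / 2) :
    ‖neumann T - 1‖ ≤ 2 * ‖T‖ :=
  (neumann_sub_one (by linarith)).trans (by
    rw [div_le_iff₀ (by linarith)]; nlinarith [norm_nonneg T])

variable [CompleteSpace H]

theorem Seg.norm_backMap (S : Seg H) {R : H →L[ℝ] H} (h : ‖S.B.comp R‖ ≤ 1 / 2) :
    ‖S.backMap R‖ ≤ 2 * ‖S.Q‖ :=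
  (ContinuousLinearMap.opNorm_comp_le _ _).trans
    (mul_le_mul_of_nonneg_right (norm_neumann_two h) (norm_nonneg _))

theorem Seg.norm_backMap_sub (S : Seg H) {R : H →L[ℝ] H} (h : ‖S.B.comp R‖ ≤ 1 / 2) :
    ‖S.backMap R - S.Q‖ ≤ 2 * ‖S.B.comp R‖ * ‖S.Q‖ := by
  have : S.backMap R - S.Q = (neumann (S.B.comp R) - 1).comp S.Q := by ext x; simp [Seg.backMap]
  rw [this]
  exact (ContinuousLinearMap.opNorm_comp_le _ _).trans
    (mul_le_mul_of_nonneg_right (norm_neumann_sub_one_two h) (norm_nonneg _))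

theorem Seg.norm_slopeMap (S : Seg H) {R : H →L[ℝ] H} (h : ‖S.B.comp R‖ ≤ 1 / 2) :
    ‖S.slopeMap R‖ ≤ ‖S.C‖ + 2 * ‖S.D‖ * ‖R‖ * ‖S.Q‖ := by
  refine (norm_add_le _ _).trans (add_le_add le_rfl ?_)
  calc ‖(S.D.comp R).comp (S.backMap R)‖ ≤ ‖S.D.comp R‖ * ‖S.backMap R‖ :=
        ContinuousLinearMap.opNorm_comp_le _ _
    _ ≤ ‖S.D‖ * ‖R‖ * (2 * ‖S.Q‖) :=
        mul_le_mul (ContinuousLinearMap.opNorm_comp_le _ _) (S.norm_backMap h) (norm_nonneg _)
          (by positivity)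
    _ = 2 * ‖S.D‖ * ‖R‖ * ‖S.Q‖ := by ring

theorem Seg.backMap_zero (S : Seg H) : S.backMap 0 = S.Q := by
  have h : neumann (0 : H →L[ℝ] H) = 1 := by simp [neumann]
  ext x
  simp [Seg.backMap, h]

/-- The slope at the right end of a buffer. -/
theorem Seg.slopeMap_of_C {S : Seg H} (hC : S.C = 0) (R : H →L[ℝ] H) :
    S.slopeMap R = (S.D.comp R).comp (S.backMap R) := by
  simp [Seg.slopeMap, hC]

/-- The damped error operator of a loop. -/
def loopErr (corr buf rest : Seg H) (R : H →L[ℝ] H) : H →L[ℝ] H :=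
  (buf.backMap (corr.slopeMap R)).comp (rest.B.comp (buf.D.comp (corr.slopeMap R)))

/-- The left factor of a loop: everything except the ideal map. -/
def loopFactor (corr buf rest : Seg H) (R : H →L[ℝ] H) : H →L[ℝ] H :=
  (corr.backMap R).comp
    ((neumann (loopErr corr buf rest R)).comp (neumann (buf.B.comp (corr.slopeMap R))))

/-- True backward map of a loop. -/
def loopMap (corr buf rest : Seg H) (R : H →L[ℝ] H) : H →L[ℝ] H :=
  (corr.backMap R).comp ((buf.backMap (corr.slopeMap R)).comp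
    (rest.backMap (buf.slopeMap (corr.slopeMap R))))

/-- Slope at the right end of a loop. -/
def loopSlope (corr buf rest : Seg H) (R : H →L[ℝ] H) : H →L[ℝ] H :=
  rest.slopeMap (buf.slopeMap (corr.slopeMap R))

variable {corr buf rest : Seg H} {R : H →L[ℝ] H}

/-- The exact factorisation of a loop. -/
theorem loopMap_eq (hC : buf.C = 0)
    (hT : ‖loopErr corr buf rest R‖ < 1)
    (hr : ‖rest.B.comp (buf.slopeMap (corr.slopeMap R))‖ < 1) :
    loopMap corr buf rest R = (loopFactor corr buf rest R).comp (buf.Q.comp rest.Q) := by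
  ext x
  set Ra := corr.slopeMap R with hRa
  set ue := rest.backMap (buf.slopeMap Ra) x with hue
  have he : ue - rest.Q x = rest.B (buf.D (Ra (buf.backMap Ra ue))) := by
    have := rest.backMap_sub hr x
    rw [← hue] at this
    rw [this, Seg.slopeMap_of_C hC]
    rfl
  have hM : buf.backMap Ra (rest.Q x) = neumann (buf.B.comp Ra) (buf.Q (rest.Q x)) := rfl
  have ha : (1 - loopErr corr buf rest R) (buf.backMap Ra ue) = buf.backMap Ra (rest.Q x) := by
    have := congrArg (buf.backMap Ra) he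
    rw [map_sub] at this
    simp only [loopErr, sub_apply, one_apply_eq_self,
      ContinuousLinearMap.comp_apply, ← hRa]
    rw [← this]
    abel
  have hu : buf.backMap Ra ue = neumann (loopErr corr buf rest R) (buf.backMap Ra (rest.Q x)) := by
    rw [← ha, neumann_mul' hT]
  simp only [loopMap, loopFactor, ContinuousLinearMap.comp_apply, ← hRa, ← hue]
  rw [hu, hM]

theorem norm_loopErr_le {K d e : ℝ} (hK : 0 ≤ K) (he : 0 ≤ e) (hQ : ‖buf.Q‖ ≤ K)
    (hB : ‖rest.B‖ ≤ K) (hD : ‖buf.D‖ ≤ e) (hR : ‖corr.slopeMap R‖ ≤ d)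
    (hb : ‖buf.B.comp (corr.slopeMap R)‖ ≤ 1 / 2) :
    ‖loopErr corr buf rest R‖ ≤ 2 * K ^ 2 * e * d := by
  refine (ContinuousLinearMap.opNorm_comp_le _ _).trans ?_
  refine (mul_le_mul (buf.norm_backMap hb) ((ContinuousLinearMap.opNorm_comp_le _ _).trans
    (mul_le_mul hB ((ContinuousLinearMap.opNorm_comp_le _ _).trans
      (mul_le_mul hD hR (norm_nonneg _) he)) (norm_nonneg _) hK))
    (norm_nonneg _) (by positivity)).trans ?_
  have hd : 0 ≤ d := (norm_nonneg _).trans hR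
  calc 2 * ‖buf.Q‖ * (K * (e * d)) ≤ 2 * K * (K * (e * d)) := by gcongr
    _ = 2 * K ^ 2 * e * d := by ring

theorem norm_rest_slope_le {K d e : ℝ} (hK : 0 ≤ K) (he : 0 ≤ e) (hC : buf.C = 0)
    (hQ : ‖buf.Q‖ ≤ K) (hD : ‖buf.D‖ ≤ e) (hR : ‖corr.slopeMap R‖ ≤ d)
    (hb : ‖buf.B.comp (corr.slopeMap R)‖ ≤ 1 / 2) :
    ‖buf.slopeMap (corr.slopeMap R)‖ ≤ 2 * e * d * K := by
  refine (buf.norm_slopeMap hb).trans ?_
  have hd : 0 ≤ d := (norm_nonneg _).trans hR
  rw [hC, norm_zero, zero_add]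
  gcongr

/-- All smallness hypotheses of the factorisation from norm bounds. -/
theorem loopMap_eq_of_le {K d e : ℝ} (hK : 0 ≤ K) (he : 0 ≤ e) (hC : buf.C = 0)
    (hQ : ‖buf.Q‖ ≤ K) (hBb : ‖buf.B‖ ≤ K) (hB : ‖rest.B‖ ≤ K) (hD : ‖buf.D‖ ≤ e)
    (hR : ‖corr.slopeMap R‖ ≤ d) (h1 : K * d ≤ 1 / 2) (h2 : 2 * K ^ 2 * e * d ≤ 1 / 2) :
    loopMap corr buf rest R = (loopFactor corr buf rest R).comp (buf.Q.comp rest.Q) := by
  have hb : ‖buf.B.comp (corr.slopeMap R)‖ ≤ 1 / 2 :=
    ((ContinuousLinearMap.opNorm_comp_le _ _).trans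
      (mul_le_mul hBb hR (norm_nonneg _) hK)).trans h1
  have hr : ‖rest.B.comp (buf.slopeMap (corr.slopeMap R))‖ ≤ 1 / 2 := by
    refine ((ContinuousLinearMap.opNorm_comp_le _ _).trans
      (mul_le_mul hB (norm_rest_slope_le hK he hC hQ hD hR hb) (norm_nonneg _) hK)).trans ?_
    nlinarith
  exact loopMap_eq hC (by linarith [norm_loopErr_le hK he hQ hB hD hR hb])
    (by linarith)

/-- The left factor differs from the corrector's own map by the damped error only. -/
theorem norm_loopFactor_sub {K d e : ℝ} (hK : 0 ≤ K) (he : 0 ≤ e) (hQ : ‖buf.Q‖ ≤ K)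
    (hBb : ‖buf.B‖ ≤ K) (hB : ‖rest.B‖ ≤ K) (hD : ‖buf.D‖ ≤ e)
    (hR : ‖corr.slopeMap R‖ ≤ d) (h1 : K * d ≤ 1 / 2) (h2 : 2 * K ^ 2 * e * d ≤ 1 / 2) :
    ‖loopFactor corr buf rest R
      - (corr.backMap R).comp (neumann (buf.B.comp (corr.slopeMap R)))‖
      ≤ 8 * K ^ 2 * e * d * ‖corr.backMap R‖ := by
  have hb : ‖buf.B.comp (corr.slopeMap R)‖ ≤ 1 / 2 :=
    ((ContinuousLinearMap.opNorm_comp_le _ _).trans
      (mul_le_mul hBb hR (norm_nonneg _) hK)).trans h1
  have hT := norm_loopErr_le hK he hQ hB hD hR hb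
  have e1 : loopFactor corr buf rest R
      - (corr.backMap R).comp (neumann (buf.B.comp (corr.slopeMap R)))
      = (corr.backMap R).comp ((neumann (loopErr corr buf rest R) - 1).comp
          (neumann (buf.B.comp (corr.slopeMap R)))) := by
    ext x; simp [loopFactor]
  rw [e1]
  refine (ContinuousLinearMap.opNorm_comp_le _ _).trans ?_
  rw [mul_comm]
  refine mul_le_mul_of_nonneg_right ((ContinuousLinearMap.opNorm_comp_le _ _).trans ?_)
    (norm_nonneg _)
  calc ‖neumann (loopErr corr buf rest R) - 1‖ * ‖neumann (buf.B.comp (corr.slopeMap R))‖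
      ≤ 2 * (2 * K ^ 2 * e * d) * 2 :=
        mul_le_mul ((norm_neumann_sub_one_two (hT.trans h2)).trans (by linarith))
          (norm_neumann_two hb) (norm_nonneg _) (by
            have hd : 0 ≤ d := (norm_nonneg _).trans hR
            positivity)
    _ = 8 * K ^ 2 * e * d := by ring

/-- The slope carried into the next loop: the rest's own slope plus a twice damped term. -/
theorem norm_loopSlope_le {K d e c : ℝ} (hK : 0 ≤ K) (he : 0 ≤ e) (hC : buf.C = 0)
    (hQ : ‖buf.Q‖ ≤ K) (hBb : ‖buf.B‖ ≤ K) (hB : ‖rest.B‖ ≤ K) (hD : ‖buf.D‖ ≤ e)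
    (hQr : ‖rest.Q‖ ≤ K) (hDr : ‖rest.D‖ ≤ K) (hCr : ‖rest.C‖ ≤ c)
    (hR : ‖corr.slopeMap R‖ ≤ d) (h1 : K * d ≤ 1 / 2) (h2 : 2 * K ^ 2 * e * d ≤ 1 / 2) :
    ‖loopSlope corr buf rest R‖ ≤ c + 4 * K ^ 3 * e * d := by
  have hb : ‖buf.B.comp (corr.slopeMap R)‖ ≤ 1 / 2 :=
    ((ContinuousLinearMap.opNorm_comp_le _ _).trans
      (mul_le_mul hBb hR (norm_nonneg _) hK)).trans h1
  have hs := norm_rest_slope_le hK he hC hQ hD hR hb
  have hd : 0 ≤ d := (norm_nonneg _).trans hR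
  have hr : ‖rest.B.comp (buf.slopeMap (corr.slopeMap R))‖ ≤ 1 / 2 := by
    refine ((ContinuousLinearMap.opNorm_comp_le _ _).trans
      (mul_le_mul hB hs (norm_nonneg _) hK)).trans ?_
    nlinarith
  refine (rest.norm_slopeMap hr).trans (add_le_add hCr ?_)
  calc 2 * ‖rest.D‖ * ‖buf.slopeMap (corr.slopeMap R)‖ * ‖rest.Q‖
      ≤ 2 * K * (2 * e * d * K) * K := by gcongr
    _ = 4 * K ^ 3 * e * d := by ring

end

end Vale.Agent.P225
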