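import Vale.Agent.P225.Loop.PieceSegs
import Vale.Agent.P225.Loop.Error
import Vale.Agent.P225.Assembly.Chain

/-!
P225, module B (helper2): the three segments of every loop (corrector, buffer, rest), the slope at
the loop starts and the loop map as a backward chain of the pieces.
-/

open Set

namespace Vale.Agent.P225

noncomputable section

section Algebra

variable {H : Type*} [NormedAddCommGroup H] [NormedSpace ℝ H] [CompleteSpace H]

/-- The backward map and the slope of a concatenation. -/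
theorem Seg.comp_backMap (S T : Seg H) {R : H →L[ℝ] H} (h1 : ‖S.B.comp R‖ < 1)
    (h2 : ‖T.B.comp (S.slopeMap R)‖ < 1) (hn : ‖T.B.comp S.C‖ < 1)
    (h3 : ‖(S.comp T).B.comp R‖ < 1) :
    (S.comp T).backMap R = (S.backMap R).comp (T.backMap (S.slopeMap R)) ∧
      (S.comp T).slopeMap R = T.slopeMap (S.slopeMap R) := by
  have key : ∀ x, S.backMap R (T.backMap (S.slopeMap R) x) = (S.comp T).backMap R x ∧
      T.slopeMap (S.slopeMap R) x = (S.comp T).slopeMap R x := by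
    intro x
    have hs := (S.sol_iff h1 (S.backMap R (T.backMap (S.slopeMap R) x))
      (T.backMap (S.slopeMap R) x) (S.slopeMap R (T.backMap (S.slopeMap R) x))).2 ⟨rfl, rfl⟩
    have ht := (T.sol_iff h2 (T.backMap (S.slopeMap R) x) x (T.slopeMap (S.slopeMap R) x)).2
      ⟨rfl, rfl⟩
    exact ((S.comp T).sol_iff h3 _ _ _).1 (S.comp_sol T hn hs ht)
  exact ⟨ContinuousLinearMap.ext fun x => (key x).1.symm,
    ContinuousLinearMap.ext fun x => (key x).2.symm⟩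

/-- Concatenation of `n` segments from index `i`. -/
def segRange (S : ℕ → Seg H) : ℕ → ℕ → Seg H
  | _, 0 => Loop.segOne
  | i, n + 1 => (S i).comp (segRange S (i + 1) n)

theorem segRange_eq_segChain (S : ℕ → Seg H) :
    ∀ n i, segRange S i n = Loop.segChain fun k : Fin n => S (i + k)
  | 0, _ => rfl
  | n + 1, i => by
      show (S i).comp (segRange S (i + 1) n) = (S (i + _)).comp _
      rw [segRange_eq_segChain S n (i + 1)]
      simp only [Fin.val_succ, Fin.val_zero, add_zero, Nat.add_assoc, Nat.add_comm 1]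

omit [CompleteSpace H] in
theorem backChain_add (S : ℕ → Seg H) (R : H →L[ℝ] H) :
    ∀ n i m, backChain S R i (n + m) = (backChain S R i n).comp (backChain S R (i + n) m)
  | 0, i, m => by simp [backChain, ContinuousLinearMap.one_def]
  | n + 1, i, m => by
      rw [show n + 1 + m = (n + m) + 1 by omega]
      show ((S i).backMap (slopes S R i)).comp (backChain S R (i + 1) (n + m)) = _
      rw [backChain_add S R n (i + 1) m, show i + 1 + n = i + (n + 1) by omega]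
      rfl

omit [CompleteSpace H] in
theorem segOne_facts (R : H →L[ℝ] H) :
    (Loop.segOne : Seg H).backMap R = 1 ∧ (Loop.segOne : Seg H).slopeMap R = R := by
  have h : neumann (0 : H →L[ℝ] H) = 1 := by simp [neumann]
  have hb : (Loop.segOne : Seg H).backMap R = 1 := by
    ext x; simp [Seg.backMap, Loop.segOne, h]
  refine ⟨hb, ?_⟩
  rw [Seg.slopeMap, hb]
  ext x
  simp [Loop.segOne]

/-- Ranges of at most `P` bounded segments are bounded. -/
theorem exists_segRange_bd (P : ℕ) (K : ℝ) (hK : 1 ≤ K) :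
    ∃ K' δ₀ : ℝ, K ≤ K' ∧ 0 < δ₀ ∧ ∀ (H : Type) [NormedAddCommGroup H] [NormedSpace ℝ H]
      [CompleteSpace H], ∀ δ, 0 ≤ δ → δ ≤ δ₀ → ∀ (S : ℕ → Seg H) (i n : ℕ), n ≤ P →
      (∀ m, i ≤ m → m < i + n → Loop.SegBd K δ (S m)) →
      Loop.SegBd K' (K' * δ) (segRange S i n) ∧
        (0 < n → ‖(segRange S (i + 1) (n - 1)).B.comp (S i).C‖ < 1) := by
  induction P with
  | zero =>
    refine ⟨K, 1, le_rfl, one_pos, fun H _ _ _ δ hδ _ S i n hn _ => ?_⟩
    obtain rfl : n = 0 := by omega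
    exact ⟨⟨ContinuousLinearMap.norm_id_le.trans hK,
      by show ‖(0 : H →L[ℝ] H)‖ ≤ K; rw [norm_zero]; linarith,
      by show ‖(0 : H →L[ℝ] H)‖ ≤ _; rw [norm_zero]; positivity,
      ContinuousLinearMap.norm_id_le.trans hK⟩, fun h => absurd h (lt_irrefl 0)⟩
  | succ P ih =>
    obtain ⟨K₁, δ₁, hK₁, hδ₁, h⟩ := ih
    have hK₁0 : 0 < K₁ := by linarith
    set K₂ := K + K₁ + 2 * K * K₁ * (1 + K) + (K₁ + 2 * K₁ * K₁) with hK₂
    have hp : 0 ≤ 2 * K * K₁ * (1 + K) := by positivity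
    have hp2 : 0 ≤ 2 * K₁ * K₁ := by positivity
    refine ⟨K₂, min δ₁ (1 / (2 * K₁)), by linarith, lt_min hδ₁ (by positivity),
      fun H _ _ _ δ hδ hδ' S i n hn hS => ?_⟩
    cases n with
    | zero =>
      exact ⟨⟨ContinuousLinearMap.norm_id_le.trans (by linarith),
        by show ‖(0 : H →L[ℝ] H)‖ ≤ K₂; rw [norm_zero]; linarith,
        by show ‖(0 : H →L[ℝ] H)‖ ≤ _; rw [norm_zero]; exact mul_nonneg (by linarith) hδ,
        ContinuousLinearMap.norm_id_le.trans (by linarith)⟩, fun h => absurd h (lt_irrefl 0)⟩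
    | succ n =>
      obtain ⟨hb, -⟩ := h H δ hδ (hδ'.trans (min_le_left _ _)) S (i + 1) n (by omega)
        fun m h1 h2 => hS m (by omega) (by omega)
      have hsmall : K₁ * δ ≤ 1 / 2 := by
        have := (le_div_iff₀ (by positivity)).1 (hδ'.trans (min_le_right _ _))
        linarith
      obtain ⟨hc, hn'⟩ := (hS i le_rfl (by omega)).comp hb hsmall
      refine ⟨⟨hc.Q.trans (by linarith), hc.B.trans (by linarith), hc.C.trans ?_,
        hc.D.trans (by linarith)⟩, fun _ => hn'⟩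
      calc K₁ * δ + 2 * K₁ * δ * K₁ = (K₁ + 2 * K₁ * K₁) * δ := by ring
        _ ≤ K₂ * δ := mul_le_mul_of_nonneg_right (by linarith) hδ

/-- A range of segments acts as the chain of its pieces. -/
theorem segRange_back {S : ℕ → Seg H} {R : H →L[ℝ] H} {K : ℝ} :
    ∀ n i, (∀ m, i ≤ m → m < i + n → ‖(S m).B.comp (slopes S R m)‖ < 1 ∧
        ‖(segRange S (m + 1) (i + n - (m + 1))).B.comp (S m).C‖ < 1 ∧
        ‖(segRange S m (i + n - m)).B‖ ≤ K ∧ K * ‖slopes S R m‖ < 1) →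
      (segRange S i n).backMap (slopes S R i) = backChain S R i n ∧
        (segRange S i n).slopeMap (slopes S R i) = slopes S R (i + n)
  | 0, i, _ => by
      obtain ⟨e1, e2⟩ := segOne_facts (slopes S R i)
      exact ⟨e1, e2⟩
  | n + 1, i, hS => by
      obtain ⟨h1, h2, h3, h4⟩ := hS i le_rfl (by omega)
      rw [show i + (n + 1) - (i + 1) = n by omega] at h2
      rw [show i + (n + 1) - i = n + 1 by omega] at h3
      obtain ⟨ih1, ih2⟩ := segRange_back (S := S) (R := R) (K := K) n (i + 1) fun m hm hm' => by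
        have := hS m (by omega) (by omega)
        rwa [show i + (n + 1) = i + 1 + n by omega] at this
      have hall : ‖(segRange S (i + 1) n).B.comp (slopes S R (i + 1))‖ < 1 := by
        rcases Nat.eq_zero_or_pos n with rfl | hpos
        · show ‖(0 : H →L[ℝ] H).comp _‖ < 1
          simp
        · obtain ⟨-, -, k3, k4⟩ := hS (i + 1) (by omega) (by omega)
          rw [show i + (n + 1) - (i + 1) = n by omega] at k3
          exact ((ContinuousLinearMap.opNorm_comp_le _ _).trans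
            (mul_le_mul_of_nonneg_right k3 (norm_nonneg _))).trans_lt k4
      obtain ⟨c1, c2⟩ := Seg.comp_backMap (S i) (segRange S (i + 1) n) h1 hall h2
        (((ContinuousLinearMap.opNorm_comp_le _ _).trans
          (mul_le_mul_of_nonneg_right h3 (norm_nonneg _))).trans_lt h4)
      refine ⟨?_, ?_⟩
      · show ((S i).comp (segRange S (i + 1) n)).backMap (slopes S R i) = _
        rw [c1, show (S i).slopeMap (slopes S R i) = slopes S R (i + 1) from rfl, ih1]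
        rfl
      · show ((S i).comp (segRange S (i + 1) n)).slopeMap (slopes S R i) = _
        rw [c2, show (S i).slopeMap (slopes S R i) = slopes S R (i + 1) from rfl, ih2,
          show i + 1 + n = i + (n + 1) by omega]

/-- Transit out, the control and the return composed, and the factorisation of a loop in three. -/
theorem loop_split {S : ℕ → Seg H} {R : H →L[ℝ] H} {K K' K₂ K₃ c₃ Kf u d₁ : ℝ} {c d : ℕ}
    (hK : 1 ≤ K) (hKK' : K ≤ K') (hu0 : 0 ≤ u) (hd₁0 : 0 ≤ d₁) (hd₁f : d₁ ≤ Kf * u)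
    (hK₂ : K₂ = K' + K' + 2 * K' * K' * (1 + K'))
    (hK₃ : K₃ = K' + K₂ + 2 * K' * K₂ * (1 + K'))
    (hc₃ : c₃ = (K' + 2 * K' ^ 3 + 2 * K₂ ^ 2) * K)
    (hf : K₂ + K₃ + c₃ + K' * K + K' ≤ Kf)
    (hsm : ∀ {x y : ℝ}, 0 ≤ y → x ≤ Kf → y ≤ Kf * u → x * y ≤ 1 / 4)
    (hbd : ∀ m < c + d + 4, Loop.SegBd K (K * u) (S m))
    (hr : ∀ l k, l + k ≤ c + d + 4 → Loop.SegBd K' (K' * (K * u)) (segRange S l k) ∧
      (0 < k → ‖(segRange S (l + 1) (k - 1)).B.comp (S l).C‖ < 1))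
    (hstep : ∀ m < c + d + 4, ‖(S m).B.comp (slopes S R m)‖ ≤ 1 / 2)
    (hslope : ∀ m ≤ c + d + 4, ‖slopes S R m‖ ≤ d₁) :
    Loop.SegBd Kf (Kf * u) ((S (c + 1)).comp ((segRange S (c + 2) d).comp
        (segRange S (c + d + 2) 2))) ∧
      ((segRange S 0 c).backMap R = backChain S R 0 c ∧
        (segRange S 0 c).slopeMap R = slopes S R c) ∧
      backChain S R 0 (c + d + 4) = loopMap (segRange S 0 c) (S c)
        ((S (c + 1)).comp ((segRange S (c + 2) d).comp (segRange S (c + d + 2) 2))) R ∧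
      slopes S R (c + d + 4) = loopSlope (segRange S 0 c) (S c)
        ((S (c + 1)).comp ((segRange S (c + 2) d).comp (segRange S (c + d + 2) 2))) R := by
  have hK'0 : 0 ≤ K' := by linarith
  have hK₂0 : 0 ≤ K₂ := by rw [hK₂]; positivity
  have hK₃0 : 0 ≤ K₃ := by rw [hK₃]; positivity
  have hc₃0 : 0 ≤ c₃ := by rw [hc₃]; positivity
  have hK'K : 0 ≤ K' * K := by positivity
  have hKu : K * u ≤ Kf * u := mul_le_mul_of_nonneg_right (by linarith) hu0
  have hBR : ∀ {X : H →L[ℝ] H} {x : ℝ}, ‖X‖ ≤ x → x ≤ Kf → ∀ m ≤ c + d + 4,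
      ‖X.comp (slopes S R m)‖ ≤ 1 / 4 := fun {X x} hX hx m hm =>
    ((ContinuousLinearMap.opNorm_comp_le _ _).trans (mul_le_mul hX (hslope m hm) (norm_nonneg _)
      ((norm_nonneg _).trans hX))).trans (hsm hd₁0 hx hd₁f)
  have hback : ∀ l k, l + k ≤ c + d + 4 →
      (segRange S l k).backMap (slopes S R l) = backChain S R l k ∧
      (segRange S l k).slopeMap (slopes S R l) = slopes S R (l + k) := fun l k hlk =>
    segRange_back (K := K') k l fun m h1 h2 =>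
      ⟨by linarith [hstep m (by omega)],
        by
          have := (hr m (l + k - m) (by omega)).2 (by omega)
          rwa [show l + k - m - 1 = l + k - (m + 1) by omega] at this,
        (hr m (l + k - m) (by omega)).1.B,
        (by
          have := hsm (norm_nonneg (slopes S R m)) (by linarith : K' ≤ Kf)
            ((hslope m (by omega)).trans hd₁f)
          linarith)⟩
  -- the rest
  obtain ⟨hZ, -⟩ := hr (c + d + 2) 2 (by omega)
  obtain ⟨hM, -⟩ := hr (c + 2) d (by omega)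
  obtain ⟨hMZ, hMZn⟩ := hM.comp hZ (by
    have hy : K' * (K * u) ≤ Kf * u := by
      rw [← mul_assoc]; exact mul_le_mul_of_nonneg_right (by linarith) hu0
    linarith [hsm (by positivity : 0 ≤ K' * (K * u)) (by linarith : K' ≤ Kf) hy])
  rw [← hK₂] at hMZ
  have hout : Loop.SegBd K' (K * u) (S (c + 1)) := by
    have := hbd (c + 1) (by omega)
    exact ⟨this.Q.trans hKK', this.B.trans hKK', this.C, this.D.trans hKK'⟩
  obtain ⟨hrest, hrestn⟩ := hout.comp hMZ (by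
    linarith [hsm (by positivity : 0 ≤ K * u) (by linarith : K₂ ≤ Kf) hKu])
  rw [← hK₃] at hrest
  have hrestC : K' * (K * u) + 2 * K' * (K' * (K * u)) * K' + 2 * K₂ * (K * u) * K₂ ≤ Kf * u :=
    calc K' * (K * u) + 2 * K' * (K' * (K * u)) * K' + 2 * K₂ * (K * u) * K₂
        = c₃ * u := by rw [hc₃]; ring
      _ ≤ Kf * u := mul_le_mul_of_nonneg_right (by linarith) hu0
  obtain ⟨eM, eM'⟩ := hback (c + 2) d (by omega)
  obtain ⟨eZ, eZ'⟩ := hback (c + d + 2) 2 (by omega)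
  obtain ⟨eC, eC'⟩ := hback 0 c (by omega)
  have hM1 : (segRange S (c + 2) d).slopeMap (slopes S R (c + 2)) = slopes S R (c + d + 2) := by
    rw [eM', show c + 2 + d = c + d + 2 by omega]
  obtain ⟨m1, m2⟩ := Seg.comp_backMap (segRange S (c + 2) d) (segRange S (c + d + 2) 2)
    (R := slopes S R (c + 2))
    (by linarith [hBR hM.B (by linarith : K' ≤ Kf) (c + 2) (by omega)])
    (by rw [hM1]; linarith [hBR hZ.B (by linarith : K' ≤ Kf) (c + d + 2) (by omega)]) hMZn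
    (by linarith [hBR hMZ.B (by linarith : K₂ ≤ Kf) (c + 2) (by omega)])
  rw [hM1] at m1 m2
  have e12 : backChain S R (c + 2) (d + 2)
      = (backChain S R (c + 2) d).comp (backChain S R (c + d + 2) 2) := by
    rw [backChain_add, show c + 2 + d = c + d + 2 by omega]
  rw [eM, eZ, ← e12] at m1
  rw [eZ'] at m2
  obtain ⟨r1, r2⟩ := Seg.comp_backMap (S (c + 1))
    ((segRange S (c + 2) d).comp (segRange S (c + d + 2) 2)) (R := slopes S R (c + 1))
    (by linarith [hBR (hbd (c + 1) (by omega)).B (by linarith : K ≤ Kf) (c + 1) (by omega)])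
    (by
      rw [show (S (c + 1)).slopeMap (slopes S R (c + 1)) = slopes S R (c + 2) from rfl]
      linarith [hBR hMZ.B (by linarith : K₂ ≤ Kf) (c + 2) (by omega)]) hrestn
    (by linarith [hBR hrest.B (by linarith : K₃ ≤ Kf) (c + 1) (by omega)])
  rw [show (S (c + 1)).slopeMap (slopes S R (c + 1)) = slopes S R (c + 2) from rfl] at r1 r2
  rw [m1] at r1
  rw [m2] at r2
  have eC0 : (segRange S 0 c).slopeMap R = slopes S R c := by
    rw [zero_add] at eC'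
    exact eC'
  refine ⟨⟨hrest.Q.trans (by linarith), hrest.B.trans (by linarith), hrest.C.trans hrestC,
    hrest.D.trans (by linarith)⟩, ⟨eC, eC0⟩, ?_, ?_⟩
  · rw [loopMap, eC0, show (S c).slopeMap (slopes S R c) = slopes S R (c + 1) from rfl, r1,
      show (segRange S 0 c).backMap R = backChain S R 0 c from eC,
      show c + d + 4 = c + ((d + 2 + 1) + 1) by omega, backChain_add, zero_add]
    rfl
  · rw [loopSlope, eC0, show (S c).slopeMap (slopes S R c) = slopes S R (c + 1) from rfl, r2,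
      show c + d + 2 + 2 = c + d + 4 by omega]

end Algebra

namespace LoopSpec

variable (W : LoopSpec) (κ C : ℝ) (Mo : PieceModel) (j0 : ℕ) (t0 : ℝ) (ht : 1 ≤ t0) (τ : Params)

/-- The segments of the pieces of loop `i`. -/
def segs (i : ℕ) : ℕ → Seg HSp := (W.sched j0 t0 ht).seg κ C Mo τ i

/-- The corrector of loop `i`. -/
def corrSeg (i : ℕ) : Seg HSp :=
  segRange (W.segs κ C Mo j0 t0 ht τ i) 0 (W.corr (j0 + i)).length

/-- The buffer of loop `i`. -/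
def bufSeg (i : ℕ) : Seg HSp := W.segs κ C Mo j0 t0 ht τ i (W.corr (j0 + i)).length

/-- Transit out, the control, and transit back with the hold. -/
def restSeg (i : ℕ) : Seg HSp :=
  (W.segs κ C Mo j0 t0 ht τ i ((W.corr (j0 + i)).length + 1)).comp
    ((segRange (W.segs κ C Mo j0 t0 ht τ i) ((W.corr (j0 + i)).length + 2) (W.ctrl (j0 + i)).length).comp
      (segRange (W.segs κ C Mo j0 t0 ht τ i)
        ((W.corr (j0 + i)).length + (W.ctrl (j0 + i)).length + 2) 2))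

/-- The slope at the start of loop `i`, from `R₀` at the first one. -/
def slopeR (R₀ : HSp →L[ℝ] HSp) : ℕ → HSp →L[ℝ] HSp
  | 0 => R₀
  | i + 1 => slopes (W.segs κ C Mo j0 t0 ht τ i) (slopeR R₀ i) (W.prog (j0 + i)).length

/-- The backward map of loop `i`. -/
def loopBack (R₀ : HSp →L[ℝ] HSp) (i : ℕ) : HSp →L[ℝ] HSp :=
  backChain (W.segs κ C Mo j0 t0 ht τ i) (W.slopeR κ C Mo j0 t0 ht τ R₀ i) 0 (W.prog (j0 + i)).length

/-- What holds for one loop with incoming slope `R`. -/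
structure LoopGood (K ε : ℝ) (i : ℕ) (R : HSp →L[ℝ] HSp) : Prop where
  piece : ∀ m (hm : m < (W.prog (j0 + i)).length),
    (W.sched j0 t0 ht).SegGood κ C K ε Mo τ (W.corr (j0 + i)).length i m ((W.prog (j0 + i))[m])
  next_small : ‖slopes (W.segs κ C Mo j0 t0 ht τ i) R (W.prog (j0 + i)).length‖
    ≤ Real.exp (-(4 * (((j0 + i : ℕ) : ℝ) + 1) ^ 7))
  step : ∀ m < (W.prog (j0 + i)).length,
    ‖(W.segs κ C Mo j0 t0 ht τ i m).B.comp (slopes (W.segs κ C Mo j0 t0 ht τ i) R m)‖ ≤ 1 / 2 ∧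
    ‖(W.segs κ C Mo j0 t0 ht τ i m).backMap (slopes (W.segs κ C Mo j0 t0 ht τ i) R m)‖ ≤ K ∧
    ‖slopes (W.segs κ C Mo j0 t0 ht τ i) R m‖
      ≤ K * (1 / (((j0 + i : ℕ) : ℝ) + 1) ^ 5 + ε)
  small : K * (K * (1 / (((j0 + i : ℕ) : ℝ) + 1) ^ 5 + ε)) ≤ 1 / 4
  corr_bd : Loop.SegBd K (K * (1 / (((j0 + i : ℕ) : ℝ) + 1) ^ 5 + ε))
    (W.corrSeg κ C Mo j0 t0 ht τ i)
  buf_bd : Loop.SegBd K 0 (W.bufSeg κ C Mo j0 t0 ht τ i)
  rest_bd : Loop.SegBd K (K * (1 / (((j0 + i : ℕ) : ℝ) + 1) ^ 5 + ε))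
    (W.restSeg κ C Mo j0 t0 ht τ i)
  buf_C : (W.bufSeg κ C Mo j0 t0 ht τ i).C = 0
  buf_D : ‖(W.bufSeg κ C Mo j0 t0 ht τ i).D‖ ≤ Real.exp (-(4 * (((j0 + i : ℕ) : ℝ) + 1) ^ 6))
  corr_back : (W.corrSeg κ C Mo j0 t0 ht τ i).backMap R
      = backChain (W.segs κ C Mo j0 t0 ht τ i) R 0 (W.corr (j0 + i)).length ∧
    (W.corrSeg κ C Mo j0 t0 ht τ i).slopeMap R
      = slopes (W.segs κ C Mo j0 t0 ht τ i) R (W.corr (j0 + i)).length
  map_eq : backChain (W.segs κ C Mo j0 t0 ht τ i) R 0 (W.prog (j0 + i)).length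
      = loopMap (W.corrSeg κ C Mo j0 t0 ht τ i) (W.bufSeg κ C Mo j0 t0 ht τ i)
          (W.restSeg κ C Mo j0 t0 ht τ i) R
  slope_eq : slopes (W.segs κ C Mo j0 t0 ht τ i) R (W.prog (j0 + i)).length
      = loopSlope (W.corrSeg κ C Mo j0 t0 ht τ i) (W.bufSeg κ C Mo j0 t0 ht τ i)
          (W.restSeg κ C Mo j0 t0 ht τ i) R

/-- After the first loop the incoming slope is tiny. -/
theorem slopeR_succ_le {κ C : ℝ} {Mo : PieceModel} {j0 : ℕ} {t0 : ℝ} {ht : 1 ≤ t0} {τ : Params}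
    {K ε : ℝ} {R₀ : HSp →L[ℝ] HSp} {i : ℕ}
    (h : W.LoopGood κ C Mo j0 t0 ht τ K ε i (W.slopeR κ C Mo j0 t0 ht τ R₀ i)) :
    ‖W.slopeR κ C Mo j0 t0 ht τ R₀ (i + 1)‖
      ≤ Real.exp (-(4 * (((j0 + i : ℕ) : ℝ) + 1) ^ 7)) := h.next_small

/-- A loop is good once its pieces are. -/
theorem loopGood_of {κ C : ℝ} {Mo : PieceModel} {j0 : ℕ} {t0 : ℝ} {ht : 1 ≤ t0} {τ : Params}
    {P0 : ℕ} (hW : W.Ok P0) {K K' K₂ K₃ c₃ Kf G A ε u d₁ b : ℝ} {P i : ℕ}
    {R : HSp →L[ℝ] HSp} (hb : b = ((j0 + i : ℕ) : ℝ) + 1) (hu : u = 1 / b ^ 5 + ε)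
    (hP : P = 2 * P0 + 4) (hG : G = (2 * K ^ 2 + 1) ^ P) (hd₁ : d₁ = G * (A + K) * u)
    (hK : 1 ≤ K) (hKK' : K ≤ K') (hu0 : 0 ≤ u) (hd₁0 : 0 ≤ d₁) (hd₁f : d₁ ≤ Kf * u)
    (hK₂ : K₂ = K' + K' + 2 * K' * K' * (1 + K'))
    (hK₃ : K₃ = K' + K₂ + 2 * K' * K₂ * (1 + K'))
    (hc₃ : c₃ = (K' + 2 * K' ^ 3 + 2 * K₂ ^ 2) * K)
    (hf : K₂ + K₃ + c₃ + 2 * K + K' * K + K' ≤ Kf)
    (hsm : ∀ {x y : ℝ}, 0 ≤ y → x ≤ Kf → y ≤ Kf * u → x * y ≤ 1 / 4)
    (hR : ‖R‖ ≤ A * u)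
    (hrange : ∀ (S : ℕ → Seg HSp) (l k : ℕ), k ≤ P →
      (∀ m, l ≤ m → m < l + k → Loop.SegBd K (K * u) (S m)) →
      Loop.SegBd K' (K' * (K * u)) (segRange S l k) ∧
        (0 < k → ‖(segRange S (l + 1) (k - 1)).B.comp (S l).C‖ < 1))
    (hsg : ∀ m (hm : m < (W.prog (j0 + i)).length),
      (W.sched j0 t0 ht).SegGood κ C K ε Mo τ (W.corr (j0 + i)).length i m
        ((W.prog (j0 + i))[m])) :
    W.LoopGood κ C Mo j0 t0 ht τ Kf ε i R := by
  subst hb hu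
  have hK0 : 0 < K := by linarith
  have hK'0 : 0 ≤ K' := by linarith
  have hK₂0 : 0 ≤ K₂ := by rw [hK₂]; positivity
  have hK₃0 : 0 ≤ K₃ := by rw [hK₃]; positivity
  have hc₃0 : 0 ≤ c₃ := by rw [hc₃]; positivity
  have hK'K : 0 ≤ K' * K := by positivity
  set b := ((j0 + i : ℕ) : ℝ) + 1
  set u := 1 / b ^ 5 + ε
  set S := W.segs κ C Mo j0 t0 ht τ i with hS
  set n := (W.prog (j0 + i)).length with hn
  set c := (W.corr (j0 + i)).length with hcdef
  set d := (W.ctrl (j0 + i)).length with hddef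
  have hlen : n = c + d + 4 := W.prog_length (j0 + i)
  have hnP : n ≤ P := by
    have := hW.corr_len (j0 + i); have := hW.ctrl_len (j0 + i); omega
  have hbd : ∀ m < n, Loop.SegBd K (K * u) (S m) := fun m hm =>
    ⟨(hsg m hm).bd.1, (hsg m hm).bd.2.1, (hsg m hm).bd.2.2.1, (hsg m hm).bd.2.2.2⟩
  have hr : ∀ l k, l + k ≤ n → Loop.SegBd K' (K' * (K * u)) (segRange S l k) ∧
      (0 < k → ‖(segRange S (l + 1) (k - 1)).B.comp (S l).C‖ < 1) := fun l k hlk =>
    hrange S l k (by omega) fun m _ h2 => hbd m (by omega)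
  have hR' : ‖R‖ + K * u ≤ (A + K) * u := by rw [add_mul]; linarith
  have hpow : ∀ m ≤ n, (2 * K ^ 2 + 1) ^ m * (‖R‖ + K * u) ≤ d₁ := fun m hm =>
    (mul_le_mul (hG ▸ pow_le_pow_right₀ (by nlinarith) (hm.trans hnP)) hR' (by positivity)
      (by rw [hG]; positivity)).trans_eq (by rw [hd₁]; ring)
  obtain ⟨hsl, hstep⟩ := Asm.slopes_small (S := S) (R := R) (n := n) (δ := K * u) hK
    (fun m hm => (hbd m hm).Q) (fun m hm => (hbd m hm).B) (fun m hm => (hbd m hm).C)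
    (fun m hm => (hbd m hm).D) (by positivity) (by
      refine (hpow n le_rfl).trans ?_
      rw [le_div_iff₀ (by positivity)]
      linarith [hsm hd₁0 (by linarith : 2 * K ≤ Kf) hd₁f])
  have hslope : ∀ m ≤ n, ‖slopes S R m‖ ≤ d₁ := fun m hm => by
    have h1 := (hsl m hm).trans (hpow m hm)
    linarith [mul_nonneg hK0.le hu0]
  -- the long waits
  have hlong : ∀ m (hm : m < n) (q : ℕ), 6 ≤ q → (W.prog (j0 + i))[m] = Piece.wait 0 q →
      (S m).C = 0 ∧ ‖(S m).D‖ ≤ Real.exp (-(4 * b ^ q)) := by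
    intro m hm q hq he
    obtain ⟨h1, h2, -⟩ := (hsg m hm).long (by rw [he]; exact hq)
    refine ⟨h1, h2.trans (le_of_eq ?_)⟩
    rw [he]
    rfl
  have hcn : c < n := by omega
  obtain ⟨hbC, hbD⟩ := hlong c hcn 6 le_rfl (by
    rcases W.prog_getElem (j0 + i) c hcn with
      ⟨h, -⟩ | ⟨-, e⟩ | ⟨h, -⟩ | ⟨-, h, -⟩ | ⟨h, -⟩ | ⟨h, -⟩
    · exact absurd h (lt_irrefl _)
    · exact e
    all_goals omega)
  obtain ⟨hhC, hhD⟩ := hlong (c + d + 3) (by omega) 7 (by norm_num) (by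
    rcases W.prog_getElem (j0 + i) (c + d + 3) (by omega) with
      ⟨h, -⟩ | ⟨h, -⟩ | ⟨h, -⟩ | ⟨h, -, -⟩ | ⟨h, -⟩ | ⟨-, e⟩
    all_goals first | exact e | omega)
  obtain ⟨hrest, hcorr, hmap, hsl'⟩ := loop_split (S := S) (R := R) (c := c) (d := d) hK hKK' hu0
    hd₁0 hd₁f hK₂ hK₃ hc₃ (by linarith) hsm (fun m hm => hbd m (by omega))
    (fun l k h => hr l k (by omega)) (fun m hm => (hstep m (by omega)).1)
    (fun m hm => hslope m (by omega))
  rw [← hlen] at hmap hsl'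
  refine ⟨fun m hm => ?_, ?_, fun m hm => ⟨(hstep m hm).1, (hstep m hm).2.trans (by linarith),
    (hslope m (Nat.le_of_lt hm)).trans hd₁f⟩, hsm (hd₁0.trans hd₁f) le_rfl le_rfl, ?_, ?_, ?_, hbC,
    hbD, hcorr, ?_, ?_⟩
  · obtain ⟨g, g1, g2, g3, ⟨q1, q2, q3, q4⟩, g5, g6⟩ := hsg m hm
    have hKf' : K ≤ Kf := by linarith
    exact ⟨g, g1, g2, g3, ⟨q1.trans hKf', q2.trans hKf',
      q3.trans (mul_le_mul_of_nonneg_right hKf' hu0), q4.trans hKf'⟩, g5, g6⟩
  · rw [show (W.prog (j0 + i)).length = c + d + 3 + 1 by omega]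
    show ‖(S (c + d + 3)).slopeMap (slopes S R (c + d + 3))‖ ≤ _
    refine ((S (c + d + 3)).norm_slopeMap (hstep _ (by omega)).1).trans ?_
    rw [hhC, norm_zero, zero_add]
    have h2 := hsm hd₁0 (by linarith : 2 * K ≤ Kf) hd₁f
    calc 2 * ‖(S (c + d + 3)).D‖ * ‖slopes S R (c + d + 3)‖ * ‖(S (c + d + 3)).Q‖
        ≤ 2 * Real.exp (-(4 * b ^ 7)) * d₁ * K := by
          gcongr
          exacts [hslope _ (by omega), (hbd _ (by omega)).Q]
      _ = Real.exp (-(4 * b ^ 7)) * (2 * K * d₁) := by ring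
      _ ≤ Real.exp (-(4 * b ^ 7)) * 1 :=
          mul_le_mul_of_nonneg_left (by linarith) (Real.exp_nonneg _)
      _ = _ := mul_one _
  · obtain ⟨h, -⟩ := hr 0 c (by omega)
    exact ⟨h.Q.trans (by linarith), h.B.trans (by linarith), h.C.trans (by
      rw [← mul_assoc]; exact mul_le_mul_of_nonneg_right (by linarith) hu0),
      h.D.trans (by linarith)⟩
  · have := hbd c hcn
    exact ⟨this.Q.trans (by linarith), this.B.trans (by linarith),
      le_of_eq (by rw [show W.bufSeg κ C Mo j0 t0 ht τ i = S c from rfl, hbC, norm_zero]),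
      this.D.trans (by linarith)⟩
  · exact hrest
  · exact hmap
  · exact hsl'

/-- Late loops are good for every small incoming slope; from the second one on it is tiny. -/
theorem exists_loopGood (κ Ra A : ℝ) (hκ : 0 ≤ κ) (hA : 1 ≤ A) (Mo : PieceModel) (P0 : ℕ) :
    ∃ (N : ℕ) (C K ε₀ : ℝ), 0 ≤ C ∧ 1 ≤ K ∧ 0 < ε₀ ∧ ∀ (W : LoopSpec), W.Ok P0 →
      ∀ (j0 : ℕ) (t0 : ℝ) (ht : 1 ≤ t0), N ≤ j0 → 2 * ((j0 : ℝ) + 1) ^ 5 ≤ t0 →
      ∀ (τ : Params) (ε : ℝ), 0 ≤ ε → ε ≤ ε₀ → (W.sched j0 t0 ht).AmpOk τ Ra ε →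
      (∀ i R, ‖R‖ ≤ A * (1 / (((j0 + i : ℕ) : ℝ) + 1) ^ 5 + ε) →
        W.LoopGood κ C Mo j0 t0 ht τ K ε i R) ∧
      ∀ R₀, ‖R₀‖ ≤ A * (1 / ((j0 : ℝ) + 1) ^ 5 + ε) →
        ∀ i, W.LoopGood κ C Mo j0 t0 ht τ K ε i (W.slopeR κ C Mo j0 t0 ht τ R₀ i) := by
  obtain ⟨N₁, C, K, ε₁, hC, hK, hε₁, hseg⟩ := LoopSpec.exists_segGood κ Ra hκ Mo
  obtain ⟨P, hP⟩ : ∃ x : ℕ, x = 2 * P0 + 4 := ⟨_, rfl⟩
  obtain ⟨K', δ₀, hKK', hδ₀, hrange⟩ := exists_segRange_bd P K hK
  have hK0 : 0 < K := by linarith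
  have hK'0 : 0 ≤ K' := by linarith
  obtain ⟨G, hG⟩ : ∃ x : ℝ, x = (2 * K ^ 2 + 1) ^ P := ⟨_, rfl⟩
  obtain ⟨K₂, hK₂⟩ : ∃ x : ℝ, x = K' + K' + 2 * K' * K' * (1 + K') := ⟨_, rfl⟩
  obtain ⟨K₃, hK₃⟩ : ∃ x : ℝ, x = K' + K₂ + 2 * K' * K₂ * (1 + K') := ⟨_, rfl⟩
  obtain ⟨c₃, hc₃⟩ : ∃ x : ℝ, x = (K' + 2 * K' ^ 3 + 2 * K₂ ^ 2) * K := ⟨_, rfl⟩
  have hK₂0 : 0 ≤ K₂ := by rw [hK₂]; positivity
  have hK₃0 : 0 ≤ K₃ := by rw [hK₃]; positivity
  have hc₃0 : 0 ≤ c₃ := by rw [hc₃]; positivity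
  have hG0 : 0 ≤ G * (A + K) := by rw [hG]; positivity
  have hK'K : 0 ≤ K' * K := by positivity
  -- the bound of everything
  obtain ⟨Kf, hKf⟩ : ∃ x : ℝ, x = K₂ + K₃ + c₃ + G * (A + K) + 2 * K + K' * K + K' := ⟨_, rfl⟩
  have hKf1 : 1 ≤ Kf := by linarith
  obtain ⟨η, hη⟩ : ∃ x : ℝ, x = min (δ₀ / K) (1 / (4 * Kf ^ 2)) := ⟨_, rfl⟩
  have hη0 : 0 < η := hη ▸ lt_min (by positivity) (by positivity)
  obtain ⟨N₂, hN₂⟩ := exists_nat_ge (max (3 / η) 3)
  refine ⟨max N₁ N₂, C, Kf, min ε₁ (η / 3), hC, hKf1, lt_min hε₁ (by positivity), ?_⟩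
  intro W hW j0 t0 ht hj ht0 τ ε hε0 hε hamp
  have hbase : ∀ i : ℕ, 3 / η ≤ ((j0 + i : ℕ) : ℝ) + 1 ∧ 3 ≤ ((j0 + i : ℕ) : ℝ) + 1 := fun i => by
    have : (N₂ : ℝ) ≤ ((j0 + i : ℕ) : ℝ) :=
      Nat.cast_le.2 (le_trans (le_of_max_le_right hj) (by omega))
    obtain ⟨h1, h2⟩ := max_le_iff.1 hN₂
    constructor <;> linarith
  have hgood : ∀ i R, ‖R‖ ≤ A * (1 / (((j0 + i : ℕ) : ℝ) + 1) ^ 5 + ε) →
      W.LoopGood κ C Mo j0 t0 ht τ Kf ε i R := by
    intro i R hR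
    obtain ⟨hb1, hb3⟩ := hbase i
    set b := ((j0 + i : ℕ) : ℝ) + 1 with hb
    set u := 1 / b ^ 5 + ε with hu
    have hu0 : 0 ≤ u := by positivity
    have hub : 1 / b ^ 5 ≤ η / 3 :=
      calc 1 / b ^ 5 ≤ 1 / b :=
            one_div_le_one_div_of_le (by linarith) (le_self_pow₀ (by linarith) (by norm_num))
        _ ≤ 1 / (3 / η) := one_div_le_one_div_of_le (by positivity) hb1
        _ = η / 3 := by rw [one_div_div]
    have huη : u ≤ η := by
      have := hε.trans (min_le_right _ _)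
      rw [hu]; linarith
    have hδ : K * u ≤ δ₀ := by
      have := (le_div_iff₀ hK0).1 (huη.trans (hη.le.trans (min_le_left _ _)))
      linarith
    have h4 : u * (4 * Kf ^ 2) ≤ 1 :=
      (le_div_iff₀ (by positivity)).1 (huη.trans (hη.le.trans (min_le_right _ _)))
    -- all smallness conditions
    have hsm : ∀ {x y : ℝ}, 0 ≤ y → x ≤ Kf → y ≤ Kf * u → x * y ≤ 1 / 4 := fun {x y} hy hx hxy => by
      have := (mul_le_mul_of_nonneg_right hx hy).trans
        (mul_le_mul_of_nonneg_left hxy (zero_le_one.trans hKf1))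
      linarith only [this, h4]
    set d₁ := G * (A + K) * u with hd₁
    have hd₁0 : 0 ≤ d₁ := mul_nonneg hG0 hu0
    have hd₁f : d₁ ≤ Kf * u := mul_le_mul_of_nonneg_right (by linarith only [hKf, hK₂0, hK₃0, hc₃0, hK0, hK'K, hK'0]) hu0
    have hsg : ∀ m (hm : m < (W.prog (j0 + i)).length),
        (W.sched j0 t0 ht).SegGood κ C K ε Mo τ (W.corr (j0 + i)).length i m
          ((W.prog (j0 + i))[m]) :=
      fun m hm => hseg W P0 hW j0 t0 ht (le_of_max_le_left hj) ht0 τ ε hε0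
        (hε.trans (min_le_left _ _)) hamp i m hm
    exact loopGood_of W hW (R := R) hb hu hP hG hd₁ hK hKK' hu0 hd₁0 hd₁f hK₂ hK₃ hc₃
      (by linarith only [hKf, hG0]) hsm hR (fun S l k hk h => hrange HSp (K * u) (by positivity) hδ S l k hk h)
      hsg
  refine ⟨hgood, fun R₀ hR₀ i => ?_⟩
  induction i with
  | zero => exact hgood 0 R₀ (by simpa using hR₀)
  | succ i ih =>
    refine hgood (i + 1) _ ((slopeR_succ_le W ih).trans ?_)
    obtain ⟨-, hb3⟩ := hbase i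
    have hcast : ((j0 + (i + 1) : ℕ) : ℝ) + 1 = (((j0 + i : ℕ) : ℝ) + 1) + 1 := by push_cast; ring
    rw [hcast]
    set b := ((j0 + i : ℕ) : ℝ) + 1
    calc Real.exp (-(4 * b ^ 7)) ≤ 1 / (b + 1) ^ 5 := by
          rw [Real.exp_neg, one_div]
          refine inv_anti₀ (by positivity) ?_
          refine le_trans ?_ (Real.add_one_le_exp _)
          have h2 : (b + 1) ^ 5 ≤ (2 * b) ^ 5 := pow_le_pow_left₀ (by linarith) (by linarith) 5
          have hbb : (9 : ℝ) ≤ b ^ 2 := by nlinarith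
          have h57 : 9 * b ^ 5 ≤ b ^ 7 :=
            calc 9 * b ^ 5 ≤ b ^ 2 * b ^ 5 := mul_le_mul_of_nonneg_right hbb (by positivity)
              _ = b ^ 7 := by ring
          linarith [mul_pow (2 : ℝ) b 5, pow_nonneg (by linarith : (0 : ℝ) ≤ b) 5]
      _ ≤ 1 / (b + 1) ^ 5 + ε := le_add_of_nonneg_right hε0
      _ ≤ A * (1 / (b + 1) ^ 5 + ε) := le_mul_of_one_le_left (by positivity) hA

end LoopSpec

end

end Vale.Agent.P225
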