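import Vale.Agent.P225.Loop.PieceRefs

/-!
P225, module B (helper2): the segment of every piece of a schedule of loop programs.

Constant pieces and transits are diagonal, an excursion is diagonal in the frame of its isometry, an
insertion is the perturbed segment `InsOp.segH`.
-/

open Set

namespace Vale.Agent.P225

noncomputable section

/-- A change of frame at a junction on the whole state space. -/
structure GFrame (J : Fin 3) (M : ℝ) where
  Uu : HSp →L[ℝ] HSp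
  Vu : HSp →L[ℝ] HSp
  Uw : HSp →L[ℝ] HSp
  Vw : HSp →L[ℝ] HSp
  loc : LevelLocal J Uu ∧ LevelLocal J Vu ∧ LevelLocal J Uw ∧ LevelLocal J Vw
  bd : ‖Uu‖ ≤ M ∧ ‖Vu‖ ≤ M ∧ ‖Uw‖ ≤ M ∧ ‖Vw‖ ≤ M
  inv_u : Uu.comp Vu = 1 ∧ Vu.comp Uu = 1
  inv_w : Uw.comp Vw = 1 ∧ Vw.comp Uw = 1
  dev : ∀ i k : St,
    i.blk.mu * Uw (lp.single 2 k 1) i = k.blk.mu * Uu (lp.single 2 k 1) i

/-- A global frame seen on finitely many levels. -/
def GFrame.toFrame {J : Fin 3} {M : ℝ} (F : GFrame J M) (Lv : Finset (ℕ × ℕ)) :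
    Loop.Frame J Lv M where
  Uu := F.Uu
  Vu := F.Vu
  Uw := F.Uw
  Vw := F.Vw
  loc := F.loc
  bd := F.bd
  inv := by
    constructor
    · rw [← Loop.levMat_mul F.loc.1, F.inv_u.1, Loop.levMat_one]
    · rw [← Loop.levMat_mul F.loc.2.1, F.inv_u.2, Loop.levMat_one]

/-- The model data the pieces use: frames at every junction and insertion operators. -/
structure PieceModel where
  M : ℝ
  one_le_M : 1 ≤ M
  frame : ∀ J : Fin 3, ℕ → GFrame J M
  ins : ℕ → InsOp
  Ks : ℝ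
  size_le : ∀ f, (ins f).size (1 / 10) (1 / 16) ≤ Ks

theorem PieceModel.Ks_nonneg (Mo : PieceModel) : 0 ≤ Mo.Ks :=
  ((Mo.ins 0).size_nonneg (by norm_num) (by norm_num)).trans (Mo.size_le 0)

/-- The zero segment (junk value). -/
def Seg.junk : Seg HSp := ⟨0, 0, 0, 0⟩

open Classical in
/-- The diagonal segment of slopes, if they form a slope family. -/
def diagSegOf (a b : ℝ) (c : ℝ → ℝ) (z : St → ℝ → ℝ) (ρ : St → ℝ) (δ : ℝ) : Seg HSp :=
  if h : SlopeFam a b c z ρ (1 / 10) δ then h.coef.seg else Seg.junk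

theorem diagSegOf_eq {a b δ : ℝ} {c : ℝ → ℝ} {z : St → ℝ → ℝ} {ρ : St → ℝ}
    (h : SlopeFam a b c z ρ (1 / 10) δ) : diagSegOf a b c z ρ δ = h.coef.seg := dif_pos h

/-- What `InsOp.segH` needs of the data of an insertion. -/
structure InsReady (κ ε L a b : ℝ) (c : ℝ → ℝ) (z : St → ℝ → ℝ) (ρ : St → ℝ) (δ : ℝ) : Prop where
  fam : SlopeFam a b c z ρ (1 / 10) δ
  low : ∀ g : ℕ × ℕ, g ≠ 0 → ∀ t ∈ Icc a b, 1 / 16 * muL g ≤ z (levRep g) t
  cont : Continuous (insF₁ κ ε L a) ∧ Continuous (insF₂ κ ε L a)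
  bd : ∀ t ∈ Icc a b, |insF₁ κ ε L a t| ≤ 3 * |ε| ∧ |insF₂ κ ε L a t| ≤ 3 * |ε|

open Classical in
/-- The segment of an insertion, if its data are ready. -/
def insSegOf (O : InsOp) (κ ε L a b : ℝ) (c : ℝ → ℝ) (z : St → ℝ → ℝ) (ρ : St → ℝ) (δ : ℝ) :
    Seg HSp :=
  if h : InsReady κ ε L a b c z ρ δ then
    O.segH h.fam (by norm_num : (0 : ℝ) < 1 / 16) h.low (insF₁ κ ε L a) (insF₂ κ ε L a)
      h.cont.1 h.cont.2 (3 * |ε|) (by positivity) h.bd
  else Seg.junk

theorem insSegOf_eq (O : InsOp) {κ ε L a b δ : ℝ} {c : ℝ → ℝ} {z : St → ℝ → ℝ} {ρ : St → ℝ}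
    (h : InsReady κ ε L a b c z ρ δ) :
    insSegOf O κ ε L a b c z ρ δ
      = O.segH h.fam (by norm_num : (0 : ℝ) < 1 / 16) h.low (insF₁ κ ε L a) (insF₂ κ ε L a)
          h.cont.1 h.cont.2 (3 * |ε|) (by positivity) h.bd := dif_pos h

/-- The segment of one piece with slopes `z` and right references `ρ`. -/
def Piece.segOf (P : Piece) (κ C : ℝ) (Mo : PieceModel) (j : ℕ) (τ : ℕ → ℝ) (a : ℝ)
    (z : St → ℝ → ℝ) (ρ : St → ℝ) : Seg HSp :=
  match P with
  | .exc J g k =>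
      (diagSegOf a (a + (Piece.exc J g k).len j) (cPiece κ a) z ρ
        (4 * C / ((j : ℝ) + 1) ^ 5)).conj (Mo.frame J g).Uu (Mo.frame J g).Vu (Mo.frame J g).Uw
          (Mo.frame J g).Vw
  | .ins f k =>
      insSegOf (Mo.ins f) κ (τ k) ((Piece.ins f k).len j) a (a + (Piece.ins f k).len j)
        (cPiece κ a) z ρ (4 * C / ((j : ℝ) + 1) ^ 5)
  | P => diagSegOf a (a + P.len j) (cPiece κ a) z ρ (4 * C / ((j : ℝ) + 1) ^ 5)

/-- The segment of piece `m` of loop `i`. -/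
def Sched.seg (S : Sched) (κ C : ℝ) (Mo : PieceModel) (τ : Params) (i m : ℕ) : Seg HSp :=
  if h : m < (S.prog (S.j0 + i)).length then
    ((S.prog (S.j0 + i))[m]).segOf κ C Mo (S.j0 + i) (τ i) (S.pieceStart i m) (S.slope κ τ i m)
      (S.endRef κ i m)
  else Seg.junk

theorem pieceLam_ins (κ : ℝ) (f p j : ℕ) (τ : ℕ → ℝ) (a : ℝ) (i : St) (t : ℝ) :
    pieceLam κ (Piece.ins f p) j τ a i t = scaleFun κ t * (Blk.cas i.blk.la + Blk.cas i.blk.lb) := by
  show Blk.lam (wNorm (dFun κ t) (rawExc 0)) i.blk = _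
  rw [lam_wNorm]
  simp [scaleFun, wdet, rawExc, Blk.lam]

theorem muL_div_eight_le_alphaFn {c s : ℝ} (hc : 0 ≤ c) (hc6 : c ≤ 6) (hs : 1 ≤ s) {g : ℕ × ℕ}
    (hg : g ≠ 0) : muL g / 8 ≤ Ode.alphaFn c (s * (Blk.cas g.1 + Blk.cas g.2)) := by
  have hn : (1 : ℝ) ≤ (g.1 : ℝ) + g.2 := by
    have : 1 ≤ g.1 + g.2 := Nat.one_le_iff_ne_zero.2 fun h0 => hg (by
      obtain ⟨x, y⟩ := g; simp at h0; simp [h0.1, h0.2])
    exact_mod_cast this
  have hcas : muL g ^ 2 / 2 ≤ Blk.cas g.1 + Blk.cas g.2 := by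
    simp only [muL, Blk.cas]
    nlinarith [sq_nonneg ((g.1 : ℝ) - g.2), (Nat.cast_nonneg g.1 : (0 : ℝ) ≤ g.1),
      (Nat.cast_nonneg g.2 : (0 : ℝ) ≤ g.2)]
  have hμ : 2 ≤ muL g := by simp only [muL]; linarith
  refine le_alphaFn hc (by linarith) ?_
  nlinarith [mul_le_mul_of_nonneg_right hc6 (by linarith : (0 : ℝ) ≤ muL g / 8),
    mul_le_mul_of_nonneg_right hs ((by positivity : (0 : ℝ) ≤ muL g ^ 2 / 2).trans hcas)]

theorem ins_mem_corr {W : LoopSpec} {P0 : ℕ} (hW : W.Ok P0) {j m : ℕ} (hm : m < (W.prog j).length)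
    {f k : ℕ} (he : (W.prog j)[m] = Piece.ins f k) : m < (W.corr j).length := by
  rcases W.prog_getElem j m hm with ⟨h', e⟩ | ⟨h', e⟩ | ⟨h', e⟩ | ⟨h', -, e⟩ | ⟨h', e⟩ | ⟨h', e⟩
  · exact h'
  · rw [he] at e; exact absurd e (by simp)
  · rw [he] at e; exact absurd e (by simp)
  · have h := hW.ctrl_ok j _ (List.getElem_mem h')
    rw [← e, he] at h
    exact h.elim
  · rw [he] at e; exact absurd e (by simp)
  · rw [he] at e; exact absurd e (by simp)

/-- Facts about the segments of a schedule. -/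
structure Sched.SegGood (S : Sched) (κ C K ε : ℝ) (Mo : PieceModel) (τ : Params) (c i m : ℕ)
    (P : Piece) : Prop where
  good : S.PieceGood κ C τ c i m P
  diag : P.isExc = false → (∀ f k, P ≠ Piece.ins f k) →
    S.seg κ C Mo τ i m = good.fam.coef.seg
  exc : ∀ J g k, P = Piece.exc J g k → S.seg κ C Mo τ i m
    = good.fam.coef.seg.conj (Mo.frame J g).Uu (Mo.frame J g).Vu (Mo.frame J g).Uw (Mo.frame J g).Vw
  ins : ∀ f k, P = Piece.ins f k → InsReady κ (τ i k) (P.len (S.j0 + i)) (S.pieceStart i m)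
      (S.pieceStart i m + P.len (S.j0 + i)) (cPiece κ (S.pieceStart i m)) (S.slope κ τ i m)
      (S.endRef κ i m) (4 * C / (((S.j0 + i : ℕ) : ℝ) + 1) ^ 5) ∧
    S.seg κ C Mo τ i m = insSegOf (Mo.ins f) κ (τ i k) (P.len (S.j0 + i)) (S.pieceStart i m)
      (S.pieceStart i m + P.len (S.j0 + i)) (cPiece κ (S.pieceStart i m)) (S.slope κ τ i m)
      (S.endRef κ i m) (4 * C / (((S.j0 + i : ℕ) : ℝ) + 1) ^ 5) ∧
    ∀ k' : St, ∀ t ∈ Icc (S.pieceStart i m) (S.pieceStart i m + P.len (S.j0 + i)),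
      S.slope κ τ i m k' t = S.slope κ τ i m (levRep (k'.blk.level 0)) t
  bd : ‖(S.seg κ C Mo τ i m).Q‖ ≤ K ∧ ‖(S.seg κ C Mo τ i m).B‖ ≤ K ∧
    ‖(S.seg κ C Mo τ i m).C‖ ≤ K * (1 / (((S.j0 + i : ℕ) : ℝ) + 1) ^ 5 + ε) ∧
    ‖(S.seg κ C Mo τ i m).D‖ ≤ K
  local' : (∀ f k, P ≠ Piece.ins f k) → SegLocal P.src (S.seg κ C Mo τ i m)
  long : 6 ≤ P.power → (S.seg κ C Mo τ i m).C = 0 ∧
    ‖(S.seg κ C Mo τ i m).D‖ ≤ Real.exp (-(4 * P.len (S.j0 + i))) ∧
    ∀ k k' : St, k.blk.level 0 = k'.blk.level 0 →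
      Ode.coefQ (S.slope κ τ i m k) (S.pieceStart i m) (S.pieceStart i m + P.len (S.j0 + i))
        = Ode.coefQ (S.slope κ τ i m k') (S.pieceStart i m) (S.pieceStart i m + P.len (S.j0 + i))

/-- All pieces of late schedules of loop programs have bounded segments. -/
theorem LoopSpec.exists_segGood (κ R : ℝ) (hκ : 0 ≤ κ) (Mo : PieceModel) :
    ∃ (N : ℕ) (C K ε₀ : ℝ), 0 ≤ C ∧ 1 ≤ K ∧ 0 < ε₀ ∧ ∀ (W : LoopSpec) (P0 : ℕ), W.Ok P0 →
      ∀ (j0 : ℕ) (t0 : ℝ) (ht : 1 ≤ t0), N ≤ j0 → 2 * ((j0 : ℝ) + 1) ^ 5 ≤ t0 →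
      ∀ (τ : Params) (ε : ℝ), 0 ≤ ε → ε ≤ ε₀ → (W.sched j0 t0 ht).AmpOk τ R ε →
      ∀ i m (hm : m < (W.prog (j0 + i)).length),
        (W.sched j0 t0 ht).SegGood κ C K ε Mo τ (W.corr (j0 + i)).length i m
          ((W.prog (j0 + i))[m]) := by
  obtain ⟨N₁, C, hC, hgood⟩ := LoopSpec.exists_good κ R hκ
  obtain ⟨N₂, hN₂⟩ := exists_nat_ge (max (4 * κ ^ 2) (48 * C))
  set Ks := Mo.Ks
  have hKs := Mo.Ks_nonneg
  have hM := Mo.one_le_M
  have hM2 : 1 ≤ Mo.M * Mo.M := by nlinarith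
  refine ⟨max N₁ N₂, C, Mo.M * Mo.M * (62 + 8 * C + 6 * Ks), min 1 (1 / (6 * (Ks + 1))), hC,
    by nlinarith, lt_min one_pos (by positivity),
    fun W P0 hW j0 t0 ht hj ht0 τ ε hε0 hε hamp i m hm => ?_⟩
  set S := W.sched j0 t0 ht
  have hε1 : ε ≤ 1 := hε.trans (min_le_left _ _)
  have hε2 : ε * (6 * (Ks + 1)) ≤ 1 := by
    have h := hε.trans (min_le_right _ _)
    rwa [le_div_iff₀ (by positivity)] at h
  have hG := hgood W P0 hW j0 t0 ht ((le_max_left _ _).trans hj) ht0 τ ε hamp hε1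
  have g := hG i m hm
  have hampm : ((W.prog (j0 + i))[m]).AmpOk (τ i) R ε := hamp i m hm
  set P := (W.prog (j0 + i))[m] with hP
  set a := S.pieceStart i m
  set L := (((j0 + i : ℕ) : ℝ) + 1) ^ 5 with hLdef
  have hj0 : (1 : ℝ) ≤ ((j0 + i : ℕ) : ℝ) + 1 := le_add_of_nonneg_left (Nat.cast_nonneg _)
  have hL : 1 ≤ L := one_le_pow₀ hj0
  have ha : 0 < a := by
    have : 2 * L ≤ a := g.start_ge
    linarith
  have hbig : max (4 * κ ^ 2) (48 * C) ≤ ((j0 + i : ℕ) : ℝ) :=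
    hN₂.trans (Nat.cast_le.2 (by omega))
  simp only [max_le_iff] at hbig
  have hab : a ≤ a + P.len (j0 + i) := by linarith [P.len_pos (j0 + i)]
  have hseg : S.seg κ C Mo τ i m
      = P.segOf κ C Mo (j0 + i) (τ i) a (S.slope κ τ i m) (S.endRef κ i m) := by
    rw [Sched.seg, dif_pos (show m < (S.prog (S.j0 + i)).length from hm)]
    rfl
  have hdiag : P.isExc = false → (∀ f k, P ≠ Piece.ins f k) →
      S.seg κ C Mo τ i m = g.fam.coef.seg := by
    intro he hi
    rw [hseg, ← diagSegOf_eq g.fam]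
    revert he hi
    cases P <;> intro he hi
    · rfl
    · simp [Piece.isExc] at he
    · rfl
    · rfl
    · exact absurd rfl (hi _ _)
  have hexc : ∀ J g' k, P = Piece.exc J g' k → S.seg κ C Mo τ i m = g.fam.coef.seg.conj
      (Mo.frame J g').Uu (Mo.frame J g').Vu (Mo.frame J g').Uw (Mo.frame J g').Vw := by
    intro J g' k he
    rw [hseg, ← diagSegOf_eq g.fam]
    show P.segOf κ C Mo (j0 + i) (τ i) a (S.slope κ τ i m) (S.endRef κ i m)
      = Seg.conj (diagSegOf a (a + P.len (j0 + i)) (cPiece κ a) (S.slope κ τ i m) (S.endRef κ i m)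
          (4 * C / L)) _ _ _ _
    rw [he]
    rfl
  have hins : ∀ f k, P = Piece.ins f k → InsReady κ (τ i k) (P.len (j0 + i)) a
      (a + P.len (j0 + i)) (cPiece κ a) (S.slope κ τ i m) (S.endRef κ i m) (4 * C / L) ∧
      S.seg κ C Mo τ i m = insSegOf (Mo.ins f) κ (τ i k) (P.len (j0 + i)) a (a + P.len (j0 + i))
        (cPiece κ a) (S.slope κ τ i m) (S.endRef κ i m) (4 * C / L) ∧
      |τ i k| ≤ ε ∧
      ∀ k' : St, ∀ t ∈ Icc a (a + P.len (j0 + i)),
        S.slope κ τ i m k' t = S.slope κ τ i m (levRep (k'.blk.level 0)) t := by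
    intro f k he
    have hak : |τ i k| ≤ ε := by rw [he] at hampm; exact hampm
    refine ⟨⟨g.fam, fun gg hgg t htt => ?_, continuous_insF κ _ _ ha,
      fun t _ => abs_insF_le hκ (hak.trans hε1) ha t⟩, by rw [hseg, he]; rfl, hak,
      fun k' t htt => ?_⟩
    · have hc := g.drift t
      rw [cPiece_of_ge κ ha htt.1] at hc
      have hsc : 1 ≤ scaleFun κ t := by
        have hge : 2 * L ≤ a := g.start_ge
        have h := abs_scaleFun_sub (t := t) hκ hj0 (by linarith [htt.1] :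
          (((j0 + i : ℕ) : ℝ) + 1) ^ 5 ≤ t)
        have h2 : 2 * κ / Real.sqrt (((j0 + i : ℕ) : ℝ) + 1) ≤ 1 := by
          rw [div_le_one (Real.sqrt_pos.2 (by linarith))]
          exact Real.le_sqrt_of_sq_le (by nlinarith [hbig.1])
        have hI : 2 ≤ scaleInf := Real.le_sqrt_of_sq_le (by norm_num [dMin])
        linarith [abs_le.1 h]
      have hα := muL_div_eight_le_alphaFn (by linarith : 0 ≤ cDrift κ t) hc.2 hsc hgg
      have hnear := abs_le.1 (g.near (levRep gg) t htt)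
      have elam : pieceLam κ P (S.j0 + i) (τ i) (S.pieceStart i m) (levRep gg) t
          = scaleFun κ t * (Blk.cas gg.1 + Blk.cas gg.2) := by
        rw [he, pieceLam_ins]
        rfl
      rw [elam] at hnear
      have hη : 3 * C / L ≤ 1 / 16 := by
        rw [div_le_iff₀ (by linarith)]
        have hself : ((j0 + i : ℕ) : ℝ) + 1 ≤ L := le_self_pow₀ hj0 (by norm_num)
        linarith [hbig.2]
      have hμ1 := one_le_muL gg
      show 1 / 16 * muL gg ≤ _
      linarith [show -(3 * C / L) ≤ S.slope κ τ i m (levRep gg) t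
        - Ode.alphaFn (cDrift κ t) (scaleFun κ t * (Blk.cas gg.1 + Blk.cas gg.2)) from hnear.1]
    · have hlev := g.start_level (Or.inl (by have := ins_mem_corr hW hm he; omega)) k'
        (levRep (k'.blk.level 0)) (levRep_level _).symm
      have h2 := g.is_slope (levRep (k'.blk.level 0))
      rw [← hlev] at h2
      exact (g.is_slope k').unique ha g.wide (fun t _ => by linarith [(g.drift t).1])
        (fun t => by
          rw [he, pieceLam_ins, pieceLam_ins]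
          have e1 : (levRep (k'.blk.level 0)).blk.la = k'.blk.la := rfl
          have e2 : (levRep (k'.blk.level 0)).blk.lb = k'.blk.lb := rfl
          rw [e1, e2]) h2 htt
  -- norms
  set K := Mo.M * Mo.M * (62 + 8 * C + 6 * Ks)
  have hK0 : 62 + 8 * C + 6 * Ks ≤ K := le_mul_of_one_le_left (by positivity) hM2
  have hu0 : 0 ≤ 1 / L := by positivity
  have hδ : ∀ x, x ≤ 4 * C / L → x ≤ (62 + 8 * C + 6 * Ks) * (1 / L + ε) := fun x hx => by
    refine hx.trans ?_
    rw [div_eq_mul_one_div]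
    exact mul_le_mul (by linarith) (le_add_of_nonneg_right hε0) hu0 (by positivity)
  have hbd : ‖(S.seg κ C Mo τ i m).Q‖ ≤ K ∧ ‖(S.seg κ C Mo τ i m).B‖ ≤ K ∧
      ‖(S.seg κ C Mo τ i m).C‖ ≤ K * (1 / L + ε) ∧ ‖(S.seg κ C Mo τ i m).D‖ ≤ K := by
    have hd : ‖g.fam.coef.seg.Q‖ ≤ 62 + 8 * C + 6 * Ks ∧ ‖g.fam.coef.seg.B‖ ≤ 62 + 8 * C + 6 * Ks ∧
        ‖g.fam.coef.seg.C‖ ≤ (62 + 8 * C + 6 * Ks) * (1 / L + ε) ∧
        ‖g.fam.coef.seg.D‖ ≤ 62 + 8 * C + 6 * Ks :=
      ⟨g.fam.coef.norm_Q.trans (show (1 : ℝ) ≤ _ by linarith),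
        g.fam.coef.norm_B.trans (show 1 / (1 / 10 : ℝ) ≤ _ by norm_num; linarith),
        g.fam.coef.norm_C.trans (hδ _ le_rfl),
        g.fam.coef.norm_D.trans (show (1 : ℝ) ≤ _ by linarith)⟩
    cases he : P.isExc
    · by_cases hi : ∀ f k, P ≠ Piece.ins f k
      · rw [hdiag he hi]
        exact ⟨hd.1.trans hK0, hd.2.1.trans hK0,
          hd.2.2.1.trans (mul_le_mul_of_nonneg_right hK0 (by positivity)), hd.2.2.2.trans hK0⟩
      · push Not at hi
        obtain ⟨f, k, hfk⟩ := hi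
        obtain ⟨hr, hs, hak, -⟩ := hins f k hfk
        rw [hs, insSegOf_eq _ hr]
        have hθ : 3 * |τ i k| * (Mo.ins f).size (1 / 10) (1 / 16) ≤ 3 * ε * Ks :=
          mul_le_mul (by linarith) (Mo.size_le f)
            ((Mo.ins f).size_nonneg (by norm_num) (by norm_num)) (by positivity)
        have hθ2 : 3 * ε * Ks ≤ 1 / 2 := by linarith
        obtain ⟨q1, q2, q3, q4⟩ := (Mo.ins f).norm_segH_le hr.fam (by norm_num : (0 : ℝ) < 1 / 16)
          hr.low _ _ hr.cont.1 hr.cont.2 _ (by positivity : 0 ≤ 3 * |τ i k|) hr.bd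
          (hθ.trans hθ2)
        refine ⟨q1.trans (le_trans (by linarith) hK0), q2.trans (le_trans (by norm_num; linarith) hK0),
          q3.trans ?_, q4.trans (le_trans ?_ hK0)⟩
        · refine le_trans ?_ (mul_le_mul_of_nonneg_right hK0 (by positivity))
          have h1 : 2 * (4 * C / L) = 8 * C * (1 / L) := by ring
          have h2 : 8 * C * (1 / L) ≤ 8 * C * (1 / L + ε) :=
            mul_le_mul_of_nonneg_left (le_add_of_nonneg_right hε0) (by positivity)
          have h3 : 6 * Ks * ε ≤ 6 * Ks * (1 / L + ε) :=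
            mul_le_mul_of_nonneg_left (le_add_of_nonneg_left hu0) (by positivity)
          have h4 : 0 ≤ 62 * (1 / L + ε) := by positivity
          linarith
        · rw [div_div_eq_mul_div, div_one]
          linarith
    · obtain ⟨J, g', k, hP'⟩ : ∃ J g' k, P = Piece.exc J g' k := by
        revert he
        cases P <;> simp [Piece.isExc]
      rw [hexc J g' k hP']
      obtain ⟨q1, q2, q3, q4⟩ := Seg.norm_conj_le g.fam.coef.seg (M := Mo.M) (Mo.frame J g').bd.1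
        (Mo.frame J g').bd.2.1 (Mo.frame J g').bd.2.2.1 (Mo.frame J g').bd.2.2.2
      have hM0 : 0 ≤ Mo.M := zero_le_one.trans hM
      have step : ∀ {x y : ℝ}, x ≤ y → Mo.M * x * Mo.M ≤ Mo.M * Mo.M * y := fun {x y} h => by
        rw [mul_right_comm]; exact mul_le_mul_of_nonneg_left h (mul_nonneg hM0 hM0)
      refine ⟨q1.trans (step hd.1), q2.trans (step hd.2.1), (q3.trans (step hd.2.2.1)).trans_eq ?_,
        q4.trans (step hd.2.2.2)⟩
      exact (mul_assoc _ _ _).symm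
  refine ⟨g, hdiag, hexc, fun f k he => ⟨(hins f k he).1, (hins f k he).2.1, (hins f k he).2.2.2⟩,
    hbd, fun hni => ?_, fun h6 => ?_⟩
  · cases he : P.isExc
    · rw [hdiag he hni]; exact DiagCoef.segLocal _ _
    · obtain ⟨J, g', k, hP'⟩ : ∃ J g' k, P = Piece.exc J g' k := by
        revert he
        cases P <;> simp [Piece.isExc]
      rw [hexc J g' k hP', show P.src = J by rw [hP']; rfl]
      exact (DiagCoef.segLocal _ J).conj (Mo.frame J g').loc.1 (Mo.frame J g').loc.2.1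
        (Mo.frame J g').loc.2.2.1 (Mo.frame J g').loc.2.2.2
  · obtain ⟨q, hq⟩ : ∃ q, P = Piece.wait 0 q := by
      cases m with
      | zero => rw [hP, LoopSpec.first_short hW hm] at h6; omega
      | succ n => exact (LoopSpec.long_prev hW hm h6).2
    have hne : P.isExc = false := by rw [hq]; rfl
    rw [hdiag hne (by rw [hq]; simp)]
    have hnr : ∀ h : m + 1 < (W.prog (j0 + i)).length,
        ((W.prog (j0 + i))[m + 1]).restarts = false := by
      intro h
      have hl := W.prog_length (j0 + i)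
      rcases W.prog_getElem (j0 + i) m hm with
        ⟨h', e⟩ | ⟨h', e⟩ | ⟨h', e⟩ | ⟨h', -, e⟩ | ⟨h', e⟩ | ⟨h', e⟩
      · rw [hP, e, (hW.corr_ok _ _ (List.getElem_mem h')).facts.2.2] at h6; omega
      · rcases W.prog_getElem (j0 + i) (m + 1) h with
          ⟨h'', e'⟩ | ⟨h'', e'⟩ | ⟨h'', e'⟩ | ⟨-, h'', -⟩ | ⟨h'', e'⟩ | ⟨h'', e'⟩
        · omega
        · omega
        · rw [e']; rfl
        all_goals omega
      · rw [hP, e] at h6; simp [Piece.power] at h6
      · rw [hP, e, (hW.ctrl_ok _ _ (List.getElem_mem h')).facts.2.2] at h6; omega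
      · rw [hP, e] at h6; simp [Piece.power] at h6
      · omega
    have hexact := g.exact_end hne hnr (fun h0 _ => by
      show ((W.prog (j0 + (i + 1)))[0]).restarts = false
      obtain ⟨l, hl⟩ := List.head?_eq_some_iff.1 (hW.corr_head (j0 + (i + 1)))
      simp [LoopSpec.prog, loopProg, hl, Piece.restarts, Piece.isExc, Piece.power]) hm
    refine ⟨g.fam.C_eq_zero hexact, ?_, fun k k' hkk => ?_⟩
    · have := g.fam.norm_D_le_buffer fun t _ => (g.drift t).1
      simpa using this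
    · have hlev := g.start_level (Or.inr h6) k k' hkk
      have h2 := g.is_slope k'
      rw [← hlev] at h2
      have he := (g.is_slope k).unique ha g.wide (fun t _ => by linarith [(g.drift t).1])
        (fun t => (pieceLam_level hne (by rw [hq]; rfl) (by rw [hq]; rfl) κ (S.j0 + i) (τ i) _ t hkk).symm) h2
      simp only [Ode.coefQ, Ode.prim]
      congr 1
      congr 1
      exact intervalIntegral.integral_congr fun t htt => by
        refine he ?_
        have := uIcc_of_le hab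
        exact this ▸ htt

end

end Vale.Agent.P225
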