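import Vale.Agent.P225.Loop.LoopData
import Vale.Agent.P225.Assembly.Orbits

/-!
P225, module B (helper2): the factor of the hold at the end of a loop.  When the first loop starts
late enough the weights are within `O(1/j)` of their limit, so the hold multiplies state `k` by
`exp (-alphaInf k * T7 + O((1 + alphaInf k) * T6))`.
-/

open Set

namespace Vale.Agent.P225

noncomputable section

theorem abs_alphaFn_sub {c s I l η v : ℝ} (hI : 0 ≤ I) (hl : 0 ≤ l) (hc : |c - 5| ≤ v) (hv : v ≤ 1)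
    (hs : |s - I| ≤ η * I) (hs0 : 0 ≤ s) (hη : 0 ≤ η) :
    |Ode.alphaFn c (s * l) - Ode.alphaFn 5 (I * l)|
      ≤ (η + 2 * v) * (3 + Ode.alphaFn 5 (I * l)) := by
  set A := Real.sqrt (c ^ 2 + 4 * (s * l))
  set B := Real.sqrt (5 ^ 2 + 4 * (I * l))
  have hA : 0 ≤ A := Real.sqrt_nonneg _
  have hB2 : B ^ 2 = 5 ^ 2 + 4 * (I * l) := Real.sq_sqrt (by positivity)
  have hA2 : A ^ 2 = c ^ 2 + 4 * (s * l) := Real.sq_sqrt (by positivity)
  have hB5 : 5 ≤ B := Real.le_sqrt_of_sq_le (by linarith [mul_nonneg hI hl])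
  have hv0 : 0 ≤ v := (abs_nonneg _).trans hc
  have hηI : 0 ≤ η * I := (abs_nonneg _).trans hs
  obtain ⟨hc1, hc2⟩ := abs_le.1 hc
  have hnum : |A ^ 2 - B ^ 2| ≤ 11 * v + 4 * (η * I) * l := by
    have e : A ^ 2 - B ^ 2 = (c - 5) * (c + 5) + 4 * (s - I) * l := by rw [hA2, hB2]; ring
    rw [e]
    refine (abs_add_le _ _).trans (add_le_add ?_ ?_)
    · rw [abs_mul, mul_comm (11 : ℝ)]
      exact mul_le_mul hc (by rw [abs_le]; constructor <;> linarith) (abs_nonneg _) hv0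
    · rw [abs_mul, abs_mul, abs_of_nonneg hl, abs_of_pos (by norm_num : (0 : ℝ) < 4)]
      gcongr
  have hdiff : |A - B| * B ≤ 11 * v + 4 * (η * I) * l := by
    refine le_trans ?_ hnum
    rw [show A ^ 2 - B ^ 2 = (A - B) * (A + B) by ring, abs_mul,
      abs_of_nonneg (by linarith : 0 ≤ A + B)]
    exact mul_le_mul_of_nonneg_left (by linarith) (abs_nonneg _)
  have key : |A - B| ≤ 3 * v + η * B := by
    have h4 : 4 * (η * I) * l ≤ η * B * B := by
      rw [mul_assoc η B B, ← sq, hB2]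
      linarith
    by_contra hcon
    push Not at hcon
    linarith [mul_lt_mul_of_pos_right hcon (by linarith : 0 < B),
      mul_le_mul_of_nonneg_left hB5 hv0]
  obtain ⟨k1, k2⟩ := abs_le.1 key
  show |(A - c) / 2 - (B - 5) / 2| ≤ (η + 2 * v) * (3 + (B - 5) / 2)
  have e : (η + 2 * v) * (3 + (B - 5) / 2) = η * B / 2 + η / 2 + v * B + v := by ring
  have := mul_le_mul_of_nonneg_left hB5 hv0
  rw [e, abs_le]
  constructor <;> linarith

theorem abs_scaleFun_sub_late {κ t b : ℝ} (hκ : 0 ≤ κ) (hb : 1 ≤ b) (ht : b ^ 8 ≤ 1024 * t) :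
    |scaleFun κ t - scaleInf| ≤ 2 * κ / b * scaleInf := by
  have hb0 : 0 < b := zero_lt_one.trans_le hb
  have ht0 : 0 < t := by nlinarith [pow_pos hb0 8]
  set u := t ^ (-(1 / 8) : ℝ) with hudef
  have hu0 : 0 < u := Real.rpow_pos_of_pos ht0 _
  have hu8 : u ^ 8 * t = 1 := by
    rw [hudef, ← Real.rpow_natCast, ← Real.rpow_mul ht0.le]
    norm_num
    rw [Real.rpow_neg_one, inv_mul_cancel₀ ht0.ne']
  have hu : u ≤ 4 / b := by
    rw [le_div_iff₀ hb0]
    refine le_of_pow_le_pow_left₀ (by norm_num : (8 : ℕ) ≠ 0) (by norm_num) ?_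
    rw [mul_pow]
    have := mul_le_mul_of_nonneg_left ht (pow_nonneg hu0.le 8)
    nlinarith
  have hdM : (0 : ℝ) < dMin := by norm_num [dMin]
  have e : scaleFun κ t = scaleInf * Real.exp (-(κ * u / 2)) := by
    simp only [scaleFun, scaleInf, dFun, one_div]
    rw [mul_inv, Real.sqrt_mul (inv_nonneg.2 hdM.le)]
    congr 1
    rw [← Real.exp_neg, Real.sqrt_eq_iff_mul_self_eq (Real.exp_pos _).le (Real.exp_pos _).le,
      ← Real.exp_add]
    congr 1
    simp only [hudef]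
    ring_nf
  have hI0 : 0 ≤ scaleInf := Real.sqrt_nonneg _
  have hκu : 0 ≤ κ * u := mul_nonneg hκ hu0.le
  have h1 : Real.exp (-(κ * u / 2)) ≤ 1 := Real.exp_le_one_iff.2 (by linarith)
  rw [e, show scaleInf * Real.exp (-(κ * u / 2)) - scaleInf
    = -((1 - Real.exp (-(κ * u / 2))) * scaleInf) by ring, abs_neg,
    abs_of_nonneg (mul_nonneg (by linarith) hI0)]
  refine mul_le_mul_of_nonneg_right ?_ hI0
  calc 1 - Real.exp (-(κ * u / 2)) ≤ κ * u / 2 := by linarith [Real.add_one_le_exp (-(κ * u / 2))]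
    _ ≤ κ * (4 / b) / 2 := by gcongr
    _ = 2 * κ / b := by ring

namespace LoopSpec

/-- The loops keep starting late. -/
theorem pow_eight_le_start (W : LoopSpec) {j0 : ℕ} {t0 : ℝ} (ht : 1 ≤ t0)
    (h0 : ((j0 : ℝ) + 1) ^ 8 ≤ t0) (i : ℕ) :
    (((j0 + i : ℕ) : ℝ) + 1) ^ 8 ≤ 1024 * (W.sched j0 t0 ht).start i := by
  induction i with
  | zero =>
    rw [show (W.sched j0 t0 ht).start 0 = t0 by simp [Sched.start, sched]]
    rw [Nat.add_zero]
    linarith [pow_nonneg (by positivity : (0 : ℝ) ≤ (j0 : ℝ) + 1) 8]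
  | succ i ih =>
    rw [(W.sched j0 t0 ht).start_succ]
    show _ ≤ 1024 * ((W.sched j0 t0 ht).start i + (W.sched j0 t0 ht).loopLen (j0 + i))
    have h := W.hold_le_loopLen j0 t0 ht (j0 + i)
    set b := ((j0 + i : ℕ) : ℝ) + 1 with hb
    rw [show ((j0 + (i + 1) : ℕ) : ℝ) + 1 = b + 1 by rw [hb]; push_cast; ring]
    have hb1 : 1 ≤ b := le_add_of_nonneg_left (Nat.cast_nonneg _)
    have hd : (b + 1) ^ 8 ≤ b ^ 8 + 255 * b ^ 7 := by
      have e : ∀ k, k ≤ 7 → b ^ k ≤ b ^ 7 := fun k hk => pow_le_pow_right₀ hb1 hk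
      have := e 0 (by norm_num); have := e 1 (by norm_num); have := e 2 (by norm_num)
      have := e 3 (by norm_num); have := e 4 (by norm_num); have := e 5 (by norm_num)
      have := e 6 (by norm_num)
      nlinarith
    linarith [pow_nonneg (by linarith : (0 : ℝ) ≤ b) 7]

/-- **The hold factor.** Diagonal, a level function, with exponent `alphaInf * T7` up to `T6`. -/
theorem restQ_hold {W : LoopSpec} {κ C K ε : ℝ} {Mo : PieceModel} {j0 : ℕ} {t0 : ℝ} {ht : 1 ≤ t0}
    {τ : Params} {i : ℕ} {R : HSp →L[ℝ] HSp} (hκ : 0 ≤ κ) (hC : 0 ≤ C) (hj : κ ≤ j0)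
    (ht8 : ((j0 : ℝ) + 1) ^ 8 ≤ t0) (hgood : W.LoopGood κ C Mo j0 t0 ht τ K ε i R) :
    ∃ q : St → ℝ,
      (∀ x k, (W.segs κ C Mo j0 t0 ht τ i
          ((W.corr (j0 + i)).length + (W.ctrl (j0 + i)).length + 3)).Q x k = q k * x k) ∧
      (∀ k k' : St, k.blk.level 0 = k'.blk.level 0 → q k = q k') ∧
      ∀ k, 0 < q k ∧ q k ≤ 1 ∧
        |Real.log (q k) + alphaInf k * (W.sched j0 t0 ht).T7 i|
          ≤ (3 * C + 15 * κ + 1) * (1 + alphaInf k) * (W.sched j0 t0 ht).T6 i ∧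
        ∀ x, 0 ≤ x → x ≤ alphaInf k →
          (3 * C + 15 * κ + 1) * (1 + x) ≤ (W.sched j0 t0 ht).base i →
          q k ≤ Real.exp (-(x - 1) * (W.sched j0 t0 ht).T7 i) := by
  set S := W.sched j0 t0 ht
  set m := (W.corr (j0 + i)).length + (W.ctrl (j0 + i)).length + 3 with hmdef
  have hlen := W.prog_length (j0 + i)
  have hm : m < (W.prog (j0 + i)).length := by omega
  have he : (W.prog (j0 + i))[m] = Piece.wait 0 7 := by
    rcases W.prog_getElem (j0 + i) m hm with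
      ⟨h, -⟩ | ⟨h, -⟩ | ⟨h, -⟩ | ⟨h, -, -⟩ | ⟨h, -⟩ | ⟨-, e⟩
    all_goals first | exact e | omega
  have hg := hgood.piece m hm
  rw [he] at hg
  obtain ⟨g, hdiag, -, -, -, -, hlong⟩ := hg
  set z := S.slope κ τ i m
  set a := S.pieceStart i m
  set b := S.base i with hbdef
  have hb1 : 1 ≤ b := S.one_le_base i
  have hlenb : (Piece.wait 0 7).len (j0 + i) = b ^ 7 := rfl
  refine ⟨fun k => Ode.coefQ (z k) a (a + (Piece.wait 0 7).len (j0 + i)), fun x k => ?_,
    (hlong (by decide)).2.2, fun k => ?_⟩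
  · show (S.seg κ C Mo τ i m).Q x k = _
    rw [hdiag rfl (by simp)]
    rfl
  set I := Ode.alphaFn 5 (scaleInf * (Count.lev k.blk.la k.blk.lb : ℝ)) with hIdef
  have hIα : I = alphaInf k := by
    rw [hIdef, alphaInf, Count.alphaJ, Ode.alphaFn]
    norm_num [sInf, scaleInf, mul_assoc]
  have hI0 : 0 ≤ I := Ode.alphaFn_nonneg (mul_nonneg (Real.sqrt_nonneg _) (Nat.cast_nonneg _))
  have hL : (0 : ℝ) < b ^ 7 := by positivity
  have hdiv : (3 * C + 15 * κ) / b * b ^ 7 = (3 * C + 15 * κ) * b ^ 6 := by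
    rw [div_mul_eq_mul_div, div_eq_iff (by linarith)]; ring
  have hpt : ∀ t ∈ Icc a (a + b ^ 7), |z k t - I| ≤ (3 * C + 15 * κ) / b * (1 + I) := by
    intro t htt
    have h8 : b ^ 8 ≤ 1024 * t := by
      refine (W.pow_eight_le_start ht ht8 i).trans ?_
      have := (S.pieceStart_zero i).symm.trans_le (S.pieceStart_mono i (Nat.zero_le m))
      linarith [htt.1]
    have hta : b ≤ t := by
      have h1 : 2 * b ^ 5 ≤ a := g.start_ge
      have h2 : b ≤ b ^ 5 := le_self_pow₀ hb1 (by norm_num)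
      linarith [htt.1]
    have hbκ : κ ≤ b := by linarith [show (j0 : ℝ) + 1 ≤ b from S.base_zero_le i]
    have hv : |cDrift κ t - 5| ≤ κ / b := by
      rw [cDrift, add_sub_cancel_left]; exact (abs_vFun_le hκ hb1 hta).1
    have h1 := g.near k t htt
    rw [show pieceLam κ (Piece.wait 0 7) (S.j0 + i) (τ i) (S.pieceStart i m) k t
        = scaleFun κ t * (Count.lev k.blk.la k.blk.lb : ℝ) by
      show Blk.lam (wNorm (dFun κ t) (rotW 0 (rawExc 0))) k.blk = _
      rw [lam_wNorm]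
      simp [scaleFun, wdet, rotW, rawExc, Blk.lam, Blk.cas, Count.lev]] at h1
    have h2 := abs_alphaFn_sub (c := cDrift κ t) (Real.sqrt_nonneg (1 / dMin))
      (Nat.cast_nonneg (Count.lev k.blk.la k.blk.lb)) hv ((div_le_one (by linarith)).2 hbκ)
      (abs_scaleFun_sub_late hκ hb1 h8) (Real.sqrt_nonneg _) (by positivity)
    have hC5 : 3 * C / b ^ 5 ≤ 3 * C / b :=
      div_le_div_of_nonneg_left (by linarith) (by linarith) (le_self_pow₀ hb1 (by norm_num))
    have h3 : |z k t - I| ≤ 3 * C / b + (2 * κ / b + 2 * (κ / b)) * (3 + I) := by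
      refine (abs_sub_le _ (Ode.alphaFn (cDrift κ t)
        (scaleFun κ t * (Count.lev k.blk.la k.blk.lb : ℝ))) _).trans (add_le_add ?_ h2)
      exact h1.trans hC5
    refine h3.trans ?_
    have e : (3 * C + 15 * κ) / b * (1 + I)
        = 3 * C / b + (2 * κ / b + 2 * (κ / b)) * (3 + I)
          + (3 * C * I / b + 3 * κ / b + 11 * κ * I / b) := by ring
    have : 0 ≤ 3 * C * I / b + 3 * κ / b + 11 * κ * I / b := by positivity
    linarith
  have hcont : Continuous (z k) := (g.is_slope k).cont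
  have hint : |(∫ t in a..(a + b ^ 7), z k t) - I * b ^ 7| ≤ (3 * C + 15 * κ) * (1 + I) * b ^ 6 := by
    have hi := hcont.intervalIntegrable (μ := MeasureTheory.volume) a (a + b ^ 7)
    have e : (∫ t in a..(a + b ^ 7), z k t) - I * b ^ 7 = ∫ t in a..(a + b ^ 7), (z k t - I) := by
      rw [intervalIntegral.integral_sub hi intervalIntegrable_const, intervalIntegral.integral_const]
      simp [smul_eq_mul, mul_comm]
    rw [e, ← Real.norm_eq_abs]
    refine (intervalIntegral.norm_integral_le_of_norm_le_const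
      (C := (3 * C + 15 * κ) / b * (1 + I)) fun t htt => ?_).trans ?_
    · rw [uIoc_of_le (by linarith)] at htt
      exact hpt t ⟨htt.1.le, htt.2⟩
    · rw [add_sub_cancel_left, abs_of_pos hL, mul_right_comm, hdiv]
      exact le_of_eq (by ring)
  have hlog : Real.log (Ode.coefQ (z k) a (a + b ^ 7)) = -∫ t in a..(a + b ^ 7), z k t := by
    rw [Ode.coefQ, Real.log_exp]
    rfl
  rw [hlenb, ← hIα]
  refine ⟨Ode.coefQ_pos _ _ _, ?_, ?_, fun x hx hxI hxb => ?_⟩
  · have h := g.fam.coef.q_le k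
    exact le_of_abs_le h
  · show |_ + I * b ^ 7| ≤ _ * b ^ 6
    rw [hlog, show -(∫ t in a..(a + b ^ 7), z k t) + I * b ^ 7
      = -((∫ t in a..(a + b ^ 7), z k t) - I * b ^ 7) by ring, abs_neg]
    refine hint.trans ?_
    exact mul_le_mul_of_nonneg_right (mul_le_mul_of_nonneg_right (by linarith) (by linarith))
      (by positivity)
  · show _ ≤ Real.exp (-(x - 1) * b ^ 7)
    show Ode.coefQ (z k) a (a + b ^ 7) ≤ _
    rw [← Real.exp_log (Ode.coefQ_pos (z k) a (a + b ^ 7)), hlog]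
    refine Real.exp_le_exp.2 ?_
    have h := (abs_le.1 hint).1
    have hE : 3 * C + 15 * κ ≤ b := by nlinarith
    have h67 : b ^ 7 = b * b ^ 6 := by ring
    have h6 : 0 ≤ b ^ 6 := by positivity
    have h4 : 0 ≤ (b - (3 * C + 15 * κ)) * (I - x) * b ^ 6 :=
      mul_nonneg (mul_nonneg (by linarith) (by linarith)) h6
    have h5 : 0 ≤ (b - (3 * C + 15 * κ + 1) * (1 + x)) * b ^ 6 := mul_nonneg (by linarith) h6
    rw [h67] at h ⊢
    nlinarith

end LoopSpec

end

end Vale.Agent.P225
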