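import Vale.Agent.P225.Alg.CountBlk

/-!
P225 seat D, part (d1) (helper27): the periodic list of transpositions and the position `sig i` of
the chains before loop `i` (`sig (i+1) = tau i * sig i`), with the window sums along one chain.
-/

namespace Vale.Agent.P225.Count

open scoped BigOperators
open Finset

noncomputable section

/-- The chosen word. -/
def theWord : List (Fin 3 × St × St) := Classical.choose exists_word

theorem theWord_spec :
    (∀ t ∈ theWord, ShareAt t.1 t.2.1 t.2.2 ∧ ∃ p, t.2.1 ∈ sStates p ∧ t.2.2 ∈ sStates p) ∧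
      ∀ p, (wordPerm theWord).IsCycleOn (sStates p : Set St) :=
  Classical.choose_spec exists_word

theorem card_class_zero : (sStates 0).card = 15691 :=
  ((sStates_card 0).trans (sum_scls 0 dimV)).trans states_table.1

theorem theWord_ne_nil : theWord ≠ [] := by
  intro h
  have hc := theWord_spec.2 0
  rw [h, wordPerm_nil] at hc
  have key : ∀ n : ℕ, n = 15691 → 1 < n := fun n hn => by omega
  have h2 : 1 < (sStates 0).card := key _ (card_class_zero)
  revert hc h2
  generalize sStates 0 = S
  intro hc h2
  obtain ⟨x, hx, y, hy, hxy⟩ := Finset.one_lt_card.1 h2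
  obtain ⟨k, -, hk⟩ := hc.exists_pow_eq hx hy
  exact hxy (by simpa using hk)

/-- Length of the word. -/
def wlen : ℕ := theWord.length

theorem wlen_pos : 0 < wlen := List.length_pos_iff.2 theWord_ne_nil

/-- The transposition of loop `i` (junction, states): the word is read backwards, periodically. -/
def step (i : ℕ) : Fin 3 × St × St :=
  theWord.reverse[i % wlen]'(by rw [List.length_reverse]; exact Nat.mod_lt _ wlen_pos)

theorem step_mem (i : ℕ) : step i ∈ theWord :=
  List.mem_reverse.1 (List.getElem_mem _)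

theorem step_shareAt (i : ℕ) : ShareAt (step i).1 (step i).2.1 (step i).2.2 :=
  (theWord_spec.1 _ (step_mem i)).1

/-- The permutation of loop `i`. -/
def tau (i : ℕ) : Equiv.Perm St := Equiv.swap (step i).2.1 (step i).2.2

theorem step_periodic (i : ℕ) : step (i + wlen) = step i := by
  simp [step]

theorem tau_periodic (i : ℕ) : tau (i + wlen) = tau i := by rw [tau, step_periodic, tau]

/-- Position of the chains before loop `i`. -/
def sig : ℕ → Equiv.Perm St
  | 0 => 1
  | i + 1 => tau i * sig i

theorem sig_zero : sig 0 = 1 := rfl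

theorem sig_succ (i : ℕ) : sig (i + 1) = tau i * sig i := rfl

theorem wordPerm_reverse_take (n : ℕ) (hn : n ≤ wlen) :
    sig n = wordPerm (theWord.reverse.take n).reverse := by
  induction n with
  | zero => simp [sig_zero, wordPerm_nil]
  | succ n ih =>
    have hlt : n < theWord.reverse.length := by rw [List.length_reverse]; exact hn
    rw [sig_succ, ih (by omega), List.take_succ_eq_append_getElem hlt, List.reverse_append,
      wordPerm_append]
    congr 1
    simp [tau, step, wordPerm, Nat.mod_eq_of_lt (show n < wlen by omega)]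

theorem sig_wlen : sig wlen = wordPerm theWord := by
  rw [wordPerm_reverse_take wlen le_rfl, List.take_of_length_le (by simp [wlen]),
    List.reverse_reverse]

theorem sig_add_wlen (i : ℕ) : sig (i + wlen) = sig i * wordPerm theWord := by
  induction i with
  | zero => rw [zero_add, sig_wlen, sig_zero, one_mul]
  | succ i ih => rw [Nat.add_right_comm, sig_succ, ih, tau_periodic, sig_succ, mul_assoc]

theorem sig_add_mul (i k : ℕ) : sig (i + k * wlen) = sig i * wordPerm theWord ^ k := by
  induction k with
  | zero => simp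
  | succ k ih => rw [Nat.succ_mul, ← Nat.add_assoc, sig_add_wlen, ih, pow_succ, mul_assoc]

theorem tau_mem_iff (i : ℕ) (p : Fin 4) (z : St) :
    tau i z ∈ sStates p ↔ z ∈ sStates p := by
  obtain ⟨-, p', hx, hy⟩ := theWord_spec.1 _ (step_mem i)
  rcases eq_or_ne z (step i).2.1 with rfl | h1
  · rw [tau, Equiv.swap_apply_left]
    constructor
    · intro h; rwa [sBlk_disjoint (mem_sStates.1 h) (mem_sStates.1 hy)]
    · intro h; rwa [sBlk_disjoint (mem_sStates.1 h) (mem_sStates.1 hx)]
  rcases eq_or_ne z (step i).2.2 with rfl | h2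
  · rw [tau, Equiv.swap_apply_right]
    constructor
    · intro h; rwa [sBlk_disjoint (mem_sStates.1 h) (mem_sStates.1 hx)]
    · intro h; rwa [sBlk_disjoint (mem_sStates.1 h) (mem_sStates.1 hy)]
  rw [tau, Equiv.swap_apply_of_ne_of_ne h1 h2]

theorem sig_mem_iff (i : ℕ) (p : Fin 4) (z : St) : sig i z ∈ sStates p ↔ z ∈ sStates p := by
  induction i with
  | zero => simp [sig_zero]
  | succ i ih => rw [sig_succ, Equiv.Perm.mul_apply, tau_mem_iff, ih]

/-- States outside every class never move. -/
theorem sig_fix (i : ℕ) {z : St} (h : ∀ p, z ∉ sStates p) : sig i z = z := by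
  induction i with
  | zero => rfl
  | succ i ih =>
    obtain ⟨-, p', hx, hy⟩ := theWord_spec.1 _ (step_mem i)
    rw [sig_succ, Equiv.Perm.mul_apply, ih, tau,
      Equiv.swap_apply_of_ne_of_ne (fun e => h p' (by rw [e]; exact hx))
        (fun e => h p' (by rw [e]; exact hy))]

theorem tau_fix (i : ℕ) {z : St} (h : ∀ p, z ∉ sStates p) : tau i z = z := by
  obtain ⟨-, p', hx, hy⟩ := theWord_spec.1 _ (step_mem i)
  rw [tau, Equiv.swap_apply_of_ne_of_ne (fun e => h p' (by rw [e]; exact hx))
    (fun e => h p' (by rw [e]; exact hy))]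

theorem sig_mem_finset_iff {W : Finset St} (hW : ∀ p, sStates p ⊆ W) (i : ℕ) (z : St) :
    sig i z ∈ W ↔ z ∈ W := by
  by_cases h : ∃ p, z ∈ sStates p
  · obtain ⟨p, hp⟩ := h
    exact iff_of_true (hW p ((sig_mem_iff i p z).2 hp)) (hW p hp)
  · rw [sig_fix i fun p hp => h ⟨p, hp⟩]

/-- The positions on a finite set containing all classes. -/
def sigOn {W : Finset St} (hW : ∀ p, sStates p ⊆ W) (i : ℕ) : Equiv.Perm {z : St // z ∈ W} :=
  (sig i).subtypePerm fun z => sig_mem_finset_iff hW i z

@[simp]
theorem sigOn_apply {W : Finset St} (hW : ∀ p, sStates p ⊆ W) (i : ℕ) (z : {z : St // z ∈ W}) :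
    (sigOn hW i z : St) = sig i z := rfl

/-- Period of the chains of class `p`. -/
def period (p : Fin 4) : ℕ := (sStates p).card * wlen

theorem period_pos (p : Fin 4) : 0 < period p := Nat.mul_pos (sStates_card_pos p) wlen_pos

theorem sig_periodic {p : Fin 4} {q : St} (hq : q ∈ sStates p) (i : ℕ) :
    sig (i + period p) q = sig i q := by
  rw [period, sig_add_mul, Equiv.Perm.mul_apply, (theWord_spec.2 p).pow_card_apply hq]

theorem sum_range_mul_eq {M : Type*} [AddCommMonoid M] (g : ℕ → M) (n c : ℕ) :
    ∑ i ∈ range (c * n), g i = ∑ k ∈ range c, ∑ r ∈ range n, g (r + k * n) := by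
  induction c with
  | zero => simp
  | succ c ih =>
    rw [Nat.succ_mul, sum_range_add, ih, sum_range_succ]
    exact congrArg _ (sum_congr rfl fun r _ => by rw [Nat.add_comm])

theorem window_shift {M : Type*} [AddCommMonoid M] (g : ℕ → M) {L : ℕ}
    (hg : ∀ i, g (i + L) = g i) (m : ℕ) :
    ∑ i ∈ Ico m (m + L), g i = ∑ i ∈ range L, g i := by
  rw [sum_Ico_eq_sum_range, Nat.add_sub_cancel_left]
  induction m with
  | zero => simp
  | succ m ih =>
    rcases L with _ | L
    · simp
    · rw [← ih, sum_range_succ _ L, sum_range_succ' (fun i => g (m + i)) L]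
      congr 1
      · exact sum_congr rfl fun k _ => by rw [show m + 1 + k = m + (k + 1) by omega]
      · rw [show m + 1 + L = m + (L + 1) by omega, hg, add_zero]

/-- Along one chain, one period sees every loop slot at every state of its class once. -/
theorem window_sum {M : Type*} [AddCommMonoid M] {p : Fin 4} {q : St} (hq : q ∈ sStates p)
    (f : St → M) (m : ℕ) :
    ∑ i ∈ Ico m (m + period p), f (sig (i + 1) q) = wlen • ∑ x ∈ sStates p, f x := by
  rw [window_shift (fun i => f (sig (i + 1) q)) (fun i => by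
    rw [Nat.add_right_comm, sig_periodic hq]) m, period, sum_range_mul_eq, sum_comm]
  have h : ∀ r, ∑ k ∈ range (sStates p).card, f (sig (r + k * wlen + 1) q) =
      ∑ x ∈ sStates p, f x := by
    intro r
    have e : ∀ k, sig (r + k * wlen + 1) q = sig (r + 1) ((wordPerm theWord ^ k) q) := fun k => by
      rw [Nat.add_right_comm, sig_add_mul, Equiv.Perm.mul_apply]
    simp only [e]
    rw [orbit_sum (theWord_spec.2 p) hq fun x => f (sig (r + 1) x)]
    exact sum_equiv (sig (r + 1)) (fun x => (sig_mem_iff _ p x).symm) (fun x _ => rfl)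
  rw [sum_congr rfl fun r _ => h r, sum_const, card_range]

/-- The exponents along one chain have mean at most `1399/100`. -/
theorem window_alpha {s : ℝ} (hs : 0 ≤ s) (hD : s ^ 2 ≤ 1000 / 122) {p : Fin 4} {q : St}
    (hq : q ∈ sStates p) (m : ℕ) :
    ∑ i ∈ Ico m (m + period p), alphaJ s (sig (i + 1) q).blk.la (sig (i + 1) q).blk.lb ≤
      (period p : ℝ) * (1399 / 100) := by
  rw [window_sum hq (fun x => alphaJ s x.blk.la x.blk.lb) m, nsmul_eq_mul, period, Nat.cast_mul]
  nlinarith [mul_le_mul_of_nonneg_left (sStates_mean hs hD p) (Nat.cast_nonneg (α := ℝ) wlen)]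

/-- A crude bound for the exponents of the classes. -/
theorem alphaJ_sig_le {s : ℝ} (hs : 0 ≤ s) (hD : s ^ 2 ≤ 1000 / 122) {p : Fin 4} {q : St}
    (hq : q ∈ sStates p) (i : ℕ) :
    alphaJ s (sig i q).blk.la (sig i q).blk.lb ≤ 24 := by
  obtain ⟨-, -, ha, hb, -⟩ := sBlk_spec (mem_sStates.1 ((sig_mem_iff i p q).2 hq))
  have hl : lev (sig i q).blk.la (sig i q).blk.lb ≤ 240 := by
    unfold lev
    nlinarith
  have h := alphaJ_le hs hD (u := 240000) (a := (sig i q).blk.la) (b := (sig i q).blk.lb)
    (le_trans (Nat.mul_le_mul_left _ hl) (by norm_num))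
  norm_num at h
  exact h

end

end Vale.Agent.P225.Count
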