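import Vale.Agent.P225.Loop.Green
import Vale.Agent.P225.Perron
import Vale.Agent.P225.Metric.Sched
import Vale.Agent.P225.Loop.Word

/-!
P225 seat D, part (d2) (helper27): from the exponents of the schedule to the Perron solutions.

Along a chain the backward factor of loop `j₀+i` is `exp (-(a i) T i + O(T' i))`, `T = j^7`,
`T' = j^6`, and the weight is `exp (k' * start i)`.
* slow periodic chains (window sums `≤ L (k' - ε)`) have gain `exp (gainG * T)`;
* chains with `a ≤ k' - ε` or `a ≥ k' + ε` throughout have gain `4`;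
* `block_perron` assembles the monomial block, the perturbed diagonal block and the far block.
-/

namespace Vale.Agent.P225

open Finset
open scoped BoundedContinuousFunction

noncomputable section

namespace Sched

variable (S : Sched)

/-- `j + 1` for `j = j₀ + i`. -/
def base (i : ℕ) : ℝ := ((S.j0 + i : ℕ) : ℝ) + 1

/-- Hold scale `(j+1)^7`. -/
def T7 (i : ℕ) : ℝ := S.base i ^ 7

/-- Error scale `(j+1)^6`. -/
def T6 (i : ℕ) : ℝ := S.base i ^ 6

/-- The growth weight. -/
def omega (k' : ℝ) (i : ℕ) : ℝ := Real.exp (k' * S.start i)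

theorem one_le_base (i : ℕ) : 1 ≤ S.base i := le_add_of_nonneg_left (Nat.cast_nonneg _)

theorem base_zero_le (i : ℕ) : (S.j0 : ℝ) + 1 ≤ S.base i := by
  unfold base; push_cast; linarith [(Nat.cast_nonneg i : (0 : ℝ) ≤ i)]

theorem base_succ (i : ℕ) : S.base (i + 1) = S.base i + 1 := by
  unfold base; push_cast; ring

theorem T6_nonneg (i : ℕ) : 0 ≤ S.T6 i := pow_nonneg (zero_le_one.trans (S.one_le_base i)) _

theorem T7_eq (i : ℕ) : S.T7 i = S.base i * S.T6 i := by unfold T7 T6; ring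

theorem one_le_T6 (i : ℕ) : 1 ≤ S.T6 i := one_le_pow₀ (S.one_le_base i)

theorem one_le_T7 (i : ℕ) : 1 ≤ S.T7 i := one_le_pow₀ (S.one_le_base i)

theorem base_le_T7 (i : ℕ) : S.base i ≤ S.T7 i := by
  rw [T7_eq]; exact le_mul_of_one_le_right (zero_le_one.trans (S.one_le_base i)) (S.one_le_T6 i)

theorem base_le_T6 (i : ℕ) : S.base i ≤ S.T6 i := le_self_pow₀ (S.one_le_base i) (by norm_num)

theorem succ_le_base (i : ℕ) : (i : ℝ) + 1 ≤ S.base i := by
  unfold base; push_cast; linarith [(Nat.cast_nonneg S.j0 : (0 : ℝ) ≤ S.j0)]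

theorem T7_mono : Monotone S.T7 := monotone_nat_of_le_succ fun i => by
  unfold T7
  rw [base_succ]
  exact pow_le_pow_left₀ (zero_le_one.trans (S.one_le_base i)) (by linarith) 7

theorem omega_pos (k' : ℝ) (i : ℕ) : 0 < S.omega k' i := Real.exp_pos _

theorem one_le_omega {k' : ℝ} (hk : 0 ≤ k') (i : ℕ) : 1 ≤ S.omega k' i :=
  Real.one_le_exp (mul_nonneg hk (zero_le_one.trans (S.one_le_t0.trans (S.t0_le_start i))))

/-- The loops are holds up to an error `E j^6`. -/
def LenNear (E : ℝ) : Prop := ∀ i, |S.loopLen (S.j0 + i) - S.T7 i| ≤ E * S.T6 i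

/-- `j₀` beats `E`, `k'` and `ε`. -/
def Large (k' ε E : ℝ) : Prop :=
  2 * (E * (1 + k') + 1) / ε ≤ (S.j0 : ℝ) + 1 ∧ 10 + E ≤ (S.j0 : ℝ) + 1

/-- The threshold on `j₀`. -/
def threshold (k' ε E : ℝ) : ℕ := ⌈2 * (E * (1 + k') + 1) / ε⌉₊ + ⌈E⌉₊ + 10

theorem large_of_threshold {k' ε E : ℝ} (h : threshold k' ε E ≤ S.j0) : S.Large k' ε E := by
  have h' : ((threshold k' ε E : ℕ) : ℝ) ≤ (S.j0 : ℝ) := by exact_mod_cast h
  simp only [threshold, Nat.cast_add, Nat.cast_ofNat] at h'
  have h1 := Nat.le_ceil (2 * (E * (1 + k') + 1) / ε)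
  have h2 := Nat.le_ceil E
  have h3 : (0 : ℝ) ≤ (⌈E⌉₊ : ℝ) := Nat.cast_nonneg _
  have h4 : (0 : ℝ) ≤ (⌈2 * (E * (1 + k') + 1) / ε⌉₊ : ℝ) := Nat.cast_nonneg _
  exact ⟨by linarith, by linarith⟩

theorem err_le {k' ε E : ℝ} (hε : 0 < ε) (hlarge : S.Large k' ε E) (i : ℕ) :
    E * (1 + k') * S.T6 i + 1 ≤ ε / 2 * S.T7 i := by
  have h : 2 * (E * (1 + k') + 1) / ε ≤ S.base i := hlarge.1.trans (S.base_zero_le i)
  rw [div_le_iff₀ hε] at h
  rw [T7_eq]
  nlinarith [S.one_le_T6 i, mul_le_mul_of_nonneg_right h (S.T6_nonneg i)]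

/-- `log (P ω)`. -/
def lw (c : ScalarChain) (k' : ℝ) (i : ℕ) : ℝ := Real.log (c.P i) + k' * S.start i

theorem exp_lw (c : ScalarChain) (k' : ℝ) (i : ℕ) :
    Real.exp (S.lw c k' i) = c.P i * S.omega k' i := by
  rw [lw, Real.exp_add, Real.exp_log (c.P_pos i)]; rfl

/-- The factor of every loop follows the exponents. -/
def ExpNear (c : ScalarChain) (a : ℕ → ℝ) (E : ℝ) : Prop :=
  ∀ i, |Real.log (c.P (i + 1) / c.P i) + a i * S.T7 i| ≤ E * S.T6 i

theorem lw_step {c : ScalarChain} {a : ℕ → ℝ} {k' E : ℝ} (hk : 0 ≤ k')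
    (hlen : S.LenNear E) (hc : S.ExpNear c a E) (i : ℕ) :
    |S.lw c k' (i + 1) - S.lw c k' i - (k' - a i) * S.T7 i| ≤ E * (1 + k') * S.T6 i := by
  have h1 := abs_le.1 (hlen i)
  have h2 := abs_le.1 (hc i)
  rw [Real.log_div (c.P_pos _).ne' (c.P_pos _).ne'] at h2
  have h3 : k' * (S.loopLen (S.j0 + i) - S.T7 i) ≤ k' * (E * S.T6 i) :=
    mul_le_mul_of_nonneg_left h1.2 hk
  have h4 : k' * (-(E * S.T6 i)) ≤ k' * (S.loopLen (S.j0 + i) - S.T7 i) :=
    mul_le_mul_of_nonneg_left h1.1 hk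
  rw [lw, lw, S.start_succ, abs_le]
  constructor <;> nlinarith

end Sched

/-- Gain exponent of periodic slow chains with period `≤ L` and exponents `≤ A`. -/
def gainG (L : ℕ) (A : ℝ) : ℝ := L * (A + 1) + 2

theorem one_le_gainG {L : ℕ} {A : ℝ} (hA : 0 ≤ A) : 1 ≤ gainG L A := by
  have : 0 ≤ (L : ℝ) * (A + 1) := by positivity
  unfold gainG; linarith

/-- A periodic slow chain. -/
def SlowPeriodic (a : ℕ → ℝ) (L : ℕ) (A k' ε : ℝ) : Prop :=
  ∃ l, 0 < l ∧ l ≤ L ∧ (∀ i, a (i + l) = a i) ∧ (∀ i, a i ≤ A) ∧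
    ∀ i, ∑ m ∈ Ico i (i + l), a m ≤ (l : ℝ) * (k' - ε)

/-- A chain with constant exponent below `k'` is periodic slow. -/
theorem slowPeriodic_const {x A k' ε : ℝ} {L : ℕ} (hL : 1 ≤ L) (hA : x ≤ A) (hx : x ≤ k' - ε) :
    SlowPeriodic (fun _ => x) L A k' ε :=
  ⟨1, one_pos, hL, fun _ => rfl, fun _ => hA, fun i => by simpa using hx⟩

section Gains

variable {S : Sched} {c : ScalarChain} {a : ℕ → ℝ} {k' ε E : ℝ}

theorem slow_periodic_le {L : ℕ} {A : ℝ} (hk : 0 ≤ k') (hε : 0 < ε) (hε1 : ε ≤ 1) (hA : 0 ≤ A)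
    (hlarge : S.Large k' ε E) (hlen : S.LenNear E) (hc : S.ExpNear c a E)
    (ha : SlowPeriodic a L A k' ε) (j : ℕ) :
    c.P 0 + ∑ l ∈ range j, c.P l * S.omega k' l ≤
      Real.exp (gainG L A * S.T7 j) * S.omega k' j * c.P j := by
  obtain ⟨p, hp, hpL, hper, haA, hwin⟩ := ha
  set x : ℕ → ℝ := fun i => a i - k' + ε with hx
  have hsum : ∀ m n, ∑ i ∈ Ico m n, x i ≤ (L : ℝ) * (A + 1) := by
    intro m n
    refine (sum_Ico_le_of_periodic (M := A + 1) hp (fun i => by simp [hx, hper]) (fun i => ?_)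
      (by linarith) (fun i => ?_) m n).trans ?_
    · have := haA i; simp only [hx]; linarith
    · have := hwin i
      simp only [hx, sum_add_distrib, sum_sub_distrib, sum_const, Nat.card_Ico,
        Nat.add_sub_cancel_left, nsmul_eq_mul]
      nlinarith
    · gcongr
  have hstep : ∀ i, S.lw c k' i - S.lw c k' (i + 1) ≤ x i * S.T7 i := by
    intro i
    have h1 := (abs_le.1 (S.lw_step hk hlen hc i)).1
    have h2 := S.err_le hε hlarge i
    have h3 : 0 ≤ ε / 2 * S.T7 i := by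
      have := S.one_le_T7 i; positivity
    simp only [hx]
    nlinarith
  have htele : ∀ l ≤ j, S.lw c k' l ≤ S.lw c k' j + (L : ℝ) * (A + 1) * S.T7 j := by
    intro l hl
    have h := sum_mul_le_of_suffix (x := x) (T := S.T7) (A := (L : ℝ) * (A + 1)) (by positivity)
      hl S.T7_mono (zero_le_one.trans (S.one_le_T7 l)) (fun m _ _ => hsum m j)
    have h2 : ∑ i ∈ Ico l j, (S.lw c k' i - S.lw c k' (i + 1)) ≤ ∑ i ∈ Ico l j, x i * S.T7 i :=
      sum_le_sum fun i _ => hstep i
    have h3 := sum_Ico_sub (S.lw c k') hl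
    rw [sum_sub_distrib] at h3 h2
    linarith
  have hterm : ∀ l ≤ j, c.P l * S.omega k' l ≤
      Real.exp ((L : ℝ) * (A + 1) * S.T7 j) * (S.omega k' j * c.P j) := by
    intro l hl
    rw [← S.exp_lw c k' l, mul_comm (S.omega k' j), ← S.exp_lw c k' j, ← Real.exp_add]
    exact Real.exp_le_exp.2 (by linarith [htele l hl])
  have h0 : c.P 0 ≤ Real.exp ((L : ℝ) * (A + 1) * S.T7 j) * (S.omega k' j * c.P j) :=
    le_trans (le_mul_of_one_le_right (c.P_pos 0).le (S.one_le_omega hk 0)) (hterm 0 (Nat.zero_le j))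
  have hsum' := sum_le_sum (s := range j) fun l hl => hterm l (mem_range.1 hl).le
  rw [sum_const, card_range, nsmul_eq_mul] at hsum'
  have hcount : (j : ℝ) + 1 ≤ Real.exp (S.T7 j) := by
    have := Real.add_one_le_exp (S.T7 j)
    linarith [S.succ_le_base j, S.base_le_T7 j]
  have hpos : 0 ≤ Real.exp ((L : ℝ) * (A + 1) * S.T7 j) * (S.omega k' j * c.P j) :=
    (mul_pos (Real.exp_pos _) (mul_pos (S.omega_pos _ _) (c.P_pos j))).le
  calc c.P 0 + ∑ l ∈ range j, c.P l * S.omega k' l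
      ≤ ((j : ℝ) + 1) * (Real.exp ((L : ℝ) * (A + 1) * S.T7 j) * (S.omega k' j * c.P j)) := by
        linarith
    _ ≤ Real.exp (S.T7 j) * (Real.exp ((L : ℝ) * (A + 1) * S.T7 j) * (S.omega k' j * c.P j)) :=
        mul_le_mul_of_nonneg_right hcount hpos
    _ ≤ Real.exp (gainG L A * S.T7 j) * S.omega k' j * c.P j := by
        rw [← mul_assoc (Real.exp (S.T7 j)), ← Real.exp_add, ← mul_assoc]
        gcongr
        · exact (c.P_pos j).le
        · exact (S.omega_pos _ _).le
        · unfold gainG; linarith [S.one_le_T7 j]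

theorem halving_of_le {x : ℝ} {u v : ℝ} (h : x ≤ -1) (hv : v - u ≤ x) :
    Real.exp v ≤ Real.exp u / 2 := by
  have h2 : Real.exp v ≤ Real.exp u * Real.exp (-1) := by
    rw [← Real.exp_add]; exact Real.exp_le_exp.2 (by linarith)
  have h3 : Real.exp (-1) ≤ 1 / 2 := by
    rw [Real.exp_neg, one_div]
    exact inv_anti₀ two_pos (by linarith [Real.add_one_le_exp (1 : ℝ)])
  nlinarith [Real.exp_pos u]

theorem slow_const_le (hk : 0 ≤ k') (hε : 0 < ε) (hlarge : S.Large k' ε E)
    (hlen : S.LenNear E) (hc : S.ExpNear c a E) (ha : ∀ i, a i ≤ k' - ε) (j : ℕ) :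
    c.P 0 + ∑ l ∈ range j, c.P l * S.omega k' l ≤ 4 * S.omega k' j * c.P j := by
  have hstep : ∀ i, c.P i * S.omega k' i ≤ c.P (i + 1) * S.omega k' (i + 1) / 2 := by
    intro i
    rw [← S.exp_lw, ← S.exp_lw]
    refine halving_of_le (x := (a i - k') * S.T7 i + E * (1 + k') * S.T6 i) ?_ ?_
    · have h1 := S.err_le hε hlarge i
      have h2 : (a i - k') * S.T7 i ≤ -ε * S.T7 i :=
        mul_le_mul_of_nonneg_right (by linarith [ha i]) (zero_le_one.trans (S.one_le_T7 i))
      have h3 : 2 ≤ ε * S.T7 i := by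
        have h := S.base_zero_le i
        have h4 := hlarge.1.trans h
        rw [div_le_iff₀ hε] at h4
        have h5 : 0 ≤ E * (1 + k') := mul_nonneg
          (by have := (abs_nonneg _).trans (hlen i); nlinarith [S.one_le_T6 i]) (by linarith)
        nlinarith [S.base_le_T7 i]
      linarith
    · have h1 := (abs_le.1 (S.lw_step hk hlen hc i)).1
      linarith
  have key : ∀ n, c.P 0 * S.omega k' 0 + ∑ l ∈ range n, c.P l * S.omega k' l ≤
      2 * (c.P n * S.omega k' n) := by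
    intro n
    induction n with
    | zero =>
      have := mul_pos (c.P_pos 0) (S.omega_pos k' 0)
      simp; linarith
    | succ n ih =>
      rw [sum_range_succ]
      have := hstep n
      have := mul_pos (c.P_pos (n + 1)) (S.omega_pos k' (n + 1))
      linarith
  have h0 := le_mul_of_one_le_right (c.P_pos 0).le (S.one_le_omega hk 0)
  have := key j
  have := mul_pos (c.P_pos j) (S.omega_pos k' j)
  nlinarith

theorem fast_bound (hk : 0 ≤ k') (hε : 0 < ε) (hlarge : S.Large k' ε E)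
    (hlen : S.LenNear E) (hc : S.ExpNear c a E) (ha : ∀ i, k' + ε ≤ a i) (j : ℕ) :
    Summable (fun l => c.P (j + l) * S.omega k' (j + l)) ∧
      ∑' l, c.P (j + l) * S.omega k' (j + l) ≤ 4 * S.omega k' j * c.P j := by
  have hstep : ∀ i, c.P (i + 1) * S.omega k' (i + 1) ≤ c.P i * S.omega k' i / 2 := by
    intro i
    rw [← S.exp_lw, ← S.exp_lw]
    refine halving_of_le (x := (k' - a i) * S.T7 i + E * (1 + k') * S.T6 i) ?_ ?_
    · have h1 := S.err_le hε hlarge i
      have h2 : (k' - a i) * S.T7 i ≤ -ε * S.T7 i :=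
        mul_le_mul_of_nonneg_right (by linarith [ha i]) (zero_le_one.trans (S.one_le_T7 i))
      have h3 : 2 ≤ ε * S.T7 i := by
        have h4 := hlarge.1.trans (S.base_zero_le i)
        rw [div_le_iff₀ hε] at h4
        have h5 : 0 ≤ E * (1 + k') := mul_nonneg
          (by have := (abs_nonneg _).trans (hlen i); nlinarith [S.one_le_T6 i]) (by linarith)
        nlinarith [S.base_le_T7 i]
      linarith
    · have h1 := (abs_le.1 (S.lw_step hk hlen hc i)).2
      linarith
  have hgeo : ∀ l, c.P (j + l) * S.omega k' (j + l) ≤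
      c.P j * S.omega k' j * (1 / 2) ^ l := by
    intro l
    induction l with
    | zero => simp
    | succ l ih =>
      rw [← Nat.add_assoc, pow_succ]
      linarith [hstep (j + l)]
  have hgeos : HasSum (fun l : ℕ => c.P j * S.omega k' j * (1 / 2) ^ l)
      (c.P j * S.omega k' j * 2) := hasSum_geometric_two.mul_left _
  have hs : Summable fun l => c.P (j + l) * S.omega k' (j + l) :=
    Summable.of_nonneg_of_le (fun l => (mul_pos (c.P_pos _) (S.omega_pos _ _)).le) hgeo
      hgeos.summable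
  refine ⟨hs, (hs.tsum_le_tsum hgeo hgeos.summable).trans ?_⟩
  rw [hgeos.tsum_eq]
  have := mul_pos (c.P_pos j) (S.omega_pos k' j)
  linarith

end Gains

/-- A common bound for the periods of the four classes. -/
def classPeriod : ℕ := ∑ p, Count.period p

/-- The chains of the classes are periodic slow for every `k'` above the mean. -/
theorem slowPeriodic_class {s k' ε : ℝ} (hs : 0 ≤ s) (hD : s ^ 2 ≤ 1000 / 122)
    (hk : 1399 / 100 ≤ k' - ε) {p : Fin 4} {q : St} (hq : q ∈ Count.sStates p) :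
    SlowPeriodic
      (fun i => Count.alphaJ s (Count.sig (i + 1) q).blk.la (Count.sig (i + 1) q).blk.lb)
      classPeriod 24 k' ε :=
  ⟨Count.period p, Count.period_pos p,
    single_le_sum (f := Count.period) (fun _ _ => Nat.zero_le _) (mem_univ p),
    fun i => by simp only [Nat.add_right_comm i _ 1, Count.sig_periodic hq],
    fun i => Count.alphaJ_sig_le hs hD hq (i + 1),
    fun i => (Count.window_alpha hs hD hq i).trans
      (mul_le_mul_of_nonneg_left hk (Nat.cast_nonneg _))⟩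

/-! ### The full block -/

/-- Weight exponent of the far block; also the growth exponent of the solutions. -/
def gainH (L : ℕ) (A k' : ℝ) : ℝ := 2 * gainG L A + 2 * k' + 3

/-- Required decay of the far block. -/
def decayM0 (L : ℕ) (A k' : ℝ) : ℝ := 2 * k' + 2 * gainH L A k' + 1

theorem gainH_nonneg {L : ℕ} {A k' : ℝ} (hA : 0 ≤ A) (hk : 0 ≤ k') : 0 ≤ gainH L A k' := by
  have := one_le_gainG (L := L) hA
  unfold gainH; linarith

/-- The monomial backward map of a family of chains. -/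
def chainMap {ι : Type*} (σ : ℕ → Equiv.Perm ι) (c : ι → ScalarChain) (j : ℕ) :
    (ι → ℝ) →L[ℝ] ι → ℝ :=
  ContinuousLinearMap.pi fun i =>
    (c ((σ j).symm i)).a j •
      ContinuousLinearMap.proj (R := ℝ) (φ := fun _ : ι => ℝ) (σ (j + 1) ((σ j).symm i))

theorem chainMap_apply {ι : Type*} (σ : ℕ → Equiv.Perm ι) (c : ι → ScalarChain) (j : ℕ)
    (w : ι → ℝ) (i : ι) :
    chainMap σ c j w i = (c ((σ j).symm i)).a j * w (σ (j + 1) ((σ j).symm i)) := by
  simp [chainMap]

theorem Sched.omega_succ_le (S : Sched) {k' ε E : ℝ} (hk : 0 ≤ k') (hlarge : S.Large k' ε E)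
    (hlen : S.LenNear E) (i : ℕ) :
    S.omega k' (i + 1) ≤ Real.exp (2 * k' * S.T7 i) * S.omega k' i := by
  rw [Sched.omega, Sched.omega, ← Real.exp_add, S.start_succ]
  refine Real.exp_le_exp.2 ?_
  have h1 := (abs_le.1 (hlen i)).2
  have h2 : E * S.T6 i ≤ S.T7 i := by
    rw [S.T7_eq]
    exact mul_le_mul_of_nonneg_right (by linarith [hlarge.2, S.base_zero_le i]) (S.T6_nonneg i)
  have h3 : k' * S.loopLen (S.j0 + i) ≤ k' * (2 * S.T7 i) :=
    mul_le_mul_of_nonneg_left (by linarith) hk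
  linarith

theorem Sched.T7_succ_le (S : Sched) {k' ε E : ℝ} (hE : 0 ≤ E) (hlarge : S.Large k' ε E) (i : ℕ) :
    S.T7 (i + 1) ≤ 2 * S.T7 i := by
  have hb : 10 ≤ S.base i := by linarith [hlarge.2, S.base_zero_le i]
  unfold Sched.T7
  rw [S.base_succ]
  calc (S.base i + 1) ^ 7 ≤ (11 / 10 * S.base i) ^ 7 := by gcongr; linarith
    _ = (11 / 10) ^ 7 * S.base i ^ 7 := mul_pow _ _ _
    _ ≤ 2 * S.base i ^ 7 := by gcongr; norm_num

variable {ι₁ ι₂ F : Type*} [Fintype ι₁] [DecidableEq ι₁] [Fintype ι₂] [DecidableEq ι₂]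
  [NormedAddCommGroup F] [NormedSpace ℝ F] [CompleteSpace F]

/-- **Perron solutions of the schedule.** `ι₁`: monomial chains (slow periodic, or fast); `ι₂`: a
diagonal block with all exponents away from `k'`, perturbed by `1 + Eax`; `F`: a far block.
The slow data of `ι₁` parametrise solutions growing at most like `exp (k' start + gainH T)`. -/
theorem block_perron (S : Sched) {k' ε E : ℝ} {L : ℕ} {A : ℝ}
    (hk : 0 ≤ k') (hε : 0 < ε) (hε1 : ε ≤ 1) (hA : 0 ≤ A) (hE : 0 ≤ E)
    (hj0 : Sched.threshold k' ε E ≤ S.j0) (hlen : S.LenNear E)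
    (σ : ℕ → Equiv.Perm ι₁) (c₁ : ι₁ → ScalarChain) (a₁ : ι₁ → ℕ → ℝ) (slow₁ : ι₁ → Bool)
    (hc₁ : ∀ q, S.ExpNear (c₁ q) (a₁ q) E)
    (hs₁ : ∀ q, slow₁ q = true → SlowPeriodic (a₁ q) L A k' ε)
    (hf₁ : ∀ q, slow₁ q = false → ∀ i, k' + ε ≤ a₁ q i)
    (c₂ : ι₂ → ScalarChain) (a₂ : ι₂ → ℕ → ℝ) (hc₂ : ∀ q, S.ExpNear (c₂ q) (a₂ q) E)
    (h₂ : ∀ q, (∀ i, a₂ q i ≤ k' - ε) ∨ ∀ i, k' + ε ≤ a₂ q i)
    (Eax : ℕ → (ι₂ → ℝ) →L[ℝ] ι₂ → ℝ) (hEax : ∀ i, ‖Eax i‖ ≤ Real.exp (-(S.T6 i) / 4))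
    (B : ℕ → F →L[ℝ] (ι₁ → ℝ) × (ι₂ → ℝ)) (C : ℕ → (ι₁ → ℝ) × (ι₂ → ℝ) →L[ℝ] F)
    (D : ℕ → F →L[ℝ] F) {M : ℝ} (hM : decayM0 L A k' ≤ M)
    (hB : ∀ i, ‖B i‖ ≤ Real.exp (-M * S.T7 i)) (hC : ∀ i, ‖C i‖ ≤ Real.exp (S.T7 i))
    (hD : ∀ i, ‖D i‖ ≤ Real.exp (-M * S.T7 i)) :
    ∃ sol : ({q : ι₁ // slow₁ q = true} → ℝ) →ₗ[ℝ] (ℕ → (ι₁ → ℝ) × (ι₂ → ℝ)) × (ℕ → F),
      (∀ e i, ((sol e).1 i).1 = chainMap σ c₁ i ((sol e).1 (i + 1)).1
        + (B i ((sol e).2 (i + 1))).1) ∧
      (∀ e i, ((sol e).1 i).2 = (1 + Eax i) (chainMap (fun _ => 1) c₂ i ((sol e).1 (i + 1)).2)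
        + (B i ((sol e).2 (i + 1))).2) ∧
      (∀ e i, (sol e).2 i = C i ((sol e).1 (i + 1)) + D i ((sol e).2 (i + 1))) ∧
      (∀ e i, ‖(sol e).1 i‖ ≤ 2 * ‖e‖ * Real.exp (k' * S.start i + gainH L A k' * S.T7 i)) ∧
      (∀ e i, ‖(sol e).2 i‖ ≤ 2 * ‖e‖ * Real.exp (k' * S.start i + gainH L A k' * S.T7 i)) ∧
      (∀ e q, ((sol e).1 0).1 (σ 0 q.1) = e q) ∧ Function.Injective sol := by
  classical
  have hlarge := S.large_of_threshold hj0
  let K₁ : ChainBlock ι₁ :=
    { σ := σ, chain := c₁, isSlow := slow₁, ω := S.omega k'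
      γ := fun i => Real.exp (gainG L A * S.T7 i)
      ω_pos := S.omega_pos k'
      γ_pos := fun i => Real.exp_pos _
      slow_le := fun q hq j =>
        slow_periodic_le hk hε hε1 hA hlarge hlen (hc₁ q) (hs₁ q hq) j
      fast_summable := fun q hq j => (fast_bound hk hε hlarge hlen (hc₁ q) (hf₁ q hq) j).1
      fast_le := fun q hq j => by
        refine (fast_bound hk hε hlarge hlen (hc₁ q) (hf₁ q hq) j).2.trans ?_
        gcongr
        · exact ((c₁ q).P_pos j).le
        · exact (S.omega_pos _ _).le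
        · have h1 := Real.add_one_le_exp (gainG L A * S.T7 j)
          have h2 : S.T7 j ≤ gainG L A * S.T7 j :=
            le_mul_of_one_le_left (zero_le_one.trans (S.one_le_T7 j)) (one_le_gainG hA)
          linarith [hlarge.2, S.base_zero_le j, S.base_le_T7 j] }
  let K₂ : ChainBlock ι₂ :=
    { σ := fun _ => 1, chain := c₂, isSlow := fun q => decide (∀ i, a₂ q i ≤ k' - ε)
      ω := S.omega k', γ := fun _ => 4
      ω_pos := S.omega_pos k'
      γ_pos := fun _ => by norm_num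
      slow_le := fun q hq j =>
        slow_const_le hk hε hlarge hlen (hc₂ q) (of_decide_eq_true hq) j
      fast_summable := fun q hq j =>
        (fast_bound hk hε hlarge hlen (hc₂ q) ((h₂ q).resolve_left (of_decide_eq_false hq)) j).1
      fast_le := fun q hq j =>
        (fast_bound hk hε hlarge hlen (hc₂ q) ((h₂ q).resolve_left (of_decide_eq_false hq)) j).2 }
  have hsmallE : ∀ i, (4 : ℝ) * ‖Eax i‖ ≤ 1 / 8 := by
    intro i
    have h1 : (124 : ℝ) ≤ S.T6 i := by
      have hb : 10 ≤ S.base i := by linarith [hlarge.2, S.base_zero_le i]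
      calc (124 : ℝ) ≤ 10 ^ 6 := by norm_num
        _ ≤ S.T6 i := pow_le_pow_left₀ (by norm_num) hb 6
    have h2 : Real.exp (-(S.T6 i) / 4) ≤ 1 / 32 := by
      rw [neg_div, Real.exp_neg, one_div]
      exact inv_anti₀ (by norm_num) (by linarith [Real.add_one_le_exp (S.T6 i / 4)])
    linarith [hEax i]
  obtain ⟨-, H1, -, h1rec, -, h1bd, -, -⟩ :=
    green_perturb K₂.A Eax (S.omega k') (fun _ => 4) (S.omega_pos k') (fun _ => by norm_num)
      K₂.proj K₂.G0 K₂.G1 K₂.G0_rec K₂.G1_rec K₂.G0_bound K₂.G1_bound K₂.proj_G0 K₂.proj_G1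
      hsmallE
  let W := (ι₁ → ℝ) × (ι₂ → ℝ)
  let p₁ : (ℕ →ᵇ W) →L[ℝ] (ℕ →ᵇ (ι₁ → ℝ)) :=
    (ContinuousLinearMap.fst ℝ (ι₁ → ℝ) (ι₂ → ℝ)).compLeftContinuousBounded ℕ
  let p₂ : (ℕ →ᵇ W) →L[ℝ] (ℕ →ᵇ (ι₂ → ℝ)) :=
    (ContinuousLinearMap.snd ℝ (ι₁ → ℝ) (ι₂ → ℝ)).compLeftContinuousBounded ℕ
  have hp₁ : ∀ φ, ‖p₁ φ‖ ≤ ‖φ‖ := fun φ =>
    (BoundedContinuousFunction.norm_le (norm_nonneg _)).2 fun i =>
      (norm_fst_le (φ i)).trans (φ.norm_coe_le_norm i)
  have hp₂ : ∀ φ, ‖p₂ φ‖ ≤ ‖φ‖ := fun φ =>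
    (BoundedContinuousFunction.norm_le (norm_nonneg _)).2 fun i =>
      (norm_snd_le (φ i)).trans (φ.norm_coe_le_norm i)
  have hG : 1 ≤ gainG L A := one_le_gainG hA
  have hbig : ∀ i, (12 : ℝ) ≤ Real.exp (gainG L A * S.T7 i) := by
    intro i
    have hb : 10 ≤ S.base i := by linarith [hlarge.2, S.base_zero_le i]
    have h1 : (11 : ℝ) ≤ S.T7 i :=
      le_trans (by norm_num) (pow_le_pow_left₀ (by norm_num) hb 7)
    have h2 : S.T7 i ≤ gainG L A * S.T7 i := le_mul_of_one_le_left (by linarith) hG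
    linarith [Real.add_one_le_exp (gainG L A * S.T7 i)]
  have hT : ∀ i, 4 ≤ Real.exp (S.T7 i) := fun i => by
    linarith [Real.add_one_le_exp (S.T7 i), hlarge.2, S.base_zero_le i, S.base_le_T7 i]
  have hH : gainH L A k' = 2 * gainG L A + 2 * k' + 3 := rfl
  have hH0 : 0 ≤ gainH L A k' := gainH_nonneg hA hk
  let P : PerronData ({q : ι₁ // slow₁ q = true} → ℝ) W F :=
    { A := fun i => (chainMap σ c₁ i).prodMap ((1 + Eax i).comp (chainMap (fun _ => 1) c₂ i))
      B := B, C := C, D := D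
      ω := S.omega k'
      γ := fun i => Real.exp (gainG L A * S.T7 i)
      ν := fun i => Real.exp (gainH L A k' * S.T7 i)
      ω_pos := S.omega_pos k'
      γ_pos := fun i => Real.exp_pos _
      ν_pos := fun i => Real.exp_pos _
      proj := K₁.proj.comp (LinearMap.fst ℝ (ι₁ → ℝ) (ι₂ → ℝ))
      G0 :=
        { toFun := fun e i => (K₁.G0 e i, 0)
          map_add' := fun e e' => by funext i; simp
          map_smul' := fun r e => by funext i; simp }
      G1 :=
        { toFun := fun φ i => (K₁.G1 (p₁ φ) i, H1 (p₂ φ) i)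
          map_add' := fun φ φ' => by funext i; simp
          map_smul' := fun r φ => by funext i; simp }
      G0_rec := fun e j => by
        refine Prod.ext ?_ ?_
        · exact K₁.G0_rec e j
        · show (0 : ι₂ → ℝ) = (1 + Eax j) (chainMap (fun _ => 1) c₂ j 0)
          simp
      G1_rec := fun φ j => by
        refine Prod.ext ?_ ?_
        · exact K₁.G1_rec (p₁ φ) j
        · exact h1rec (p₂ φ) j
      G0_bound := fun e j => by
        refine max_le (K₁.G0_bound e j) ?_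
        show ‖(0 : ι₂ → ℝ)‖ ≤ _
        rw [norm_zero]
        exact mul_nonneg (mul_pos (Real.exp_pos _) (S.omega_pos _ _)).le (norm_nonneg _)
      G1_bound := fun φ j => by
        have hpos : 0 ≤ Real.exp (gainG L A * S.T7 j) * S.omega k' j :=
          (mul_pos (Real.exp_pos _) (S.omega_pos _ _)).le
        refine max_le ((K₁.G1_bound (p₁ φ) j).trans (mul_le_mul_of_nonneg_left (hp₁ φ) hpos)) ?_
        refine (h1bd (p₂ φ) j).trans ?_
        have hω := S.omega_pos k' j
        have := hbig j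
        calc 3 * 4 * S.omega k' j * ‖p₂ φ‖ ≤ 3 * 4 * S.omega k' j * ‖φ‖ :=
              mul_le_mul_of_nonneg_left (hp₂ φ) (by positivity)
          _ ≤ Real.exp (gainG L A * S.T7 j) * S.omega k' j * ‖φ‖ := by gcongr; linarith
      proj_G0 := fun e => K₁.proj_G0 e
      proj_G1 := fun φ => K₁.proj_G1 (p₁ φ)
      smallB := fun j => by
        have h1 := S.omega_succ_le hk hlarge hlen j
        have h2 := mul_le_mul_of_nonneg_left (S.T7_succ_le hE hlarge j) hH0
        calc ‖B j‖ * (S.omega k' (j + 1) * Real.exp (gainH L A k' * S.T7 (j + 1)))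
            ≤ Real.exp (-M * S.T7 j) * ((Real.exp (2 * k' * S.T7 j) * S.omega k' j) *
                Real.exp (gainH L A k' * (2 * S.T7 j))) :=
              mul_le_mul (hB j) (mul_le_mul h1 (Real.exp_le_exp.2 h2) (Real.exp_pos _).le
                (mul_pos (Real.exp_pos _) (S.omega_pos _ _)).le)
                (mul_pos (S.omega_pos _ _) (Real.exp_pos _)).le (Real.exp_pos _).le
          _ = Real.exp (-M * S.T7 j + (2 * k' * S.T7 j + gainH L A k' * (2 * S.T7 j))) *
                S.omega k' j := by rw [Real.exp_add, Real.exp_add]; ring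
          _ ≤ Real.exp (-S.T7 j) * S.omega k' j := by
              refine mul_le_mul_of_nonneg_right (Real.exp_le_exp.2 ?_) (S.omega_pos _ _).le
              have := mul_le_mul_of_nonneg_right hM (zero_le_one.trans (S.one_le_T7 j))
              unfold decayM0 at this
              linarith
          _ ≤ S.omega k' j / 4 := by
              rw [Real.exp_neg, div_eq_inv_mul]
              exact mul_le_mul_of_nonneg_right (inv_anti₀ (by norm_num) (hT j))
                (S.omega_pos _ _).le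
      smallC := fun j => by
        have h1 := S.omega_succ_le hk hlarge hlen j
        have h2 := mul_le_mul_of_nonneg_left (S.T7_succ_le hE hlarge j) (zero_le_one.trans hG)
        calc ‖C j‖ * (Real.exp (gainG L A * S.T7 (j + 1)) * S.omega k' (j + 1))
            ≤ Real.exp (S.T7 j) * (Real.exp (gainG L A * (2 * S.T7 j)) *
                (Real.exp (2 * k' * S.T7 j) * S.omega k' j)) :=
              mul_le_mul (hC j) (mul_le_mul (Real.exp_le_exp.2 h2) h1 (S.omega_pos _ _).le
                (Real.exp_pos _).le)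
                (mul_pos (Real.exp_pos _) (S.omega_pos _ _)).le (Real.exp_pos _).le
          _ = S.omega k' j * Real.exp ((gainH L A k' - 2) * S.T7 j) := by
              rw [show (gainH L A k' - 2) * S.T7 j = S.T7 j + (gainG L A * (2 * S.T7 j) +
                2 * k' * S.T7 j) by rw [hH]; ring, Real.exp_add, Real.exp_add]
              ring
          _ ≤ S.omega k' j * (Real.exp (gainH L A k' * S.T7 j) / 4) := by
              refine mul_le_mul_of_nonneg_left ?_ (S.omega_pos _ _).le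
              rw [le_div_iff₀ (by norm_num : (0 : ℝ) < 4)]
              calc Real.exp ((gainH L A k' - 2) * S.T7 j) * 4
                  ≤ Real.exp ((gainH L A k' - 2) * S.T7 j) * Real.exp (S.T7 j) :=
                    mul_le_mul_of_nonneg_left (hT j) (Real.exp_pos _).le
                _ ≤ Real.exp (gainH L A k' * S.T7 j) := by
                    rw [← Real.exp_add]
                    exact Real.exp_le_exp.2 (by linarith [S.one_le_T7 j])
          _ = S.omega k' j * Real.exp (gainH L A k' * S.T7 j) / 4 := by ring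
      smallD := fun j => by
        have h1 := S.omega_succ_le hk hlarge hlen j
        have h2 := mul_le_mul_of_nonneg_left (S.T7_succ_le hE hlarge j) hH0
        calc ‖D j‖ * (S.omega k' (j + 1) * Real.exp (gainH L A k' * S.T7 (j + 1)))
            ≤ Real.exp (-M * S.T7 j) * ((Real.exp (2 * k' * S.T7 j) * S.omega k' j) *
                Real.exp (gainH L A k' * (2 * S.T7 j))) :=
              mul_le_mul (hD j) (mul_le_mul h1 (Real.exp_le_exp.2 h2) (Real.exp_pos _).le
                (mul_pos (Real.exp_pos _) (S.omega_pos _ _)).le)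
                (mul_pos (S.omega_pos _ _) (Real.exp_pos _)).le (Real.exp_pos _).le
          _ = S.omega k' j *
              Real.exp (-M * S.T7 j + (2 * k' * S.T7 j + gainH L A k' * (2 * S.T7 j))) := by
              rw [Real.exp_add, Real.exp_add]; ring
          _ ≤ S.omega k' j * (Real.exp (gainH L A k' * S.T7 j) / 4) := by
              refine mul_le_mul_of_nonneg_left ?_ (S.omega_pos _ _).le
              rw [le_div_iff₀ (by norm_num : (0 : ℝ) < 4)]
              calc Real.exp (-M * S.T7 j + (2 * k' * S.T7 j + gainH L A k' * (2 * S.T7 j))) * 4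
                  ≤ Real.exp (-M * S.T7 j + (2 * k' * S.T7 j + gainH L A k' * (2 * S.T7 j))) *
                      Real.exp (S.T7 j) := mul_le_mul_of_nonneg_left (hT j) (Real.exp_pos _).le
                _ ≤ Real.exp (gainH L A k' * S.T7 j) := by
                    rw [← Real.exp_add]
                    refine Real.exp_le_exp.2 ?_
                    have := mul_le_mul_of_nonneg_right hM (zero_le_one.trans (S.one_le_T7 j))
                    unfold decayM0 at this
                    nlinarith [mul_nonneg hH0 (zero_le_one.trans (S.one_le_T7 j))]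
          _ = S.omega k' j * Real.exp (gainH L A k' * S.T7 j) / 4 := by ring }
  obtain ⟨sol, hrec1, hrec2, hb1, hb2, hproj⟩ := P.perron
  refine ⟨sol, fun e i => ?_, fun e i => ?_, hrec2, fun e i => ?_, fun e i => ?_, ?_, ?_⟩
  · exact congrArg Prod.fst (hrec1 e i)
  · exact congrArg Prod.snd (hrec1 e i)
  · refine (hb1 e i).trans ?_
    show 2 * (Real.exp (gainG L A * S.T7 i) * S.omega k' i) * ‖e‖ ≤ _
    rw [Real.exp_add, ← Sched.omega]
    have h : Real.exp (gainG L A * S.T7 i) ≤ Real.exp (gainH L A k' * S.T7 i) :=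
      Real.exp_le_exp.2 (mul_le_mul_of_nonneg_right (by linarith) (zero_le_one.trans (S.one_le_T7 i)))
    nlinarith [mul_le_mul_of_nonneg_left h (mul_nonneg (norm_nonneg e) (S.omega_pos k' i).le)]
  · refine (hb2 e i).trans ?_
    show S.omega k' i * Real.exp (gainH L A k' * S.T7 i) * ‖e‖ ≤ _
    rw [Real.exp_add, ← Sched.omega]
    nlinarith [mul_nonneg (mul_nonneg (S.omega_pos k' i).le (Real.exp_pos
      (gainH L A k' * S.T7 i)).le) (norm_nonneg e)]
  · intro e q
    exact congrFun (hproj e) q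
  · intro e e' h
    rw [← hproj e, ← hproj e', h]

end

end Vale.Agent.P225
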