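import Vale.Agent.P225.Metric.Local
import Vale.Agent.P225.Loop.Exponents

/-!
P225, module B (helper2): the programs of the loops.

Loop `j` is `corr ++ [buffer] ++ [out J] ++ ctrl ++ [back J] ++ [hold]`: the corrector at `J3`, the
control at the junction `J` of the loop.
-/

namespace Vale.Agent.P225

open Finset

noncomputable section

/-- The program of one loop. -/
def loopProg (corr : List Piece) (J : Fin 3) (ctrl : List Piece) : List Piece :=
  corr ++ [Piece.wait 0 6] ++ [Piece.out J] ++ ctrl ++ [Piece.back J] ++ [Piece.wait 0 7]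

/-- Pieces allowed in a corrector. -/
def Piece.IsCorr (P : Piece) : Prop :=
  match P with
  | .wait J q => J = 0 ∧ q = 5
  | .exc J _ _ => J = 0
  | .ins _ _ => True
  | .out _ => False
  | .back _ => False

/-- Pieces allowed in a control at junction `J`. -/
def Piece.IsCtrl (J : Fin 3) (P : Piece) : Prop :=
  match P with
  | .wait J' q => J' = J ∧ q = 5
  | .exc J' _ _ => J' = J
  | .ins _ _ => False
  | .out _ => False
  | .back _ => False

theorem Piece.IsCorr.facts {P : Piece} (h : P.IsCorr) : P.src = 0 ∧ P.dst = 0 ∧ P.power = 5 := by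
  cases P with
  | wait J q => exact ⟨h.1, h.1, h.2⟩
  | exc J g k => exact ⟨h, h, rfl⟩
  | ins f k => exact ⟨rfl, rfl, rfl⟩
  | out J => exact h.elim
  | back J => exact h.elim

theorem Piece.IsCtrl.facts {J : Fin 3} {P : Piece} (h : P.IsCtrl J) :
    P.src = J ∧ P.dst = J ∧ P.power = 5 := by
  cases P with
  | wait J' q => exact ⟨h.1, h.1, h.2⟩
  | exc J' g k => exact ⟨h, h, rfl⟩
  | ins f k => exact h.elim
  | out J' => exact h.elim
  | back J' => exact h.elim

/-- Whether a piece is an excursion. -/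
def Piece.isExc (P : Piece) : Bool :=
  match P with
  | .exc _ _ _ => true
  | _ => false

/-- Pieces that start at the quasi-static slope whatever precedes them. -/
def Piece.restarts (P : Piece) : Bool := P.isExc || decide (6 ≤ P.power)

/-- The words of all loops. -/
structure LoopSpec : Type where
  corr : ℕ → List Piece
  junc : ℕ → Fin 3
  ctrl : ℕ → List Piece

namespace LoopSpec

/-- The program of loop `j`. -/
def prog (W : LoopSpec) (j : ℕ) : List Piece := loopProg (W.corr j) (W.junc j) (W.ctrl j)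

/-- The schedule of the words, from loop `j0` at time `t0`. -/
def sched (W : LoopSpec) (j0 : ℕ) (t0 : ℝ) (ht : 1 ≤ t0) : Sched := ⟨W.prog, j0, t0, ht⟩

/-- Correctors at `J3` (not empty), controls at their junction, bounded lengths. -/
structure Ok (W : LoopSpec) (P0 : ℕ) : Prop where
  corr_ok : ∀ j, ∀ P ∈ W.corr j, P.IsCorr
  ctrl_ok : ∀ j, ∀ P ∈ W.ctrl j, P.IsCtrl (W.junc j)
  corr_head : ∀ j, (W.corr j).head? = some (Piece.wait 0 5)
  corr_len : ∀ j, (W.corr j).length ≤ P0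
  ctrl_len : ∀ j, (W.ctrl j).length ≤ P0

variable {W : LoopSpec} {P0 : ℕ}

theorem Ok.corr_ne (h : W.Ok P0) (j : ℕ) : W.corr j ≠ [] := fun e => by
  simpa [e] using h.corr_head j

theorem prog_ne (W : LoopSpec) (j : ℕ) : W.prog j ≠ [] := by simp [prog, loopProg]

theorem prog_length (W : LoopSpec) (j : ℕ) :
    (W.prog j).length = (W.corr j).length + (W.ctrl j).length + 4 := by
  simp [prog, loopProg]; omega

/-- The piece at position `m`, by its region. -/
theorem prog_getElem (W : LoopSpec) (j m : ℕ) (hm : m < (W.prog j).length) :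
    (∃ h : m < (W.corr j).length, (W.prog j)[m] = (W.corr j)[m]) ∨
    (m = (W.corr j).length ∧ (W.prog j)[m] = Piece.wait 0 6) ∨
    (m = (W.corr j).length + 1 ∧ (W.prog j)[m] = Piece.out (W.junc j)) ∨
    (∃ (h : m - ((W.corr j).length + 2) < (W.ctrl j).length), (W.corr j).length + 2 ≤ m ∧
      (W.prog j)[m] = (W.ctrl j)[m - ((W.corr j).length + 2)]) ∨
    (m = (W.corr j).length + (W.ctrl j).length + 2 ∧ (W.prog j)[m] = Piece.back (W.junc j)) ∨
    (m = (W.corr j).length + (W.ctrl j).length + 3 ∧ (W.prog j)[m] = Piece.wait 0 7) := by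
  have hl := W.prog_length j
  set c := (W.corr j).length
  set d := (W.ctrl j).length
  have hd : (W.prog j) = W.corr j ++ (Piece.wait 0 6 :: Piece.out (W.junc j) ::
      (W.ctrl j ++ [Piece.back (W.junc j), Piece.wait 0 7])) := by
    simp [prog, loopProg]
  rcases lt_or_ge m c with h | h
  · exact Or.inl ⟨h, by simp [hd, List.getElem_append_left, h, c]⟩
  obtain ⟨n, rfl⟩ := Nat.exists_eq_add_of_le h
  have e : (W.prog j)[c + n]
      = (Piece.wait 0 6 :: Piece.out (W.junc j) ::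
        (W.ctrl j ++ [Piece.back (W.junc j), Piece.wait 0 7]))[n]'(by simp; omega) := by
    simp [hd, c]
  rcases n with _ | _ | n
  · exact Or.inr (Or.inl ⟨by omega, by rw [e]; rfl⟩)
  · exact Or.inr (Or.inr (Or.inl ⟨by omega, by rw [e]; rfl⟩))
  · rcases lt_or_ge n d with h2 | h2
    · refine Or.inr (Or.inr (Or.inr (Or.inl ⟨by omega, by omega, ?_⟩)))
      rw [e]
      simp [List.getElem_append_left, h2, d, show c + (n + 1 + 1) - ((W.corr j).length + 2) = n from by omega]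
    · refine Or.inr (Or.inr (Or.inr (Or.inr ?_)))
      rcases Nat.eq_or_lt_of_le h2 with h3 | h3
      · refine Or.inl ⟨by omega, ?_⟩
        rw [e]
        simp [h3.symm, d]
      · have : n = d + 1 := by omega
        refine Or.inr ⟨by omega, ?_⟩
        rw [e]
        simp [this, d]

theorem power_mem {j m : ℕ} (hW : W.Ok P0) (hm : m < (W.prog j).length) :
    (W.prog j)[m].power ≤ 7 ∧ 5 ≤ (W.prog j)[m].power := by
  rcases W.prog_getElem j m hm with ⟨h, e⟩ | ⟨-, e⟩ | ⟨-, e⟩ | ⟨h, -, e⟩ | ⟨-, e⟩ | ⟨-, e⟩ <;> rw [e]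
  · simp [(hW.corr_ok j _ (List.getElem_mem h)).facts.2.2]
  · exact ⟨by decide, by decide⟩
  · exact ⟨by simp [Piece.power], by simp [Piece.power]⟩
  · simp [(hW.ctrl_ok j _ (List.getElem_mem h)).facts.2.2]
  · exact ⟨by simp [Piece.power], by simp [Piece.power]⟩
  · exact ⟨by decide, by decide⟩

/-- A piece of power at least `6` starts at `J3` and follows a piece of power `5`. -/
theorem long_prev {j m : ℕ} (hW : W.Ok P0) (hm : m + 1 < (W.prog j).length)
    (h6 : 6 ≤ (W.prog j)[m + 1].power) :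
    (W.prog j)[m].power = 5 ∧ ∃ q, (W.prog j)[m + 1] = Piece.wait 0 q := by
  have hc := List.length_pos_of_ne_nil (hW.corr_ne j)
  have key : (m + 1 = (W.corr j).length ∨ m + 1 = (W.corr j).length + (W.ctrl j).length + 3) ∧
      ∃ q, (W.prog j)[m + 1] = Piece.wait 0 q := by
    rcases W.prog_getElem j (m + 1) hm with
      ⟨h, e⟩ | ⟨h, e⟩ | ⟨-, e⟩ | ⟨h, -, e⟩ | ⟨-, e⟩ | ⟨h, e⟩
    · rw [e, (hW.corr_ok j _ (List.getElem_mem h)).facts.2.2] at h6; omega
    · exact ⟨Or.inl h, 6, e⟩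
    · rw [e] at h6; simp [Piece.power] at h6
    · rw [e, (hW.ctrl_ok j _ (List.getElem_mem h)).facts.2.2] at h6; omega
    · rw [e] at h6; simp [Piece.power] at h6
    · exact ⟨Or.inr h, 7, e⟩
  refine ⟨?_, key.2⟩
  rcases W.prog_getElem j m (by omega) with
    ⟨h, e⟩ | ⟨h, e⟩ | ⟨h, e⟩ | ⟨h, -, e⟩ | ⟨h, e⟩ | ⟨h, e⟩
  · rw [e]; exact (hW.corr_ok j _ (List.getElem_mem h)).facts.2.2
  · omega
  · rw [e]; simp [Piece.power]
  · rw [e]; exact (hW.ctrl_ok j _ (List.getElem_mem h)).facts.2.2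
  · rw [e]; simp [Piece.power]
  · omega

theorem first_short {j : ℕ} (hW : W.Ok P0) (h0 : 0 < (W.prog j).length) :
    (W.prog j)[0].power = 5 := by
  have hc := List.length_pos_of_ne_nil (hW.corr_ne j)
  rcases W.prog_getElem j 0 h0 with ⟨h, e⟩ | ⟨h, -⟩ | ⟨h, -⟩ | ⟨-, h, -⟩ | ⟨h, -⟩ | ⟨h, -⟩
  · rw [e]; exact (hW.corr_ok j _ (List.getElem_mem h)).facts.2.2
  all_goals omega

theorem last_hold (W : LoopSpec) (j : ℕ) :
    (W.prog j).getLast (W.prog_ne j) = Piece.wait 0 7 := by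
  simp [prog, loopProg]

theorem chained (hW : W.Ok P0) (j0 : ℕ) (t0 : ℝ) (ht : 1 ≤ t0) : (W.sched j0 t0 ht).Chained := by
  intro j
  show ((W.prog j).head?.map Piece.src).getD 0 = 0 ∧ ((W.prog j).getLast?.map Piece.dst).getD 0 = 0 ∧
    ∀ m, (h : m + 1 < (W.prog j).length) → ((W.prog j)[m]).dst = ((W.prog j)[m + 1]).src
  refine ⟨?_, ?_, fun m hm => ?_⟩
  · obtain ⟨P, l, hl⟩ := List.exists_cons_of_ne_nil (hW.corr_ne j)
    have := (hW.corr_ok j P (by rw [hl]; simp)).facts.1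
    simp [prog, loopProg, hl, this]
  · rw [List.getLast?_eq_getLast_of_ne_nil (W.prog_ne j), W.last_hold]; rfl
  have hl := W.prog_length j
  have hJ : ∀ (k : ℕ) (hk : k < (W.prog j).length),
      (k < (W.corr j).length → (W.prog j)[k].src = 0 ∧ (W.prog j)[k].dst = 0) ∧
      (k = (W.corr j).length → (W.prog j)[k].src = 0 ∧ (W.prog j)[k].dst = 0) ∧
      (k = (W.corr j).length + 1 → (W.prog j)[k].src = 0 ∧ (W.prog j)[k].dst = W.junc j) ∧
      ((W.corr j).length + 2 ≤ k → k < (W.corr j).length + (W.ctrl j).length + 2 →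
        (W.prog j)[k].src = W.junc j ∧ (W.prog j)[k].dst = W.junc j) ∧
      (k = (W.corr j).length + (W.ctrl j).length + 2 →
        (W.prog j)[k].src = W.junc j ∧ (W.prog j)[k].dst = 0) ∧
      (k = (W.corr j).length + (W.ctrl j).length + 3 →
        (W.prog j)[k].src = 0 ∧ (W.prog j)[k].dst = 0) := by
    intro k hk
    rcases W.prog_getElem j k hk with
      ⟨h, e⟩ | ⟨h, e⟩ | ⟨h, e⟩ | ⟨h, h', e⟩ | ⟨h, e⟩ | ⟨h, e⟩
    · have := (hW.corr_ok j _ (List.getElem_mem h)).facts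
      rw [e]
      refine ⟨fun _ => ⟨this.1, this.2.1⟩, ?_, ?_, ?_, ?_, ?_⟩ <;> intros <;> omega
    · rw [e]
      refine ⟨?_, fun _ => ⟨rfl, rfl⟩, ?_, ?_, ?_, ?_⟩ <;> intros <;> omega
    · rw [e]
      refine ⟨?_, ?_, fun _ => ⟨rfl, rfl⟩, ?_, ?_, ?_⟩ <;> intros <;> omega
    · have := (hW.ctrl_ok j _ (List.getElem_mem h)).facts
      rw [e]
      refine ⟨?_, ?_, ?_, fun _ _ => ⟨this.1, this.2.1⟩, ?_, ?_⟩ <;> intros <;> omega
    · rw [e]
      refine ⟨?_, ?_, ?_, ?_, fun _ => ⟨rfl, rfl⟩, ?_⟩ <;> intros <;> omega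
    · rw [e]
      refine ⟨?_, ?_, ?_, ?_, ?_, fun _ => ⟨rfl, rfl⟩⟩ <;> intros <;> omega
  obtain ⟨a1, a2, a3, a4, a5, a6⟩ := hJ m (by omega)
  obtain ⟨b1, b2, b3, b4, b5, b6⟩ := hJ (m + 1) hm
  rcases (by omega : m + 1 < (W.corr j).length ∨ m + 1 = (W.corr j).length ∨
      m = (W.corr j).length ∨ m = (W.corr j).length + 1 ∨
      ((W.corr j).length + 2 ≤ m ∧ m < (W.corr j).length + (W.ctrl j).length + 2) ∨
      m = (W.corr j).length + (W.ctrl j).length + 2) with h | h | h | h | h | h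
  · rw [(a1 (by omega)).2, (b1 h).1]
  · rw [(a1 (by omega)).2, (b2 h).1]
  · rw [(a2 h).2, (b3 (by omega)).1]
  · rw [(a3 h).2]
    rcases Nat.eq_zero_or_pos (W.ctrl j).length with hd | hd
    · rw [(b5 (by omega)).1]
    · rw [(b4 (by omega) (by omega)).1]
  · rw [(a4 h.1 h.2).2]
    rcases (by omega : m + 1 < (W.corr j).length + (W.ctrl j).length + 2 ∨
      m + 1 = (W.corr j).length + (W.ctrl j).length + 2) with h3 | h3
    · rw [(b4 (by omega) h3).1]
    · rw [(b5 h3).1]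
  · rw [(a5 h).2, (b6 (by omega)).1]

theorem loopLen_near (hW : W.Ok P0) (j0 : ℕ) (t0 : ℝ) (ht : 1 ≤ t0) :
    (W.sched j0 t0 ht).LenNear (2 * P0 + 3) := by
  intro i
  set j := j0 + i
  set b : ℝ := (j : ℝ) + 1 with hb
  have hb1 : 1 ≤ b := le_add_of_nonneg_left (Nat.cast_nonneg j)
  have hsum : ∀ {l : List Piece}, (∀ P ∈ l, P.power = 5) →
      (l.map fun P => P.len j).sum = l.length * b ^ 5 := by
    intro l h
    rw [List.map_congr_left (g := fun _ => b ^ 5) fun P hP => by rw [Piece.len, h P hP]]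
    simp
  have e : (W.sched j0 t0 ht).loopLen j
      = ((W.corr j).length * b ^ 5 + (W.ctrl j).length * b ^ 5 + 2 * b ^ 5 + b ^ 6) + b ^ 7 := by
    show ((loopProg _ _ _).map fun P => P.len j).sum = _
    simp only [loopProg, List.map_append, List.sum_append, List.map_cons, List.map_nil,
      List.sum_cons, List.sum_nil, hsum fun P hP => (hW.corr_ok j P hP).facts.2.2,
      hsum fun P hP => (hW.ctrl_ok j P hP).facts.2.2]
    simp only [Piece.len, Piece.power]
    ring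
  show |(W.sched j0 t0 ht).loopLen j - b ^ 7| ≤ _ * b ^ 6
  have h56 : b ^ 5 ≤ b ^ 6 := pow_le_pow_right₀ hb1 (by norm_num)
  have h1 : ((W.corr j).length : ℝ) ≤ P0 := by exact_mod_cast hW.corr_len j
  have h2 : ((W.ctrl j).length : ℝ) ≤ P0 := by exact_mod_cast hW.ctrl_len j
  rw [e, add_sub_cancel_right, abs_of_nonneg (by positivity)]
  nlinarith [mul_le_mul h1 h56 (by positivity) (Nat.cast_nonneg P0),
    mul_le_mul h2 h56 (by positivity) (Nat.cast_nonneg P0)]

theorem hold_le_loopLen (W : LoopSpec) (j0 : ℕ) (t0 : ℝ) (ht : 1 ≤ t0) (j : ℕ) :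
    ((j : ℝ) + 1) ^ 7 ≤ (W.sched j0 t0 ht).loopLen j := by
  show _ ≤ ((W.prog j).map fun P => P.len j).sum
  have h0 : 0 ≤ (((W.corr j ++ [Piece.wait 0 6] ++ [Piece.out (W.junc j)] ++ W.ctrl j ++
      [Piece.back (W.junc j)])).map fun P => P.len j).sum :=
    List.sum_nonneg fun y hy => by
      obtain ⟨Q, -, rfl⟩ := List.mem_map.1 hy
      exact (Q.len_pos j).le
  simp only [prog, loopProg, List.map_append, List.sum_append, List.map_cons, List.map_nil,
    List.sum_cons, List.sum_nil] at h0 ⊢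
  simp only [Piece.len, Piece.power] at h0 ⊢
  linarith

/-- Every piece starts after time `2 (j+1)^5`. -/
theorem two_pow_le_pieceStart (W : LoopSpec) {j0 : ℕ} {t0 : ℝ} (ht : 1 ≤ t0) (hj : 3 ≤ j0)
    (ht0 : 2 * ((j0 : ℝ) + 1) ^ 5 ≤ t0) (i m : ℕ) :
    2 * (((W.sched j0 t0 ht).j0 + i : ℕ) + 1 : ℝ) ^ 5 ≤ (W.sched j0 t0 ht).pieceStart i m := by
  set S := W.sched j0 t0 ht
  refine le_trans ?_ ((S.pieceStart_zero i).symm.trans_le (S.pieceStart_mono i (Nat.zero_le m)))
  cases i with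
  | zero => simpa [Sched.start, S, sched] using ht0
  | succ n =>
    rw [S.start_succ]
    have h1 := W.hold_le_loopLen j0 t0 ht (j0 + n)
    have h2 : (0 : ℝ) ≤ S.start n := by linarith [S.one_le_t0, S.t0_le_start n]
    set b : ℝ := ((j0 + n : ℕ) : ℝ) + 1 with hb
    have hb4 : 4 ≤ b := by
      rw [hb]
      have : ((3 : ℕ) : ℝ) ≤ ((j0 + n : ℕ) : ℝ) := Nat.cast_le.2 (by omega)
      push_cast at this ⊢
      linarith
    have h3 : 2 * (b + 1) ^ 5 ≤ b ^ 7 :=
      calc 2 * (b + 1) ^ 5 ≤ 2 * (5 / 4 * b) ^ 5 := by gcongr; linarith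
        _ = 2 * (5 / 4) ^ 5 * b ^ 5 := by ring
        _ ≤ b ^ 2 * b ^ 5 := mul_le_mul_of_nonneg_right
            (le_trans (by norm_num) (pow_le_pow_left₀ (by norm_num) hb4 2)) (by positivity)
        _ = b ^ 7 := by ring
    have e : (((j0 + (n + 1) : ℕ) : ℝ) + 1) = b + 1 := by rw [hb]; push_cast; ring
    show 2 * (((j0 + (n + 1) : ℕ) : ℝ) + 1) ^ 5 ≤ S.start n + S.loopLen (j0 + n)
    rw [e]
    linarith [show b ^ 7 ≤ S.loopLen (j0 + n) from h1]

end LoopSpec

/-- Amplitude of a piece. -/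
def Piece.amp (P : Piece) (τ : ℕ → ℝ) : ℝ :=
  match P with
  | .exc _ _ k => τ k
  | .ins _ k => τ k
  | _ => 0

/-- Excursions at most `R`, insertions at most `ε`. -/
def Piece.AmpOk (P : Piece) (τ : ℕ → ℝ) (R ε : ℝ) : Prop :=
  match P with
  | .exc _ _ k => |τ k| ≤ R
  | .ins _ k => |τ k| ≤ ε
  | _ => True

/-- All amplitudes of a schedule are in range. -/
def Sched.AmpOk (S : Sched) (τ : Params) (R ε : ℝ) : Prop :=
  ∀ i m, (h : m < (S.prog (S.j0 + i)).length) → ((S.prog (S.j0 + i))[m]).AmpOk (τ i) R ε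

theorem LoopSpec.small (W : LoopSpec) {j0 : ℕ} {t0 : ℝ} (ht : 1 ≤ t0) {τ : Params} {R ε : ℝ}
    (hR : 4 * R ≤ ((j0 : ℝ) + 1) ^ 5) (h : (W.sched j0 t0 ht).AmpOk τ R ε) :
    (W.sched j0 t0 ht).Small τ := by
  intro i m hm
  have h1 := h i m hm
  generalize ((W.sched j0 t0 ht).prog ((W.sched j0 t0 ht).j0 + i))[m] = P at h1 ⊢
  cases P with
  | exc J g k =>
      have h2 : |τ i k| ≤ R := h1
      show |τ i k| ≤ (Piece.exc J g k).len (j0 + i) / 4
      have h3 : ((j0 : ℝ) + 1) ^ 5 ≤ (((j0 + i : ℕ) : ℝ) + 1) ^ 5 :=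
        pow_le_pow_left₀ (by positivity) (by push_cast; linarith [(Nat.cast_nonneg i : (0 : ℝ) ≤ i)]) 5
      show |τ i k| ≤ ((((j0 + i : ℕ) : ℝ)) + 1) ^ 5 / 4
      linarith
  | wait J q => trivial
  | out J => trivial
  | back J => trivial
  | ins f k => trivial

end

end Vale.Agent.P225
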