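import Vale.Agent.P225.Loop.CorrData
import Vale.Agent.P225.Loop.LoopData

/-!
P225 corrector: the zero level decouples from all segments of a loop and from the incoming slope.
-/

open Set
open scoped lp ENNReal

namespace Vale.Agent.P225

noncomputable section

/-! ### An indicator of levels commutes with a perturbed segment -/

section Picard

variable {G : Type*} {E : G → Type*} [∀ g, NormedAddCommGroup (E g)] [∀ g, NormedSpace ℝ (E g)]

/-- Multiplication by the indicator of a set of levels. -/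
def indOp (p : G → Bool) : lp E 2 →L[ℝ] lp E 2 :=
  scalarOp (fun g => if p g then 1 else 0) 1 zero_le_one fun g => by split_ifs <;> simp

theorem indOp_apply (p : G → Bool) (x : lp E 2) (g : G) :
    indOp p x g = (if p g then (1 : ℝ) else 0) • x g := rfl

variable [∀ g, CompleteSpace (E g)] {S : PicardBase G}

/-- A perturbation which does not mix two sets of levels gives a segment that commutes with their
indicators. -/
theorem PicardPert.seg_indOp (P : PicardPert S E) (p : G → Bool)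
    (h : ∀ t g g', g' ∈ P.nb g → p g ≠ p g' → P.P t g g' = 0) :
    Commute (indOp p) P.seg.Q ∧ Commute (indOp p) P.seg.B ∧
      Commute (indOp p) P.seg.C ∧ Commute (indOp p) P.seg.D := by
  set Z : lp E 2 →L[ℝ] lp E 2 := indOp p with hZ
  set Z' : PX S E →L[ℝ] PX S E := indOp p with hZ'
  have hforce : ∀ x g, P.force (Z' x) g = fun s => (if p g then (1 : ℝ) else 0) • P.force x g s := by
    intro x g
    funext s
    simp only [PicardPert.force, Finset.smul_sum]
    refine Finset.sum_congr rfl fun g' hg' => ?_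
    have e : PicardPert.ext (Z' x) g' s
        = (if p g' then (1 : ℝ) else 0) • PicardPert.ext x g' s := rfl
    rw [e, map_smul]
    by_cases hp : p g = p g'
    · rw [hp]
    · simp [h s g g' hg' hp]
  have hdev : ∀ x g, P.devPert (Z' x) g = fun t => (if p g then (1 : ℝ) else 0) • P.devPert x g t := by
    intro x g
    funext t
    simp only [PicardPert.devPert, hforce]
    by_cases hp : p g <;> simp [hp, kerW]
  have hstep : Commute Z' P.step := by
    refine ContinuousLinearMap.ext fun x => ?_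
    ext g t
    show (if p g then (1 : ℝ) else 0) • P.step x g t = P.step (Z' x) g t
    simp only [PicardPert.step_apply, hdev]
    by_cases hp : p g <;> simp [hp, kerY]
  have hN : Commute Z' (neumann P.step) := by
    show Commute Z' (Ring.inverse (1 - P.step))
    have h1 : Commute Z' (1 - P.step) := (Commute.one_right _).sub_right hstep
    by_cases hu : IsUnit (1 - P.step)
    · obtain ⟨u, hu⟩ := hu
      rw [← hu] at h1 ⊢
      rw [Ring.inverse_unit]
      exact h1.units_inv_right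
    · rw [Ring.inverse_non_unit _ hu]
      exact Commute.zero_right _
  have hN' : ∀ x, neumann P.step (Z' x) = Z' (neumann P.step x) := fun x =>
    (ContinuousLinearMap.ext_iff.1 hN.eq x).symm
  have hU : ∀ x, S.baseU (Z x) = Z' (S.baseU x) := fun x => by
    ext g t
    exact smul_comm _ _ _
  have hV : ∀ x, S.baseV (Z x) = Z' (S.baseV x) := fun x => by
    ext g t
    exact smul_comm _ _ _
  have hA : ∀ x, Z (S.evA x) = S.evA (Z' x) := fun x => rfl
  have hW : ∀ x, Z (P.evW x) = P.evW (Z' x) := fun x => by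
    ext g
    simp only [hZ, indOp_apply, PicardPert.evW_apply, hdev]
    exact smul_comm _ _ _
  have hC : Commute Z S.baseC := by
    refine ContinuousLinearMap.ext fun x => ?_
    ext g
    exact smul_comm _ _ _
  have hD : Commute Z S.baseD := by
    refine ContinuousLinearMap.ext fun x => ?_
    ext g
    exact smul_comm _ _ _
  refine ⟨ContinuousLinearMap.ext fun x => ?_, ContinuousLinearMap.ext fun x => ?_,
    hC.add_right (ContinuousLinearMap.ext fun x => ?_),
    hD.add_right (ContinuousLinearMap.ext fun x => ?_)⟩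
  · show Z (S.evA (neumann P.step (S.baseU x))) = S.evA (neumann P.step (S.baseU (Z x)))
    rw [hU, hN', hA]
  · show Z (S.evA (neumann P.step (S.baseV x))) = S.evA (neumann P.step (S.baseV (Z x)))
    rw [hV, hN', hA]
  · show Z (P.evW (neumann P.step (S.baseU x))) = P.evW (neumann P.step (S.baseU (Z x)))
    rw [hU, hN', hW]
  · show Z (P.evW (neumann P.step (S.baseV x))) = P.evW (neumann P.step (S.baseV (Z x)))
    rw [hV, hN', hW]

end Picard

namespace Loop

open Vale.Agent.P225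

/-- All four maps of a segment keep the zero level. -/
def KeepsSeg (S : Seg HSp) : Prop := Keeps0 S.Q ∧ Keeps0 S.B ∧ Keeps0 S.C ∧ Keeps0 S.D

theorem Keeps0.one : Keeps0 1 := Commute.one_right _

theorem Keeps0.zero : Keeps0 0 := Commute.zero_right _

theorem keeps0_diagOp (g : St → ℝ) (K : ℝ) (hK : 0 ≤ K) (hg : ∀ i, |g i| ≤ K) :
    Keeps0 (diagOp g K hK hg) := by
  refine ContinuousLinearMap.ext fun x => ?_
  ext i
  simp only [ContinuousLinearMap.mul_def, ContinuousLinearMap.comp_apply, Z0, diagOp_apply]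
  ring

theorem level_eq_zero_iff (J : Fin 3) (V : Blk) : V.level J = 0 ↔ V.level 0 = 0 := by
  obtain ⟨⟨a, b, c⟩, h0, h1, h2, h3⟩ := V
  fin_cases J <;> simp [Blk.level, Blk.la, Blk.lb, Blk.lc, Prod.ext_iff] <;> simp at h1 h2 h3 <;>
    omega

theorem keeps0_of_levelLocal {J : Fin 3} {T : HSp →L[ℝ] HSp} (hT : LevelLocal J T) : Keeps0 T := by
  have e : Z0 = diagOp (fun i => (fun L : ℕ × ℕ => if L = 0 then (1 : ℝ) else 0) (i.blk.level J)) 1
      zero_le_one (fun i => by simp only; split_ifs <;> simp) := by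
    refine ContinuousLinearMap.ext fun x => ?_
    ext i
    simp only [Z0, diagOp_apply, level_eq_zero_iff J]
  show Z0 * T = T * Z0
  rw [e]
  exact (hT (fun L => if L = 0 then 1 else 0) 1 zero_le_one
    fun i => by split_ifs <;> simp).symm

theorem keepsSeg_diag (P : DiagCoef) : KeepsSeg P.seg :=
  ⟨keeps0_diagOp P.q P.Kq P.Kq_nonneg P.q_le, keeps0_diagOp P.b P.Kb P.Kb_nonneg P.b_le,
    keeps0_diagOp P.c P.Kc P.Kc_nonneg P.c_le, keeps0_diagOp P.d P.Kd P.Kd_nonneg P.d_le⟩

theorem keepsSeg_junk : KeepsSeg Seg.junk := ⟨Keeps0.zero, Keeps0.zero, Keeps0.zero, Keeps0.zero⟩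

theorem KeepsSeg.conj {S : Seg HSp} (h : KeepsSeg S) {Uu Vu Uw Vw : HSp →L[ℝ] HSp}
    (h1 : Keeps0 Uu) (h2 : Keeps0 Vu) (h3 : Keeps0 Uw) (h4 : Keeps0 Vw) :
    KeepsSeg (S.conj Uu Vu Uw Vw) :=
  ⟨h1.mul (h.1.mul h2), h1.mul (h.2.1.mul h4), h3.mul (h.2.2.1.mul h2), h3.mul (h.2.2.2.mul h4)⟩

theorem KeepsSeg.comp {S T : Seg HSp} (hS : KeepsSeg S) (hT : KeepsSeg T) : KeepsSeg (S.comp T) := by
  obtain ⟨a, b, c, d⟩ := hS
  obtain ⟨a', b', c', d'⟩ := hT
  have hN : Keeps0 (neumann (T.B.comp S.C)) := (b'.mul c).neumann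
  exact ⟨a.mul (hN.mul a'), b.add_right (a.mul (hN.mul (b'.mul d))),
    c'.add_right (d'.mul (c.mul (hN.mul a'))), d'.mul (d.add_right (c.mul (hN.mul (b'.mul d))))⟩

theorem KeepsSeg.slopeMap {S : Seg HSp} (h : KeepsSeg S) {R : HSp →L[ℝ] HSp} (hR : Keeps0 R) :
    Keeps0 (S.slopeMap R) :=
  (Keeps0.slopeMap h.1 h.2.1 h.2.2.1 h.2.2.2 hR).2

/-- Operators on levels that commute with the indicator of the zero level. -/
theorem keeps0_ofLev {X : HLev 0 →L[ℝ] HLev 0}
    (h : Commute (indOp fun g : ℕ × ℕ => decide (g = 0)) X) :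
    Keeps0 ((ofLev 0).comp (X.comp (toLev 0))) := by
  have e1 : ∀ x : HSp, toLev 0 (Z0 x) = indOp (fun g : ℕ × ℕ => decide (g = 0)) (toLev 0 x) := by
    intro x
    ext L i
    obtain ⟨i, rfl⟩ := i
    by_cases hi : i.blk.level 0 = 0 <;> simp [Z0, indOp_apply, hi]
  have e2 : ∀ y : HLev 0, Z0 (ofLev 0 y) = ofLev 0 (indOp (fun g : ℕ × ℕ => decide (g = 0)) y) := by
    intro y
    ext i
    by_cases hi : i.blk.level 0 = 0 <;> simp [Z0, indOp_apply, hi]
  refine ContinuousLinearMap.ext fun x => ?_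
  show Z0 (ofLev 0 (X (toLev 0 x))) = ofLev 0 (X (toLev 0 (Z0 x)))
  rw [e1, e2]
  exact congrArg (ofLev 0) (ContinuousLinearMap.ext_iff.1 h.eq _)

/-- No block of the insertions starts at the zero level. -/
def ZeroCol (Mo : PieceModel) : Prop :=
  ∀ f g, (Mo.ins f).O₁ g 0 = 0 ∧ (Mo.ins f).O₂ g 0 = 0

theorem keepsSeg_ins {O : InsOp} (hO : ∀ g, O.O₁ g 0 = 0 ∧ O.O₂ g 0 = 0) (κ ε L a b : ℝ)
    (c : ℝ → ℝ) (z : St → ℝ → ℝ) (ρ : St → ℝ) (δ : ℝ) :
    KeepsSeg (insSegOf O κ ε L a b c z ρ δ) := by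
  unfold insSegOf
  split_ifs with h
  · refine KeepsSeg.conj ?_ Keeps0.one Keeps0.one (keeps0_diagOp _ _ _ _) (keeps0_diagOp _ _ _ _)
    obtain ⟨q1, q2, q3, q4⟩ := (O.pert h.fam (by norm_num : (0 : ℝ) < 1 / 16) h.low (insF₁ κ ε L a)
      (insF₂ κ ε L a) h.cont.1 h.cont.2 (3 * |ε|) (by positivity) h.bd).seg_indOp
      (fun g : ℕ × ℕ => decide (g = 0)) fun t g g' _ hne => by
        have h0 : O.O₁ g g' = 0 ∧ O.O₂ g g' = 0 := by
          by_cases hg : g = 0
          · subst hg; exact O.zero_row g'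
          · have hg' : g' = 0 := by
              by_contra hc
              exact hne (by simp [hg, hc])
            subst hg'
            exact hO g
        show insF₁ κ ε L a t • O.O₁ g g' + insF₂ κ ε L a t • O.O₂ g g' = 0
        rw [h0.1, h0.2]
        refine ContinuousLinearMap.ext fun v => ?_
        show insF₁ κ ε L a t • (0 : LevSp 0 g) + insF₂ κ ε L a t • (0 : LevSp 0 g) = 0
        simp
    exact ⟨keeps0_ofLev q1, keeps0_ofLev q2, keeps0_ofLev q3, keeps0_ofLev q4⟩
  · exact keepsSeg_junk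

theorem keepsSeg_diagSegOf (a b : ℝ) (c : ℝ → ℝ) (z : St → ℝ → ℝ) (ρ : St → ℝ) (δ : ℝ) :
    KeepsSeg (diagSegOf a b c z ρ δ) := by
  unfold diagSegOf
  split_ifs with h
  · exact keepsSeg_diag _
  · exact keepsSeg_junk

/-- Every segment of a schedule keeps the zero level. -/
theorem keepsSeg_seg {Mo : PieceModel} (hMo : ZeroCol Mo) (S : Sched) (κ C : ℝ) (τ : Params)
    (i m : ℕ) : KeepsSeg (S.seg κ C Mo τ i m) := by
  unfold Sched.seg
  split_ifs with h
  · cases (S.prog (S.j0 + i))[m] with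
    | exc J g k =>
      obtain ⟨l1, l2, l3, l4⟩ := (Mo.frame J g).loc
      exact (keepsSeg_diagSegOf _ _ _ _ _ _).conj (keeps0_of_levelLocal l1)
        (keeps0_of_levelLocal l2) (keeps0_of_levelLocal l3) (keeps0_of_levelLocal l4)
    | ins f k => exact keepsSeg_ins (hMo f) _ _ _ _ _ _ _ _ _
    | wait J q => exact keepsSeg_diagSegOf _ _ _ _ _ _
    | out J => exact keepsSeg_diagSegOf _ _ _ _ _ _
    | back J => exact keepsSeg_diagSegOf _ _ _ _ _ _
  · exact keepsSeg_junk

theorem keepsSeg_segRange {S : ℕ → Seg HSp} (hS : ∀ m, KeepsSeg (S m)) :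
    ∀ n i, KeepsSeg (segRange S i n)
  | 0, _ => ⟨Keeps0.one, Keeps0.zero, Keeps0.zero, Keeps0.one⟩
  | n + 1, i => (hS i).comp (keepsSeg_segRange hS n (i + 1))

theorem keeps0_slopes {S : ℕ → Seg HSp} (hS : ∀ m, KeepsSeg (S m)) {R : HSp →L[ℝ] HSp}
    (hR : Keeps0 R) : ∀ n, Keeps0 (slopes S R n)
  | 0 => hR
  | n + 1 => (hS n).slopeMap (keeps0_slopes hS hR n)

variable {W : LoopSpec} {κ C : ℝ} {Mo : PieceModel} {j0 : ℕ} {t0 : ℝ} {ht : 1 ≤ t0}

theorem keepsSeg_segs (hMo : ZeroCol Mo) (τ : Params) (i m : ℕ) :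
    KeepsSeg (W.segs κ C Mo j0 t0 ht τ i m) :=
  keepsSeg_seg hMo _ _ _ _ _ _

/-- The three segments of a loop keep the zero level. -/
theorem keepsSeg_loop (hMo : ZeroCol Mo) (τ : Params) (i : ℕ) :
    KeepsSeg (W.corrSeg κ C Mo j0 t0 ht τ i) ∧ KeepsSeg (W.bufSeg κ C Mo j0 t0 ht τ i) ∧
      KeepsSeg (W.restSeg κ C Mo j0 t0 ht τ i) :=
  ⟨keepsSeg_segRange (keepsSeg_segs hMo τ i) _ _, keepsSeg_segs hMo τ i _,
    (keepsSeg_segs hMo τ i _).comp ((keepsSeg_segRange (keepsSeg_segs hMo τ i) _ _).comp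
      (keepsSeg_segRange (keepsSeg_segs hMo τ i) _ _))⟩

/-- The slope at every loop start keeps the zero level. -/
theorem keeps0_slopeR (hMo : ZeroCol Mo) (τ : Params) {R₀ : HSp →L[ℝ] HSp} (hR₀ : Keeps0 R₀) :
    ∀ i, Keeps0 (W.slopeR κ C Mo j0 t0 ht τ R₀ i)
  | 0 => hR₀
  | i + 1 => keeps0_slopes (keepsSeg_segs hMo τ i) (keeps0_slopeR hMo τ hR₀ i) _

end Loop

end

end Vale.Agent.P225
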