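import Vale.Agent.P225.Loop.PieceExc

/-!
P225 corrector, section 5: no coincidences between the rates of different classes.  With
`s = scaleInf`, `s ^ 2 = 500 / 61`, the difference `√(25 + 4 s A) - √(25 + 4 s B)` determines the
pair of natural numbers `(A, B)` unless `A = B`.
-/

namespace Vale.Agent.P225.Loop

noncomputable section

theorem scaleInf_sq : scaleInf ^ 2 = 500 / 61 := by
  rw [scaleInf, Real.sq_sqrt (by norm_num [dMin])]
  norm_num [dMin]

theorem irrational_scaleInf : Irrational scaleInf := by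
  have h : Irrational (Real.sqrt ((500 / 61 : ℚ) : ℝ)) := by
    rw [irrational_sqrt_ratCast_iff]
    refine ⟨?_, by norm_num⟩
    rintro ⟨q, hq⟩
    have h2 := congrArg Rat.den hq
    rw [Rat.mul_self_den] at h2
    norm_num at h2
    have : q.den ≤ 7 ∨ 8 ≤ q.den := by omega
    rcases this with h | h
    · nlinarith
    · nlinarith
  have e : scaleInf = Real.sqrt ((500 / 61 : ℚ) : ℝ) := by
    rw [scaleInf]; norm_num [dMin]
  rwa [e]

/-- An integral linear relation in `scaleInf` is trivial. -/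
theorem scaleInf_lin {a b : ℤ} (h : scaleInf * a + b = 0) : a = 0 ∧ b = 0 := by
  by_cases ha : a = 0
  · subst ha
    exact ⟨rfl, by exact_mod_cast (by simpa using h : (b : ℝ) = 0)⟩
  · have h2 := (irrational_scaleInf.mul_intCast ha).ne_int (-b)
    exact absurd (by push_cast; linarith) h2

/-- The root attached to a level value. -/
def gapRoot (A : ℕ) : ℝ := Real.sqrt (25 + 4 * scaleInf * A)

theorem gapRoot_sq (A : ℕ) : gapRoot A ^ 2 = 25 + 4 * scaleInf * A :=
  Real.sq_sqrt (by have := Real.sqrt_nonneg (1 / dMin); rw [scaleInf]; positivity)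

/-- The difference of the roots determines the pair. -/
theorem gapRoot_sub_eq {A B C E : ℕ} (hAB : A ≠ B)
    (h : gapRoot A - gapRoot B = gapRoot C - gapRoot E) : A = C ∧ B = E := by
  set s := scaleInf with hs
  have hs0 : 0 < s := by
    rw [hs, scaleInf]; exact Real.sqrt_pos.2 (by norm_num [dMin])
  set u := gapRoot B * gapRoot C with hu
  set w := gapRoot A * gapRoot E with hw
  have hu0 : 0 ≤ u := mul_nonneg (Real.sqrt_nonneg _) (Real.sqrt_nonneg _)
  have hu2 : u ^ 2 = (25 + 4 * s * B) * (25 + 4 * s * C) := by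
    rw [hu, mul_pow, gapRoot_sq, gapRoot_sq]
  have hw2 : w ^ 2 = (25 + 4 * s * A) * (25 + 4 * s * E) := by
    rw [hw, mul_pow, gapRoot_sq, gapRoot_sq]
  set k : ℤ := (B : ℤ) + C - A - E with hk
  have h1 : w = u + 2 * s * k := by
    have e : (gapRoot A + gapRoot E) ^ 2 = (gapRoot B + gapRoot C) ^ 2 := by
      rw [show gapRoot A + gapRoot E = gapRoot B + gapRoot C by linarith]
    rw [add_sq, add_sq, gapRoot_sq, gapRoot_sq, gapRoot_sq, gapRoot_sq] at e
    rw [hw, hu, hk]
    push_cast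
    linarith
  set M : ℤ := 4 * ((B : ℤ) * C - A * E) + k ^ 2 with hM
  have h2 : (k : ℝ) * u + 25 * k + s * M = 0 := by
    have e : (4 * s) * ((k : ℝ) * u + 25 * k + s * M) = 0 := by
      have h3 : (u + 2 * s * k) ^ 2 = (25 + 4 * s * A) * (25 + 4 * s * E) := h1 ▸ hw2
      have hkr : (k : ℝ) = (B : ℝ) + C - A - E := by rw [hk]; push_cast; ring
      have hMr : (M : ℝ) = 4 * ((B : ℝ) * C - A * E) + (k : ℝ) ^ 2 := by rw [hM]; push_cast; ring
      rw [hMr]
      rw [add_sq, hu2] at h3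
      have hk' : 100 * s * (k : ℝ) = 100 * s * ((B : ℝ) + C - A - E) := by rw [hkr]
      linear_combination h3 + hk'
    exact (mul_eq_zero.1 e).resolve_left (by positivity)
  have hk0 : k = 0 := by
    by_contra hk'
    have h4 : (k : ℝ) ^ 2 * u ^ 2 = (25 * k + s * M) ^ 2 := by
      rw [show (25 : ℝ) * k + s * M = -((k : ℝ) * u) by linarith]
      ring
    rw [hu2] at h4
    have h5 : s * ((61 * (100 * k ^ 2 * ((B : ℤ) + C) - 50 * k * M) : ℤ) : ℝ)
        + ((500 * (16 * k ^ 2 * (B * C) - M ^ 2) : ℤ) : ℝ) = 0 := by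
      push_cast
      have hq : s ^ 2 = 500 / 61 := scaleInf_sq
      linear_combination 61 * h4 - 61 * (16 * (k : ℝ) ^ 2 * ((B : ℝ) * C) - (M : ℝ) ^ 2) * hq
    obtain ⟨h6, -⟩ := scaleInf_lin h5
    have h7 : M = 2 * k * ((B : ℤ) + C) :=
      mul_left_cancel₀ (mul_ne_zero (by norm_num : (50 : ℤ) ≠ 0) hk') (by linarith)
    have h8 : (k : ℝ) * (u + 25 + 2 * s * ((B : ℝ) + C)) = 0 := by
      have : (M : ℝ) = 2 * (k : ℝ) * ((B : ℝ) + C) := by exact_mod_cast h7
      rw [this] at h2
      linarith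
    have : 0 < u + 25 + 2 * s * ((B : ℝ) + C) := by positivity
    exact (mul_ne_zero (by exact_mod_cast hk') this.ne') h8
  have hsum : (B : ℤ) + C = A + E := by omega
  have hprod : (B : ℤ) * C = A * E := by
    rw [hk0] at h2
    have : (M : ℝ) = 0 := by
      rcases mul_eq_zero.1 (show s * M = 0 by simpa using h2) with h | h
      · linarith
      · exact h
    have hM0 : M = 0 := by exact_mod_cast this
    rw [hk0] at hM
    linarith
  have h9 : ((A : ℤ) - B) * ((A : ℤ) - C) = 0 := by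
    have he : (E : ℤ) = B + C - A := by linarith
    rw [he] at hprod
    linarith
  rcases mul_eq_zero.1 h9 with h | h <;> omega

/-- The rate of the pair of level values `(A, B)`. -/
def classRate (p : ℕ × ℕ) : ℝ :=
  -(Ode.alphaFn 5 (scaleInf * p.1) - Ode.alphaFn 5 (scaleInf * p.2))

theorem classRate_eq (p : ℕ × ℕ) : classRate p = -((gapRoot p.1 - gapRoot p.2) / 2) := by
  simp only [classRate, Ode.alphaFn, gapRoot]
  norm_num
  rw [show ∀ x : ℝ, 4 * (scaleInf * x) = 4 * scaleInf * x from fun x => by ring,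
    show ∀ x : ℝ, 4 * (scaleInf * x) = 4 * scaleInf * x from fun x => by ring]
  ring

/-- Rates of different classes differ. -/
theorem classRate_ne {p q : ℕ × ℕ} (hp : p ≠ q) (h : p.1 ≠ p.2 ∨ q.1 ≠ q.2) :
    classRate p ≠ classRate q := by
  intro e
  rw [classRate_eq, classRate_eq] at e
  rcases h with h | h
  · obtain ⟨h1, h2⟩ := gapRoot_sub_eq h (by linarith : gapRoot p.1 - gapRoot p.2 = gapRoot q.1 - gapRoot q.2)
    exact hp (Prod.ext h1 h2)
  · obtain ⟨h1, h2⟩ := gapRoot_sub_eq h (by linarith : gapRoot q.1 - gapRoot q.2 = gapRoot p.1 - gapRoot p.2)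
    exact hp (Prod.ext h1 h2).symm

/-- A uniform gap on finitely many classes, at most one of which is diagonal. -/
theorem exists_classGap (Cl : Finset (ℕ × ℕ))
    (h : ∀ p ∈ Cl, ∀ q ∈ Cl, p.1 = p.2 → q.1 = q.2 → p = q) :
    ∃ δ > 0, ∀ p ∈ Cl, ∀ q ∈ Cl, p ≠ q → δ ≤ |classRate p - classRate q| := by
  classical
  set T := (Cl ×ˢ Cl).filter fun x => x.1 ≠ x.2
  have hpos : ∀ x ∈ T, 0 < |classRate x.1 - classRate x.2| := fun x hx => by
    obtain ⟨hx1, hx2⟩ := Finset.mem_filter.1 hx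
    obtain ⟨h1, h2⟩ := Finset.mem_product.1 hx1
    refine abs_pos.2 (sub_ne_zero.2 (classRate_ne hx2 ?_))
    by_contra hc
    push Not at hc
    exact hx2 (h _ h1 _ h2 hc.1 hc.2)
  rcases T.eq_empty_or_nonempty with he | hne
  · refine ⟨1, one_pos, fun p hp q hq hpq => ?_⟩
    have : (p, q) ∈ T := Finset.mem_filter.2 ⟨Finset.mem_product.2 ⟨hp, hq⟩, hpq⟩
    rw [he] at this
    exact absurd this (Finset.notMem_empty _)
  · obtain ⟨x, hx, hmin⟩ := T.exists_min_image (fun x => |classRate x.1 - classRate x.2|) hne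
    exact ⟨_, hpos x hx, fun p hp q hq hpq =>
      hmin (p, q) (Finset.mem_filter.2 ⟨Finset.mem_product.2 ⟨hp, hq⟩, hpq⟩)⟩

end

end Vale.Agent.P225.Loop
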