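import Vale.Agent.P225.Loop.CorrModel
import Vale.Agent.P225.Loop.CorrGap
import Vale.Agent.P225.Assembly.Orbits

/-!
P225 corrector: the classes of the constrained entries on the finite set of states of one loop, the
corrected left factor, and the fields of `LoopBlock` which it gives together with a monomial ideal
map.
-/

namespace Vale.Agent.P225.Loop

open Finset Filter Topology

noncomputable section

/-- The finite set of states of the corrector. -/
def corrW (Mb : ℕ) : Finset St := wMono Mb ∪ wAxis Mb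

theorem mem_corrW {Mb : ℕ} {i : St} : i ∈ corrW Mb ↔ i.blk.la ≤ Mb ∧ i.blk.lb ≤ Mb :=
  mem_wMono_or_wAxis

/-- Whole levels. -/
theorem corrW_level {Mb : ℕ} : ∀ i ∈ corrW Mb, ∀ k : St, k.blk.level 0 = i.blk.level 0 →
    k ∈ corrW Mb := by
  intro i hi k hk
  simp only [level_zero_eq, Prod.mk.injEq] at hk
  rw [mem_corrW, hk.1, hk.2]
  exact mem_corrW.1 hi

/-- Constrained entries on `corrW`. -/
abbrev CorrEnt (Mb : ℕ) : Type :=
  {p : WSt (corrW Mb) × WSt (corrW Mb) //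
    Constrained (fun q => axSt q.1) (fun q => zeroLev q.1) p}

instance (Mb : ℕ) : Fintype (CorrEnt Mb) := Fintype.ofFinite _

/-- The value `cas a + cas b` of the level of a state. -/
def levVal (i : St) : ℕ := Count.lev i.blk.la i.blk.lb

/-- The rate of an entry. -/
def entRate {Mb : ℕ} (p : CorrEnt Mb) : ℝ := classRate (levVal p.1.1.1, levVal p.1.2.1)

/-- The rates of the classes. -/
def rateSet (Mb : ℕ) : Finset ℝ := univ.image (entRate (Mb := Mb))

/-- The number of slots. -/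
def numCls (Mb : ℕ) : ℕ := (rateSet Mb).card

/-- The rate of slot `r`. -/
def slotRate (Mb r : ℕ) : ℝ :=
  if h : r < numCls Mb then (rateSet Mb).orderEmbOfFin rfl ⟨r, h⟩ else 0

/-- The slot of an entry. -/
def slotOf {Mb : ℕ} (p : CorrEnt Mb) : Fin (numCls Mb) :=
  ((rateSet Mb).orderIsoOfFin rfl).symm ⟨entRate p, mem_image_of_mem _ (mem_univ p)⟩

theorem slotRate_slotOf {Mb : ℕ} (p : CorrEnt Mb) : slotRate Mb (slotOf p) = entRate p := by
  rw [slotRate, dif_pos (slotOf p).2]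
  show (((rateSet Mb).orderIsoOfFin rfl (slotOf p)) : ℝ) = _
  rw [slotOf, OrderIso.apply_symm_apply]

/-- Entries of one slot have the same pair of level values, unless both pairs are diagonal. -/
theorem slotOf_eq {Mb : ℕ} {p p' : CorrEnt Mb} (h : slotOf p = slotOf p') :
    (levVal p.1.1.1, levVal p.1.2.1) = (levVal p'.1.1.1, levVal p'.1.2.1) ∨
      (levVal p.1.1.1 = levVal p.1.2.1 ∧ levVal p'.1.1.1 = levVal p'.1.2.1) := by
  by_contra hc
  obtain ⟨h1, h2⟩ := not_or.1 hc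
  refine classRate_ne h1 (not_and_or.1 h2) ?_
  have e := slotRate_slotOf p
  rw [h, slotRate_slotOf] at e
  exact e.symm

theorem exists_slotRate_gap (Mb : ℕ) : ∃ δ D : ℝ, 0 < δ ∧
    (∀ i k, i < k → k < numCls Mb → δ ≤ slotRate Mb k - slotRate Mb i) ∧
    ∀ k, k < numCls Mb → |slotRate Mb k| ≤ D := by
  classical
  set s := rateSet Mb
  set T := (s ×ˢ s).filter fun x => x.1 < x.2
  have hD : ∀ k, k < numCls Mb → |slotRate Mb k| ≤ ∑ x ∈ s, |x| := fun k hk => by
    rw [slotRate, dif_pos hk]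
    exact single_le_sum (f := fun x : ℝ => |x|) (fun x _ => abs_nonneg x)
      (Finset.orderEmbOfFin_mem _ _ _)
  have hmem : ∀ i k, i < k → k < numCls Mb →
      (slotRate Mb i, slotRate Mb k) ∈ T := by
    intro i k hik hk
    have hi := hik.trans hk
    rw [slotRate, dif_pos hi, slotRate, dif_pos hk]
    exact mem_filter.2 ⟨mem_product.2 ⟨Finset.orderEmbOfFin_mem _ _ _,
      Finset.orderEmbOfFin_mem _ _ _⟩, (s.orderEmbOfFin rfl).strictMono (show (⟨i, hi⟩ : Fin _) < ⟨k, hk⟩ from hik)⟩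
  rcases T.eq_empty_or_nonempty with he | hne
  · refine ⟨1, _, one_pos, fun i k hik hk => ?_, hD⟩
    have := hmem i k hik hk
    rw [he] at this
    exact absurd this (notMem_empty _)
  · obtain ⟨x, hx, hmin⟩ := T.exists_min_image (fun x => x.2 - x.1) hne
    exact ⟨x.2 - x.1, _, sub_pos.2 (mem_filter.1 hx).2,
      fun i k hik hk => hmin _ (hmem i k hik hk), hD⟩

open scoped Matrix.Norms.L2Operator in
/-- **The corrector on the finite block.** A fixed list of conjugated insertions and a fixed spacing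
such that every loop whose left factor has the first order of the slots has amplitudes which kill
all constrained entries. -/
theorem exists_corrector (Mb s : ℕ) (gens : Set (Matrix (WSt (corrW Mb)) (WSt (corrW Mb)) ℝ))
    (hgens : ∀ i j : WSt (corrW Mb), i ≠ j → i.1.blk.level 0 = j.1.blk.level 0 →
      bigLev (i.1.blk.level 0) →
      ∀ G : Submodule ℝ (Matrix (WSt (corrW Mb)) (WSt (corrW Mb)) ℝ),
        gens ⊆ G → (∀ x ∈ G, ∀ y ∈ G, x * y - y * x ∈ G) → Matrix.single i j (1 : ℝ) ∈ G) :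
    ∃ (n : ℕ) (g : Fin n → (Matrix (WSt (corrW Mb)) (WSt (corrW Mb)) ℝ)ˣ) (f : Fin n → ℕ)
      (A : CorrEnt Mb → Fin n → ℝ),
      (∀ l, ((g l : _) : Matrix _ _ ℝ) ∈ Alg.expMonoid gens ∧
        (((g l)⁻¹ : _) : Matrix _ _ ℝ) ∈ Alg.expMonoid gens) ∧
      (∀ p l, A p l = ((g l : Matrix (WSt (corrW Mb)) (WSt (corrW Mb)) ℝ)
        * Matrix.of (fun y z : WSt (corrW Mb) =>
            (y.1.blk.mu / z.1.blk.mu) ^ s * Model.ins1 (f l) z.1 y.1)
        * (((g l)⁻¹ : _) : Matrix (WSt (corrW Mb)) (WSt (corrW Mb)) ℝ)) p.1.1 p.1.2) ∧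
      ∀ b : ℝ, 0 ≤ b → ∃ h₀ : ℝ, ∀ h C : ℝ, h₀ ≤ h → 0 ≤ h → 0 ≤ C →
        ∀ η : ℕ → ℝ, Tendsto η atTop (𝓝 0) →
        ∃ N : ℕ, ∀ (j : ℕ)
          (M : (Fin (numCls Mb) × Fin n → ℝ) → WSt (corrW Mb) → WSt (corrW Mb) → ℝ)
          (q : WSt (corrW Mb) → ℝ), N ≤ j →
          FactorData (fun q => axSt q.1) (fun q => zeroLev q.1) (fun p : CorrEnt Mb => p.1) slotOf A
            (slotRate Mb) C (h * ((j : ℝ) + 1) ^ 5) (b * ((j : ℝ) + 1) ^ 5) (η j)
            (((j : ℝ) + 1) ^ 5) (((j : ℝ) + 1) ^ 6) M q →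
          ∃ e, ‖e‖ ≤ Real.exp (-3 * ((j : ℝ) + 1) ^ 6) ∧
            Corrected (fun q => axSt q.1) (C + 2) (((j : ℝ) + 1) ^ 5) (((j : ℝ) + 1) ^ 6) (M e) := by
  classical
  obtain ⟨n, g, f, hg, hspan⟩ := exists_slotList (corrW Mb) corrW_level (fun i => i.blk.mu ^ s)
    (fun i => (i.blk.mu ^ s)⁻¹)
    (fun i => pow_ne_zero _ (zero_lt_one.trans_le (Blk.one_le_mu _)).ne')
    (fun i => inv_ne_zero (pow_ne_zero _ (zero_lt_one.trans_le (Blk.one_le_mu _)).ne')) gens hgens
  obtain ⟨δ, D, hδ, hgap, hD⟩ := exists_slotRate_gap Mb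
  have he : ∀ f, insMat (corrW Mb) (fun i => i.blk.mu ^ s) (fun i => (i.blk.mu ^ s)⁻¹) f
      = Matrix.of (fun y z : WSt (corrW Mb) =>
        (y.1.blk.mu / z.1.blk.mu) ^ s * Model.ins1 f z.1 y.1) := fun f => by
    ext y z
    simp only [insMat, Matrix.of_apply, div_eq_mul_inv, mul_pow, inv_pow]
  refine ⟨n, g, f, fun p l => ((g l : Matrix (WSt (corrW Mb)) (WSt (corrW Mb)) ℝ)
    * insMat (corrW Mb) (fun i => i.blk.mu ^ s) (fun i => (i.blk.mu ^ s)⁻¹) (f l)
    * (((g l)⁻¹ : _) : Matrix (WSt (corrW Mb)) (WSt (corrW Mb)) ℝ)) p.1.1 p.1.2, hg,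
    fun p l => congrArg (fun X : Matrix (WSt (corrW Mb)) (WSt (corrW Mb)) ℝ =>
      ((g l : Matrix (WSt (corrW Mb)) (WSt (corrW Mb)) ℝ) * X
        * (((g l)⁻¹ : _) : Matrix (WSt (corrW Mb)) (WSt (corrW Mb)) ℝ)) p.1.1 p.1.2) (he (f l)),
    fun b hb => ?_⟩
  refine ⟨(2 * b + 1) * 2 / δ, fun h C hh hh0 hC η hη => ?_⟩
  refine exists_corrected (P := CorrEnt Mb) (κ := Fin n) (ι := WSt (corrW Mb)) (fun q => axSt q.1) (fun q => zeroLev q.1) (fun p : CorrEnt Mb => p.1)
    (fun y z hyz => ⟨⟨(y, z), hyz⟩, rfl⟩) slotOf _ (fun T => ?_) (slotRate Mb) hδ.le hgap hD hC hh0 hb ?_ η hη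
  · exact hspan (numCls Mb) slotOf T
  · rw [div_le_iff₀ hδ] at hh
    linarith

/-! ### The block form of one loop -/

/-- The entries of an operator on the states of the corrector. -/
def facMat {W : Finset St} (F : HSp →L[ℝ] HSp) (y z : WSt W) : ℝ := F (lp.single 2 z.1 1) y.1

/-- What the ideal map of a loop does on the states of the corrector. -/
structure IdealBlock (Mb : ℕ) (π : Equiv.Perm St) (E T6 T7 : ℝ) (P : HSp →L[ℝ] HSp) : Prop where
  mem : ∀ z ∈ corrW Mb, π z ∈ corrW Mb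
  fix : ∀ z ∈ wAxis Mb, π z = z
  inv : ∀ z, π (π z) = z
  mono : ∀ z ∈ corrW Mb, ∃ c : ℝ, c ≠ 0 ∧ (z ∈ wAxis Mb → 0 < c) ∧
    P (lp.single 2 z 1) = c • (lp.single 2 (π z) 1 : HSp) ∧
    |Real.log (|c|) + alphaInf z * T7| ≤ E * T6

theorem axSt_of_mem {Mb : ℕ} {i : St} (h : i ∈ wAxis Mb) : axSt i := (mem_filter.1 h).2

theorem not_axSt_of_mem {Mb : ℕ} {i : St} (h : i ∈ wMono Mb) : ¬ axSt i :=
  not_not.2 (mem_filter.1 h).2

theorem putW_eq_sum (W : Finset St) (u : WSt W → ℝ) :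
    putW W u = ∑ q, u q • (lp.single 2 q.1 1 : HSp) := by
  simp only [putW, _root_.sum_apply, ContinuousLinearMap.comp_apply, ContinuousLinearMap.proj_apply]
  refine Finset.sum_congr rfl fun q _ => ?_
  rw [← lp.single_smul]
  show (lp.single 2 q.1 (u q) : HSp) = _
  simp

/-- The corrected factor times the ideal map is monomial on `wMono` and perturbed diagonal on
`wAxis`. -/
theorem block_of_corrected {Mb : ℕ} {π : Equiv.Perm St} {B E T5 T6 T7 : ℝ}
    {P F : HSp →L[ℝ] HSp} (hP : IdealBlock Mb π E T6 T7 P) (hB : 0 ≤ B) (h56 : T5 ≤ T6)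
    (hcard : ((wAxis Mb).card : ℝ) ≤ Real.exp (T6 / 4))
    (hF : Corrected (fun q : WSt (corrW Mb) => axSt q.1) B T5 T6 (facMat F)) :
    (∃ κ ρ : {q : St // q ∈ wMono Mb} → ℝ,
      (∀ q, 0 < κ q ∧ |ρ q| = 1 ∧
        |Real.log (κ q) + alphaInf (π q.1) * T7| ≤ (E + B) * T6) ∧
      ∀ u v q, ∀ h : π q.1 ∈ wMono Mb,
        pickW (wMono Mb) (F.comp P (putW (wMono Mb) u + putW (wAxis Mb) v)) q
          = ρ q * (κ q * u ⟨π q.1, h⟩)) ∧
    ∃ (κ : {q : St // q ∈ wAxis Mb} → ℝ)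
      (Eax : ({q : St // q ∈ wAxis Mb} → ℝ) →L[ℝ] ({q : St // q ∈ wAxis Mb} → ℝ)),
      (∀ q, 0 < κ q ∧ |Real.log (κ q) + alphaInf q.1 * T7| ≤ (E + B) * T6) ∧
      ‖Eax‖ ≤ Real.exp (-T6 / 4) ∧
      ∀ u v, pickW (wAxis Mb) (F.comp P (putW (wMono Mb) u + putW (wAxis Mb) v))
        = (1 + Eax) fun q => κ q * v q := by
  classical
  have hWm : ∀ {z}, z ∈ wMono Mb → z ∈ corrW Mb := fun h => mem_union_left _ h
  have hWa : ∀ {z}, z ∈ wAxis Mb → z ∈ corrW Mb := fun h => mem_union_right _ h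
  choose c hc0 hcax hcP hclog using hP.mono
  set Φ : WSt (corrW Mb) → WSt (corrW Mb) → ℝ := facMat F with hΦ
  let dg : ∀ y, y ∈ corrW Mb → ℝ := fun y hy => Φ ⟨y, hy⟩ ⟨y, hy⟩
  have hdg : ∀ y (hy : y ∈ corrW Mb), 0 < dg y hy ∧ |Real.log (dg y hy)| ≤ B * T6 := fun y hy =>
    ⟨hF.pos _, (hF.log_le _).trans (mul_le_mul_of_nonneg_left h56 hB)⟩
  have happ : ∀ (z : St) (hz : z ∈ corrW Mb) (y : St) (hy : y ∈ corrW Mb),
      (F.comp P) (lp.single 2 z 1) y = c z hz * Φ ⟨y, hy⟩ ⟨π z, hP.mem z hz⟩ := by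
    intro z hz y hy
    rw [ContinuousLinearMap.comp_apply, hcP z hz, map_smul, lp.coeFn_smul, Pi.smul_apply,
      smul_eq_mul]
    rfl
  have hlog : ∀ (y : St) (hy : y ∈ corrW Mb) (z : St) (hz : z ∈ corrW Mb),
      |Real.log (dg y hy * |c z hz|) + alphaInf z * T7| ≤ (E + B) * T6 := by
    intro y hy z hz
    rw [Real.log_mul (hdg y hy).1.ne' (abs_pos.2 (hc0 z hz)).ne']
    have h1 := abs_le.1 (hdg y hy).2
    have h2 := abs_le.1 (hclog z hz)
    rw [abs_le, add_mul]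
    constructor <;> linarith
  have hsplit : ∀ u v (y : St),
      (F.comp P) (putW (wMono Mb) u + putW (wAxis Mb) v) y
        = ∑ z, u z * (F.comp P) (lp.single 2 z.1 1) y
          + ∑ z, v z * (F.comp P) (lp.single 2 z.1 1) y := by
    intro u v y
    rw [putW_eq_sum, putW_eq_sum, map_add, map_sum, map_sum, lp.coeFn_add, Pi.add_apply,
      lp.coeFn_sum, lp.coeFn_sum, Finset.sum_apply, Finset.sum_apply]
    simp only [map_smul, lp.coeFn_smul, Pi.smul_apply, smul_eq_mul]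
  constructor
  · refine ⟨fun q => dg q.1 (hWm q.2) * |c (π q.1) (hP.mem _ (hWm q.2))|,
      fun q => SignType.sign (c (π q.1) (hP.mem _ (hWm q.2))), fun q => ⟨?_, ?_, ?_⟩, ?_⟩
    · exact mul_pos (hdg _ _).1 (abs_pos.2 (hc0 _ _))
    · rcases lt_or_gt_of_ne (hc0 (π q.1) (hP.mem _ (hWm q.2))) with h | h
      · simp [sign_neg h]
      · simp [sign_pos h]
    · exact hlog _ _ _ _
    · intro u v q h
      rw [pickW_apply, hsplit]
      have hz : ∀ z (hz : z ∈ corrW Mb), z ≠ π q.1 → (F.comp P) (lp.single 2 z 1) q.1 = 0 := by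
        intro z hz hne
        rw [happ z hz q.1 (hWm q.2), hF.off _ _ ?_ fun ha => not_axSt_of_mem q.2 ha.1, mul_zero]
        intro e
        exact hne (by rw [show q.1 = π z from congrArg Subtype.val e, hP.inv])
      rw [Finset.sum_eq_single (⟨π q.1, h⟩ : {x : St // x ∈ wMono Mb}),
        Finset.sum_eq_zero fun z _ => by
          rw [hz z.1 (hWa z.2) fun e => disjoint_left.1 (disjoint_wMono_wAxis Mb) h (e ▸ z.2),
            mul_zero],
        add_zero, happ _ (hWm h) q.1 (hWm q.2)]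
      · have e : (⟨π (π q.1), hP.mem _ (hWm h)⟩ : WSt (corrW Mb)) = ⟨q.1, hWm q.2⟩ :=
          Subtype.ext (hP.inv _)
        rw [e]
        have hsc : (SignType.sign (c (π q.1) (hWm h)) : ℝ) * |c (π q.1) (hWm h)|
            = c (π q.1) (hWm h) := sign_mul_abs _
        linear_combination (-(dg q.1 (hWm q.2) * u ⟨π q.1, h⟩)) * hsc
      · intro z _ hne
        rw [hz z.1 (hWm z.2) fun e => hne (Subtype.ext e), mul_zero]
      · simp
  · let κ : {q : St // q ∈ wAxis Mb} → ℝ := fun q => dg q.1 (hWa q.2) * c q.1 (hWa q.2)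
    let M : {q : St // q ∈ wAxis Mb} → {q : St // q ∈ wAxis Mb} → ℝ := fun y z =>
      if y = z then 0 else Φ ⟨y.1, hWa y.2⟩ ⟨z.1, hWa z.2⟩ / dg z.1 (hWa z.2)
    refine ⟨κ, slotMap M, fun q => ⟨mul_pos (hdg _ _).1 (hcax _ _ q.2), ?_⟩, ?_, ?_⟩
    · have h1 := hlog q.1 (hWa q.2) q.1 (hWa q.2)
      rwa [abs_of_pos (hcax _ _ q.2)] at h1
    · refine ContinuousLinearMap.opNorm_le_bound _ (Real.exp_pos _).le fun u => ?_
      refine (pi_norm_le_iff_of_nonneg (by positivity)).2 fun y => ?_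
      rw [slotMap_apply, Real.norm_eq_abs]
      refine (abs_sum_le_sum_abs _ _).trans ?_
      refine (sum_le_sum (g := fun _ => Real.exp (-(T6 / 2)) * ‖u‖) fun z _ => ?_).trans ?_
      · rw [abs_mul]
        refine mul_le_mul ?_ (norm_le_pi_norm u z) (abs_nonneg _) (Real.exp_pos _).le
        simp only [M]
        split_ifs with hyz
        · simp [Real.exp_nonneg]
        · rw [abs_div, abs_of_pos (hdg z.1 (hWa z.2)).1, div_le_iff₀ (hdg z.1 (hWa z.2)).1]
          exact hF.axis _ _ fun e => hyz (Subtype.ext (Subtype.mk.inj e))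
      · rw [sum_const, card_univ, Fintype.card_coe, nsmul_eq_mul, ← mul_assoc]
        refine mul_le_mul_of_nonneg_right ?_ (norm_nonneg _)
        calc ((wAxis Mb).card : ℝ) * Real.exp (-(T6 / 2))
            ≤ Real.exp (T6 / 4) * Real.exp (-(T6 / 2)) :=
              mul_le_mul_of_nonneg_right hcard (Real.exp_pos _).le
          _ = Real.exp (-T6 / 4) := by rw [← Real.exp_add]; ring_nf
    · intro u v
      funext y
      have h1 : ∀ z : {q : St // q ∈ wMono Mb}, ¬ axSt (π z.1) := by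
        intro z
        refine not_axSt_of_mem (Mb := Mb) ?_
        rcases mem_union.1 (hP.mem _ (hWm z.2)) with h | h
        · exact h
        · exfalso
          have := hP.fix _ h
          rw [hP.inv] at this
          exact disjoint_left.1 (disjoint_wMono_wAxis Mb) z.2 (this ▸ h)
      rw [pickW_apply, hsplit, _root_.add_apply, ContinuousLinearMap.one_apply, Pi.add_apply,
        slotMap_apply, Finset.sum_eq_zero fun z (_ : z ∈ univ) => by
          rw [happ z.1 (hWm z.2) y.1 (hWa y.2)]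
          have hne : π z.1 ≠ y.1 := fun e => disjoint_left.1 (disjoint_wMono_wAxis Mb) z.2
            (by rw [← hP.inv z.1, e, hP.fix _ y.2]; exact y.2)
          rw [hF.off _ _ (fun e => hne (congrArg Subtype.val e).symm) fun ha => h1 z ha.2, mul_zero,
            mul_zero],
        zero_add]
      · rw [← Finset.add_sum_erase _ _ (mem_univ y),
          ← Finset.add_sum_erase (f := fun z => M y z * (κ z * v z)) _ (mem_univ y)]
        have e : ∀ (z : {q : St // q ∈ wAxis Mb}),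
            (⟨π z.1, hP.mem _ (hWa z.2)⟩ : WSt (corrW Mb)) = ⟨z.1, hWa z.2⟩ := fun z =>
          Subtype.ext (hP.fix _ z.2)
        congr 1
        · rw [happ _ (hWa y.2) _ (hWa y.2), e]
          simp [κ, M, dg]
          ring
        · simp only [M, if_pos, zero_mul, zero_add]
          refine Finset.sum_congr rfl fun z hz => ?_
          rw [happ _ (hWa z.2) _ (hWa y.2), e, if_neg (Ne.symm (ne_of_mem_erase hz))]
          have := (hdg z.1 (hWa z.2)).1.ne'
          simp only [κ, dg] at this ⊢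
          field_simp

end

end Vale.Agent.P225.Loop
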