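import Vale.Agent.P225.Loop.ExcGood

/-!
P225, module 10 (helper8): levels made of a single block (one label zero).  Every segment of an ideal
program is a scalar on such a level, and scalars compose with a bounded error of the logarithm.
-/

namespace Vale.Agent.P225.Loop

open Set
open scoped lp ENNReal

noncomputable section

variable {J : Fin 3} {S T : Seg HSp} {r : St}

/-- The basis vector of a state. -/
def bv (i : St) : HSp := lp.single 2 i (1 : ℝ)

theorem norm_bv (i : St) : ‖bv i‖ = 1 := by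
  rw [bv, lp.norm_single (by norm_num), norm_one]

/-- The segment is a scalar on the level of `r`. -/
def ScalarAt (J : Fin 3) (S : Seg HSp) (r : St) (q : ℝ) : Prop :=
  ∃ b c d : ℝ, ∀ i : St, i.blk.level J = r.blk.level J →
    S.Q (bv i) = q • bv i ∧ S.B (bv i) = b • bv i ∧ S.C (bv i) = c • bv i ∧ S.D (bv i) = d • bv i

theorem scalarAt_one : ScalarAt J (segOne : Seg HSp) r 1 :=
  ⟨0, 0, 1, fun i _ => ⟨by simp [segOne], by simp [segOne], by simp [segOne], by simp [segOne]⟩⟩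

/-- A level-local operator keeps the basis vectors in their levels. -/
theorem LevelLocal.support {A : HSp →L[ℝ] HSp} (hA : LevelLocal J A) (i k : St)
    (h : k.blk.level J ≠ i.blk.level J) : A (bv i) k = 0 := by
  classical
  have := LevelLocal.apply_single (Lv := {i.blk.level J}) hA
    ⟨i.blk.level J, Finset.mem_singleton_self _⟩ ⟨i, rfl⟩ k
  rw [dif_neg h] at this
  exact this

/-- A diagonal operator constant on a level, between two level-local operators. -/
theorem sandwich_scalar {U V : HSp →L[ℝ] HSp} (hV : LevelLocal J V) (g : St → ℝ) (K : ℝ)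
    (hK : 0 ≤ K) (hg : ∀ i, |g i| ≤ K) (i : St)
    (hc : ∀ k : St, k.blk.level J = i.blk.level J → g k = g i) (hUV : U (V (bv i)) = bv i) :
    U.comp ((diagOp g K hK hg).comp V) (bv i) = g i • bv i := by
  have e : diagOp g K hK hg (V (bv i)) = g i • V (bv i) := by
    ext k
    rw [diagOp_apply, lp.coeFn_smul, Pi.smul_apply, smul_eq_mul]
    by_cases h : k.blk.level J = i.blk.level J
    · rw [hc k h]
    · rw [LevelLocal.support hV i k h, mul_zero, mul_zero]
  simp only [ContinuousLinearMap.comp_apply]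
  rw [e, map_smul, hUV]

/-- A frame which is compatible with the level of `r`. -/
def FrameAt {Lv : Finset (ℕ × ℕ)} {M : ℝ} (F : Frame J Lv M) (r : St) : Prop :=
  ∀ i : St, i.blk.level J = r.blk.level J → F.Uu (F.Vu (bv i)) = bv i ∧
    F.Uu (F.Vw (bv i)) = bv i ∧ F.Uw (F.Vu (bv i)) = bv i ∧ F.Uw (F.Vw (bv i)) = bv i

/-- A diagonal segment which is constant on the level is a scalar there in every frame. -/
theorem scalarAt_conj {Lv : Finset (ℕ × ℕ)} {M : ℝ} (F : Frame J Lv M) (P : DiagCoef)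
    (hr : FrameAt F r)
    (hc : ∀ k : St, k.blk.level J = r.blk.level J →
      P.q k = P.q r ∧ P.b k = P.b r ∧ P.c k = P.c r ∧ P.d k = P.d r) :
    ScalarAt J (P.seg.conj F.Uu F.Vu F.Uw F.Vw) r (P.q r) := by
  refine ⟨P.b r, P.c r, P.d r, fun i hi => ?_⟩
  obtain ⟨h1, h2, h3, h4⟩ := hr i hi
  obtain ⟨cq, cb, cc, cd⟩ := hc i hi
  simp only [Seg.conj, DiagCoef.seg]
  refine ⟨?_, ?_, ?_, ?_⟩
  · rw [sandwich_scalar F.loc.2.1 _ _ _ _ i (fun k hk => ((hc k (hk.trans hi)).1).trans cq.symm) h1,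
      cq]
  · rw [sandwich_scalar F.loc.2.2.2 _ _ _ _ i
      (fun k hk => ((hc k (hk.trans hi)).2.1).trans cb.symm) h2, cb]
  · rw [sandwich_scalar F.loc.2.1 _ _ _ _ i
      (fun k hk => ((hc k (hk.trans hi)).2.2.1).trans cc.symm) h3, cc]
  · rw [sandwich_scalar F.loc.2.2.2 _ _ _ _ i
      (fun k hk => ((hc k (hk.trans hi)).2.2.2).trans cd.symm) h4, cd]

/-- A diagonal segment, not conjugated. -/
theorem scalarAt_diag (P : DiagCoef)
    (hc : ∀ k : St, k.blk.level J = r.blk.level J →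
      P.q k = P.q r ∧ P.b k = P.b r ∧ P.c k = P.c r ∧ P.d k = P.d r) :
    ScalarAt J P.seg r (P.q r) := by
  refine ⟨P.b r, P.c r, P.d r, fun i hi => ?_⟩
  obtain ⟨cq, cb, cc, cd⟩ := hc i hi
  have e : ∀ (g : St → ℝ) (K : ℝ) (hK : 0 ≤ K) (hg : ∀ i, |g i| ≤ K),
      diagOp g K hK hg (bv i) = g i • bv i := fun g K hK hg => by
    ext k
    rw [diagOp_apply, lp.coeFn_smul, Pi.smul_apply, smul_eq_mul]
    rcases eq_or_ne k i with rfl | h
    · rfl
    · rw [bv, lp.single_apply_ne _ _ _ h, mul_zero, mul_zero]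
  simp only [DiagCoef.seg]
  exact ⟨by rw [e, cq], by rw [e, cb], by rw [e, cc], by rw [e, cd]⟩

/-- Scalars compose, with a bounded error of the logarithm. -/
theorem ScalarAt.comp {p q : ℝ} (hS : ScalarAt J S r p) (hT : ScalarAt J T r q) (hp : 0 < p)
    (hq : 0 < q) (h : ‖T.B‖ * ‖S.C‖ ≤ 1 / 2) :
    ∃ s : ℝ, 0 < s ∧ ScalarAt J (S.comp T) r s ∧
      |Real.log s - (Real.log p + Real.log q)| ≤ 2 * (‖T.B‖ * ‖S.C‖) := by
  obtain ⟨b, c, d, hS⟩ := hS
  obtain ⟨b', c', d', hT⟩ := hT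
  have hlt : ‖T.B.comp S.C‖ < 1 :=
    ((ContinuousLinearMap.opNorm_comp_le _ _).trans h).trans_lt (by norm_num)
  have hxn : |b' * c| ≤ ‖T.B‖ * ‖S.C‖ := by
    have h1 := (T.B.comp S.C).le_opNorm (bv r)
    obtain ⟨-, -, hc1, -⟩ := hS r rfl
    obtain ⟨-, hb1, -, -⟩ := hT r rfl
    rw [ContinuousLinearMap.comp_apply, hc1, map_smul, hb1, smul_smul, norm_smul, norm_bv,
      mul_one, mul_one, Real.norm_eq_abs, mul_comm c] at h1
    exact h1.trans (ContinuousLinearMap.opNorm_comp_le _ _)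
  obtain ⟨hx1, hx2⟩ := abs_le.1 (hxn.trans h)
  obtain ⟨hn1, hn2⟩ := abs_le.1 hxn
  set u := 1 - b' * c with hu
  have hu0 : 0 < u := by linarith
  have hN : ∀ i : St, i.blk.level J = r.blk.level J →
      neumann (T.B.comp S.C) (bv i) = u⁻¹ • bv i := by
    intro i hi
    have e : (1 - T.B.comp S.C) (bv i) = u • bv i := by
      rw [_root_.sub_apply, one_apply_eq_self,
        ContinuousLinearMap.comp_apply, (hS i hi).2.2.1, map_smul, (hT i hi).2.1, smul_smul, hu,
        sub_smul, one_smul, mul_comm c]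
    have h2 := congrArg (neumann (T.B.comp S.C)) e
    rw [neumann_mul' hlt, map_smul] at h2
    nth_rewrite 2 [h2]
    rw [smul_smul, inv_mul_cancel₀ hu0.ne', one_smul]
  refine ⟨p * u⁻¹ * q, by positivity,
    ⟨b + p * u⁻¹ * b' * d, c' + d' * c * u⁻¹ * q, d' * (d + c * u⁻¹ * b' * d), fun i hi => ?_⟩, ?_⟩
  · obtain ⟨sq, sb, sc, sd⟩ := hS i hi
    obtain ⟨tq, tb, tc, td⟩ := hT i hi
    simp only [Seg.comp, _root_.add_apply, ContinuousLinearMap.comp_apply,
      map_smul, sq, sb, sc, sd, tq, tb, tc, td, hN i hi, smul_smul, ← add_smul]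
    refine ⟨?_, ?_, ?_, ?_⟩ <;> · congr 1; ring
  · rw [Real.log_mul (by positivity) hq.ne', Real.log_mul hp.ne' (by positivity), Real.log_inv,
      show Real.log p + -Real.log u + Real.log q - (Real.log p + Real.log q) = -Real.log u by ring,
      abs_neg, abs_le]
    constructor
    · refine le_trans ?_ (Real.one_sub_inv_le_log_of_pos hu0)
      have h3 : (u⁻¹ - 1) * u = 1 - u := by rw [sub_mul, inv_mul_cancel₀ hu0.ne', one_mul]
      nlinarith
    · exact (Real.log_le_sub_one_of_pos hu0).trans (by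
        linarith [mul_nonneg (norm_nonneg T.B) (norm_nonneg S.C)])

/-- Scalars along a chain of segments. -/
theorem exists_scalarAt_chain (J : Fin 3) (m : ℕ) (K : ℝ) (hK : 1 ≤ K) :
    ∃ Cc δ₀ : ℝ, 0 ≤ Cc ∧ 0 < δ₀ ∧ ∀ δ, 0 ≤ δ → δ ≤ δ₀ →
      ∀ (S : Fin m → Seg HSp) (r : St) (q : Fin m → ℝ),
      (∀ k, SegBd K δ (S k) ∧ SegLocal J (S k)) → (∀ k, 0 < q k ∧ ScalarAt J (S k) r (q k)) →
      ∃ s : ℝ, 0 < s ∧ ScalarAt J (segChain S) r s ∧
        |Real.log s - ∑ k, Real.log (q k)| ≤ Cc * δ := by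
  induction m with
  | zero => exact ⟨0, 1, le_rfl, one_pos,
      fun δ _ _ S r q _ _ => ⟨1, one_pos, scalarAt_one, by simp⟩⟩
  | succ m ih =>
    obtain ⟨Cc, δ₁, hCc, hδ₁, h⟩ := ih
    obtain ⟨K', hK', δ₂, hδ₂, hb⟩ := exists_segChain (J := J) (Lv := ∅) m K hK
    refine ⟨Cc + 2 * K', min (min δ₁ δ₂) (1 / (2 * K')), by positivity,
      lt_min (lt_min hδ₁ hδ₂) (by positivity),
      fun δ hδ hδ' S r q hS hq => ?_⟩
    simp only [le_min_iff] at hδ'
    obtain ⟨⟨hd1, hd2⟩, hd3⟩ := hδ'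
    obtain ⟨s, hs, hsa, hsl⟩ := h δ hδ hd1 (fun k => S k.succ) r (fun k => q k.succ)
      (fun k => hS k.succ) fun k => hq k.succ
    obtain ⟨hbd, -, -⟩ := hb δ hδ hd2 (fun k => S k.succ) fun k => hS k.succ
    have hprod : ‖(segChain fun k => S k.succ).B‖ * ‖(S 0).C‖ ≤ K' * δ :=
      mul_le_mul hbd.B (hS 0).1.C (norm_nonneg _) (zero_le_one.trans hK')
    have hsmall : ‖(segChain fun k => S k.succ).B‖ * ‖(S 0).C‖ ≤ 1 / 2 := by
      refine hprod.trans ?_
      have := (le_div_iff₀ (by positivity)).1 hd3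
      linarith
    obtain ⟨t, ht, hta, htl⟩ := (hq 0).2.comp hsa (hq 0).1 hs hsmall
    refine ⟨t, ht, hta, ?_⟩
    rw [Fin.sum_univ_succ]
    rw [abs_le] at hsl htl ⊢
    constructor <;> linarith

end

end Vale.Agent.P225.Loop
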