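import Vale.Agent.P225.Loop.CorrStep

/-!
P225 corrector, section 2 (helper8): the exact baseline along the words of one corrector.
-/

namespace Vale.Agent.P225.Loop

open NormedSpace Matrix Set Alg
open scoped lp ENNReal Matrix.Norms.L2Operator

noncomputable section

variable {Lv Ax : Finset (ℕ × ℕ)}

/-- The prefixes of a corrector: a first stretch, then stretch, word, stretch in turn. -/
def basePrefix {m : ℕ → ℕ} (P₀ : Seg HSp) (D Z : ℕ → Seg HSp) (S : ∀ i, Fin (m i) → Seg HSp) :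
    ℕ → Seg HSp
  | 0 => P₀
  | i + 1 => ((basePrefix P₀ D Z S i).comp (D i)).comp ((segChain (S i)).comp (Z i))

/-- The value functions of the prefixes. -/
def baseFun (F₀ : ℝ → ℝ) (d c z : ℕ → ℝ → ℝ) : ℕ → ℝ → ℝ
  | 0 => F₀
  | i + 1 => fun v => baseFun F₀ d c z i v * d i v * c i v * z i v

theorem basePrefix_congr {m : ℕ → ℕ} {P₀ : Seg HSp} {D Z : ℕ → Seg HSp}
    {S S' : ∀ i, Fin (m i) → Seg HSp} :
    ∀ n, (∀ i < n, S i = S' i) → basePrefix P₀ D Z S n = basePrefix P₀ D Z S' n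
  | 0, _ => rfl
  | n + 1, h => by
    simp only [basePrefix, basePrefix_congr n fun i hi => h i (by omega), h n (by omega)]

theorem baseFun_congr {F₀ : ℝ → ℝ} {d z c c' : ℕ → ℝ → ℝ} :
    ∀ n, (∀ i < n, c i = c' i) → baseFun F₀ d c z n = baseFun F₀ d c' z n
  | 0, _ => rfl
  | n + 1, h => by
    simp only [baseFun, baseFun_congr n fun i hi => h i (by omega), h n (by omega)]

theorem SegBd.mono {H : Type*} [NormedAddCommGroup H] [NormedSpace ℝ H] {K K' δ δ' : ℝ}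
    {S : Seg H} (h : SegBd K δ S) (hK : K ≤ K') (hδ : δ ≤ δ') : SegBd K' δ' S :=
  ⟨h.Q.trans hK, h.B.trans hK, h.C.trans hδ, h.D.trans hK⟩

theorem baseFun_log_le {F₀ : ℝ → ℝ} {d c z : ℕ → ℝ → ℝ} {v A₀ A : ℝ} {n : ℕ} (hF : 0 < F₀ v)
    (hd : ∀ i < n, 0 < d i v ∧ |Real.log (d i v)| ≤ A)
    (hc : ∀ i < n, 0 < c i v ∧ |Real.log (c i v)| ≤ A)
    (hz : ∀ i < n, 0 < z i v ∧ |Real.log (z i v)| ≤ A) (h0 : |Real.log (F₀ v)| ≤ A₀) :
    0 < baseFun F₀ d c z n v ∧ |Real.log (baseFun F₀ d c z n v)| ≤ A₀ + n * (3 * A) := by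
  induction n with
  | zero => simpa [baseFun] using And.intro hF h0
  | succ n ih =>
    obtain ⟨hp, hl⟩ := ih (fun i hi => hd i (by omega)) (fun i hi => hc i (by omega))
      fun i hi => hz i (by omega)
    obtain ⟨d1, d2⟩ := hd n (by omega)
    obtain ⟨c1, c2⟩ := hc n (by omega)
    obtain ⟨z1, z2⟩ := hz n (by omega)
    simp only [baseFun]
    refine ⟨mul_pos (mul_pos (mul_pos hp d1) c1) z1, ?_⟩
    rw [Real.log_mul (mul_pos (mul_pos hp d1) c1).ne' z1.ne',
      Real.log_mul (mul_pos hp d1).ne' c1.ne', Real.log_mul hp.ne' d1.ne']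
    rw [abs_le] at hl d2 c2 z2 ⊢
    push_cast
    constructor <;> linarith

/-- **The exact baseline of a corrector.**  One fixed word for each target; for every late loop the
amplitudes can be chosen word by word such that each prefix is a function of the level value times
its target, up to relative errors `O(1 / sqrt (j+1))` which are scalar on each level. -/
theorem exists_corr_base {E : Type*} {κ M : ℝ} (hκ : 0 ≤ κ) (hM : 1 ≤ M)
    (F : E → Frame 0 Lv M) (hne : ∀ L : Lv, Nonempty (Fib 0 L.1)) (hLv : Lv.Nonempty)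
    (hgen : ∀ P : Submodule ℝ (LevAlg 0 Lv),
      range (fun e => excGen (F e) scaleInf) ∪ levOnes 0 Lv ⊆ P →
      (∀ Y ∈ range (fun e => excGen (F e) scaleInf) ∪ levOnes 0 Lv, ∀ Z ∈ P,
        Y * Z - Z * Y ∈ P) → P = ⊤)
    (hAx : ∀ L ∈ Ax, L.1 = 0 ∨ L.2 = 0)
    (hFAx : ∀ (e : E) (r : St), r.blk.level 0 ∈ Ax → FrameAt (F e) r)
    (g : ℕ → (LevAlg 0 Lv)ˣ) (hg0 : g 0 = 1)
    (hg : ∀ i, (g i : LevAlg 0 Lv) ∈ expMonoid (range fun e => excGen (F e) scaleInf) ∧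
      (((g i)⁻¹ : (LevAlg 0 Lv)ˣ) : LevAlg 0 Lv) ∈
        expMonoid (range fun e => excGen (F e) scaleInf)) :
    ∃ (m : ℕ → ℕ) (e : ∀ i, Fin (m i) → E) (R B : ℕ → ℝ), (∀ i, 0 < R i) ∧ (∀ i, 0 ≤ B i) ∧
      ∀ (n : ℕ) (K₀ : ℝ), 1 ≤ K₀ → ∃ (K : ℝ) (N : ℕ), K₀ ≤ K ∧
        ∀ (j : ℕ) (a : ℕ → ℝ), N ≤ j → (∀ i < n, 2 * ((j : ℝ) + 1) ^ 5 ≤ a i) →
        ∀ (P₀ : Seg HSp) (D Z : ℕ → Seg HSp) (F₀ : ℝ → ℝ) (d z : ℕ → ℝ → ℝ),
          SegLocal 0 P₀ → SegBd K₀ (K₀ / Real.sqrt ((j : ℝ) + 1)) P₀ → DiagAt Lv Ax P₀ F₀ →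
          (∀ i < n, SegLocal 0 (D i) ∧ SegBd K₀ (K₀ / Real.sqrt ((j : ℝ) + 1)) (D i) ∧
            DiagAt Lv Ax (D i) (d i) ∧ SegLocal 0 (Z i) ∧
            SegBd K₀ (K₀ / Real.sqrt ((j : ℝ) + 1)) (Z i) ∧ DiagAt Lv Ax (Z i) (z i)) →
          ∃ (θ : ∀ i, Fin (m i) → ℝ) (S : ∀ i, Fin (m i) → Seg HSp) (c : ℕ → ℝ → ℝ),
            (∀ i < n, ∀ k : Fin (m i), θ i k ∈ Icc (-R i) (R i) ∧
              ExcSeg κ 0 (F (e i k)) j (a i + (k : ℕ) * ((j : ℝ) + 1) ^ 5) (θ i k) (S i k) ∧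
              SegLocal 0 (S i k) ∧ SegBd K (K / Real.sqrt ((j : ℝ) + 1)) (S i k)) ∧
            (∀ i v, 0 < c i v) ∧
            (∀ i < n, ∀ r : St, r.blk.level 0 ∈ Lv ∨ r.blk.level 0 ∈ Ax →
              |Real.log (c i (levV (r.blk.level 0)))| ≤ B i * ((j : ℝ) + 1) ^ 5) ∧
            ∀ i ≤ n, SegLocal 0 (basePrefix P₀ D Z S i) ∧
              SegBd K (K / Real.sqrt ((j : ℝ) + 1)) (basePrefix P₀ D Z S i) ∧
              PrefixBase Lv Ax (baseFun F₀ d c z i) (K / Real.sqrt ((j : ℝ) + 1))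
                (basePrefix P₀ D Z S i) (g i) := by
  classical
  choose m e R B hR hB hstep using fun i : ℕ =>
    exists_corr_step hκ hM F hne hLv hgen hAx hFAx (g i) (g (i + 1)) (hg i).2 (hg (i + 1)).1
      (κ := κ)
  refine ⟨m, e, R, B, hR, hB, fun n K₀ hK₀ => ?_⟩
  have hK₀0 : 0 ≤ K₀ := zero_le_one.trans hK₀
  induction n with
  | zero =>
    refine ⟨K₀, 0, le_rfl, fun j a _ _ P₀ D Z F₀ d z hPl hPb hP _ =>
      ⟨fun _ _ => 0, fun _ _ => segOne, fun _ _ => 1, fun i hi => absurd hi (Nat.not_lt_zero i),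
        fun _ _ => one_pos, fun i hi => absurd hi (Nat.not_lt_zero i), fun i hi => ?_⟩⟩
    obtain rfl : i = 0 := by omega
    refine ⟨hPl, hPb, ?_⟩
    rw [hg0, Units.val_one]
    exact hP.prefixBase.mono (by positivity)
  | succ n ih =>
    obtain ⟨K, N, hK, h⟩ := ih
    obtain ⟨K', N', hK', h'⟩ := hstep n K (hK₀.trans hK)
    refine ⟨K', max N N', hK.trans hK',
      fun j a hj ha P₀ D Z F₀ d z hPl hPb hP hDZ => ?_⟩
    have hs : ∀ {x y : ℝ}, x ≤ y → x / Real.sqrt ((j : ℝ) + 1) ≤ y / Real.sqrt ((j : ℝ) + 1) :=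
      fun hxy => div_le_div_of_nonneg_right hxy (Real.sqrt_nonneg _)
    obtain ⟨θ, S, c, hS, hc, hcl, hpre⟩ := h j a ((le_max_left _ _).trans hj)
      (fun i hi => ha i (by omega)) P₀ D Z F₀ d z hPl hPb hP (fun i hi => hDZ i (by omega))
    obtain ⟨hDl, hDb, hD, hZl, hZb, hZ⟩ := hDZ n (by omega)
    obtain ⟨hPnl, hPnb, hPn⟩ := hpre n le_rfl
    obtain ⟨θn, Sn, cn, hSn, hcn, hcnl, hnl, hnb, hnp⟩ := h' j (a n) ((le_max_right _ _).trans hj)
      (ha n (by omega)) (basePrefix P₀ D Z S n) (D n) (Z n) (baseFun F₀ d c z n) (d n) (z n)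
      hPnl hDl hZl hPnb (hDb.mono hK (hs hK)) (hZb.mono hK (hs hK)) hPn hD hZ
    refine ⟨Function.update θ n θn, Function.update S n Sn, Function.update c n cn,
      fun i hi k => ?_, fun i v => ?_, fun i hi r hr => ?_, fun i hi => ?_⟩
    · rcases eq_or_lt_of_le (Nat.lt_succ_iff.1 hi) with rfl | hi'
      · simp only [Function.update_self]
        exact hSn k
      · simp only [Function.update_of_ne hi'.ne]
        obtain ⟨h1, h2, h3, h4⟩ := hS i hi' k
        exact ⟨h1, h2, h3, h4.mono hK' (hs hK')⟩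
    · rcases eq_or_ne i n with rfl | hi
      · simp only [Function.update_self]; exact hcn v
      · simp only [Function.update_of_ne hi]; exact hc i v
    · rcases eq_or_lt_of_le (Nat.lt_succ_iff.1 hi) with rfl | hi'
      · simp only [Function.update_self]
        exact hcnl r hr
      · simp only [Function.update_of_ne hi'.ne]
        exact hcl i hi' r hr
    · have eP : ∀ k ≤ n, basePrefix P₀ D Z (Function.update S n Sn) k = basePrefix P₀ D Z S k :=
        fun k hk => basePrefix_congr k fun l hl => Function.update_of_ne (by omega) _ _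
      have eF : ∀ k ≤ n, baseFun F₀ d (Function.update c n cn) z k = baseFun F₀ d c z k :=
        fun k hk => baseFun_congr k fun l hl => Function.update_of_ne (by omega) _ _
      rcases eq_or_lt_of_le hi with rfl | hi'
      · have e1 : basePrefix P₀ D Z (Function.update S n Sn) (n + 1)
            = ((basePrefix P₀ D Z S n).comp (D n)).comp ((segChain Sn).comp (Z n)) := by
          rw [basePrefix, eP n le_rfl, Function.update_self]
        have e2 : baseFun F₀ d (Function.update c n cn) z (n + 1)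
            = fun v => baseFun F₀ d c z n v * d n v * cn v * z n v := by
          rw [baseFun, eF n le_rfl, Function.update_self]
        rw [e1, e2]
        exact ⟨hnl, hnb, hnp⟩
      · rw [eP i (by omega), eF i (by omega)]
        obtain ⟨h1, h2, h3⟩ := hpre i (by omega)
        exact ⟨h1, h2.mono hK' (hs hK'), h3.mono (hs hK')⟩

end

end Vale.Agent.P225.Loop
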