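import Mathlib

/-!
P225 corrector, section 6: an abstract zero lemma.  A map which is a linear map with a right
inverse up to a quadratic remainder has a zero near `0` when its value at `0` is small.
-/

namespace Vale.Agent.P225.Loop

open Metric Set

/-- Zero of a map with quadratic remainder and a bounded right inverse. -/
theorem exists_zero_of_remainder {X Y : Type*} [NormedAddCommGroup X] [NormedSpace ℝ X]
    [CompleteSpace X] [NormedAddCommGroup Y] [NormedSpace ℝ Y] (L : X →L[ℝ] Y) (G : Y → X)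
    {g K d r : ℝ} (hg : 0 < g) (hK : 0 ≤ K) (hd : 0 ≤ d) (hG : ∀ y, L (G y) = y)
    (hGb : ∀ y, ‖G y‖ ≤ g * ‖y‖) (F : X → Y)
    (hF : ∀ e e' : X, ‖e‖ ≤ r → ‖e'‖ ≤ r →
      ‖F e - F e' - L (e - e')‖ ≤ K * (‖e‖ + ‖e'‖ + d) * ‖e - e'‖)
    (hsmall : g * (K * (2 * r + d)) ≤ 1 / 2) (h0 : 2 * g * ‖F 0‖ ≤ r) :
    ∃ e : X, F e = 0 ∧ ‖e‖ ≤ 2 * g * ‖F 0‖ := by
  have hr : 0 ≤ r := le_trans (by positivity) h0
  let f : L.NonlinearRightInverse :=
    ⟨G, ⟨g, hg.le⟩, fun y => hGb y, fun y => hG y⟩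
  set ρ := 2 * g * ‖F 0‖
  set c : NNReal := ⟨K * (2 * r + d), by positivity⟩ with hc
  have happ : ApproximatesLinearOn F L (closedBall 0 ρ) c := by
    intro p hp q hq
    rw [mem_closedBall_zero_iff] at hp hq
    refine (hF p q (hp.trans h0) (hq.trans h0)).trans ?_
    show _ ≤ K * (2 * r + d) * _
    gcongr
    linarith [hp.trans h0, hq.trans h0]
  obtain ⟨e, he, hFe⟩ := happ.surjOn_closedBall_of_nonlinearRightInverse f (by positivity)
    Subset.rfl (show (0 : Y) ∈ closedBall (F 0) ((((f.nnnorm : ℝ))⁻¹ - c) * ρ) by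
      rw [mem_closedBall, dist_eq_norm, zero_sub, norm_neg]
      show _ ≤ (g⁻¹ - K * (2 * r + d)) * (2 * g * ‖F 0‖)
      rw [show (g⁻¹ - K * (2 * r + d)) * (2 * g * ‖F 0‖)
        = (2 * (g⁻¹ * g) - 2 * (g * (K * (2 * r + d)))) * ‖F 0‖ by ring, inv_mul_cancel₀ hg.ne']
      exact le_mul_of_one_le_left (norm_nonneg _) (by linarith))
  exact ⟨e, hFe, by simpa using he⟩

end Vale.Agent.P225.Loop
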