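import Vale.Agent.P225.Loop.CorrSlots
import Vale.Agent.P225.Loop.CorrFix

/-!
P225 corrector, section 6 on the finite block of one loop.  `M e y z` are the entries of the left
factor of the loop on the finite set of states as functions of the insertion amplitudes `e`.  If
the first order on the constrained entries has the form of the slots and the remainder is
quadratic, there are tiny amplitudes killing all constrained entries.
-/

namespace Vale.Agent.P225.Loop

open Finset Real Filter Topology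

noncomputable section

variable {ι : Type*} [Fintype ι] [DecidableEq ι]

/-- Entries to be killed: off the diagonal, off the constant state, not between two axis states. -/
def Constrained (ax z0 : ι → Prop) (p : ι × ι) : Prop :=
  p.1 ≠ p.2 ∧ ¬ z0 p.1 ∧ ¬ z0 p.2 ∧ ¬(ax p.1 ∧ ax p.2)

/-- First and zeroth order information on the left factor of one loop at scales `T5`, `T6`. -/
structure FactorData (ax z0 : ι → Prop) {P : Type*} (ent : P → ι × ι) {R : ℕ} {κ : Type*}
    [Fintype κ] (cls : P → Fin R) (A : P → κ → ℝ) (d : ℕ → ℝ) (C H Bp η T5 T6 : ℝ)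
    (M : (Fin R × κ → ℝ) → ι → ι → ℝ) (q : ι → ℝ) : Prop where
  base_pos : ∀ y, 0 < q y
  base_log : ∀ y, |log (q y)| ≤ C * T5
  base : ∀ y z, |M 0 y z - if y = z then q y else 0| ≤ exp (C * T5 - 4 * T6)
  decoupled : ∀ e, ‖e‖ ≤ exp (-3 * T6) → ∀ y z, y ≠ z → (z0 y ∨ z0 z) → M e y z = 0
  linear : ∃ (Lin : ι → ι → Fin R × κ → ℝ) (c : P → ℝ) (S : ℕ → ℝ)
      (phi : Fin R → Fin R → κ → ℝ) (err : P → Fin R × κ → ℝ),
    (∀ y z x, |Lin y z x| ≤ exp (C * T5)) ∧
    (∀ e e', ‖e‖ ≤ exp (-3 * T6) → ‖e'‖ ≤ exp (-3 * T6) → ∀ y z,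
      |M e y z - M e' y z - ∑ x, Lin y z x * (e - e') x|
        ≤ exp (C * T5) * (‖e‖ + ‖e'‖ + exp (-4 * T6)) * ‖e - e'‖) ∧
    (∀ p x, Lin (ent p).1 (ent p).2 x
      = exp (c p + phi (cls p) x.1 x.2) * (A p x.2 + err p x)) ∧
    (∀ p, |c p| ≤ C * T5) ∧ (∀ p x, |err p x| ≤ η) ∧
    (∀ i k, i < k → k < R → H ≤ S k - S i) ∧ (∀ k, k < R → |S k| ≤ C * T5) ∧
    ∀ k r l, |phi k r l - d k * S r| ≤ Bp

/-- The form of the left factor after the correction. -/
structure Corrected (ax : ι → Prop) (B T5 T6 : ℝ) (M : ι → ι → ℝ) : Prop where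
  off : ∀ y z, y ≠ z → ¬(ax y ∧ ax z) → M y z = 0
  pos : ∀ y, 0 < M y y
  log_le : ∀ y, |log (M y y)| ≤ B * T5
  axis : ∀ y z, y ≠ z → |M y z| ≤ exp (-(T6 / 2)) * M z z

/-- Tiny values of the remainder terms at the scales of a loop. -/
theorem corr_arith {n K r d x y z : ℝ} (hn : 0 ≤ n) (hK : 0 ≤ K) (hr : 0 ≤ r) (hd : 0 ≤ d)
    (hd1 : d ≤ 1) (hr1 : r ≤ 1) {a : ℝ} (ha : 0 ≤ a) (har : a ≤ r) (hx : |x| ≤ K * r)
    (hy : |y| ≤ n * (K * r)) (hz : |z - x - y| ≤ K * (a + d) * a) :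
    |z| ≤ (n + 3) * (K * r) := by
  have h1 : K * (a + d) * a ≤ K * 2 * r :=
    mul_le_mul (mul_le_mul_of_nonneg_left (by linarith) hK) har ha (by positivity)
  have e1 := abs_le.1 hx
  have e2 := abs_le.1 hy
  have e3 := abs_le.1 (hz.trans h1)
  rw [abs_le]
  constructor <;> linarith

theorem exp_neg_one_le_half : exp (-1) ≤ 1 / 2 := by
  rw [exp_neg, one_div]
  exact inv_anti₀ two_pos (by linarith [add_one_le_exp (1 : ℝ)])

/-- Bounds of a positive value perturbed by a tiny amount. -/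
theorem corr_diag {m q t v : ℝ} (hq : 0 < q) (ht : 2 ≤ t) (hm : |m - q| ≤ v)
    (hv : v ≤ q * exp (-2)) : q * exp (-t) ≤ m ∧ m ≤ q * exp t := by
  have h1 := abs_le.1 hm
  have h2 : exp (-t) ≤ exp (-2) := exp_le_exp.2 (by linarith)
  have h3 : exp (-2) ≤ exp (-1) := exp_le_exp.2 (by norm_num)
  have h4 := exp_neg_one_le_half
  have h5 : 2 ≤ exp t := by linarith [add_one_le_exp t]
  constructor
  · have : q * (exp (-t) + exp (-2)) ≤ q * 1 := mul_le_mul_of_nonneg_left (by linarith) hq.le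
    linarith
  · have : q * (1 + exp (-2)) ≤ q * exp t := mul_le_mul_of_nonneg_left (by linarith) hq.le
    linarith

/-- **Correction of one loop.** -/
theorem exists_corrected {P κ : Type*} [Fintype P] [Fintype κ] {R : ℕ} (ax z0 : ι → Prop)
    (ent : P → ι × ι) (hent : ∀ y z, Constrained ax z0 (y, z) → ∃ p, ent p = (y, z))
    (cls : P → Fin R) (A : P → κ → ℝ)
    (hA : ∀ T : P → ℝ, ∃ c : Fin R → κ → ℝ, ∀ p, ∑ l, A p l * c (cls p) l = T p)
    (d : ℕ → ℝ) {δ D : ℝ} (hδ : 0 ≤ δ) (hd : ∀ i k, i < k → k < R → δ ≤ d k - d i)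
    (hD : ∀ k, k < R → |d k| ≤ D) {C h b : ℝ} (hC : 0 ≤ C) (hh : 0 ≤ h) (hb : 0 ≤ b)
    (hN0 : 1 ≤ δ * h / 2 - 2 * b) (η : ℕ → ℝ) (hη : Tendsto η atTop (𝓝 0)) :
    ∃ N : ℕ, ∀ (j : ℕ) (M : (Fin R × κ → ℝ) → ι → ι → ℝ) (q : ι → ℝ), N ≤ j →
      FactorData ax z0 ent cls A d C (h * ((j : ℝ) + 1) ^ 5) (b * ((j : ℝ) + 1) ^ 5) (η j)
        (((j : ℝ) + 1) ^ 5) (((j : ℝ) + 1) ^ 6) M q →
      ∃ e, ‖e‖ ≤ exp (-3 * ((j : ℝ) + 1) ^ 6) ∧
        Corrected ax (C + 2) (((j : ℝ) + 1) ^ 5) (((j : ℝ) + 1) ^ 6) (M e) := by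
  classical
  obtain ⟨g, η₀, hg, hη₀, hinv⟩ := exists_slotInverse cls A hA
  set n : ℝ := (Fintype.card (Fin R × κ) : ℝ) with hn
  have hn0 : 0 ≤ n := Nat.cast_nonneg _
  set C' : ℝ := (4 * R + 1) * |D * C| + b + C with hC'
  have hC'0 : 0 ≤ C' := by positivity
  obtain ⟨N₁, hN₁⟩ := eventually_atTop.1 (hη.eventually (ge_mem_nhds hη₀))
  obtain ⟨N₂, hN₂⟩ := exists_nat_ge (max (C' + C + 20 + 2 * g + n) (-log η₀))
  refine ⟨max N₁ N₂, fun j M q hj hM => ?_⟩
  obtain ⟨hj1, hj2⟩ := max_le_iff.1 hj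
  set w : ℝ := (j : ℝ) + 1 with hw
  have hw1 : 1 ≤ w := le_add_of_nonneg_left (Nat.cast_nonneg _)
  have hwN : max (C' + C + 20 + 2 * g + n) (-log η₀) ≤ w := by
    have : (N₂ : ℝ) ≤ j := by exact_mod_cast hj2
    exact hN₂.trans (by linarith)
  obtain ⟨hwC, hwη⟩ := max_le_iff.1 hwN
  set T5 := w ^ 5 with hT5
  set T6 := w ^ 6 with hT6
  have h5 : 1 ≤ T5 := one_le_pow₀ hw1
  have h50 : 0 ≤ T5 := zero_le_one.trans h5
  have h5w : w ≤ T5 := le_self_pow₀ hw1 (by norm_num)
  have h56 : C' * T5 + C * T5 + 20 * T5 + 2 * (g * T5) + n * T5 ≤ T6 := by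
    have : (C' + C + 20 + 2 * g + n) * T5 ≤ w * T5 := mul_le_mul_of_nonneg_right hwC h50
    rw [show T6 = w * T5 by rw [hT5, hT6]; ring]
    linarith
  have p1 : 0 ≤ C' * T5 := mul_nonneg hC'0 h50
  have p2 : 0 ≤ C * T5 := mul_nonneg hC h50
  have p3 : 0 ≤ g * T5 := mul_nonneg hg.le h50
  have p4 : 0 ≤ n * T5 := mul_nonneg hn0 h50
  have p6 : 1 ≤ T6 := by linarith
  obtain ⟨Lin, c, S, phi, err, hLin, hrem, hform, hc, herr, hS, hU, hphi⟩ := hM.linear
  have hexp : exp (2 * (b * T5) - δ * (h * T5) / 2) ≤ η₀ := by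
    rw [← exp_log hη₀]
    refine exp_le_exp.2 ?_
    have : T5 ≤ (δ * h / 2 - 2 * b) * T5 := le_mul_of_one_le_left h50 hN0
    linarith
  obtain ⟨G, hGb, hG⟩ := hinv d S δ (h * T5) (b * T5) D (C * T5) (η j) phi err hδ
    (mul_nonneg hh h50) hd hS hD hU hphi herr (hN₁ j hj1) hexp
  let Mr : P → Fin R × κ → ℝ := fun p x => Lin (ent p).1 (ent p).2 x
  let G' : (P → ℝ) → Fin R × κ → ℝ := fun y => G fun p => exp (-c p) * y p
  have hGG : ∀ y, slotMap Mr (G' y) = y := by
    intro y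
    funext p
    have h1 := congrFun (hG fun p => exp (-c p) * y p) p
    rw [slotMap_apply] at h1 ⊢
    calc ∑ x, Mr p x * G' y x
        = exp (c p) * ∑ x, exp (phi (cls p) x.1 x.2) * (A p x.2 + err p x) * G' y x := by
          rw [mul_sum]
          exact sum_congr rfl fun x _ => by simp only [Mr, hform, exp_add]; ring
      _ = exp (c p) * (exp (-c p) * y p) := by rw [h1]
      _ = y p := by rw [← mul_assoc, ← exp_add, add_neg_cancel, exp_zero, one_mul]
  set g' := g * exp (C' * T5) with hg'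
  have hg'0 : 0 < g' := mul_pos hg (exp_pos _)
  have hGb' : ∀ y, ‖G' y‖ ≤ g' * ‖y‖ := by
    intro y
    refine (hGb _).trans ?_
    have hy : ‖fun p => exp (-c p) * y p‖ ≤ exp (C * T5) * ‖y‖ := by
      refine (pi_norm_le_iff_of_nonneg (by positivity)).2 fun p => ?_
      rw [norm_mul, Real.norm_eq_abs, abs_exp]
      exact mul_le_mul (exp_le_exp.2 ((neg_le_abs _).trans (hc p))) (norm_le_pi_norm y p)
        (norm_nonneg _) (exp_pos _).le
    refine (mul_le_mul_of_nonneg_left hy (mul_pos hg (exp_pos _)).le).trans (le_of_eq ?_)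
    have e : (4 * (R : ℝ) + 1) * |D * (C * T5)| + b * T5 + C * T5 = C' * T5 := by
      rw [hC', ← mul_assoc D, abs_mul, abs_of_nonneg h50]
      ring
    rw [hg', ← e]
    simp only [exp_add]
    ring
  set r := exp (-3 * T6) with hr
  have hr0 : 0 < r := exp_pos _
  have hr1 : r ≤ 1 := exp_le_one_iff.2 (by linarith)
  have hd4 : exp (-4 * T6) ≤ r := exp_le_exp.2 (by linarith)
  have hK6 : exp (C * T5 - 4 * T6) ≤ exp (C * T5) * r := by
    rw [hr, ← exp_add]; exact exp_le_exp.2 (by linarith)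
  let F : (Fin R × κ → ℝ) → P → ℝ := fun e p =>
    if Constrained ax z0 (ent p) then M e (ent p).1 (ent p).2
    else slotMap Mr e p
  have hsmall : g' * (exp (C * T5) * (2 * r + exp (-4 * T6))) ≤ 1 / 2 := by
    have h2 : g ≤ exp (g * T5) := by
      linarith [add_one_le_exp (g * T5), le_mul_of_one_le_right hg.le h5]
    have h3 : (3 : ℝ) ≤ exp (3 * T5) := by linarith [add_one_le_exp (3 * T5)]
    calc g' * (exp (C * T5) * (2 * r + exp (-4 * T6)))
        ≤ exp (g * T5) * exp (C' * T5) * (exp (C * T5) * (exp (3 * T5) * r)) := by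
          rw [hg']
          gcongr
          linarith [mul_le_mul_of_nonneg_right h3 hr0.le]
      _ = exp (g * T5 + C' * T5 + (C * T5 + (3 * T5 + -3 * T6))) := by
          rw [hr]; simp only [exp_add]
      _ ≤ exp (-1) := exp_le_exp.2 (by linarith)
      _ ≤ 1 / 2 := exp_neg_one_le_half
  have hF0 : ‖F 0‖ ≤ exp (C * T5 - 4 * T6) := by
    refine (pi_norm_le_iff_of_nonneg (exp_pos _).le).2 fun p => ?_
    simp only [F]
    split_ifs with hp
    · have h1 := hM.base (ent p).1 (ent p).2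
      rw [if_neg hp.1, sub_zero] at h1
      exact h1
    · simp [exp_nonneg]
  have h0 : 2 * g' * ‖F 0‖ ≤ r := by
    have h2 : 2 * g ≤ exp (2 * (g * T5)) := by
      linarith [add_one_le_exp (2 * (g * T5)), le_mul_of_one_le_right hg.le h5]
    calc 2 * g' * ‖F 0‖ ≤ exp (2 * (g * T5)) * exp (C' * T5) * exp (C * T5 - 4 * T6) := by
          rw [hg', ← mul_assoc 2 g]
          gcongr
      _ ≤ r := by
          rw [hr, ← exp_add, ← exp_add]
          exact exp_le_exp.2 (by linarith)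
  obtain ⟨e, he0, he⟩ := exists_zero_of_remainder (slotMap Mr) G' hg'0 (exp_pos (C * T5)).le
    (exp_pos (-4 * T6)).le hGG hGb' F (fun e e' he he' => by
      refine (pi_norm_le_iff_of_nonneg (by positivity)).2 fun p => ?_
      simp only [F, Pi.sub_apply]
      split_ifs with hp
      · rw [slotMap_apply]
        exact hrem e e' he he' (ent p).1 (ent p).2
      · rw [map_sub, Pi.sub_apply, sub_self, norm_zero]
        positivity) hsmall h0
  have her : ‖e‖ ≤ r := he.trans h0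
  refine ⟨e, her, ?_⟩
  have hdev : ∀ y z, |M e y z - if y = z then q y else 0| ≤ exp (-(2 * T6)) := by
    intro y z
    have h1 := hrem e 0 her (by rw [norm_zero]; exact hr0.le) y z
    rw [norm_zero, add_zero, sub_zero] at h1
    have h2 : |∑ x, Lin y z x * e x| ≤ n * (exp (C * T5) * r) := by
      refine (abs_sum_le_sum_abs _ _).trans ?_
      refine (sum_le_sum (g := fun _ => exp (C * T5) * r) fun x _ => ?_).trans ?_
      · rw [abs_mul]
        exact mul_le_mul (hLin y z x) ((norm_le_pi_norm e x).trans her) (abs_nonneg _)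
          (exp_pos _).le
      · rw [sum_const, card_univ, nsmul_eq_mul]
    refine (corr_arith hn0 (exp_pos (C * T5)).le hr0.le (exp_pos (-4 * T6)).le (hd4.trans hr1) hr1
      (norm_nonneg e) her ((hM.base y z).trans hK6) h2 ?_).trans ?_
    · refine le_trans (le_of_eq (congrArg abs ?_)) h1
      ring
    · have h8 : n + 3 ≤ exp (n * T5 + 3 * T5) := by
        linarith [add_one_le_exp (n * T5 + 3 * T5), le_mul_of_one_le_right hn0 h5]
      calc (n + 3) * (exp (C * T5) * r) ≤ exp (n * T5 + 3 * T5) * (exp (C * T5) * r) :=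
            mul_le_mul_of_nonneg_right h8 (mul_nonneg (exp_pos _).le hr0.le)
        _ ≤ exp (-(2 * T6)) := by
            rw [hr, ← exp_add, ← exp_add]
            exact exp_le_exp.2 (by linarith)
  have hdiag : ∀ y, q y * exp (-(2 * T5)) ≤ M e y y ∧ M e y y ≤ q y * exp (2 * T5) := by
    intro y
    have h1 := hdev y y
    rw [if_pos rfl] at h1
    refine corr_diag (hM.base_pos y) (by linarith) h1 ?_
    rw [← exp_log (hM.base_pos y), ← exp_add]
    refine exp_le_exp.2 ?_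
    linarith [(abs_le.1 (hM.base_log y)).1]
  have hpos : ∀ y, 0 < M e y y := fun y =>
    lt_of_lt_of_le (mul_pos (hM.base_pos y) (exp_pos _)) (hdiag y).1
  refine ⟨fun y z hne hax => ?_, hpos, fun y => ?_, fun y z hne => ?_⟩
  · by_cases hz : z0 y ∨ z0 z
    · exact hM.decoupled e her y z hne hz
    · rw [not_or] at hz
      obtain ⟨p, hp⟩ := hent y z ⟨hne, hz.1, hz.2, hax⟩
      have h1 := congrFun he0 p
      simp only [F, Pi.zero_apply, hp] at h1
      rwa [if_pos (show Constrained ax z0 (y, z) from ⟨hne, hz.1, hz.2, hax⟩)] at h1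
  · obtain ⟨h1, h2⟩ := hdiag y
    have hq := hM.base_pos y
    have e1 := log_le_log (hpos y) h2
    have e2 := log_le_log (mul_pos hq (exp_pos _)) h1
    rw [log_mul hq.ne' (exp_pos _).ne', log_exp] at e1 e2
    have := abs_le.1 (hM.base_log y)
    rw [abs_le]
    constructor <;> linarith
  · have h1 := hdev y z
    rw [if_neg hne, sub_zero] at h1
    refine h1.trans ((?_ : exp (-(2 * T6)) ≤ exp (-(T6 / 2)) * (q z * exp (-(2 * T5)))).trans
      (mul_le_mul_of_nonneg_left (hdiag z).1 (exp_pos _).le))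
    rw [← exp_log (hM.base_pos z), ← exp_add, ← exp_add]
    refine exp_le_exp.2 ?_
    linarith [(abs_le.1 (hM.base_log z)).1]

end

end Vale.Agent.P225.Loop
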