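import Vale.Agent.P225.Loop.CorrFactor

/-!
P225 corrector: from the response of the corrector followed by the buffer to the data of the left
factor on the finite block, and the correction of one loop.
-/

namespace Vale.Agent.P225.Loop

open Metric Finset

noncomputable section

/-! ### The zero level decouples -/

/-- The indicator of the zero level. -/
def Z0 : HSp →L[ℝ] HSp :=
  diagOp (fun i => if i.blk.level 0 = 0 then 1 else 0) 1 zero_le_one fun i => by
    split_ifs <;> simp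

/-- Operators commuting with the indicator of the zero level. -/
def Keeps0 (T : HSp →L[ℝ] HSp) : Prop := Commute Z0 T

theorem Keeps0.mul {S T : HSp →L[ℝ] HSp} (hS : Keeps0 S) (hT : Keeps0 T) : Keeps0 (S * T) :=
  Commute.mul_right hS hT

theorem Keeps0.neumann {T : HSp →L[ℝ] HSp} (hT : Keeps0 T) : Keeps0 (neumann T) := by
  show Commute Z0 (Ring.inverse (1 - T))
  have h : Commute Z0 (1 - T) := (Commute.one_right _).sub_right hT
  by_cases hu : IsUnit (1 - T)
  · obtain ⟨u, hu⟩ := hu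
    rw [← hu] at h ⊢
    rw [Ring.inverse_unit]
    exact h.units_inv_right
  · rw [Ring.inverse_non_unit _ hu]
    exact Commute.zero_right _

theorem Keeps0.slopeMap {S : Seg HSp} {R : HSp →L[ℝ] HSp} (hQ : Keeps0 S.Q) (hB : Keeps0 S.B)
    (hC : Keeps0 S.C) (hD : Keeps0 S.D) (hR : Keeps0 R) :
    Keeps0 (S.backMap R) ∧ Keeps0 (S.slopeMap R) := by
  have hb : Keeps0 (S.backMap R) := (hB.mul hR).neumann.mul hQ
  exact ⟨hb, hC.add_right ((hD.mul hR).mul hb)⟩

theorem eq_of_zeroLev {y z : St} (hy : zeroLev y) (hz : zeroLev z) : y = z := by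
  simp only [zeroLev, level_zero_eq, Prod.ext_iff, Prod.fst_zero, Prod.snd_zero] at hy hz
  have key : ∀ w : St, w.blk.la = 0 → w.blk.lb = 0 → w = zeroSt := by
    rintro ⟨⟨⟨a, b, c⟩, hw⟩, x⟩ ha hb
    obtain rfl : a = 0 := ha
    obtain rfl : b = 0 := hb
    obtain rfl : c = 0 := by
      have h3 : c ≤ 0 + 0 := hw.2.2.2
      omega
    have hx : (x : ℕ) = 0 := by
      have h : (x : ℕ) < (0 + 1) * (0 + 1) * (0 + 1) := x.2
      omega
    exact Sigma.ext rfl (heq_of_eq (Fin.ext hx))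
  rw [key y hy.1 hy.2, key z hz.1 hz.2]

theorem facMat_zero {W : Finset St} {F : HSp →L[ℝ] HSp} (hF : Keeps0 F) {y z : WSt W} (hne : y ≠ z)
    (h : zeroLev y.1 ∨ zeroLev z.1) : facMat F y z = 0 := by
  have e := congrArg (fun T : HSp →L[ℝ] HSp => T (lp.single 2 z.1 1) y.1) (show Z0 * F = F * Z0 from hF)
  simp only [ContinuousLinearMap.mul_def, ContinuousLinearMap.comp_apply, Z0, diagOp_apply] at e
  have ez : diagOp (fun i => if i.blk.level 0 = 0 then (1 : ℝ) else 0) 1 zero_le_one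
      (fun i => by split_ifs <;> simp) (lp.single 2 z.1 1)
      = (if z.1.blk.level 0 = 0 then (1 : ℝ) else 0) • (lp.single 2 z.1 1 : HSp) := by
    ext i
    rw [diagOp_apply, lp.coeFn_smul, Pi.smul_apply, smul_eq_mul]
    by_cases hi : i = z.1
    · subst hi; simp
    · rw [lp.single_apply_ne _ _ _ hi]; simp
  rw [ez, map_smul, lp.coeFn_smul, Pi.smul_apply, smul_eq_mul] at e
  have hor : ¬(zeroLev y.1 ∧ zeroLev z.1) := fun hh => hne (Subtype.ext (eq_of_zeroLev hh.1 hh.2))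
  unfold zeroLev at h hor
  rcases h with h | h
  · have h' : ¬ z.1.blk.level 0 = 0 := fun h2 => hor ⟨h, h2⟩
    rw [if_pos h, if_neg h', one_mul, zero_mul] at e
    exact e
  · have h' : ¬ y.1.blk.level 0 = 0 := fun h2 => hor ⟨h2, h⟩
    rw [if_pos h, if_neg h', one_mul, zero_mul] at e
    exact e.symm

/-! ### Entries -/

theorem abs_facMat_le {W : Finset St} (F : HSp →L[ℝ] HSp) (y z : WSt W) : |facMat F y z| ≤ ‖F‖ := by
  refine (lp.norm_apply_le_norm (p := 2) (by norm_num) (F (lp.single 2 z.1 1)) y.1).trans ?_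
  refine (F.le_opNorm _).trans ?_
  rw [lp.norm_single (by norm_num), norm_one, mul_one]

theorem facMat_sub {W : Finset St} (F G : HSp →L[ℝ] HSp) (y z : WSt W) :
    facMat (F - G) y z = facMat F y z - facMat G y z := by
  simp [facMat]

theorem facMat_sum {W : Finset St} {X : Type*} (s : Finset X) (c : X → ℝ)
    (F : X → HSp →L[ℝ] HSp) (y z : WSt W) :
    facMat (∑ x ∈ s, c x • F x) y z = ∑ x ∈ s, c x * facMat (F x) y z := by
  simp only [facMat, ContinuousLinearMap.sum_apply, lp.coeFn_sum, Finset.sum_apply,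
    ContinuousLinearMap.smul_apply, lp.coeFn_smul, Pi.smul_apply, smul_eq_mul]

theorem facMat_mul_single {W : Finset St} (F P : HSp →L[ℝ] HSp) (y z : WSt W) {β : ℝ}
    (h : P (lp.single 2 z.1 1) = β • (lp.single 2 z.1 1 : HSp)) :
    facMat (F * P) y z = β * facMat F y z := by
  simp [facMat, ContinuousLinearMap.mul_def, h]

theorem linearMap_pi_apply {X V : Type*} [Fintype X] [DecidableEq X] [AddCommGroup V] [Module ℝ V]
    (L : (X → ℝ) →ₗ[ℝ] V) (v : X → ℝ) : L v = ∑ x, v x • L (Pi.single x 1) := by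
  conv_lhs => rw [pi_eq_sum_univ' v]
  simp only [map_sum, map_smul]

/-- What the baseline and the response of one corrector give: the families, the exact value of
corrector and buffer on the finite block and its first order on the constrained entries. -/
structure CorrHyp (Mb : ℕ) {n : ℕ} (A : CorrEnt Mb → Fin n → ℝ) (C H Bp η T5 r K δ : ℝ)
    (corr : (Fin (numCls Mb) × Fin n → ℝ) → Seg HSp) (buf : Seg HSp)
    (β q : WSt (corrW Mb) → ℝ) : Prop where
  fam : ∃ LQ LB LC LD, CorrFam r K δ corr LQ LB LC LD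
  β_pos : ∀ z, 0 < β z
  q_pos : ∀ z, 0 < q z
  q_log : ∀ z, |Real.log (q z)| ≤ C * T5
  bufQ : ∀ z : WSt (corrW Mb), buf.Q (lp.single 2 z.1 1) = β z • (lp.single 2 z.1 1 : HSp)
  value : ∀ y z : WSt (corrW Mb),
    facMat ((corr 0).comp buf).Q y z = if y = z then q z * β z else 0
  keeps : ∀ e, ‖e‖ ≤ r →
    Keeps0 (corr e).Q ∧ Keeps0 (corr e).B ∧ Keeps0 (corr e).C ∧ Keeps0 (corr e).D
  response : ∃ (KW : ℝ) (LW : (Fin (numCls Mb) × Fin n → ℝ) →ₗ[ℝ] HSp →L[ℝ] HSp)
      (c : CorrEnt Mb → ℝ) (S : ℕ → ℝ) (phi : Fin (numCls Mb) → Fin (numCls Mb) → Fin n → ℝ)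
      (err : CorrEnt Mb → Fin (numCls Mb) × Fin n → ℝ),
    QLin r 0 KW (fun e => ((corr e).comp buf).Q) LW ∧
    (∀ (p : CorrEnt Mb) (x : Fin (numCls Mb) × Fin n),
      facMat (LW (Pi.single x 1)) p.1.1 p.1.2
        = β p.1.2 * (Real.exp (c p + phi (slotOf p) x.1 x.2) * (A p x.2 + err p x))) ∧
    (∀ p, |c p| ≤ C * T5) ∧ (∀ p x, |err p x| ≤ η) ∧
    (∀ i k, i < k → k < numCls Mb → H ≤ S k - S i) ∧ (∀ k, k < numCls Mb → |S k| ≤ C * T5) ∧
    ∀ k x l, |phi k x l - slotRate Mb k * S x| ≤ Bp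

/-- The data of the left factor from the data of the corrector. -/
theorem exists_factorData (Mb : ℕ) (K : ℝ) (hK : 1 ≤ K) :
    ∃ K' δ₀ : ℝ, 0 < δ₀ ∧ ∀ {n : ℕ} {A : CorrEnt Mb → Fin n → ℝ} {C H Bp η T5 T6 δ : ℝ}
      {corr : (Fin (numCls Mb) × Fin n → ℝ) → Seg HSp} {buf rest : Seg HSp} {R : HSp →L[ℝ] HSp}
      {β q : WSt (corrW Mb) → ℝ},
      CorrHyp Mb A C H Bp η T5 (Real.exp (-3 * T6)) K δ corr buf β q →
      0 ≤ T6 → δ ≤ δ₀ → Real.exp (-3 * T6) ≤ δ₀ → ‖buf.Q‖ ≤ K → ‖buf.B‖ ≤ K → ‖rest.B‖ ≤ K →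
      ‖R‖ ≤ Real.exp (-4 * T6) → ‖buf.D‖ ≤ Real.exp (-4 * T6) → K' ≤ Real.exp (C * T5) →
      Keeps0 R → Keeps0 buf.Q → Keeps0 buf.B → Keeps0 buf.D → Keeps0 rest.B →
      FactorData (fun q => axSt q.1) (fun q => zeroLev q.1) (fun p : CorrEnt Mb => p.1) slotOf A
        (slotRate Mb) C H Bp η T5 T6 (fun e => facMat (loopFactor (corr e) buf rest R)) q := by
  classical
  obtain ⟨K', δ₀, hK', hδ₀, hfac⟩ := exists_factor_qlin K hK
  refine ⟨2 * K', min (δ₀ / 2) (1 / (8 * K)), lt_min (by positivity) (by positivity),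
    fun {n A C H Bp η T5 T6 δ corr buf rest R β q}
    hh hT6 hδ hr hbQ hbB hrB hR hbD hK'C kR kbQ kbB kbD krB => ?_⟩
  have hδK : K * δ ≤ 1 / 8 := by
    refine (mul_le_mul_of_nonneg_left (hδ.trans (min_le_right _ _)) (by linarith)).trans_eq ?_
    field_simp
  have hr8 : Real.exp (-3 * T6) ≤ 1 / (8 * K) := hr.trans (min_le_right _ _)
  replace hδ := hδ.trans (min_le_left _ _)
  replace hr := hr.trans (min_le_left _ _)
  obtain ⟨LQ, LB, LC, LD, hF⟩ := hh.fam
  obtain ⟨KW, LW, c, S, phi, err, hW, hresp, hc, herr, hS, hU, hphi⟩ := hh.response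
  set r := Real.exp (-3 * T6)
  have hr0 : 0 < r := Real.exp_pos _
  have hr' : r ≤ δ₀ := hr.trans (by linarith)
  set ed := Real.exp (-4 * T6) with hed
  have hed0 : 0 < ed := Real.exp_pos _
  have hedr : ed ≤ δ₀ / 2 := le_trans (Real.exp_le_exp.2 (by linarith)) hr
  have hRd : ‖R‖ + ed ≤ δ₀ := by linarith
  obtain ⟨hq, h0⟩ := hfac _ r δ ed corr buf rest R LQ LB LC LD hr0.le hr' (hδ.trans (by linarith))
    hF hbQ hbB hbD hrB hRd
  set L := lin0 (corr 0) buf LQ LC with hL
  have hd2 : ‖R‖ + ed ≤ 2 * ed := by linarith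
  have hKn : 0 ≤ K' := zero_le_one.trans hK'
  have hscale : ∀ {a : ℝ}, 0 ≤ a → K' * a ≤ Real.exp (C * T5) * a := fun ha =>
    mul_le_mul_of_nonneg_right ((le_mul_of_one_le_left hKn one_le_two).trans hK'C) ha
  -- the linear part seen through the buffer
  have hfac0 : ∀ e, factor0 (corr e) buf * buf.Q = ((corr e).comp buf).Q := fun e =>
    factor0_buf _ _
  have hlin : ∀ (y z : WSt (corrW Mb)) v, β z * facMat (L v) y z = facMat (LW v) y z := by
    have hr1 : r ≤ 1 := hr8.trans <| (div_le_one (by linarith)).2 (by linarith)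
    have q := (factor0_qlin hK hr0.le hr1 hF hbB hδK).mul
      (qlin_const hr0.le le_rfl hbQ) hr0.le hr1 le_rfl zero_le_one
    rw [funext hfac0] at q
    intro y z v
    rw [← q.unique hW hr0]
    simp only [LinearMap.comp_zero, add_zero, LinearMap.comp_apply, LinearMap.mulRight_apply]
    exact (facMat_mul_single _ _ _ _ (hh.bufQ z)).symm
  refine ⟨hh.q_pos, hh.q_log, fun y z => ?_, fun e he y z hne hz => facMat_zero ?_ hne hz,
    fun y z x => facMat (L (Pi.single x 1)) y z, c, S, phi, err, fun y z x => ?_,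
    fun e e' he he' y z => ?_, fun p x => ?_, hc, herr, hS, hU, hphi⟩
  · have hv := hh.value y z
    rw [← hfac0, facMat_mul_single _ _ _ _ (hh.bufQ z)] at hv
    have hv' : facMat (factor0 (corr 0) buf) y z = if y = z then q y else 0 := by
      refine mul_left_cancel₀ (hh.β_pos z).ne' (hv.trans ?_)
      split_ifs with h
      · rw [h]; ring
      · ring
    rw [← hv', ← facMat_sub, show Real.exp (C * T5 - 4 * T6) = Real.exp (C * T5) * ed by
      rw [hed, ← Real.exp_add]; ring_nf]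
    refine (abs_facMat_le _ _ _).trans (h0.trans ?_)
    calc K' * (‖R‖ + ed) ≤ K' * (2 * ed) := mul_le_mul_of_nonneg_left hd2 hKn
      _ = 2 * K' * ed := by ring
      _ ≤ _ := mul_le_mul_of_nonneg_right hK'C hed0.le
  · obtain ⟨kQ, kB, kC, kD⟩ := hh.keeps e he
    obtain ⟨kback, kslope⟩ := Keeps0.slopeMap kQ kB kC kD kR
    have kN := (kbB.mul kslope).neumann
    exact kback.mul (((kN.mul kbQ).mul (krB.mul (kbD.mul kslope))).neumann.mul kN)
  · refine (abs_facMat_le _ _ _).trans ((hq.lin _).trans ?_)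
    calc K' * ‖(Pi.single x 1 : Fin (numCls Mb) × Fin n → ℝ)‖ ≤ K' * 1 := by
          refine mul_le_mul_of_nonneg_left ((pi_norm_le_iff_of_nonneg zero_le_one).2 fun w => ?_) hKn
          rcases eq_or_ne w x with rfl | hw
          · simp
          · simp [Pi.single_eq_of_ne hw]
      _ ≤ Real.exp (C * T5) := by linarith
  · have hsum : ∑ x, facMat (L (Pi.single x 1)) y z * (e - e') x = facMat (L (e - e')) y z := by
      rw [linearMap_pi_apply L (e - e'), facMat_sum]
      exact Finset.sum_congr rfl fun x _ => mul_comm _ _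
    rw [hsum, ← facMat_sub, ← facMat_sub]
    refine (abs_facMat_le _ _ _).trans ((hq.rem e e' he he').trans ?_)
    refine mul_le_mul_of_nonneg_right ?_ (norm_nonneg _)
    calc K' * (‖e‖ + ‖e'‖ + (‖R‖ + ed)) ≤ 2 * K' * (‖e‖ + ‖e'‖ + ed) := by
          nlinarith [norm_nonneg e, norm_nonneg e', hed0]
      _ ≤ _ := mul_le_mul_of_nonneg_right hK'C (by positivity)
  · refine mul_left_cancel₀ (hh.β_pos p.1.2).ne' ?_
    rw [hlin, hresp]

end

end Vale.Agent.P225.Loop
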