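import Vale.Agent.P225.Seg.SecLine

/-!
P225, CorrResponse (helper2): the first order of one module (insertion and waits) between a fixed
left part and a fixed right part.
-/

namespace Vale.Agent.P225

noncomputable section

variable {H : Type*} [NormedAddCommGroup H] [NormedSpace ℝ H] [CompleteSpace H] {r K : ℝ}

theorem neumann_zero_eq : neumann (0 : H →L[ℝ] H) = 1 := by simp [neumann]

/-- An insertion which keeps `C = 0` at amplitude zero, followed by fixed waits. -/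
theorem module_secOrd {ins : ℝ → Seg H} {W : Seg H} {LQ LC : ℝ →L[ℝ] H →L[ℝ] H}
    (hQ : SecOrd r K (fun t => (ins t).Q) LQ) (hC : SecOrd r K (fun t => (ins t).C) LC)
    (h0 : (ins 0).C = 0) (hs : ∀ t, ‖t‖ ≤ r → ‖W.B.comp (ins t).C‖ ≤ 1 / 2) :
    ∃ (K' : ℝ) (LMQ LMC : ℝ →L[ℝ] H →L[ℝ] H),
      SecOrd r K' (fun t => ((ins t).comp W).Q) LMQ ∧
      SecOrd r K' (fun t => ((ins t).comp W).C) LMC ∧
      (∀ x, LMQ x = (LQ x + (ins 0).Q.comp (W.B.comp (LC x))).comp W.Q) ∧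
      ∀ x, LMC x = W.D.comp ((LC x).comp W.Q) := by
  have cB := secOrd_const (X := ℝ) hQ.rad hQ.rad_nonneg (le_refl ‖W.B‖)
  have cQ := secOrd_const (X := ℝ) hQ.rad hQ.rad_nonneg (le_refl ‖W.Q‖)
  have cC := secOrd_const (X := ℝ) hQ.rad hQ.rad_nonneg (le_refl ‖W.C‖)
  have cD := secOrd_const (X := ℝ) hQ.rad hQ.rad_nonneg (le_refl ‖W.D‖)
  have hN := (cB.comp hC).neumann hs
  have h1 := (hQ.comp (hN.comp cQ)).congr (g := fun t => ((ins t).comp W).Q) fun t _ => rfl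
  have h2 := (cC.add (cD.comp (hC.comp (hN.comp cQ)))).congr
    (g := fun t => ((ins t).comp W).C) fun t _ => rfl
  refine ⟨_, _, _, h1.mono (le_max_left _ _), h2.mono (le_max_right _ _), fun x => ?_, fun x => ?_⟩
  · ext v
    simp [linComp_apply, h0, neumann_zero_eq]
  · ext v
    simp [linComp_apply, h0, neumann_zero_eq]

/-- **First order of one module.**  Up to the errors of the two Neumann factors it is the first
order of the module, between the values of the fixed parts. -/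
theorem module_first_order {K₁ K₂ K₃ : ℝ} {L Rt : Seg H} {M : ℝ → Seg H}
    {Lw QL CL BL : ℝ →L[ℝ] H →L[ℝ] H} {V : Submodule ℝ H} (hr : 0 < r)
    (hQ : SecOrd r K₁ (fun t => (M t).Q) QL) (hC : SecOrd r K₁ (fun t => (M t).C) CL)
    (hB : SecOrd r K₂ (fun t => ((M t).comp Rt).B) BL)
    (hw : SecOrd r K₃ (fun t => (L.comp ((M t).comp Rt)).Q) Lw) (hC0 : (M 0).C = 0)
    (hs1 : ∀ t, ‖t‖ ≤ r → ‖((M t).comp Rt).B.comp L.C‖ ≤ 1 / 2)
    (hs2 : ∀ t, ‖t‖ ≤ r → ‖Rt.B.comp (M t).C‖ ≤ 1 / 2)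
    {η a b q k : ℝ} (hX : ‖((M 0).comp Rt).B.comp L.C‖ ≤ η) (hη : η ≤ 1 / 2) (hq : 0 ≤ q)
    (hk : 0 ≤ k) (ha : ‖(BL 1).comp L.C‖ ≤ a) (hQV : ∀ w ∈ V, ‖(M 0).Q w‖ ≤ q * ‖w‖)
    (hQL : ∀ w ∈ V, ‖QL 1 w‖ ≤ k * ‖w‖)
    (hYL : ∀ w ∈ V, ‖(M 0).Q‖ * ‖Rt.B (CL 1 w)‖ ≤ b * ‖w‖) {u : H} (hu : Rt.Q u ∈ V) :
    ∃ w, Lw 1 u = L.Q w ∧
      ‖w - QL 1 (Rt.Q u)‖ ≤ (8 * a * q + 6 * η * k + 8 * b) * ‖Rt.Q u‖ := by
  have cR := secOrd_const (X := ℝ) hQ.rad hQ.rad_nonneg (le_refl ‖Rt.B‖)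
  have cRQ := secOrd_const (X := ℝ) hQ.rad hQ.rad_nonneg (le_refl ‖Rt.Q‖)
  have cL := secOrd_const (X := ℝ) hQ.rad hQ.rad_nonneg (le_refl ‖L.C‖)
  have cLQ := secOrd_const (X := ℝ) hQ.rad hQ.rad_nonneg (le_refl ‖L.Q‖)
  have hNX := (hB.comp cL).neumann hs1
  have hNY := (cR.comp hC).neumann hs2
  have hwhole := (cLQ.comp (((hNX.comp hQ).comp hNY).comp cRQ)).congr
    (g := fun t => (L.comp ((M t).comp Rt)).Q) fun t _ => rfl
  have e := hw.lin_eq hwhole hr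
  have hY0 : Rt.B.comp (M 0).C = 0 := by rw [hC0, ContinuousLinearMap.comp_zero]
  have hXL : linComp ((M 0).comp Rt).B L.C BL 0 1 = (BL 1).comp L.C := by
    ext v; simp [linComp_apply]
  have hYL' : linComp Rt.B (M 0).C 0 CL 1 = Rt.B.comp (CL 1) := by
    ext v; simp [linComp_apply]
  refine ⟨_, ?_, middle_first_order (V := V) (QL := QL)
    (XL := linComp ((M 0).comp Rt).B L.C BL 0) (YL := linComp Rt.B (M 0).C 0 CL) (Q₀ := (M 0).Q)
    (X₀ := ((M 0).comp Rt).B.comp L.C) (Y₀ := Rt.B.comp (M 0).C) (x := (1 : ℝ)) hX hη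
    (by rw [hY0, norm_zero]; norm_num) hq hk (hXL ▸ ha)
    (fun v hv => by rw [hY0, neumann_zero_eq]; simpa using hv) hQV hQL
    (fun v _ => by
      rw [hY0, zero_apply, norm_zero]
      exact mul_nonneg ((norm_nonneg _).trans hX) (norm_nonneg _))
    (fun v hv => by rw [hYL']; exact hYL v hv) hu⟩
  rw [e]
  simp [linComp_apply]

/-- The value at amplitude zero of a product with a module. -/
theorem module_value {L Rt : Seg H} {M : Seg H} (hC0 : M.C = 0) (u : H) :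
    (L.comp (M.comp Rt)).Q u
      = L.Q (neumann ((M.comp Rt).B.comp L.C) (M.Q (Rt.Q u))) := by
  show L.Q (neumann ((M.comp Rt).B.comp L.C) (M.Q (neumann (Rt.B.comp M.C) (Rt.Q u)))) = _
  rw [hC0, ContinuousLinearMap.comp_zero, neumann_zero_eq, one_apply_eq_self]

end

end Vale.Agent.P225
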