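import Vale.Agent.P225.Alg.CountBlk
import Vale.Agent.P225.Seg.Levels
import Vale.Agent.P225.Seg.Diag
import Vale.Agent.P225.Loop.LBd

/-!
P225, module 10 (helper8): compression of level-local operators to the algebra of matrices on
finitely many levels of one junction, and of chains of segments to chains in that algebra.
-/

namespace Vale.Agent.P225.Loop

open scoped lp ENNReal Matrix.Norms.L2Operator

noncomputable section

variable (J : Fin 3) (L : ℕ × ℕ)

/-- Coefficients on the levels of `J`, supported on the level `L`. -/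
def levIncl : LevSp J L →L[ℝ] HSp :=
  (ofLev J).comp (lp.singleContinuousLinearMap ℝ (fun L' : ℕ × ℕ => LevSp J L') 2 L)

/-- The level `L` of a vector. -/
def levProj : HSp →L[ℝ] LevSp J L :=
  (lp.evalCLM ℝ (fun L' : ℕ × ℕ => LevSp J L') 2 L).comp (toLev J)

theorem levProj_apply (x : HSp) (i : Fib J L) : levProj J L x i = x i.1 := rfl

theorem levIncl_apply (x : LevSp J L) (i : St) :
    levIncl J L x i = (if h : i.blk.level J = L then x ⟨i, h⟩ else 0) := by
  show (lp.single 2 L x : HLev J) (i.blk.level J) ⟨i, rfl⟩ = _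
  split_ifs with h
  · subst h
    rw [lp.single_apply_self]
  · rw [lp.single_apply_ne _ _ _ h]
    rfl

theorem levProj_levIncl (x : LevSp J L) : levProj J L (levIncl J L x) = x := by
  ext i
  rw [levProj_apply, levIncl_apply, dif_pos i.2]

theorem norm_levProj_le : ‖levProj J L‖ ≤ 1 :=
  ContinuousLinearMap.opNorm_le_bound _ zero_le_one fun x => by
    rw [one_mul]
    calc ‖toLev J x L‖ ≤ ‖toLev J x‖ := lp.norm_apply_le_norm (by norm_num) _ _
      _ ≤ ‖toLev J‖ * ‖x‖ := (toLev J).le_opNorm x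
      _ ≤ ‖x‖ := mul_le_of_le_one_left (norm_nonneg _) (norm_toLev_le J)

theorem norm_levIncl_le : ‖levIncl J L‖ ≤ 1 :=
  ContinuousLinearMap.opNorm_le_bound _ zero_le_one fun x => by
    rw [one_mul]
    calc ‖ofLev J (lp.single 2 L x)‖ ≤ ‖ofLev J‖ * ‖(lp.single 2 L x : HLev J)‖ :=
          (ofLev J).le_opNorm _
      _ ≤ ‖(lp.single 2 L x : HLev J)‖ := mul_le_of_le_one_left (norm_nonneg _) (norm_ofLev_le J)
      _ = ‖x‖ := lp.norm_single (by norm_num) _ _

variable {J L}

/-- A level-local operator maps the level `L` into itself and is determined there by the level. -/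
theorem LevelLocal.levProj_eq {T : HSp →L[ℝ] HSp} (hT : LevelLocal J T) (y : HSp) :
    levProj J L (T y) = levProj J L (T (levIncl J L (levProj J L y))) := by
  classical
  have hf : ∀ i : St, |(fun L' => if L' = L then (1 : ℝ) else 0) (i.blk.level J)| ≤ 1 := fun i => by
    dsimp only; split_ifs <;> simp
  have hP := congrArg (fun U : HSp →L[ℝ] HSp => U y)
    (hT (fun L' => if L' = L then 1 else 0) 1 zero_le_one hf)
  simp only [ContinuousLinearMap.comp_apply] at hP
  have e : diagOp (fun i => (fun L' => if L' = L then (1 : ℝ) else 0) (i.blk.level J)) 1 zero_le_one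
      hf y = levIncl J L (levProj J L y) := by
    ext i
    rw [diagOp_apply, levIncl_apply]
    split_ifs with h <;> simp [h, levProj_apply]
  rw [← e, hP]
  ext i
  simp [levProj_apply, i.2]

variable (J L) in
/-- Compression to one level. -/
def compLev (T : HSp →L[ℝ] HSp) : LevSp J L →L[ℝ] LevSp J L :=
  (levProj J L).comp (T.comp (levIncl J L))

theorem compLev_comp {S T : HSp →L[ℝ] HSp} (hS : LevelLocal J S) :
    compLev J L (S.comp T) = (compLev J L S).comp (compLev J L T) :=
  ContinuousLinearMap.ext fun x => LevelLocal.levProj_eq hS (T (levIncl J L x))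

theorem compLev_one : compLev J L 1 = 1 :=
  ContinuousLinearMap.ext fun x => levProj_levIncl J L x

theorem norm_compLev_le (T : HSp →L[ℝ] HSp) : ‖compLev J L T‖ ≤ ‖T‖ := by
  refine (ContinuousLinearMap.opNorm_comp_le _ _).trans ?_
  calc ‖levProj J L‖ * ‖T.comp (levIncl J L)‖ ≤ 1 * (‖T‖ * 1) :=
        mul_le_mul (norm_levProj_le J L) ((ContinuousLinearMap.opNorm_comp_le _ _).trans
          (mul_le_mul_of_nonneg_left (norm_levIncl_le J L) (norm_nonneg _))) (norm_nonneg _)
          zero_le_one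
    _ = ‖T‖ := by ring

variable (J) (Lv : Finset (ℕ × ℕ))

/-- Matrices on finitely many levels. -/
abbrev LevAlg : Type := ∀ L : Lv, Matrix (Fib J L.1) (Fib J L.1) ℝ

theorem normOneClass_levAlg [Nonempty Lv] (h : ∀ L : Lv, Nonempty (Fib J L.1)) :
    NormOneClass (LevAlg J Lv) := by
  have : ∀ L : Lv, NormOneClass (Matrix (Fib J L.1) (Fib J L.1) ℝ) := fun L => by
    refine ⟨?_⟩
    have := h L
    rw [← Matrix.diagonal_one, Matrix.l2_opNorm_diagonal, pi_norm_const, norm_one]
  exact Pi.normOneClass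

/-- Compression to finitely many levels. -/
def levMat : (HSp →L[ℝ] HSp) →ₗ[ℝ] LevAlg J Lv where
  toFun T L := (Matrix.toEuclideanCLM (n := Fib J L.1) (𝕜 := ℝ)).symm (compLev J L.1 T)
  map_add' S T := funext fun L => by
    simp only [Pi.add_apply, compLev, ContinuousLinearMap.add_comp, ContinuousLinearMap.comp_add,
      map_add]
  map_smul' r T := funext fun L => by
    simp only [Pi.smul_apply, compLev, ContinuousLinearMap.smul_comp,
      ContinuousLinearMap.comp_smul, RingHom.id_apply, map_smul]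

variable {J Lv}

theorem levMat_mul {S T : HSp →L[ℝ] HSp} (hS : LevelLocal J S) :
    levMat J Lv (S.comp T) = levMat J Lv S * levMat J Lv T :=
  funext fun L => by
    simp only [levMat, LinearMap.coe_mk, AddHom.coe_mk, Pi.mul_apply, ← map_mul,
      compLev_comp hS, ContinuousLinearMap.mul_def]

theorem levMat_one : levMat J Lv 1 = 1 :=
  funext fun L => by simp [levMat, compLev_one]

theorem norm_levMat_le (T : HSp →L[ℝ] HSp) : ‖levMat J Lv T‖ ≤ ‖T‖ := by
  refine (pi_norm_le_iff_of_nonneg (norm_nonneg _)).2 fun L => ?_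
  rw [← Matrix.l2_opNorm_toEuclideanCLM]
  simp only [levMat, LinearMap.coe_mk, AddHom.coe_mk, StarAlgEquiv.apply_symm_apply]
  exact norm_compLev_le T

theorem levMat_apply (T : HSp →L[ℝ] HSp) (L : Lv) (i j : Fib J L.1) :
    levMat J Lv T L i j = T (lp.single 2 j.1 1) i.1 := by
  classical
  set M := levMat J Lv T L with hM
  have h : Matrix.toEuclideanCLM (n := Fib J L.1) (𝕜 := ℝ) M = compLev J L.1 T := by
    simp [hM, levMat]
  have e : levIncl J L.1 (EuclideanSpace.single j (1 : ℝ)) = lp.single 2 j.1 1 := by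
    ext k
    rw [levIncl_apply]
    by_cases hk : k = j.1
    · subst hk
      rw [dif_pos j.2, lp.single_apply_self]
      simp
    · rw [lp.single_apply_ne _ _ _ hk]
      split_ifs with h
      · simp [EuclideanSpace.single_apply, Subtype.ext_iff, hk]
      · rfl
  have h2 := congrArg (fun U : LevSp J L.1 →L[ℝ] LevSp J L.1 =>
    U (EuclideanSpace.single j (1 : ℝ)) i) h
  simp only [compLev, ContinuousLinearMap.comp_apply, levProj_apply, e] at h2
  rw [← h2, Matrix.ofLp_toEuclideanCLM]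
  simp

theorem LevelLocal.levMat_neumann {T : HSp →L[ℝ] HSp} (hT : LevelLocal J T) (h : ‖T‖ < 1) :
    levMat J Lv (neumann T) = Ring.inverse (1 - levMat J Lv T) := by
  have hlt : ‖levMat J Lv T‖ < 1 := (norm_levMat_le T).trans_lt h
  have : CompleteSpace (LevAlg J Lv) := FiniteDimensional.complete ℝ _
  have hu : IsUnit (1 - levMat J Lv T) := ⟨Units.oneSub _ hlt, rfl⟩
  have hloc : LevelLocal J (1 - T) := by
    intro f K hK hf
    rw [ContinuousLinearMap.sub_comp, ContinuousLinearMap.comp_sub, hT f K hK hf]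
    congr 1
  have e : (1 - T).comp (neumann T) = 1 := ContinuousLinearMap.ext fun x => neumann_mul h x
  have e2 : (1 - levMat J Lv T) * levMat J Lv (neumann T) = 1 := by
    rw [← levMat_one (J := J) (Lv := Lv), ← map_sub, ← levMat_mul hloc, e]
  calc levMat J Lv (neumann T)
      = Ring.inverse (1 - levMat J Lv T) * ((1 - levMat J Lv T) * levMat J Lv (neumann T)) := by
        rw [← mul_assoc, Ring.inverse_mul_cancel _ hu, one_mul]
    _ = _ := by rw [e2, mul_one]

/-! ### Segments -/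

variable (J Lv) in
/-- The segment seen on finitely many levels. -/
def segMat (S : Seg HSp) : RSeg (LevAlg J Lv) :=
  ⟨levMat J Lv S.Q, levMat J Lv S.B, levMat J Lv S.C, levMat J Lv S.D⟩

theorem segMat_comp {S T : Seg HSp} (hS : SegLocal J S) (hT : SegLocal J T)
    (h : ‖T.B.comp S.C‖ < 1) :
    segMat J Lv (S.comp T) = (segMat J Lv S).comp (segMat J Lv T) := by
  have hN := (hT.B.comp hS.C).neumann h
  have e := LevelLocal.levMat_neumann (Lv := Lv) (hT.B.comp hS.C) h
  rw [levMat_mul hT.B] at e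
  simp only [segMat, Seg.comp, RSeg.comp, map_add, levMat_mul hS.Q, levMat_mul hT.B,
    levMat_mul hT.D, levMat_mul hS.C, levMat_mul hN, e]

/-- The segment of length zero. -/
def segOne {H : Type*} [NormedAddCommGroup H] [NormedSpace ℝ H] : Seg H := ⟨1, 0, 0, 1⟩

theorem segMat_one : segMat J Lv segOne = RSeg.one := by
  simp [segMat, segOne, RSeg.one, levMat_one]

theorem segLocal_one : SegLocal J (segOne : Seg HSp) :=
  ⟨fun _ _ _ _ => rfl, fun _ _ _ _ => by simp [segOne], fun _ _ _ _ => by simp [segOne],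
    fun _ _ _ _ => rfl⟩

/-- A chain of segments, composed from the left end. -/
def segChain {H : Type*} [NormedAddCommGroup H] [NormedSpace ℝ H] [CompleteSpace H] :
    ∀ {m : ℕ}, (Fin m → Seg H) → Seg H
  | 0, _ => segOne
  | _ + 1, S => (S 0).comp (segChain fun k => S k.succ)

/-- Uniform bounds of a segment. -/
structure SegBd {H : Type*} [NormedAddCommGroup H] [NormedSpace ℝ H] (K δ : ℝ) (S : Seg H) :
    Prop where
  Q : ‖S.Q‖ ≤ K
  B : ‖S.B‖ ≤ K
  C : ‖S.C‖ ≤ δ
  D : ‖S.D‖ ≤ K

theorem SegBd.comp {H : Type*} [NormedAddCommGroup H] [NormedSpace ℝ H] [CompleteSpace H]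
    {K K' δ δ' : ℝ} {S T : Seg H} (hS : SegBd K δ S) (hT : SegBd K' δ' T) (h : K' * δ ≤ 1 / 2) :
    SegBd (K + K' + 2 * K * K' * (1 + K)) (δ' + 2 * K' * δ * K') (S.comp T) ∧
      ‖T.B.comp S.C‖ < 1 := by
  have hK := (norm_nonneg _).trans hS.Q
  have hK' := (norm_nonneg _).trans hT.Q
  have hδ := (norm_nonneg _).trans hS.C
  have hBC : ‖T.B‖ * ‖S.C‖ ≤ 1 / 2 := (mul_le_mul hT.B hS.C (norm_nonneg _) hK').trans h
  obtain ⟨h1, h2, h3, h4⟩ := S.norm_comp_le T hBC
  refine ⟨⟨h1.trans ?_, h2.trans ?_, h3.trans ?_, h4.trans ?_⟩,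
    (ContinuousLinearMap.opNorm_comp_le _ _).trans_lt (by linarith)⟩
  · have : 2 * ‖S.Q‖ * ‖T.Q‖ ≤ 2 * K * K' := by gcongr <;> [exact hS.Q; exact hT.Q]
    nlinarith [mul_nonneg (mul_nonneg hK hK') hK]
  · have : 2 * ‖S.Q‖ * ‖T.B‖ * ‖S.D‖ ≤ 2 * K * K' * K := by
      gcongr <;> [exact hS.Q; exact hT.B; exact hS.D]
    nlinarith [hS.B, mul_nonneg hK hK']
  · have : 2 * ‖T.D‖ * ‖S.C‖ * ‖T.Q‖ ≤ 2 * K' * δ * K' := by
      gcongr <;> [exact hT.D; exact hS.C; exact hT.Q]
    linarith [hT.C]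
  · have : 2 * ‖T.D‖ * ‖S.D‖ ≤ 2 * K' * K := by gcongr <;> [exact hT.D; exact hS.D]
    nlinarith [mul_nonneg (mul_nonneg hK hK') hK]

/-- Chains of bounded level-local segments stay bounded and commute with compression. -/
theorem exists_segChain (m : ℕ) (K : ℝ) (hK : 1 ≤ K) :
    ∃ K' : ℝ, 1 ≤ K' ∧ ∃ δ₀ : ℝ, 0 < δ₀ ∧ ∀ δ, 0 ≤ δ → δ ≤ δ₀ → ∀ S : Fin m → Seg HSp,
      (∀ k, SegBd K δ (S k) ∧ SegLocal J (S k)) →
      SegBd K' (K' * δ) (segChain S) ∧ SegLocal J (segChain S) ∧
        segMat J Lv (segChain S) = chain fun k => segMat J Lv (S k) := by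
  induction m with
  | zero =>
    refine ⟨1, le_rfl, 1, one_pos, fun δ hδ _ S _ => ⟨?_, segLocal_one, segMat_one⟩⟩
    exact ⟨ContinuousLinearMap.norm_id_le, by simp [segChain, segOne],
      by simpa [segChain, segOne] using hδ, ContinuousLinearMap.norm_id_le⟩
  | succ m ih =>
    obtain ⟨K₁, hK₁, δ₁, hδ₁, h⟩ := ih
    refine ⟨K + K₁ + 2 * K * K₁ * (1 + K) + (K₁ + 2 * K₁ * K₁), by
      have : 0 ≤ 2 * K * K₁ * (1 + K) + (K₁ + 2 * K₁ * K₁) := by positivity
      linarith,
      min δ₁ (1 / (2 * K₁)), lt_min hδ₁ (by positivity), fun δ hδ hδ' S hS => ?_⟩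
    obtain ⟨hb, hl, he⟩ := h δ hδ (hδ'.trans (min_le_left _ _)) (fun k => S k.succ)
      fun k => hS k.succ
    have hsmall : K₁ * δ ≤ 1 / 2 := by
      have := (le_div_iff₀ (by positivity)).1 (hδ'.trans (min_le_right _ _))
      linarith
    obtain ⟨hc, hn⟩ := (hS 0).1.comp hb hsmall
    have hp : 0 ≤ 2 * K * K₁ * (1 + K) := by positivity
    refine ⟨⟨hc.Q.trans (by nlinarith), hc.B.trans (by nlinarith),
      hc.C.trans (by
        nlinarith [mul_nonneg hp hδ, mul_nonneg (zero_le_one.trans hK) hδ,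
          mul_nonneg (zero_le_one.trans hK₁) hδ]),
      hc.D.trans (by nlinarith)⟩, (hS 0).2.comp hl hn, ?_⟩
    simp only [segChain, chain]
    rw [segMat_comp (hS 0).2 hl hn, he]

end

end Vale.Agent.P225.Loop
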