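import Vale.Agent.P225.Loop.CorrSite
import Vale.Agent.P225.Loop.ModuleFirst
import Vale.Agent.P225.Seg.RangeTools
import Vale.Agent.P225.Loop.Corrector

/-!
P225, CorrResponse (helper2): the entries of the first order of one insertion between a prefix
`rho y * G y z` and a suffix, from the value of the whole at amplitude zero.
-/

open Finset

namespace Vale.Agent.P225

open Loop (facMat WSt)

noncomputable section

/-- The vectors supported on one level of `J3`. -/
def levSub (g : ℕ × ℕ) : Submodule ℝ HSp where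
  carrier := {w | ∀ i : St, i.blk.level 0 ≠ g → w i = 0}
  add_mem' := fun {a b} ha hb i hi => by rw [lp.coeFn_add, Pi.add_apply, ha i hi, hb i hi, add_zero]
  zero_mem' := fun i _ => rfl
  smul_mem' := fun c {a} ha i hi => by
    rw [lp.coeFn_smul, Pi.smul_apply, ha i hi, smul_zero]

theorem single_mem_levSub (z : St) : (lp.single 2 z (1 : ℝ) : HSp) ∈ levSub (z.blk.level 0) :=
  fun _ hi => lp.single_apply_ne _ _ _ fun e => hi (by rw [e])

theorem LevelLocal.mem_levSub {T : HSp →L[ℝ] HSp} (hT : LevelLocal 0 T) {g : ℕ × ℕ} {w : HSp}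
    (hw : w ∈ levSub g) : T w ∈ levSub g := by
  classical
  intro i hi
  have hf : ∀ k : St, |if k.blk.level 0 = g then (1 : ℝ) else 0| ≤ 1 := fun k => by
    split_ifs <;> simp
  have e := congrArg (fun A : HSp →L[ℝ] HSp => A w)
    (hT (fun g' => if g' = g then 1 else 0) 1 zero_le_one hf)
  simp only [ContinuousLinearMap.comp_apply] at e
  have e1 : diagOp (fun k : St => if k.blk.level 0 = g then (1 : ℝ) else 0) 1 zero_le_one hf w = w :=
    lp.ext (funext fun k => by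
      rw [diagOp_apply]
      split_ifs with h
      · rw [one_mul]
      · rw [hw k h, zero_mul])
  rw [e1] at e
  have e2 := congrArg (fun u : HSp => u i) e
  simp only [diagOp_apply, if_neg hi, zero_mul] at e2
  exact e2

variable {W : Finset St}

theorem abs_coord_le (w : HSp) (i : St) : |w i| ≤ ‖w‖ :=
  lp.norm_apply_le_norm (p := 2) (by norm_num) w i

theorem norm_le_sum_coord {g : ℕ × ℕ} (hg : ∀ k : St, k.blk.level 0 = g → k ∈ W) {w : HSp}
    (hw : w ∈ levSub g) : ‖w‖ ≤ ∑ k : WSt W, |w k.1| := by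
  classical
  have e : w = ∑ k ∈ W, w k • (lp.single 2 k 1 : HSp) := lp.ext (funext fun i => by
    rw [lp.coeFn_sum, Finset.sum_apply]
    by_cases hi : i ∈ W
    · rw [Finset.sum_eq_single i]
      · simp
      · intro k _ hk
        simp [Pi.single_eq_of_ne (Ne.symm hk)]
      · exact fun h => absurd hi h
    · rw [hw i fun h => hi (hg i h), Finset.sum_eq_zero]
      intro k hk
      have : i ≠ k := fun h => hi (h ▸ hk)
      simp [Pi.single_eq_of_ne this])
  rw [Finset.univ_eq_attach, Finset.sum_attach W (fun k => |w k|)]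
  conv_lhs => rw [e]
  refine (norm_sum_le _ _).trans (Finset.sum_le_sum fun k _ => ?_)
  rw [norm_smul, lp.norm_single (by norm_num), norm_one, mul_one, Real.norm_eq_abs]

/-- The rows of a level local operator which is `rho y * G y z` on `W`. -/
theorem apply_row (hW : ∀ i ∈ W, ∀ k : St, k.blk.level 0 = i.blk.level 0 → k ∈ W)
    {T : HSp →L[ℝ] HSp} (hT : LevelLocal 0 T) {G : Matrix (WSt W) (WSt W) ℝ} {ρ : WSt W → ℝ}
    (hTG : ∀ y z, facMat T y z = ρ y * G y z) (w : HSp) (y : WSt W) :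
    T w y.1 = ρ y * ∑ k, G y k * w k.1 := by
  rw [Loop.LevelLocal.apply_eq_sum hT hW w y.2, Finset.mul_sum, ← Finset.sum_attach,
    Finset.univ_eq_attach]
  refine Finset.sum_congr rfl fun k _ => ?_
  rw [show T (lp.single 2 k.1 1) y.1 = ρ y * G y k from hTG y k]
  ring

/-- The rows stay in their level. -/
theorem row_level {T : HSp →L[ℝ] HSp} (hT : LevelLocal 0 T) {G : Matrix (WSt W) (WSt W) ℝ}
    {ρ : WSt W → ℝ} (hρ : ∀ y, ρ y ≠ 0) (hTG : ∀ y z, facMat T y z = ρ y * G y z) {y k : WSt W}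
    (hne : G y k ≠ 0) : k.1.blk.level 0 = y.1.blk.level 0 := by
  by_contra h
  have h0 : T (lp.single 2 k.1 1) y.1 = 0 := hT.mem_levSub (single_mem_levSub k.1) y.1 fun e => h e.symm
  have h1 : ρ y * G y k = 0 := (hTG y k).symm.trans h0
  rcases mul_eq_zero.1 h1 with h2 | h2
  · exact hρ y h2
  · exact hne h2

/-- **The entries of one insertion.** -/
theorem site_entry (hW : ∀ i ∈ W, ∀ k : St, k.blk.level 0 = i.blk.level 0 → k ∈ W)
    {r K₁ K₂ K₃ : ℝ} {L Rt : Seg HSp} {M : ℝ → Seg HSp} {Lw QL CL BL : ℝ →L[ℝ] HSp →L[ℝ] HSp}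
    (hr : 0 < r) (hQ : SecOrd r K₁ (fun t => (M t).Q) QL)
    (hC : SecOrd r K₁ (fun t => (M t).C) CL)
    (hB : SecOrd r K₂ (fun t => ((M t).comp Rt).B) BL)
    (hw : SecOrd r K₃ (fun t => (L.comp ((M t).comp Rt)).Q) Lw) (hC0 : (M 0).C = 0)
    (hs1 : ∀ t, ‖t‖ ≤ r → ‖((M t).comp Rt).B.comp L.C‖ ≤ 1 / 2)
    (hs2 : ∀ t, ‖t‖ ≤ r → ‖Rt.B.comp (M t).C‖ ≤ 1 / 2)
    (hLQ : LevelLocal 0 L.Q) (hLC : LevelLocal 0 L.C) (hMB : LevelLocal 0 ((M 0).comp Rt).B)
    (hRQ : LevelLocal 0 Rt.Q)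
    {G Gi : Matrix (WSt W) (WSt W) ℝ} (hGi : Gi * G = 1) {ρ : WSt W → ℝ} (hρ : ∀ y, ρ y ≠ 0)
    (hLG : ∀ y z, facMat L.Q y z = ρ y * G y z)
    {z : WSt W} {Φ a b η k val : ℝ} (hΦ : 0 < Φ) (hk : 0 ≤ k)
    (hX : ‖((M 0).comp Rt).B.comp L.C‖ ≤ η) (hη : η ≤ 1 / 2) (ha : ‖(BL 1).comp L.C‖ ≤ a)
    (hQ0 : ∀ w ∈ levSub (z.1.blk.level 0), (M 0).Q w = Φ • w)
    (hQL : ∀ w ∈ levSub (z.1.blk.level 0), ‖QL 1 w‖ ≤ k * ‖w‖)
    (hYL : ∀ w ∈ levSub (z.1.blk.level 0), ‖(M 0).Q‖ * ‖Rt.B (CL 1 w)‖ ≤ b * ‖w‖)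
    {kap : ℕ × ℕ → ℝ} {M1 : Matrix (WSt W) (WSt W) ℝ}
    (hQL1 : ∀ w ∈ levSub (z.1.blk.level 0), ∀ x : WSt W,
      QL 1 w x.1 = -(kap (x.1.blk.level 0) * ∑ x', M1 x x' * w x'.1))
    (hval : ∀ y, facMat (L.comp ((M 0).comp Rt)).Q y z = if y = z then val else 0) (y : WSt W) :
    |facMat (Lw 1) y z + ρ y * (val / (Φ * ρ z)) * kap (y.1.blk.level 0) * (G * M1 * Gi) y z|
      ≤ |ρ y| * |val / (Φ * ρ z)| * (∑ x, |G y x|) * (∑ x, |Gi x z|)
        * (2 * (8 * a * Φ + 6 * η * k + 8 * b) + η * k) := by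
  classical
  set gz := z.1.blk.level 0 with hgz
  set u : HSp := lp.single 2 z.1 1 with hu
  set v := Rt.Q u with hv
  have hvV : v ∈ levSub gz := hRQ.mem_levSub (single_mem_levSub z.1)
  obtain ⟨w, hLw, hwb⟩ := module_first_order (V := levSub gz) (u := u) hr hQ hC hB hw hC0 hs1 hs2 hX hη
    hΦ.le hk ha (fun w hw' => by
      rw [hQ0 w hw', norm_smul, Real.norm_of_nonneg hΦ.le]) hQL hYL hvV
  set X := ((M 0).comp Rt).B.comp L.C with hXdef
  have hX1 : ‖X‖ < 1 := hX.trans_lt (by linarith)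
  set w0 := neumann X (Φ • v) with hw0def
  have hw0 : w0 ∈ levSub gz :=
    ((hMB.comp hLC).neumann hX1).mem_levSub ((levSub gz).smul_mem Φ hvV)
  have hinv : (1 - X) w0 = Φ • v := neumann_mul hX1 _
  -- the value at amplitude zero
  have hrow : ∀ y, ρ y * ∑ x, G y x * w0 x.1 = if y = z then val else 0 := fun y => by
    rw [← apply_row hW hLQ hLG w0 y, ← hval y]
    show _ = (L.comp ((M 0).comp Rt)).Q u y.1
    rw [module_value hC0 u, ← hv, hQ0 v hvV]
  have hGw : (G.mulVec fun x => w0 x.1) = Pi.single z (val / ρ z) := funext fun y => by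
    rw [Matrix.mulVec, dotProduct]
    rcases eq_or_ne y z with rfl | hne
    · rw [Pi.single_eq_same, eq_div_iff (hρ y), mul_comm, hrow y, if_pos rfl]
    · rw [Pi.single_eq_of_ne hne]
      exact (mul_eq_zero.1 ((hrow y).trans (if_neg hne))).resolve_left (hρ y)
  have hcoord : ∀ x : WSt W, w0 x.1 = Gi x z * (val / ρ z) := fun x => by
    have e := congrFun (congrArg Gi.mulVec hGw) x
    rw [Matrix.mulVec_mulVec, hGi, Matrix.one_mulVec, Matrix.mulVec_single] at e
    simpa [mul_comm, div_eq_mul_inv] using e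
  set T := (∑ x, |Gi x z|) * |val / (Φ * ρ z)| with hTdef
  have hn0 : ‖w0‖ ≤ Φ * T := by
    refine (norm_le_sum_coord (fun x hx => hW z.1 z.2 x hx) hw0).trans (le_of_eq ?_)
    rw [hTdef, show Φ * ((∑ x, |Gi x z|) * |val / (Φ * ρ z)|)
      = (∑ x, |Gi x z|) * |val / ρ z| by
        rw [abs_div, abs_mul, abs_of_pos hΦ, abs_div]; field_simp, Finset.sum_mul]
    exact Finset.sum_congr rfl fun x _ => by rw [hcoord, abs_mul]
  have hη0 : 0 ≤ η := (norm_nonneg _).trans hX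
  have hT0 : 0 ≤ T := by positivity
  have hXw : ‖X w0‖ ≤ η * (Φ * T) :=
    (X.le_of_opNorm_le hX w0).trans (mul_le_mul_of_nonneg_left hn0 hη0)
  have hvn : ‖v‖ ≤ 2 * T := by
    have h1 : ‖Φ • v‖ ≤ Φ * (2 * T) := by
      rw [← hinv, _root_.sub_apply, one_apply_eq_self]
      refine (norm_sub_le _ _).trans ?_
      nlinarith [mul_le_mul_of_nonneg_right hη (mul_nonneg hΦ.le hT0)]
    rw [norm_smul, Real.norm_of_nonneg hΦ.le] at h1
    exact le_of_mul_le_mul_left h1 hΦ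
  have hd : v - Φ⁻¹ • w0 = -(Φ⁻¹ • X w0) := by
    have e : Φ⁻¹ • ((1 - X) w0) = v := by rw [hinv, smul_smul, inv_mul_cancel₀ hΦ.ne', one_smul]
    rw [← e, _root_.sub_apply, one_apply_eq_self, smul_sub]
    abel
  have hdV : v - Φ⁻¹ • w0 ∈ levSub gz := (levSub gz).sub_mem hvV ((levSub gz).smul_mem _ hw0)
  set w1 := QL 1 (Φ⁻¹ • w0) with hw1
  have hww : ‖w - w1‖ ≤ (2 * (8 * a * Φ + 6 * η * k + 8 * b) + η * k) * T := by
    have h1 : ‖QL 1 v - w1‖ ≤ η * k * T := by
      rw [hw1, ← map_sub]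
      refine (hQL _ hdV).trans ?_
      rw [hd, norm_neg, norm_smul, Real.norm_of_nonneg (inv_nonneg.2 hΦ.le)]
      calc k * (Φ⁻¹ * ‖X w0‖) ≤ k * (Φ⁻¹ * (η * (Φ * T))) := by gcongr
        _ = η * k * T := by field_simp
    have h2 : 0 ≤ 8 * a * Φ + 6 * η * k + 8 * b ∨ ‖v‖ = 0 := by
      rcases eq_or_ne (‖v‖) 0 with h | h
      · exact Or.inr h
      · refine Or.inl ?_
        have := (norm_nonneg _).trans hwb
        exact nonneg_of_mul_nonneg_left this (lt_of_le_of_ne (norm_nonneg _) (Ne.symm h))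
    have h3 : (8 * a * Φ + 6 * η * k + 8 * b) * ‖v‖ ≤ (8 * a * Φ + 6 * η * k + 8 * b) * (2 * T) := by
      have hb0 : 0 ≤ 8 * a * Φ + 6 * η * k := by
        have := (norm_nonneg _).trans ha
        positivity
      rcases h2 with h | h
      · exact mul_le_mul_of_nonneg_left hvn h
      · have hb : 0 ≤ b := by
          have hz1 : ‖u‖ = 1 := by rw [hu, lp.norm_single (by norm_num), norm_one]
          have := hYL u (single_mem_levSub z.1)
          rw [hz1, mul_one] at this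
          exact le_trans (by positivity) this
        rw [h, mul_zero]
        positivity
    calc ‖w - w1‖ = ‖(w - QL 1 v) + (QL 1 v - w1)‖ := by rw [sub_add_sub_cancel]
      _ ≤ _ := (norm_add_le _ _).trans ((add_le_add (hwb.trans h3) h1).trans (le_of_eq (by ring)))
  -- the main part
  have hmain : ∑ x, G y x * w1 x.1
      = -((val / (Φ * ρ z)) * kap (y.1.blk.level 0) * (G * M1 * Gi) y z) := by
    rw [Matrix.mul_assoc, Matrix.mul_apply, Finset.mul_sum, ← Finset.sum_neg_distrib]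
    refine Finset.sum_congr rfl fun x _ => ?_
    rcases eq_or_ne (G y x) 0 with h0 | h0
    · rw [h0, zero_mul, zero_mul, mul_zero, neg_zero]
    · rw [hw1, hQL1 _ ((levSub gz).smul_mem _ hw0) x, row_level hLQ hρ hLG h0, Matrix.mul_apply]
      simp only [lp.coeFn_smul, Pi.smul_apply, smul_eq_mul, hcoord, Finset.mul_sum,
        ← Finset.sum_neg_distrib]
      refine Finset.sum_congr rfl fun x' _ => ?_
      field_simp
  have hfac : facMat (Lw 1) y z = ρ y * ∑ x, G y x * w x.1 := by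
    show Lw 1 u y.1 = _
    rw [hLw, apply_row hW hLQ hLG]
  rw [hfac, show ρ y * (∑ x, G y x * w x.1)
      + ρ y * (val / (Φ * ρ z)) * kap (y.1.blk.level 0) * (G * M1 * Gi) y z
      = ρ y * ∑ x, G y x * (w - w1) x.1 by
    simp only [lp.coeFn_sub, Pi.sub_apply, mul_sub, Finset.sum_sub_distrib, hmain]
    ring, abs_mul]
  calc |ρ y| * |∑ x, G y x * (w - w1) x.1|
      ≤ |ρ y| * ((∑ x, |G y x|) * ((2 * (8 * a * Φ + 6 * η * k + 8 * b) + η * k) * T)) := by
        refine mul_le_mul_of_nonneg_left ((Finset.abs_sum_le_sum_abs _ _).trans ?_) (abs_nonneg _)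
        rw [Finset.sum_mul]
        refine Finset.sum_le_sum fun x _ => ?_
        rw [abs_mul]
        exact mul_le_mul_of_nonneg_left ((abs_coord_le _ _).trans hww) (abs_nonneg _)
    _ = _ := by rw [hTdef]; ring

end

end Vale.Agent.P225
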