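import Vale.Agent.P225.Loop.CorrRemainder
import Vale.Agent.P225.Loop.Corrector
import Vale.Agent.P225.Loop.Error

/-!
P225 corrector, sections 3 and 6: the left factor of a loop as a function of the amplitudes.  It is
the value of the corrector followed by the buffer, up to a quadratic remainder and a term damped by
the incoming slope and the buffer.
-/

namespace Vale.Agent.P225.Loop

open Metric

noncomputable section

instance : Nontrivial HSp :=
  ⟨⟨lp.single 2 zeroSt (1 : ℝ), 0, fun h => by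
    have := congrArg (fun x : HSp => x zeroSt) h
    simp [lp.single_apply_self] at this⟩⟩

/-- The left factor without incoming slope and without buffer error. -/
def factor0 (corr buf : Seg HSp) : HSp →L[ℝ] HSp := corr.Q * neumann (buf.B * corr.C)

theorem factor0_buf (corr buf : Seg HSp) : factor0 corr buf * buf.Q = (corr.comp buf).Q := by
  ext x; rfl

variable {E : Type*} [NormedAddCommGroup E] [NormedSpace ℝ E]

/-- The first order of `factor0`. -/
def lin0 (c0 buf : Seg HSp) (LQ LC : E →ₗ[ℝ] HSp →L[ℝ] HSp) : E →ₗ[ℝ] HSp →L[ℝ] HSp :=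
  (LinearMap.mulRight ℝ (neumann (buf.B * c0.C))).comp LQ
    + (LinearMap.mulLeft ℝ c0.Q).comp ((LinearMap.mulLeft ℝ (neumann (buf.B * c0.C))).comp
        ((LinearMap.mulRight ℝ (neumann (buf.B * c0.C))).comp
          ((LinearMap.mulRight ℝ c0.C).comp (0 : E →ₗ[ℝ] HSp →L[ℝ] HSp)
            + (LinearMap.mulLeft ℝ buf.B).comp LC)))

/-- The corrector's families of one loop. -/
structure CorrFam (r K δ : ℝ) (corr : E → Seg HSp)
    (LQ LB LC LD : E →ₗ[ℝ] HSp →L[ℝ] HSp) : Prop where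
  Q : QLin r 0 K (fun e => (corr e).Q) LQ
  B : QLin r 0 K (fun e => (corr e).B) LB
  C : QLin r 0 K (fun e => (corr e).C) LC
  D : QLin r 0 K (fun e => (corr e).D) LD
  small : ∀ e, ‖e‖ ≤ r → ‖(corr e).C‖ ≤ δ

/-- The difference of the left factor and `factor0` is small. -/
theorem loopFactor_sub_eq (corr buf rest : Seg HSp) (R : HSp →L[ℝ] HSp)
    (h1 : ‖buf.B * (corr.slopeMap R)‖ < 1) (h2 : ‖buf.B * corr.C‖ < 1) :
    loopFactor corr buf rest R = factor0 corr buf
      + ((neumann (corr.B * R) - 1) * (corr.Q * neumann (buf.B * corr.C))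
        + neumann (corr.B * R) * (corr.Q * ((neumann (loopErr corr buf rest R) - 1)
            * neumann (buf.B * corr.slopeMap R)
          + neumann (buf.B * corr.slopeMap R) * (buf.B * (corr.D * R * corr.backMap R))
            * neumann (buf.B * corr.C)))) := by
  have e : neumann (buf.B * corr.slopeMap R) = neumann (buf.B * corr.C)
      + neumann (buf.B * corr.slopeMap R) * (buf.B * (corr.D * R * corr.backMap R))
        * neumann (buf.B * corr.C) := by
    have h := neumann_sub h1 h2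
    simp only [← ContinuousLinearMap.mul_def] at h
    rw [← mul_sub, show corr.slopeMap R - corr.C = corr.D * R * corr.backMap R from
      add_sub_cancel_left _ _, ← mul_assoc (neumann _)] at h
    rw [← h]; abel
  show neumann (corr.B * R) * corr.Q
      * (neumann (loopErr corr buf rest R) * neumann (buf.B * corr.slopeMap R)) = _
  generalize neumann (buf.B * corr.slopeMap R) * (buf.B * (corr.D * R * corr.backMap R))
    * neumann (buf.B * corr.C) = Y at e ⊢
  simp only [factor0, sub_mul, one_mul, mul_sub, mul_add, mul_assoc]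
  rw [show neumann (buf.B * corr.slopeMap R) = neumann (buf.B * corr.C) + Y from e]
  simp only [mul_add]
  abel

/-- The Neumann inverse of a family with small values is Lipschitz. -/
theorem lbd_inv_small {X : Type*} [PseudoMetricSpace X] {s : Set X} {L : ℝ}
    {G : X → HSp →L[ℝ] HSp} (hG : LBd s L G) (hL : 0 ≤ L) (h4 : ∀ x ∈ s, ‖G x‖ ≤ 1 / 4) :
    LBd s (4 * L + 2) fun x => neumann (G x) := by
  refine ⟨fun x hx => ?_, fun p hp q hq => ?_⟩
  · have := (inv_one_sub_bound (h4 x hx)).1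
    show ‖Ring.inverse (1 - G x)‖ ≤ _
    linarith
  · obtain ⟨hp1, -, hpu⟩ := inv_one_sub_bound (h4 p hp)
    obtain ⟨hq1, -, hqu⟩ := inv_one_sub_bound (h4 q hq)
    have e1 : Ring.inverse (1 - G p) - Ring.inverse (1 - G q)
        = Ring.inverse (1 - G p) * (G p - G q) * Ring.inverse (1 - G q) := by
      calc Ring.inverse (1 - G p) - Ring.inverse (1 - G q)
          = Ring.inverse (1 - G p) * ((1 - G q) * Ring.inverse (1 - G q))
            - (Ring.inverse (1 - G p) * (1 - G p)) * Ring.inverse (1 - G q) := by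
            rw [Ring.mul_inverse_cancel _ hqu, Ring.inverse_mul_cancel _ hpu, mul_one, one_mul]
        _ = _ := by rw [← mul_assoc, ← sub_mul, ← mul_sub]; congr 2; abel
    show ‖Ring.inverse (1 - G p) - Ring.inverse (1 - G q)‖ ≤ _
    rw [e1]
    refine ((norm_mul_le _ _).trans (mul_le_mul ((norm_mul_le _ _).trans
      (mul_le_mul hp1 (hG.2 p hp q hq) (norm_nonneg _) (by norm_num))) hq1 (norm_nonneg _)
      (by positivity))).trans ?_
    calc 4 / 3 * (L * Dist.dist p q) * (4 / 3) = 16 / 9 * L * Dist.dist p q := by ring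
      _ ≤ (4 * L + 2) * Dist.dist p q := mul_le_mul_of_nonneg_right (by linarith) dist_nonneg

/-- The family of the left factor without incoming slope and without buffer error. -/
theorem factor0_qlin {r δ K : ℝ} {corr : E → Seg HSp} {buf : Seg HSp}
    {LQ LB LC LD : E →ₗ[ℝ] HSp →L[ℝ] HSp} (hK : 1 ≤ K) (hr : 0 ≤ r) (hr1 : r ≤ 1)
    (hF : CorrFam r K δ corr LQ LB LC LD) (hbB : ‖buf.B‖ ≤ K) (hKδ : K * δ ≤ 1 / 8) :
    QLin r 0 (22 * K * (100 * (22 * K * K) ^ 2)) (fun e => factor0 (corr e) buf)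
      (lin0 (corr 0) buf LQ LC) := by
  have hK0 : 0 ≤ K := zero_le_one.trans hK
  have hB : ∀ e, ‖e‖ ≤ r → ‖buf.B * (corr e).C‖ ≤ 1 / 4 := fun e he =>
    (norm_mul_le _ _).trans ((mul_le_mul hbB (hF.small e he) (norm_nonneg _) hK0).trans
      (by linarith))
  have q1 := (qlin_const (E := E) hr le_rfl hbB).mul hF.C hr hr1 le_rfl zero_le_one
  have q2 := q1.inv hr hr1 le_rfl zero_le_one
    (by linarith [one_le_mul_of_one_le_of_one_le hK hK]) hB
  exact hF.Q.mul q2 hr hr1 le_rfl zero_le_one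

variable {s : Set E} {K d : ℝ} {corr : E → Seg HSp} {R : HSp →L[ℝ] HSp}

/-- The effect of the incoming slope on the corrector. -/
theorem lbd_slope_small (hK : 1 ≤ K) (hd : 0 ≤ d) (hQ : LBd s (4 * K) fun e => (corr e).Q)
    (hB : LBd s (4 * K) fun e => (corr e).B) (hD : LBd s (4 * K) fun e => (corr e).D)
    (hR : ‖R‖ ≤ d) (hsm : 256 * K ^ 2 * d ≤ 1 / 8) :
    (LBd s (256 * K ^ 2 * d) fun e => (corr e).D * R * (corr e).backMap R) ∧
      (LBd s (32 * K * d) fun e => neumann ((corr e).B * R) - 1) ∧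
      LBd s 2 fun e => neumann ((corr e).B * R) := by
  have hBR : LBd s (2 * (4 * K) * d) fun e => (corr e).B * R := hB.mul (LBd.const (s := s) hR)
  have hK2 : K ≤ K ^ 2 := le_self_pow₀ hK (by norm_num)
  have h4 : 2 * (4 * K) * d ≤ 1 / 4 := by linarith [mul_le_mul_of_nonneg_right hK2 hd]
  have hN : LBd s 2 fun e => neumann ((corr e).B * R) := hBR.inv h4
  have hback : LBd s (2 * 2 * (4 * K)) fun e => (corr e).backMap R := hN.mul hQ
  refine ⟨(((hD.mul (LBd.const (s := s) hR)).mul hback)).mono (le_of_eq (by ring)), ?_, hN⟩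
  exact (hBR.inv_sub_one h4).mono (le_of_eq (by ring))

/-- The effect of the incoming slope and of the damped buffer error on the buffer's factor. -/
theorem lbd_buf_small {δ ed : ℝ} {buf rest : Seg HSp} (hK : 1 ≤ K) (hd : 0 ≤ d) (hd1 : d ≤ 1)
    (hC : LBd s (4 * K) fun e => (corr e).C) (hCv : ∀ e ∈ s, ‖(corr e).C‖ ≤ δ)
    (hS2 : LBd s (256 * K ^ 2 * d) fun e => (corr e).D * R * (corr e).backMap R)
    (hbQ : ‖buf.Q‖ ≤ K) (hbB : ‖buf.B‖ ≤ K) (hbD : ‖buf.D‖ ≤ ed) (hrB : ‖rest.B‖ ≤ K)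
    (hed : ed ≤ d) (hδ : K * δ ≤ 1 / 8) (hsm : 10 ^ 8 * K ^ 8 * d ≤ 1 / 8) :
    (LBd s (34 * K ^ 2) fun e => neumann (buf.B * (corr e).C)) ∧
      (∀ e ∈ s, ‖buf.B * (corr e).slopeMap R‖ < 1 ∧ ‖buf.B * (corr e).C‖ < 1) ∧
      LBd s (10 ^ 12 * K ^ 10 * d) fun e => (neumann (loopErr (corr e) buf rest R) - 1)
          * neumann (buf.B * (corr e).slopeMap R)
        + neumann (buf.B * (corr e).slopeMap R) * (buf.B * ((corr e).D * R * (corr e).backMap R))
          * neumann (buf.B * (corr e).C) := by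
  have hK0 : 0 ≤ K := zero_le_one.trans hK
  have hp : ∀ {m n : ℕ}, m ≤ n → K ^ m ≤ K ^ n := fun h => pow_le_pow_right₀ hK h
  have h0 : ∀ n : ℕ, 1 ≤ K ^ n := fun n => one_le_pow₀ hK
  have hbC : LBd s (8 * K ^ 2) fun e => buf.B * (corr e).C :=
    ((LBd.const (s := s) hbB).mul hC).mono (le_of_eq (by ring))
  have hbC4 : ∀ e ∈ s, ‖buf.B * (corr e).C‖ ≤ 1 / 4 := fun e he =>
    (norm_mul_le _ _).trans ((mul_le_mul hbB (hCv e he) (norm_nonneg _) hK0).trans (by linarith))
  have hNC : LBd s (34 * K ^ 2) fun e => neumann (buf.B * (corr e).C) :=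
    (lbd_inv_small hbC (by positivity) hbC4).mono (by linarith [h0 2])
  have hslope : LBd s (260 * K ^ 2) fun e => (corr e).slopeMap R :=
    (hC.add hS2).mono (by
      have h1 : 256 * K ^ 2 * d ≤ 256 * K ^ 2 := mul_le_of_le_one_right (by positivity) hd1
      have h2 := hp (show 1 ≤ 2 by norm_num)
      rw [pow_one] at h2
      linarith)
  have hbS : LBd s (520 * K ^ 3) fun e => buf.B * (corr e).slopeMap R :=
    ((LBd.const (s := s) hbB).mul hslope).mono (le_of_eq (by ring))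
  have hbS4 : ∀ e ∈ s, ‖buf.B * (corr e).slopeMap R‖ ≤ 1 / 4 := fun e he => by
    refine (norm_mul_le _ _).trans ((mul_le_mul hbB ((norm_add_le _ _).trans
      (add_le_add (hCv e he) (hS2.1 e he))) (norm_nonneg _) hK0).trans ?_)
    have : K ^ 3 * d ≤ K ^ 8 * d := mul_le_mul_of_nonneg_right (hp (by norm_num)) hd
    linarith
  have hNS : LBd s (2082 * K ^ 3) fun e => neumann (buf.B * (corr e).slopeMap R) :=
    (lbd_inv_small hbS (by positivity) hbS4).mono (by linarith [h0 3])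
  have hY := (hNS.mul ((LBd.const (s := s) hbB).mul hS2)).mul hNC
  have hbb : LBd s (4164 * K ^ 4) fun e => buf.backMap ((corr e).slopeMap R) :=
    (hNS.mul (LBd.const (s := s) hbQ)).mono (le_of_eq (by ring))
  have hErr : LBd s (2 * 4164 * 1040 * K ^ 7 * d) fun e => loopErr (corr e) buf rest R :=
    (hbb.mul ((LBd.const (s := s) hrB).mul ((LBd.const (s := s) hbD).mul hslope))).mono (by
      have h1 : 2 * 4164 * 1040 * K ^ 7 * ed ≤ 2 * 4164 * 1040 * K ^ 7 * d :=
        mul_le_mul_of_nonneg_left hed (by positivity)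
      linarith)
  have hErr4 : 2 * 4164 * 1040 * K ^ 7 * d ≤ 1 / 4 := by
    have : K ^ 7 * d ≤ K ^ 8 * d := mul_le_mul_of_nonneg_right (hp (by norm_num)) hd
    have : 0 ≤ K ^ 7 * d := by positivity
    linarith
  refine ⟨hNC, fun e he => ⟨by linarith [hbS4 e he], by linarith [hbC4 e he]⟩,
    (((hErr.inv_sub_one hErr4).mul hNS).add hY).mono ?_⟩
  have h1 : K ^ 8 * d ≤ K ^ 10 * d := mul_le_mul_of_nonneg_right (hp (by norm_num)) hd
  have h2 : 0 ≤ K ^ 8 * d := by positivity
  linarith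

/-- The left factor of a loop has the linear part of the corrector followed by the buffer. -/
theorem exists_factor_qlin (K : ℝ) (hK : 1 ≤ K) :
    ∃ K' δ₀ : ℝ, 1 ≤ K' ∧ 0 < δ₀ ∧ ∀ (E : Type) [NormedAddCommGroup E] [NormedSpace ℝ E]
      (r δ ed : ℝ) (corr : E → Seg HSp) (buf rest : Seg HSp) (R : HSp →L[ℝ] HSp)
      (LQ LB LC LD : E →ₗ[ℝ] HSp →L[ℝ] HSp),
      0 ≤ r → r ≤ δ₀ → δ ≤ δ₀ → CorrFam r K δ corr LQ LB LC LD →
      ‖buf.Q‖ ≤ K → ‖buf.B‖ ≤ K → ‖buf.D‖ ≤ ed → ‖rest.B‖ ≤ K → ‖R‖ + ed ≤ δ₀ →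
      QLin r (‖R‖ + ed) K' (fun e => loopFactor (corr e) buf rest R) (lin0 (corr 0) buf LQ LC) ∧
      ‖loopFactor (corr 0) buf rest R - factor0 (corr 0) buf‖ ≤ K' * (‖R‖ + ed) := by
  have hK0 : 0 ≤ K := zero_le_one.trans hK
  set M : ℝ := 10 ^ 15 * K ^ 12 with hM
  set K₂ : ℝ := 22 * K * (100 * (22 * K * K) ^ 2) with hK₂
  have hM1 : 1 ≤ M := one_le_mul_of_one_le_of_one_le (by norm_num) (one_le_pow₀ hK)
  have hK₂0 : 0 ≤ K₂ := by positivity
  refine ⟨K₂ + M, 1 / (8 * M), by linarith, by positivity,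
    fun E _ _ r δ ed corr buf rest R LQ LB LC LD hr hrδ hδ hF hbQ hbB hbD hrB hRd => ?_⟩
  set d : ℝ := ‖R‖ + ed
  have hed : 0 ≤ ed := (norm_nonneg _).trans hbD
  have hd : 0 ≤ d := by positivity
  have h8 : ∀ {x t : ℝ}, x ≤ M → 0 ≤ t → t ≤ 1 / (8 * M) → x * t ≤ 1 / 8 := by
    intro x t hx ht0 ht
    calc x * t ≤ M * t := mul_le_mul_of_nonneg_right hx ht0
      _ ≤ M * (1 / (8 * M)) := mul_le_mul_of_nonneg_left ht (by linarith)
      _ = 1 / 8 := by field_simp
  have hr1 : r ≤ 1 := by linarith [h8 hM1 hr hrδ]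
  have hd1 : d ≤ 1 := by linarith [h8 hM1 hd hRd]
  have hKM : K ≤ M := (le_self_pow₀ hK (by norm_num : 12 ≠ 0)).trans
    (le_mul_of_one_le_left (by positivity) (by norm_num))
  have hδ0 : 0 ≤ δ := (norm_nonneg _).trans (hF.small 0 (by rwa [norm_zero]))
  have hKδ : K * δ ≤ 1 / 8 := h8 hKM hδ0 hδ
  set s := closedBall (0 : E) r
  have hmem : ∀ e ∈ s, ‖e‖ ≤ r := fun e he => by simpa [s] using he
  have q3 := (factor0_qlin hK hr hr1 hF hbB hKδ).mono hr le_rfl hd le_rfl
  have hQl := hF.Q.lbd hr hr1 zero_le_one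
  have hpow : ∀ {c : ℝ} {n : ℕ}, c ≤ 10 ^ 15 → n ≤ 12 → c * K ^ n ≤ M := fun hc hn => by
    rw [hM]
    exact mul_le_mul hc (pow_le_pow_right₀ hK hn) (by positivity) (by norm_num)
  obtain ⟨hS2, hN1, hN⟩ := lbd_slope_small (s := s) hK hd hQl (hF.B.lbd hr hr1 zero_le_one)
    (hF.D.lbd hr hr1 zero_le_one) (le_add_of_nonneg_right hed)
    (h8 (hpow (c := 256) (n := 2) (by norm_num) (by norm_num)) hd hRd)
  obtain ⟨hNC, hlt, hZ⟩ := lbd_buf_small (s := s) (rest := rest) hK hd hd1
    (hF.C.lbd hr hr1 zero_le_one) (fun e he => hF.small e (hmem e he)) hS2 hbQ hbB hbD hrB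
    (le_add_of_nonneg_left (norm_nonneg R)) hKδ
    (h8 (hpow (c := 10 ^ 8) (n := 8) (by norm_num) (by norm_num)) hd hRd)
  have hG : LBd s (M * d) fun e => (neumann ((corr e).B * R) - 1)
        * ((corr e).Q * neumann (buf.B * (corr e).C))
      + neumann ((corr e).B * R) * ((corr e).Q
        * ((neumann (loopErr (corr e) buf rest R) - 1) * neumann (buf.B * (corr e).slopeMap R)
          + neumann (buf.B * (corr e).slopeMap R) * (buf.B * ((corr e).D * R * (corr e).backMap R))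
            * neumann (buf.B * (corr e).C))) :=
    ((hN1.mul (hQl.mul hNC)).add (hN.mul (hQl.mul hZ))).mono (by
      have h4 : K ^ 4 * d ≤ K ^ 12 * d :=
        mul_le_mul_of_nonneg_right (pow_le_pow_right₀ hK (by norm_num)) hd
      have h11 : K ^ 11 * d ≤ K ^ 12 * d :=
        mul_le_mul_of_nonneg_right (pow_le_pow_right₀ hK (by norm_num)) hd
      have h12 : 0 ≤ K ^ 12 * d := by positivity
      rw [hM]
      linarith)
  have heq : ∀ e, ‖e‖ ≤ r → loopFactor (corr e) buf rest R = factor0 (corr e) buf + _ := fun e he =>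
    loopFactor_sub_eq (corr e) buf rest R (hlt e (by simpa [s] using he)).1
      (hlt e (by simpa [s] using he)).2
  have hall := q3.add_small hG hr le_rfl hd1 (zero_le_one.trans hM1)
  constructor
  · refine ⟨fun e he => ?_, hall.lin, fun e e' he he' => ?_⟩
    · rw [heq e he]; exact hall.bd e he
    · rw [heq e he, heq e' he']; exact hall.rem e e' he he'
  · rw [heq 0 (by rwa [norm_zero]), add_sub_cancel_left]
    exact (hG.1 0 (by simpa [s] using hr)).trans
      (mul_le_mul_of_nonneg_right (by linarith) hd)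

end

end Vale.Agent.P225.Loop
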