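import Vale.Agent.P225.Loop.InsSecond

/-!
P225, CorrResponse (helper2): entries of the first order of an insertion, and of an insertion
followed by waits.
-/

open Set

namespace Vale.Agent.P225

noncomputable section

/-- The deviation produced at the right end on level `g` by the profile of level `g'`. -/
def evKer (z : St → ℝ → ℝ) (c f : ℝ → ℝ) (a b : ℝ) (g g' : ℕ × ℕ) : ℝ :=
  kerW c (z (levRep g)) a 0 (fun r => f r * Real.exp (Ode.prim (z (levRep g')) b r)) b

namespace InsOp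

theorem firstKer_zero (z : St → ℝ → ℝ) (c : ℝ → ℝ) (a b : ℝ) (g g' : ℕ × ℕ) :
    firstKer z c (fun _ => 0) a b g g' = 0 := by
  simp [firstKer, kerY, kerW]

variable (O : InsOp) {a b k δ m : ℝ} {c : ℝ → ℝ} {z : St → ℝ → ℝ} {ρ : St → ℝ}
  (h : SlopeFam a b c z ρ k δ) (hm : 0 < m)
  (hz : ∀ g : ℕ × ℕ, g ≠ 0 → ∀ t ∈ Icc a b, m * muL g ≤ z (levRep g) t)

/-- The deviation at the right end generated by the unperturbed profiles. -/
theorem devPert_baseU (f₁ f₂ : ℝ → ℝ) (hf₁ : Continuous f₁) (hf₂ : Continuous f₂) (A : ℝ)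
    (hA : 0 ≤ A) (hb : ∀ t ∈ Icc a b, |f₁ t| ≤ A ∧ |f₂ t| ≤ A) (x : HLev 0) (g : ℕ × ℕ)
    (hf0 : ∀ r, f₂ r = 0) :
    (O.pert h hm hz f₁ f₂ hf₁ hf₂ A hA hb).devPert ((h.levBase hm hz).baseU x) g b
      = ∑ g' ∈ bandSet O.N g, evKer z c f₁ a b g g' • O.O₁ g g' (x g') := by
  set φ : (ℕ × ℕ) → ℝ → ℝ := fun g' r => f₁ r * Real.exp (Ode.prim (z (levRep g')) b r)
  have hφ : ∀ g', Continuous (φ g') := fun g' =>
    hf₁.mul (Real.continuous_exp.comp (Ode.continuous_prim (h.cont_z _) b))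
  have he : Continuous fun s => Real.exp (Ode.prim (fun r => c r + z (levRep g) r) a s) :=
    Real.continuous_exp.comp (Ode.continuous_prim (h.cont_c.add (h.cont_z _)) a)
  have hforce : ∀ r ∈ Icc a b,
      (O.pert h hm hz f₁ f₂ hf₁ hf₂ A hA hb).force ((h.levBase hm hz).baseU x) g r
        = ∑ g' ∈ bandSet O.N g, φ g' r • O.O₁ g g' (x g') := by
    intro r hr
    refine Finset.sum_congr rfl fun g' _ => ?_
    have e : PicardPert.ext ((h.levBase hm hz).baseU x) g' r
        = Real.exp (Ode.prim (z (levRep g')) b r) • x g' := by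
      refine (IccExtend_of_mem _ _ hr).trans ?_
      show (h.levBase hm hz).profU g' r • x g' = _
      rw [PicardBase.profU_eq]
      rfl
    show (f₁ r • O.O₁ g g' + f₂ r • O.O₂ g g') _ = _
    rw [e, hf0]
    simp only [_root_.add_apply, _root_.smul_apply, map_smul, φ, zero_smul, add_zero]
    module
  simp only [PicardPert.devPert, kerW, zero_add]
  show Real.exp (-Ode.prim (fun s => c s + z (levRep g) s) a b) • (∫ s in a..b, _) = _
  rw [intervalIntegral.integral_congr (g := fun s => ∑ g' ∈ bandSet O.N g,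
    ((Real.exp (Ode.prim (fun r => c r + z (levRep g) r) a s) * φ g' s) • O.O₁ g g' (x g')
      + (0 : ℝ) • O.O₁ g g' (x g'))) fun s hs => ?_,
    integral_sum_smul₂ _
      (φ := fun g' r => Real.exp (Ode.prim (fun r => c r + z (levRep g) r) a r) * φ g' r)
      (ψ := fun _ _ => (0 : ℝ))
      (fun g' => he.mul (hφ g')) (fun g' => continuous_const)
      (fun g' => O.O₁ g g' (x g')) fun g' => O.O₁ g g' (x g'), Finset.smul_sum]
  · refine Finset.sum_congr rfl fun g' _ => ?_
    simp only [intervalIntegral.integral_zero, zero_smul, add_zero, smul_smul, evKer, kerW,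
      zero_add, smul_eq_mul, φ]
  · rw [uIcc_of_le h.le] at hs
    show Real.exp (Ode.prim (fun r => c r + z (levRep g) r) a s) • _ = _
    rw [hforce s hs, Finset.smul_sum]
    exact Finset.sum_congr rfl fun g' _ => by rw [zero_smul, add_zero, smul_smul]

variable {κ L : ℝ} (hκ : 0 ≤ κ) (ha : 0 < a)

theorem insLin_apply (v : HSp) (i : St) :
    insLin O h hm hz (L := L) hκ ha v i = ∑ g' ∈ bandSet O.N (i.blk.level 0),
      firstKer z c (insF₁ κ 1 L a) a b (i.blk.level 0) g'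
        * O.O₁ (i.blk.level 0) g' (toLev 0 v g') ⟨i, rfl⟩ := by
  simp only [insLin, ContinuousLinearMap.comp_apply, ofLev_apply, step_baseU_left, firstKer_zero,
    zero_smul, add_zero, WithLp.ofLp_sum, Finset.sum_apply, PiLp.smul_apply, smul_eq_mul]

theorem insLinC_apply (v : HSp) (i : St) :
    insLinC O h hm hz (L := L) hκ ha v i = (i.blk.mu)⁻¹ * ∑ g' ∈ bandSet O.N (i.blk.level 0),
      evKer z c (insF₁ κ 1 L a) a b (i.blk.level 0) g'
        * O.O₁ (i.blk.level 0) g' (toLev 0 v g') ⟨i, rfl⟩ := by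
  have hμ := (muL_pos (i.blk.level 0)).ne'
  simp only [insLinC, ContinuousLinearMap.comp_apply, muRatioInv, diagOp_apply, ofLev_apply,
    PicardPert.evW_apply]
  have e := O.devPert_baseU h hm hz (insF₁ κ 1 L a) (fun _ => 0) (continuous_insF κ 1 L ha).1
    continuous_const 3 (by norm_num) (fun t _ =>
      ⟨by simpa using (abs_insF_le hκ (ε := 1) (L := L) (by simp) ha t).1, by simp⟩)
    (toLev 0 v) (i.blk.level 0) fun _ => rfl
  have e' := congrArg (fun w : LevSp 0 (i.blk.level 0) => w ⟨i, rfl⟩) e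
  simp only [WithLp.ofLp_sum, Finset.sum_apply, PiLp.smul_apply, smul_eq_mul] at e'
  show muL (i.blk.level 0) / i.blk.mu * ((muL (i.blk.level 0))⁻¹ • _ : LevSp 0 _) ⟨i, rfl⟩ = _
  rw [PiLp.smul_apply, smul_eq_mul]
  refine Eq.trans ?_ (congrArg (fun r => (i.blk.mu)⁻¹ * r) e')
  field_simp
  rfl

/-- The exact scalar of the first order of an insertion followed by waits with `Q = qW` and
`B = mu * β`. -/
def kapMod (z : St → ℝ → ℝ) (c f : ℝ → ℝ) (a b : ℝ) (β qW : ℕ × ℕ → ℝ) (g g' : ℕ × ℕ) : ℝ :=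
  (firstKer z c f a b g g' + Ode.coefQ (z (levRep g)) a b * β g * evKer z c f a b g g') * qW g'

/-- The first order of `Q` of insertion and waits. -/
theorem moduleLin_apply {Q₀ WQ WB : HSp →L[ℝ] HSp} {β qW : ℕ × ℕ → ℝ}
    (hQ₀ : ∀ x i, Q₀ x i = Ode.coefQ (z (levRep (i.blk.level 0))) a b * x i)
    (hWQ : ∀ x i, WQ x i = qW (i.blk.level 0) * x i)
    (hWB : ∀ x i, WB x i = i.blk.mu * β (i.blk.level 0) * x i) (v : HSp) (i : St) :
    (insLin O h hm hz (L := L) hκ ha + Q₀.comp (WB.comp (insLinC O h hm hz (L := L) hκ ha)))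
        (WQ v) i = ∑ g' ∈ bandSet O.N (i.blk.level 0),
      kapMod z c (insF₁ κ 1 L a) a b β qW (i.blk.level 0) g'
        * O.O₁ (i.blk.level 0) g' (toLev 0 v g') ⟨i, rfl⟩ := by
  have hμ : i.blk.mu ≠ 0 := (lt_of_lt_of_le one_pos (Blk.one_le_mu _)).ne'
  have hlev : ∀ g', toLev 0 (WQ v) g' = qW g' • toLev 0 v g' := fun g' => by
    ext k
    rw [toLev_apply, hWQ, PiLp.smul_apply, toLev_apply, smul_eq_mul, k.2]
  rw [_root_.add_apply, lp.coeFn_add, Pi.add_apply, ContinuousLinearMap.comp_apply,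
    ContinuousLinearMap.comp_apply, hQ₀, hWB, O.insLin_apply, O.insLinC_apply]
  simp only [hlev, map_smul, PiLp.smul_apply, smul_eq_mul]
  rw [show ∀ q m S : ℝ, q * (i.blk.mu * m * ((i.blk.mu)⁻¹ * S)) = q * m * S from
    fun q m S => by field_simp, Finset.mul_sum, ← Finset.sum_add_distrib]
  exact Finset.sum_congr rfl fun g' _ => by rw [kapMod]; ring

end InsOp

end

end Vale.Agent.P225
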