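import Vale.Agent.P225.Loop.LoopData

/-!
P225, module B (helper27): the segment of a piece depends on the amplitudes only through the one of
this piece, so the corrector sees its own amplitudes, the buffer none, the rest those of the control.
-/

namespace Vale.Agent.P225

open Set

noncomputable section

theorem isPieceSlope_amp {κ a y : ℝ} {P : Piece} {j : ℕ} {τ τ' : ℕ → ℝ} (h : P.amp τ = P.amp τ')
    (i : St) : IsPieceSlope κ P j τ a y i = IsPieceSlope κ P j τ' a y i := by
  have e : pieceLam κ P j τ a = pieceLam κ P j τ' a := by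
    rw [← pieceLam_amp κ P j τ a, ← pieceLam_amp κ P j τ' a, h]
  funext z
  refine propext ⟨fun hz => ⟨hz.cont, hz.start, hz.nonneg, fun t ht => ?_⟩,
    fun hz => ⟨hz.cont, hz.start, hz.nonneg, fun t ht => ?_⟩⟩
  · simpa only [e] using hz.ode t ht
  · simpa only [e] using hz.ode t ht

open Classical in
theorem pieceSlope_amp (κ : ℝ) (P : Piece) (j : ℕ) {τ τ' : ℕ → ℝ} (h : P.amp τ = P.amp τ')
    (a y : ℝ) (i : St) : pieceSlope κ P j τ a y i = pieceSlope κ P j τ' a y i :=
  congrArg (fun p : (ℝ → ℝ) → Prop => if hp : ∃ z, p z then Classical.choose hp else fun _ => 0)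
    (isPieceSlope_amp (κ := κ) (a := a) (y := y) (j := j) h i)

theorem Piece.segOf_amp (P : Piece) (κ C : ℝ) (Mo : PieceModel) (j : ℕ) {τ τ' : ℕ → ℝ}
    (h : P.amp τ = P.amp τ') (a : ℝ) (z : St → ℝ → ℝ) (ρ : St → ℝ) :
    P.segOf κ C Mo j τ a z ρ = P.segOf κ C Mo j τ' a z ρ := by
  cases P with
  | ins f k => simp only [Piece.segOf, show τ k = τ' k from h]
  | _ => rfl

theorem Sched.seg_amp (S : Sched) (κ C : ℝ) (Mo : PieceModel) {τ τ' : Params} {i m : ℕ}
    (h : ∀ hm : m < (S.prog (S.j0 + i)).length,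
      (S.prog (S.j0 + i))[m].amp (τ i) = (S.prog (S.j0 + i))[m].amp (τ' i)) :
    S.seg κ C Mo τ i m = S.seg κ C Mo τ' i m := by
  unfold Sched.seg
  split
  · next hm =>
    have e : S.slope κ τ i m = S.slope κ τ' i m := by
      funext k
      rw [Sched.slope, dif_pos hm, Sched.slope, dif_pos hm, pieceSlope_amp κ _ _ (h hm)]
    rw [e, Piece.segOf_amp _ κ C Mo _ (h hm)]
  · rfl

theorem segRange_congr {H : Type*} [NormedAddCommGroup H] [NormedSpace ℝ H] [CompleteSpace H]
    {S S' : ℕ → Seg H} : ∀ n i, (∀ m, i ≤ m → m < i + n → S m = S' m) →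
      segRange S i n = segRange S' i n
  | 0, _, _ => rfl
  | n + 1, i, h => by
      show (S i).comp (segRange S (i + 1) n) = (S' i).comp (segRange S' (i + 1) n)
      rw [h i le_rfl (by omega), segRange_congr n (i + 1) fun m h1 h2 => h m (by omega) (by omega)]

theorem slopes_congr {H : Type*} [NormedAddCommGroup H] [NormedSpace ℝ H]
    {S S' : ℕ → Seg H} (R : H →L[ℝ] H) : ∀ n, (∀ m < n, S m = S' m) →
      slopes S R n = slopes S' R n
  | 0, _ => rfl
  | n + 1, h => by
      show (S n).slopeMap (slopes S R n) = (S' n).slopeMap (slopes S' R n)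
      rw [h n (by omega), slopes_congr R n fun m hm => h m (by omega)]

theorem backChain_congr {H : Type*} [NormedAddCommGroup H] [NormedSpace ℝ H]
    {S S' : ℕ → Seg H} (R : H →L[ℝ] H) : ∀ n i, (∀ m < i + n, S m = S' m) →
      backChain S R i n = backChain S' R i n
  | 0, _, _ => rfl
  | n + 1, i, h => by
      show ((S i).backMap (slopes S R i)).comp (backChain S R (i + 1) n) = _
      rw [h i (by omega), slopes_congr R i fun m hm => h m (by omega),
        backChain_congr R n (i + 1) fun m hm => h m (by omega)]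
      rfl

namespace LoopSpec

variable (W : LoopSpec) (κ C : ℝ) (Mo : PieceModel) (j0 : ℕ) (t0 : ℝ) (ht : 1 ≤ t0)
  {τ τ' : Params} {i : ℕ}

/-- A segment depends only on the amplitude of its piece. -/
theorem segs_amp {m : ℕ} (h : ∀ hm : m < (W.prog (j0 + i)).length,
      (W.prog (j0 + i))[m].amp (τ i) = (W.prog (j0 + i))[m].amp (τ' i)) :
    W.segs κ C Mo j0 t0 ht τ i m = W.segs κ C Mo j0 t0 ht τ' i m :=
  (W.sched j0 t0 ht).seg_amp κ C Mo h

/-- The segments agree outside the corrector and the control. -/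
theorem segs_congr {m : ℕ}
    (hc : m < (W.corr (j0 + i)).length → ∀ P ∈ W.corr (j0 + i), P.amp (τ i) = P.amp (τ' i))
    (hd : (W.corr (j0 + i)).length + 2 ≤ m →
      m < (W.corr (j0 + i)).length + (W.ctrl (j0 + i)).length + 2 →
      ∀ P ∈ W.ctrl (j0 + i), P.amp (τ i) = P.amp (τ' i)) :
    W.segs κ C Mo j0 t0 ht τ i m = W.segs κ C Mo j0 t0 ht τ' i m := by
  refine W.segs_amp κ C Mo j0 t0 ht fun hm => ?_
  rcases W.prog_getElem (j0 + i) m hm with
    ⟨h, e⟩ | ⟨-, e⟩ | ⟨-, e⟩ | ⟨h, h', e⟩ | ⟨-, e⟩ | ⟨-, e⟩ <;> rw [e]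
  · exact hc h _ (List.getElem_mem h)
  iterate 2 rfl
  · exact hd h' (by omega) _ (List.getElem_mem h)
  all_goals rfl

/-- The corrector depends only on its own amplitudes. -/
theorem corrSeg_congr (h : ∀ P ∈ W.corr (j0 + i), P.amp (τ i) = P.amp (τ' i)) :
    W.corrSeg κ C Mo j0 t0 ht τ i = W.corrSeg κ C Mo j0 t0 ht τ' i :=
  segRange_congr _ 0 fun _ _ hm =>
    W.segs_congr κ C Mo j0 t0 ht (fun _ => h) fun h' => absurd hm (by omega)

theorem slopes_corr_congr (R : HSp →L[ℝ] HSp)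
    (h : ∀ P ∈ W.corr (j0 + i), P.amp (τ i) = P.amp (τ' i)) {n : ℕ}
    (hn : n ≤ (W.corr (j0 + i)).length + 2) :
    slopes (W.segs κ C Mo j0 t0 ht τ i) R n = slopes (W.segs κ C Mo j0 t0 ht τ' i) R n :=
  slopes_congr R n fun _ hm =>
    W.segs_congr κ C Mo j0 t0 ht (fun _ => h) fun h' => absurd hm (by omega)

/-- The buffer depends on no amplitude. -/
theorem bufSeg_congr (τ τ' : Params) (i : ℕ) :
    W.bufSeg κ C Mo j0 t0 ht τ i = W.bufSeg κ C Mo j0 t0 ht τ' i :=
  W.segs_congr κ C Mo j0 t0 ht (fun h => absurd h (lt_irrefl _)) fun h => absurd h (by omega)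

/-- The rest depends only on the amplitudes of the control. -/
theorem restSeg_congr (h : ∀ P ∈ W.ctrl (j0 + i), P.amp (τ i) = P.amp (τ' i)) :
    W.restSeg κ C Mo j0 t0 ht τ i = W.restSeg κ C Mo j0 t0 ht τ' i := by
  have key : ∀ m, (W.corr (j0 + i)).length < m →
      W.segs κ C Mo j0 t0 ht τ i m = W.segs κ C Mo j0 t0 ht τ' i m := fun m hm =>
    W.segs_congr κ C Mo j0 t0 ht (fun h' => absurd h' (by omega)) fun _ _ => h
  unfold restSeg
  rw [key _ (by omega), segRange_congr _ _ fun m h1 _ => key m (by omega),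
    segRange_congr 2 _ fun m h1 _ => key m (by omega)]

/-- The loop depends only on the amplitudes of its corrector and its control. -/
theorem loop_congr (R : HSp →L[ℝ] HSp)
    (hc : ∀ P ∈ W.corr (j0 + i), P.amp (τ i) = P.amp (τ' i))
    (hd : ∀ P ∈ W.ctrl (j0 + i), P.amp (τ i) = P.amp (τ' i)) :
    W.segs κ C Mo j0 t0 ht τ i = W.segs κ C Mo j0 t0 ht τ' i ∧
      backChain (W.segs κ C Mo j0 t0 ht τ i) R 0 (W.prog (j0 + i)).length
        = backChain (W.segs κ C Mo j0 t0 ht τ' i) R 0 (W.prog (j0 + i)).length ∧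
      slopes (W.segs κ C Mo j0 t0 ht τ i) R (W.prog (j0 + i)).length
        = slopes (W.segs κ C Mo j0 t0 ht τ' i) R (W.prog (j0 + i)).length := by
  have e : W.segs κ C Mo j0 t0 ht τ i = W.segs κ C Mo j0 t0 ht τ' i :=
    funext fun _ => W.segs_congr κ C Mo j0 t0 ht (fun _ => hc) fun _ _ => hd
  exact ⟨e, by rw [e], by rw [e]⟩

/-- The slope at loop `i` depends only on the loops before it. -/
theorem slopeR_congr (R₀ : HSp →L[ℝ] HSp) : ∀ i,
    (∀ k < i, ∀ P ∈ W.corr (j0 + k) ++ W.ctrl (j0 + k), P.amp (τ k) = P.amp (τ' k)) →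
      W.slopeR κ C Mo j0 t0 ht τ R₀ i = W.slopeR κ C Mo j0 t0 ht τ' R₀ i
  | 0, _ => rfl
  | i + 1, h => by
      show slopes _ (W.slopeR κ C Mo j0 t0 ht τ R₀ i) _
        = slopes _ (W.slopeR κ C Mo j0 t0 ht τ' R₀ i) _
      rw [slopeR_congr R₀ i fun k hk => h k (by omega)]
      exact (W.loop_congr κ C Mo j0 t0 ht _ (fun P hP => h i (by omega) P (by simp [hP]))
        fun P hP => h i (by omega) P (by simp [hP])).2.2

/-- The backward map of loop `i` depends only on the loops up to it. -/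
theorem loopBack_congr (R₀ : HSp →L[ℝ] HSp) (i : ℕ)
    (h : ∀ k ≤ i, ∀ P ∈ W.corr (j0 + k) ++ W.ctrl (j0 + k), P.amp (τ k) = P.amp (τ' k)) :
    W.loopBack κ C Mo j0 t0 ht τ R₀ i = W.loopBack κ C Mo j0 t0 ht τ' R₀ i := by
  unfold loopBack
  rw [W.slopeR_congr κ C Mo j0 t0 ht R₀ i fun k hk => h k hk.le]
  exact (W.loop_congr κ C Mo j0 t0 ht _ (fun P hP => h i le_rfl P (by simp [hP]))
    fun P hP => h i le_rfl P (by simp [hP])).2.1

end LoopSpec

end

end Vale.Agent.P225
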