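import Vale.Agent.P225.Seg.RangeTools
import Vale.Agent.P225.Seg.SecLine
import Vale.Agent.P225.Loop.InsKap
import Vale.Agent.P225.Loop.SegAmp

/-!
P225, CorrResponse (helper2): the segments of a loop as families in the amplitudes of the insertions
of its corrector.
-/

open Set

namespace Vale.Agent.P225

noncomputable section

theorem Sched.slope_not_exc (S : Sched) (κ : ℝ) {τ τ' : Params} {i m : ℕ}
    (he : ∀ hm : m < (S.prog (S.j0 + i)).length, (S.prog (S.j0 + i))[m].isExc = false) :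
    S.slope κ τ i m = S.slope κ τ' i m := by
  funext k
  simp only [Sched.slope]
  split
  · next hm =>
    have e : pieceLam κ (S.prog (S.j0 + i))[m] (S.j0 + i) (τ i) (S.pieceStart i m)
        = pieceLam κ (S.prog (S.j0 + i))[m] (S.j0 + i) (τ' i) (S.pieceStart i m) :=
      pieceLam_not_exc (he hm) κ _ _ _ _
    have e2 : IsPieceSlope κ (S.prog (S.j0 + i))[m] (S.j0 + i) (τ i) (S.pieceStart i m)
          (S.startRef κ i m k) k
        = IsPieceSlope κ (S.prog (S.j0 + i))[m] (S.j0 + i) (τ' i) (S.pieceStart i m)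
          (S.startRef κ i m k) k := by
      funext z
      exact propext ⟨fun hz => ⟨hz.cont, hz.start, hz.nonneg, fun t ht => by rw [← e]; exact hz.ode t ht⟩,
        fun hz => ⟨hz.cont, hz.start, hz.nonneg, fun t ht => by rw [e]; exact hz.ode t ht⟩⟩
    classical
    exact congrArg (fun p : (ℝ → ℝ) → Prop =>
      if hp : ∃ z, p z then Classical.choose hp else fun _ => 0) e2
  · rfl

/-- Second order constant of an insertion. -/
def insSecK (Ks C : ℝ) : ℝ :=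
  let K := 8 * (3 * Ks) + 200 * (3 * Ks) ^ 2 + 2
  K + 2 * (K * 10) + (8 * C + 14 * (2 * (3 * Ks)) * K) + 2 * (1 + 14 * (2 * (3 * Ks)) * (K * 10))

theorem one_le_insSecK {Ks C : ℝ} (hKs : 0 ≤ Ks) (hC : 0 ≤ C) : 1 ≤ insSecK Ks C := by
  simp only [insSecK]
  nlinarith [sq_nonneg Ks]

namespace LoopSpec

variable {W : LoopSpec} {P0 : ℕ} {κ C K ε r : ℝ} {Mo : PieceModel} {j0 : ℕ} {t0 : ℝ} {ht : 1 ≤ t0}
  {X : Type*} [NormedAddCommGroup X] [NormedSpace ℝ X] {τf : X → Params} {i m : ℕ}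

/-- One insertion of the corrector as a family in the amplitudes. -/
theorem ins_secOrd (hκ : 0 ≤ κ) (hC : 0 ≤ C) (hr : r ≤ 1) (hr0 : 0 ≤ r)
    (hs : 6 * Mo.Ks * r ≤ 1 / 2) (hm : m < (W.prog (j0 + i)).length) {f k : ℕ}
    (hP : (W.prog (j0 + i))[m] = Piece.ins f k) (φ : X →L[ℝ] ℝ) (hφ : ‖φ‖ ≤ 1)
    (hτ : ∀ p, ‖p‖ ≤ r → τf p i k = φ p)
    (hg : ∀ p, ‖p‖ ≤ r → (W.sched j0 t0 ht).SegGood κ C K ε Mo (τf p) (W.corr (j0 + i)).length i m
      ((W.prog (j0 + i))[m]))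
    (h0 : InsReady κ (τf 0 i k) ((((j0 + i : ℕ) : ℝ) + 1) ^ 5) ((W.sched j0 t0 ht).pieceStart i m)
      ((W.sched j0 t0 ht).pieceStart i m + (((j0 + i : ℕ) : ℝ) + 1) ^ 5)
      (cPiece κ ((W.sched j0 t0 ht).pieceStart i m)) ((W.sched j0 t0 ht).slope κ (τf 0) i m)
      ((W.sched j0 t0 ht).endRef κ i m) (4 * C / (((j0 + i : ℕ) : ℝ) + 1) ^ 5))
    (ha : 0 < (W.sched j0 t0 ht).pieceStart i m) :
    SegSec r (insSecK Mo.Ks C) (fun p => W.segs κ C Mo j0 t0 ht (τf p) i m) ∧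
    SecOrd r (insSecK Mo.Ks C) (fun p => (W.segs κ C Mo j0 t0 ht (τf p) i m).Q)
      (φ.smulRight (insLin (Mo.ins f) h0.fam (by norm_num : (0 : ℝ) < 1 / 16) h0.low
        (L := (((j0 + i : ℕ) : ℝ) + 1) ^ 5) hκ ha)) ∧
    SecOrd r (insSecK Mo.Ks C) (fun p => (W.segs κ C Mo j0 t0 ht (τf p) i m).C)
      (φ.smulRight (insLinC (Mo.ins f) h0.fam (by norm_num : (0 : ℝ) < 1 / 16) h0.low
        (L := (((j0 + i : ℕ) : ℝ) + 1) ^ 5) hκ ha)) := by
  set S := W.sched j0 t0 ht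
  set b := ((j0 + i : ℕ) : ℝ) + 1
  have hb1 : 1 ≤ b ^ 5 := one_le_pow₀ (le_add_of_nonneg_left (Nat.cast_nonneg _))
  have he : ∀ h : m < (S.prog (S.j0 + i)).length, (S.prog (S.j0 + i))[m].isExc = false := fun h => by
    exact (congrArg Piece.isExc hP).trans rfl
  have hlen : (Piece.ins f k).len (S.j0 + i) = b ^ 5 := rfl
  obtain ⟨LB, LD, hQ, hB, hCo, hD⟩ := (Mo.ins f).segH_secOrd h0.fam
    (by norm_num : (0 : ℝ) < 1 / 16) h0.low (κ := κ) (L := b ^ 5) hκ ha (Mo.size_le f) φ hφ hr hr0 hs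
  have heq : ∀ p, ‖p‖ ≤ r → W.segs κ C Mo j0 t0 ht (τf p) i m
      = (Mo.ins f).segH h0.fam (by norm_num : (0 : ℝ) < 1 / 16) h0.low
          (insF₁ κ (φ p) (b ^ 5) (S.pieceStart i m)) (insF₂ κ (φ p) (b ^ 5) (S.pieceStart i m))
          (continuous_insF κ (φ p) _ ha).1 (continuous_insF κ (φ p) _ ha).2
          (3 * (|φ p| + φ p ^ 2)) (by positivity) (fun t _ => InsOp.abs_insF_le_sq hκ ha t) := by
    intro p hp
    obtain ⟨hr', hseg, -⟩ := (hg p hp).ins f k hP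
    show S.seg κ C Mo (τf p) i m = _
    rw [hseg]
    have e : insSegOf (Mo.ins f) κ (τf p i k) (((W.prog (j0 + i))[m]).len (S.j0 + i)) (S.pieceStart i m)
          (S.pieceStart i m + ((W.prog (j0 + i))[m]).len (S.j0 + i)) (cPiece κ (S.pieceStart i m))
          (S.slope κ (τf p) i m) (S.endRef κ i m) (4 * C / b ^ 5)
        = insSegOf (Mo.ins f) κ (φ p) (b ^ 5) (S.pieceStart i m) (S.pieceStart i m + b ^ 5)
          (cPiece κ (S.pieceStart i m)) (S.slope κ (τf 0) i m) (S.endRef κ i m) (4 * C / b ^ 5) := by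
      rw [hτ p hp, hP, hlen, S.slope_not_exc κ (τ' := τf 0) he]
    rw [hP, hlen, hτ p hp, S.slope_not_exc κ (τ' := τf 0) he] at hr'
    exact e.trans ((insSegOf_eq _ hr').trans (InsOp.segH_bound _ _ _ _ _ _ _ _ _ _ _ _ _ _))
  have hδ : 4 * C / b ^ 5 ≤ 4 * C := div_le_self (by positivity) hb1
  have hKs := Mo.Ks_nonneg
  set Kq := 8 * (3 * Mo.Ks) + 200 * (3 * Mo.Ks) ^ 2 + 2
  have hKq : 2 ≤ Kq := by nlinarith [sq_nonneg Mo.Ks]
  have hins : insSecK Mo.Ks C = Kq + 2 * (Kq * 10) + (8 * C + 14 * (2 * (3 * Mo.Ks)) * Kq)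
      + 2 * (1 + 14 * (2 * (3 * Mo.Ks)) * (Kq * 10)) := rfl
  have h140 : 0 ≤ 14 * (2 * (3 * Mo.Ks)) * Kq := by positivity
  have h1 := (hQ.congr (g := fun p => (W.segs κ C Mo j0 t0 ht (τf p) i m).Q)
    fun p hp => by rw [heq p hp]).mono (K' := insSecK Mo.Ks C) (by rw [hins]; linarith)
  have h3 := (hCo.congr (g := fun p => (W.segs κ C Mo j0 t0 ht (τf p) i m).C)
    fun p hp => by rw [heq p hp]).mono (K' := insSecK Mo.Ks C) (by rw [hins]; linarith)
  refine ⟨⟨⟨_, h1⟩, ⟨LB, (hB.congr fun p hp => by rw [heq p hp]).mono ?_⟩, ⟨_, h3⟩,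
    ⟨LD, (hD.congr fun p hp => by rw [heq p hp]).mono ?_⟩⟩, h1, h3⟩
  · rw [hins, show (1 : ℝ) / (1 / 10) = 10 by norm_num]; linarith
  · rw [hins, show (1 : ℝ) / (1 / 10) = 10 by norm_num]; linarith

end LoopSpec

/-- Ranges of a family of segments are families of second order. -/
theorem segRange_secSeg_of {X H : Type*} [NormedAddCommGroup X] [NormedSpace ℝ X]
    [NormedAddCommGroup H] [NormedSpace ℝ H] [CompleteSpace H] {S : X → ℕ → Seg H} {r K K' δ : ℝ}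
    {N : ℕ} (hr : r ≤ 1) (hr0 : 0 ≤ r) (hKδ : K' * δ ≤ 1 / 4)
    (hb : ∀ p, ‖p‖ ≤ r → RangesBd (S p) N K' δ) (hS : ∀ q < N, SegSec r K fun p => S p q) {l n : ℕ}
    (hn : l + n ≤ N) : SegSec r (chainK K N) fun p => segRange (S p) l n := by
  refine (segRange_secSeg hr hr0 n l (fun q _ h2 => hS q (by omega)) fun p hp q h1 h2 => ?_).mono
    (chainK_mono K (by omega))
  have hq := segRange_one (S p) q ▸ hb p hp q 1 (by omega)
  have hT := hb p hp (q + 1) (l + n - (q + 1)) (by omega)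
  exact (ContinuousLinearMap.opNorm_comp_le _ _).trans
    ((mul_le_mul hT.B hq.C (norm_nonneg _) ((norm_nonneg _).trans hT.B)).trans (by linarith))

end

end Vale.Agent.P225
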