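import Vale.Agent.P225.Loop.Program

/-!
P225 corrector (helper8): the list of pieces of one corrector and the indices of its amplitudes.

The corrector is a first wait and `R * (n + 1)` steps.  Step `r * (n + 1) + l` first has, for `l ≠ 0`,
the insertion number `l - 1` of slot `r` and `nW + 1` waits, then a word of excursions, then `nW + 1`
waits, and `N0` more if it closes the slot.  The amplitude of the insertion of step `i` has the index
`pair i 0`, that of excursion `k` of its word `pair i (k + 1)`, both below `CorrPlan.off`; the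
indices from there on are free for the control.
-/

namespace Vale.Agent.P225.Loop

noncomputable section

/-- The steps of a corrector, apart from the spacing of the slots. -/
structure CorrPlan (R n : ℕ) where
  m : ℕ → ℕ
  e : ∀ i, Fin (m i) → ℕ
  f : Fin n → ℕ

/-- Index of the amplitude of the insertion of step `i`. -/
def insIdx (i : ℕ) : ℕ := Nat.pair i 0

/-- Index of the amplitude of excursion `k` of step `i`. -/
def excIdx (i k : ℕ) : ℕ := Nat.pair i (k + 1)

namespace CorrPlan

variable {R n : ℕ} (P : CorrPlan R n)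

/-- The pieces before the word of step `i`. -/
def pre (nW i : ℕ) : List Piece :=
  if h : i % (n + 1) = 0 then []
  else Piece.ins (P.f ⟨i % (n + 1) - 1, by have := Nat.mod_lt i (show n + 1 > 0 from Nat.succ_pos n); omega⟩) (insIdx i)
    :: List.replicate (nW + 1) (Piece.wait 0 5)

/-- The word of step `i`. -/
def word (i : ℕ) : List Piece := List.ofFn fun k : Fin (P.m i) => Piece.exc 0 (P.e i k) (excIdx i k)

/-- The waits after the word of step `i`. -/
def post (_P : CorrPlan R n) (nW N0 i : ℕ) : List Piece :=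
  List.replicate (if i % (n + 1) = n then N0 + (nW + 1) else nW + 1) (Piece.wait 0 5)

/-- The first `i` steps. -/
def upTo (nW N0 : ℕ) : ℕ → List Piece
  | 0 => [Piece.wait 0 5]
  | i + 1 => upTo nW N0 i ++ (P.pre nW i ++ P.word i ++ P.post nW N0 i)

/-- The corrector. -/
def list (nW N0 : ℕ) : List Piece := P.upTo nW N0 (R * (n + 1))

/-- The position of the first piece of step `i`. -/
def pos (nW N0 i : ℕ) : ℕ := (P.upTo nW N0 i).length

/-- The step of insertion `l` of slot `r`. -/
def slotStep (x : Fin R × Fin n) : ℕ := x.1.1 * (n + 1) + x.2.1 + 1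

theorem slotStep_mod (x : Fin R × Fin n) : slotStep x % (n + 1) = x.2.1 + 1 := by
  rw [slotStep, Nat.add_assoc, Nat.mul_comm, Nat.mul_add_mod]
  exact Nat.mod_eq_of_lt (by omega)

theorem slotStep_div (x : Fin R × Fin n) : slotStep x / (n + 1) = x.1.1 := by
  rw [slotStep, Nat.add_assoc, Nat.mul_comm, Nat.mul_add_div (show n + 1 > 0 from Nat.succ_pos n)]
  rw [Nat.div_eq_of_lt (show x.2.1 + 1 < n + 1 by omega), Nat.add_zero]

theorem slotStep_lt (x : Fin R × Fin n) : slotStep x < R * (n + 1) := by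
  have h1 : x.1.1 * (n + 1) + (n + 1) ≤ R * (n + 1) := by
    have := Nat.mul_le_mul_right (n + 1) (Nat.succ_le_of_lt x.1.2)
    rwa [Nat.succ_mul] at this
  have := x.2.2
  rw [slotStep]
  omega

theorem pre_slotStep (nW : ℕ) (x : Fin R × Fin n) :
    P.pre nW (slotStep x) = Piece.ins (P.f x.2) (insIdx (slotStep x)) :: List.replicate (nW + 1) (Piece.wait 0 5) := by
  rw [pre, dif_neg (by rw [slotStep_mod]; omega)]
  have e : (⟨slotStep x % (n + 1) - 1, by have := Nat.mod_lt (slotStep x) (show n + 1 > 0 from Nat.succ_pos n); have := x.2.2; omega⟩ : Fin n) = x.2 :=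
    Fin.ext (by simp [slotStep_mod])
  rw [e]

theorem length_pre (nW i : ℕ) :
    (P.pre nW i).length = if i % (n + 1) = 0 then 0 else nW + 2 := by
  unfold pre
  split_ifs <;> simp

theorem length_word (i : ℕ) : (P.word i).length = P.m i := List.length_ofFn

theorem length_post (nW N0 i : ℕ) :
    (P.post nW N0 i).length = if i % (n + 1) = n then N0 + (nW + 1) else nW + 1 :=
  List.length_replicate

theorem pos_succ (nW N0 i : ℕ) :
    P.pos nW N0 (i + 1) = P.pos nW N0 i + ((P.pre nW i).length + P.m i + (P.post nW N0 i).length) := by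
  simp [pos, upTo, length_word, Nat.add_assoc]

theorem upTo_prefix (nW N0 : ℕ) {i k : ℕ} (h : i ≤ k) : P.upTo nW N0 i <+: P.upTo nW N0 k := by
  induction h with
  | refl => exact List.prefix_refl _
  | step _ ih => exact ih.trans (List.prefix_append _ _)

theorem pos_le_length (nW N0 : ℕ) {i : ℕ} (h : i ≤ R * (n + 1)) : P.pos nW N0 i ≤ (P.list nW N0).length :=
  (P.upTo_prefix nW N0 h).length_le

/-- The piece at a position of step `i`. -/
theorem list_getElem (nW N0 : ℕ) {i : ℕ} (hi : i < R * (n + 1)) {k : ℕ}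
    (hk : k < (P.pre nW i ++ P.word i ++ P.post nW N0 i).length) :
    ∃ h : P.pos nW N0 i + k < (P.list nW N0).length,
      (P.list nW N0)[P.pos nW N0 i + k] = (P.pre nW i ++ P.word i ++ P.post nW N0 i)[k] := by
  have hp : P.upTo nW N0 (i + 1) <+: P.list nW N0 := P.upTo_prefix nW N0 hi
  have hl : P.pos nW N0 i + k < (P.upTo nW N0 (i + 1)).length := by
    simp only [upTo, List.length_append, pos] at hk ⊢
    omega
  refine ⟨hl.trans_le hp.length_le, ?_⟩
  rw [← hp.getElem hl]
  simp [upTo, pos, List.getElem_append_right]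

/-- The position of insertion `x`. -/
def insPos (nW N0 : ℕ) (x : Fin R × Fin n) : ℕ := P.pos nW N0 (slotStep x)

theorem getElem_ins (nW N0 : ℕ) (x : Fin R × Fin n) :
    ∃ h : P.insPos nW N0 x < (P.list nW N0).length,
      (P.list nW N0)[P.insPos nW N0 x] = Piece.ins (P.f x.2) (insIdx (slotStep x)) := by
  obtain ⟨h, e⟩ := P.list_getElem nW N0 (slotStep_lt x) (k := 0)
    (by simp [pre_slotStep])
  exact ⟨h, e.trans (by simp [pre_slotStep])⟩

/-- An insertion lies between waits. -/
theorem getElem_pad (nW N0 : ℕ) (x : Fin R × Fin n) {m : ℕ} (h1 : P.insPos nW N0 x ≤ m + (nW + 1))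
    (h2 : m ≤ P.insPos nW N0 x + (nW + 1)) (hne : m ≠ P.insPos nW N0 x) :
    ∃ h : m < (P.list nW N0).length, (P.list nW N0)[m] = Piece.wait 0 5 := by
  unfold insPos at h1 h2 hne
  rcases Nat.lt_or_gt_of_ne hne with h | h
  · obtain ⟨i, hi⟩ : ∃ i, slotStep x = i + 1 := ⟨x.1.1 * (n + 1) + x.2.1, rfl⟩
    have hmod : i % (n + 1) ≠ n := by
      have e : i = x.1.1 * (n + 1) + x.2.1 := by rw [slotStep] at hi; omega
      rw [e, Nat.mul_comm, Nat.mul_add_mod, Nat.mod_eq_of_lt (by omega)]
      exact x.2.2.ne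
    rw [hi] at h1 h
    rw [pos_succ, length_post, if_neg hmod] at h1 h
    have hlen : (P.pre nW i ++ P.word i ++ P.post nW N0 i).length
        = (P.pre nW i).length + P.m i + (nW + 1) := by
      simp [length_word, length_post, hmod]; omega
    obtain ⟨k, rfl⟩ : ∃ k, m = P.pos nW N0 i + k :=
      ⟨m - P.pos nW N0 i, (Nat.add_sub_cancel' (by omega)).symm⟩
    obtain ⟨hk, e⟩ := P.list_getElem nW N0 (i := i) (k := k)
      (by have := slotStep_lt x; omega) (by omega)
    refine ⟨hk, e.trans ?_⟩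
    rw [List.getElem_append_right (by simp [length_word]; omega)]
    simp [post]
  · obtain ⟨k, rfl⟩ : ∃ k, m = P.pos nW N0 (slotStep x) + k :=
      ⟨m - P.pos nW N0 (slotStep x), (Nat.add_sub_cancel' (by omega)).symm⟩
    obtain ⟨k, rfl⟩ : ∃ k', k = k' + 1 := ⟨k - 1, by omega⟩
    obtain ⟨hk, e⟩ := P.list_getElem nW N0 (slotStep_lt x) (k := k + 1)
      (by simp [pre_slotStep]; omega)
    refine ⟨hk, e.trans ?_⟩
    simp only [pre_slotStep, List.cons_append, List.getElem_cons_succ]
    rw [List.getElem_append_left (by simp; omega), List.getElem_append_left (by simp; omega)]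
    simp

theorem pos_strictMono (nW N0 : ℕ) : StrictMono (P.pos nW N0) := by
  refine strictMono_nat_of_lt_succ fun i => ?_
  rw [pos_succ, length_post]
  split_ifs <;> omega

theorem insPos_injective (nW N0 : ℕ) : Function.Injective (P.insPos nW N0) := by
  intro x y h
  have e : slotStep x = slotStep y := (P.pos_strictMono nW N0).injective h
  have e1 : slotStep x / (n + 1) = slotStep y / (n + 1) := by rw [e]
  have e2 : slotStep x % (n + 1) = slotStep y % (n + 1) := by rw [e]
  rw [slotStep_div, slotStep_div] at e1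
  rw [slotStep_mod, slotStep_mod] at e2
  exact Prod.ext (Fin.ext e1) (Fin.ext (by omega))

theorem isCorr {nW N0 : ℕ} : ∀ Q ∈ P.list nW N0, Q.IsCorr := by
  intro Q
  unfold list
  induction R * (n + 1) with
  | zero =>
    intro h
    obtain rfl : Q = Piece.wait 0 5 := List.mem_singleton.1 h
    exact ⟨rfl, rfl⟩
  | succ i ih =>
    intro h
    simp only [upTo, List.mem_append] at h
    rcases h with h | (h | h) | h
    · exact ih h
    · unfold pre at h
      split_ifs at h with h0
      · simp at h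
      · rcases List.mem_cons.1 h with rfl | h
        · exact trivial
        · obtain rfl := List.eq_of_mem_replicate h
          exact ⟨rfl, rfl⟩
    · obtain ⟨k, rfl⟩ := List.mem_ofFn.1 h
      exact rfl
    · obtain rfl := List.eq_of_mem_replicate h
      exact ⟨rfl, rfl⟩

theorem head? (nW N0 : ℕ) : (P.list nW N0).head? = some (Piece.wait 0 5) := by
  obtain ⟨t, ht⟩ := P.upTo_prefix nW N0 (Nat.zero_le (R * (n + 1)))
  rw [list, ← ht]
  rfl

/-- A bound of the indices of the corrector. -/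
def off : ℕ := (R * (n + 1) + (Finset.range (R * (n + 1))).sup P.m + 1) ^ 2

theorem pair_lt_off {i k : ℕ} (hi : i < R * (n + 1)) (hk : k ≤ P.m i) : Nat.pair i k < P.off := by
  refine (Nat.pair_lt_max_add_one_sq i k).trans_le ?_
  have := Finset.le_sup (f := P.m) (Finset.mem_range.2 hi)
  refine Nat.pow_le_pow_left ?_ 2
  omega

/-- The indices of the pieces of the corrector are below `off`; the insertions are of the list. -/
theorem idx_lt_off {nW N0 : ℕ} : ∀ Q ∈ P.list nW N0,
    (∀ J g k, Q = Piece.exc J g k → k < P.off) ∧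
      ∀ g k, Q = Piece.ins g k → k < P.off ∧ ∃ l, g = P.f l := by
  intro Q
  unfold list
  suffices h : ∀ i ≤ R * (n + 1), Q ∈ P.upTo nW N0 i → (∀ J g k, Q = Piece.exc J g k → k < P.off) ∧
      ∀ g k, Q = Piece.ins g k → k < P.off ∧ ∃ l, g = P.f l from h _ le_rfl
  intro i
  induction i with
  | zero =>
    intro _ h
    obtain rfl : Q = Piece.wait 0 5 := List.mem_singleton.1 h
    simp
  | succ i ih =>
    intro hi h
    simp only [upTo, List.mem_append] at h
    rcases h with h | (h | h) | h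
    · exact ih (Nat.le_of_succ_le hi) h
    · unfold pre at h
      split_ifs at h with h0
      · simp at h
      · rcases List.mem_cons.1 h with rfl | h
        · refine ⟨by simp, fun g k e => ?_⟩
          obtain ⟨rfl, rfl⟩ := Piece.ins.inj e
          exact ⟨P.pair_lt_off hi (Nat.zero_le _), _, rfl⟩
        · obtain rfl := List.eq_of_mem_replicate h
          simp
    · obtain ⟨k, rfl⟩ := List.mem_ofFn.1 h
      refine ⟨fun J g x e => ?_, by simp⟩
      obtain ⟨-, -, rfl⟩ := Piece.exc.inj e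
      exact P.pair_lt_off hi k.2
    · obtain rfl := List.eq_of_mem_replicate h
      simp

/-- The amplitudes: `ε` at the insertions, `θ` at the excursions, `φ` from `off` on. -/
def amps (θ : ∀ i, Fin (P.m i) → ℝ) (ε : Fin R × Fin n → ℝ) (φ : ℕ → ℝ) (x : ℕ) : ℝ :=
  if P.off ≤ x then φ x
  else
    let p := Nat.unpair x
    if p.2 = 0 then
      if h : p.1 / (n + 1) < R ∧ p.1 % (n + 1) ≠ 0 then
        ε (⟨p.1 / (n + 1), h.1⟩, ⟨p.1 % (n + 1) - 1, by
          have := Nat.mod_lt p.1 (show n + 1 > 0 from Nat.succ_pos n); omega⟩)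
      else 0
    else if h : p.2 - 1 < P.m p.1 then θ p.1 ⟨p.2 - 1, h⟩ else 0

theorem amps_off (θ : ∀ i, Fin (P.m i) → ℝ) (ε : Fin R × Fin n → ℝ) (φ : ℕ → ℝ) {x : ℕ}
    (h : P.off ≤ x) : P.amps θ ε φ x = φ x := if_pos h

theorem amps_exc (θ : ∀ i, Fin (P.m i) → ℝ) (ε : Fin R × Fin n → ℝ) (φ : ℕ → ℝ) {i : ℕ}
    (hi : i < R * (n + 1)) (k : Fin (P.m i)) : P.amps θ ε φ (excIdx i k) = θ i k := by
  have h2 : ∀ {p : ℕ × ℕ} (_ : p = (i, (k : ℕ) + 1)) (h : p.2 - 1 < P.m p.1),
      θ p.1 ⟨p.2 - 1, h⟩ = θ i k := by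
    rintro p rfl h
    exact congrArg (θ i) (Fin.ext (by simp))
  have hx : Nat.unpair (excIdx i k) = (i, (k : ℕ) + 1) := Nat.unpair_pair _ _
  rw [amps, if_neg (Nat.not_le.2 (show excIdx i k < P.off from P.pair_lt_off hi k.2))]
  simp only
  rw [if_neg (by rw [hx]; exact Nat.succ_ne_zero _), dif_pos (by rw [hx]; simp)]
  exact h2 hx _

theorem amps_ins (θ : ∀ i, Fin (P.m i) → ℝ) (ε : Fin R × Fin n → ℝ) (φ : ℕ → ℝ)
    (x : Fin R × Fin n) : P.amps θ ε φ (insIdx (slotStep x)) = ε x := by
  have hx : Nat.unpair (insIdx (slotStep x)) = (slotStep x, 0) := Nat.unpair_pair _ _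
  rw [amps, if_neg (Nat.not_le.2 (show insIdx (slotStep x) < P.off from P.pair_lt_off (slotStep_lt x) (Nat.zero_le _)))]
  simp only [hx, if_true]
  rw [dif_pos ⟨by rw [slotStep_div]; exact x.1.2, by rw [slotStep_mod]; omega⟩]
  exact congrArg ε (Prod.ext (Fin.ext (slotStep_div x)) (Fin.ext (by simp [slotStep_mod])))

/-- Only the indices of the insertions see `ε`. -/
theorem amps_congr (θ : ∀ i, Fin (P.m i) → ℝ) (ε ε' : Fin R × Fin n → ℝ) (φ : ℕ → ℝ) {x : ℕ}
    (h : P.off ≤ x ∨ (Nat.unpair x).2 ≠ 0) : P.amps θ ε φ x = P.amps θ ε' φ x := by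
  rcases h with h | h <;> simp [amps, h]

/-- Bounds of the amplitudes. -/
theorem abs_amps_le {θ : ∀ i, Fin (P.m i) → ℝ} {ε : Fin R × Fin n → ℝ} {φ : ℕ → ℝ} {B : ℝ}
    (hθ : ∀ i k, |θ i k| ≤ B) (hε : ∀ x, |ε x| ≤ B) (hφ : ∀ x, |φ x| ≤ B) (hB : 0 ≤ B) (x : ℕ) :
    |P.amps θ ε φ x| ≤ B := by
  simp only [amps]
  split_ifs <;> first | exact hθ _ _ | exact hε _ | exact hφ _ | simpa

end CorrPlan

/-- The targets along the steps: one at the start of every slot, `g l` before insertion `l`. -/
def planTarget {G : Type*} [One G] {n : ℕ} (g : Fin n → G) (i : ℕ) : G :=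
  if h : i % (n + 1) = 0 then 1
  else g ⟨i % (n + 1) - 1, by have := Nat.mod_lt i (show n + 1 > 0 from Nat.succ_pos n); omega⟩

theorem planTarget_zero {G : Type*} [One G] {n : ℕ} (g : Fin n → G) : planTarget g 0 = 1 :=
  dif_pos (Nat.zero_mod _)

theorem planTarget_slot {G : Type*} [One G] {R n : ℕ} (g : Fin n → G) (x : Fin R × Fin n) :
    planTarget g (CorrPlan.slotStep x) = g x.2 := by
  rw [planTarget, dif_neg (by rw [CorrPlan.slotStep_mod]; omega)]
  exact congrArg g (Fin.ext (by simp [CorrPlan.slotStep_mod]))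

theorem planTarget_close {G : Type*} [One G] {n : ℕ} (g : Fin n → G) (r : ℕ) :
    planTarget g (r * (n + 1)) = 1 := dif_pos (Nat.mul_mod_left _ _)

/-- The nominal time of slot `r`. -/
def slotTime (N0 j r : ℕ) : ℝ := (r : ℝ) * N0 * ((j : ℝ) + 1) ^ 5

theorem slotTime_gap {N0 : ℕ} (j : ℕ) {h : ℝ} (hh : h ≤ N0) {i k : ℕ} (hik : i < k) :
    h * ((j : ℝ) + 1) ^ 5 ≤ slotTime N0 j k - slotTime N0 j i := by
  have h1 : (1 : ℝ) ≤ (k : ℝ) - i := by
    have : ((i + 1 : ℕ) : ℝ) ≤ k := Nat.cast_le.2 hik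
    push_cast at this
    linarith
  have h2 : 0 ≤ (N0 : ℝ) * ((j : ℝ) + 1) ^ 5 := by positivity
  calc h * ((j : ℝ) + 1) ^ 5 ≤ N0 * ((j : ℝ) + 1) ^ 5 := by gcongr
    _ ≤ ((k : ℝ) - i) * (N0 * ((j : ℝ) + 1) ^ 5) := le_mul_of_one_le_left h2 h1
    _ = _ := by rw [slotTime, slotTime]; ring

end

end Vale.Agent.P225.Loop
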