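import Vale.Agent.P225.Loop.IdealProgram
import Vale.Agent.P225.Loop.PieceIns

/-!
P225, module 10 (helper8): the excursion families at `J3` for the corrector.  Their central constant
depends only on the value `cas a + cas b` of the level, and on a level with a zero label every
excursion is that constant up to a small relative error.
-/

namespace Vale.Agent.P225.Loop

open NormedSpace Matrix Set Alg
open scoped lp ENNReal Matrix.Norms.L2Operator

noncomputable section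

/-- The value `cas a + cas b` of a level of `J3`. -/
def levV (g : ℕ × ℕ) : ℝ := Blk.cas g.1 + Blk.cas g.2

theorem excP_zero (V : Blk) : excP 0 V = levV (V.level 0) := by
  simp [excP, Blk.lam, rotW, rawExc, levV, Blk.level]

theorem refSlope_levV (κ t : ℝ) {i k : St}
    (h : levV (i.blk.level 0) = levV (k.blk.level 0)) :
    refSlope κ 0 t i = refSlope κ 0 t k := by
  have e : ∀ V : Blk, Blk.lam (rotW 0 (rawExc 0)) V = levV (V.level 0) := excP_zero
  simp only [refSlope, lam_wNorm, e, h]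

/-- A level with a zero label is one block, with equal values of the excursion. -/
theorem axisLev {V : Blk} (h : (V.level 0).1 = 0 ∨ (V.level 0).2 = 0) :
    excS 0 V = excP 0 V ∧ ∀ W : Blk, W.level 0 = V.level 0 → W = V := by
  have hlev : ∀ V : Blk, V.level 0 = (V.la, V.lb) := fun V => rfl
  have hc : ∀ V : Blk, V.la = 0 ∨ V.lb = 0 → V.lc = V.la + V.lb := by
    intro V hV
    obtain ⟨-, h1, h2, h3⟩ : Tri V.la V.lb V.lc := V.2
    omega
  simp only [hlev] at h
  refine ⟨?_, fun W hW => ?_⟩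
  · have := hc V h
    rcases h with h | h <;>
      simp [excS, excP, Blk.lam, rotW, rawExc, Blk.cas, this, h]
  · simp only [hlev, Prod.mk.injEq] at hW
    have h1 := hc V h
    have h2 := hc W (by rw [hW.1, hW.2]; exact h)
    refine Subtype.ext (Prod.ext hW.1 (Prod.ext hW.2 ?_))
    show W.lc = V.lc
    rw [h1, h2, hW.1, hW.2]

theorem excProfile_flat (P x : ℝ) (hx : |x| ≤ 1 / 4) :
    |excProfile P P x - P| ≤ 2 * |P| * x ^ 2 := by
  obtain ⟨h1, -, -⟩ := sqrt_one_add_bounds hx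
  rw [abs_le] at hx
  set s := Real.sqrt (1 + 2 * x) with hs
  have hss : s ^ 2 = 1 + 2 * x := Real.sq_sqrt (by linarith)
  have hs0 : 0 < s := by linarith
  have h1xs : 0 < 1 + x + s := by linarith
  have hd : 0 < s * (1 + x + s) := mul_pos hs0 h1xs
  have hne1 := hs0.ne'
  have hne2 := h1xs.ne'
  have e : excProfile P P x - P = P * (x ^ 2 / (s * (1 + x + s))) := by
    simp only [excProfile, ← hs]
    field_simp
    linear_combination (-1 : ℝ) * P * hss
  have h2 : x ^ 2 / (s * (1 + x + s)) ≤ 2 * x ^ 2 := by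
    rw [div_le_iff₀ hd]
    have : 1 / 2 ≤ s * (1 + x + s) := by nlinarith
    nlinarith [sq_nonneg x]
  rw [e, abs_mul, abs_of_nonneg (div_nonneg (sq_nonneg x) hd.le)]
  nlinarith [abs_nonneg P]

/-- The logarithm of a coefficient is minus the integral of the slope. -/
theorem log_coefQ (z : ℝ → ℝ) (a b : ℝ) : Real.log (Ode.coefQ z a b) = -Ode.prim z a b :=
  Real.log_exp _

/-- Slopes of excursions with forcing `E`-close have coefficients `E L`-close. -/
theorem ExcSlope.log_sub_le {κ a R θ σ E : ℝ} {j : ℕ} {i k : St} {z z' : ℝ → ℝ}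
    (h : ExcSlope κ 0 j a θ i z) (h' : ExcSlope κ 0 j a σ k z') (ha : 0 < a)
    (hc : ∀ t, 4 ≤ cPiece κ a t) (hR : R ≤ ((j : ℝ) + 1) ^ 5 / 4) (hθ : θ ∈ Icc (-R) R)
    (hσ : σ ∈ Icc (-R) R) (hlev : levV (i.blk.level 0) = levV (k.blk.level 0)) (hE : 0 ≤ E)
    (hf : ∀ t ∈ Icc a (a + ((j : ℝ) + 1) ^ 5), |scaleFun κ t *
        excProfile (excP 0 i.blk) (excS 0 i.blk) (excX a (a + ((j : ℝ) + 1) ^ 5) θ t) -
      scaleFun κ t *
        excProfile (excP 0 k.blk) (excS 0 k.blk) (excX a (a + ((j : ℝ) + 1) ^ 5) σ t)| ≤ E) :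
    |Real.log (Ode.coefQ z a (a + ((j : ℝ) + 1) ^ 5))
      - Real.log (Ode.coefQ z' a (a + ((j : ℝ) + 1) ^ 5))| ≤ E * ((j : ℝ) + 1) ^ 5 := by
  obtain ⟨hzc, hz0, hzn, hzo⟩ := h
  obtain ⟨hzc', hz0', hzn', hzo'⟩ := h'
  set L := ((j : ℝ) + 1) ^ 5
  have hL : 0 < L := by positivity
  have hab : a < a + L := by linarith
  have hR' : R ≤ (a + L - a) / 4 := by rw [add_sub_cancel_left]; exact hR
  have hl := fun (θ : ℝ) (hθ : θ ∈ Icc (-R) R) (V : Blk) =>
    (continuous_scaleFun_clampT κ ha).mul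
      (continuous_excProfile (excP 0 V) (excS 0 V) hab hR' hθ)
  have hcl : ∀ t ∈ Icc a (a + L), clampT a t = t := fun t ht => (clampT_of_ge ha ht.1).1
  have hd : ∀ t ∈ Icc a (a + L), |z t - z' t| ≤ E := by
    intro t ht
    have := Ode.abs_slope_sub_le (k := 1) (continuous_cPiece' ha) hzc hzc' (hl θ hθ i.blk)
      (hl σ hσ k.blk) one_pos (fun u hu => by linarith [hc u, hzn u hu, hzn' u hu])
      (fun u hu => by simp only [Pi.mul_apply, hcl u hu]; exact hf u hu)
      (fun u hu => by simp only [Pi.mul_apply, hcl u hu]; exact hzo u hu)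
      (fun u hu => by simp only [Pi.mul_apply, hcl u hu]; exact hzo' u hu) t ht
    rwa [hz0, hz0', refSlope_levV κ a hlev, sub_self, abs_zero, zero_mul, zero_add, div_one] at this
  rw [log_coefQ, log_coefQ,
    show -Ode.prim z a (a + L) - -Ode.prim z' a (a + L)
      = -(Ode.prim z a (a + L) - Ode.prim z' a (a + L)) by ring, abs_neg]
  refine (abs_prim_sub_le_of hzc hzc' hab.le le_rfl hE hd).trans_eq ?_
  rw [add_sub_cancel_left]
where
  continuous_cPiece' {κ a : ℝ} (ha : 0 < a) : Continuous (cPiece κ a) :=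
    continuous_const.add (continuous_iff_continuousAt.2 fun t =>
      ((hasDerivAt_vFun κ ((by linarith : 0 < a / 2).trans_le (half_le_clampT ha t))).continuousAt).comp
        (continuous_clampT a).continuousAt)

/-- Families of excursions at `J3` with central constants which are functions of the level value. -/
theorem exists_base_family {κ R M : ℝ} (hκ : 0 ≤ κ) (hR : 0 ≤ R) (hM : 1 ≤ M)
    (Lv Ax : Finset (ℕ × ℕ)) (hAx : ∀ L ∈ Ax, L.1 = 0 ∨ L.2 = 0) :
    ∃ K : ℝ, 1 ≤ K ∧ ∃ A : ℝ, 0 ≤ A ∧ ∃ N : ℕ, ∀ (F : Frame 0 Lv M) (j : ℕ) (a : ℝ),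
      N ≤ j → 2 * ((j : ℝ) + 1) ^ 5 ≤ a → (∀ r : St, r.blk.level 0 ∈ Ax → FrameAt F r) →
      ∃ (S : ℝ → Seg HSp) (C : ℝ → ℝ),
        (∀ θ ∈ Icc (-R) R, ExcSeg κ 0 F j a θ (S θ) ∧ SegLocal 0 (S θ) ∧
          SegBd K (K / Real.sqrt ((j : ℝ) + 1)) (S θ) ∧
          ∀ r : St, r.blk.level 0 ∈ Ax → ∃ q : ℝ, 0 < q ∧ ScalarAt 0 (S θ) r q ∧
            |Real.log q - Real.log (C (levV (r.blk.level 0)))| ≤ K / Real.sqrt ((j : ℝ) + 1)) ∧
        (∀ v, 0 < C v) ∧
        (∀ r : St, r.blk.level 0 ∈ Lv ∨ r.blk.level 0 ∈ Ax →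
          |Real.log (C (levV (r.blk.level 0)))| ≤ A * ((j : ℝ) + 1) ^ 5) ∧
        Good (Icc (-R) R) K (K / Real.sqrt ((j : ℝ) + 1)) (fun θ => segMat 0 Lv (S θ))
          (levDiag fun L _ => C (levV L.1)) (fun θ => exp (θ • excGen F scaleInf)) := by
  classical
  have hblk : ∀ i k : St, i.blk.level 0 ∈ Ax → k.blk.level 0 = i.blk.level 0 → k.blk = i.blk :=
    fun i k hi hk => (axisLev (hAx _ hi)).2 _ hk
  obtain ⟨K, hK, A, hA, N₁, hfam⟩ := exists_exc_family 0 Lv hκ hR hM Ax hblk (κ := κ) (R := R) (M := M)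
  obtain ⟨N₂, hN₂⟩ := exists_cPiece_bounds κ hκ
  obtain ⟨N₃, hN₃⟩ := exists_nat_ge (4 * R)
  set P₀ : ℝ := ∑ L : Ax, ∑ i : Fib 0 L.1, |excP 0 i.1.blk| with hP₀
  have hP₀0 : 0 ≤ P₀ := Finset.sum_nonneg fun L _ => Finset.sum_nonneg fun i _ => abs_nonneg _
  set K' := K + 6 * P₀ * R ^ 2
  have hKK : K ≤ K' := le_add_of_nonneg_right (by positivity)
  refine ⟨K', hK.trans hKK, A, hA, max N₁ (max N₂ N₃), fun F j a hj ha hF => ?_⟩
  simp only [max_le_iff] at hj
  obtain ⟨hj1, hj2, hj3⟩ := hj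
  obtain ⟨S, cq, hS, hcq, hgood⟩ := hfam F j a hj1 ha
  set L5 := ((j : ℝ) + 1) ^ 5 with hL5
  have hw : (1 : ℝ) ≤ (j : ℝ) + 1 := le_add_of_nonneg_left (Nat.cast_nonneg j)
  have hL5' : 1 ≤ L5 := one_le_pow₀ hw
  have ha0 : 0 < a := by linarith
  have hc := fun t => (hN₂ j a hj2 ha t).1
  have hR4 : R ≤ L5 / 4 := by
    have : (N₃ : ℝ) ≤ j := by exact_mod_cast hj3
    linarith [le_self_pow₀ hw (by norm_num : 5 ≠ 0)]
  have h0 : (0 : ℝ) ∈ Icc (-R) R := ⟨by linarith, hR⟩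
  have hex : ∀ r : St, r.blk.level 0 ∈ Lv ∨ r.blk.level 0 ∈ Ax →
      ∃ z, ExcSlope κ 0 j a 0 r z ∧ |Real.log (Ode.coefQ z a (a + L5))| ≤ A * L5 := by
    intro r hr
    rcases hr with hr | hr
    · obtain ⟨-, h2, z, hz, he⟩ := hcq ⟨_, hr⟩ ⟨r, rfl⟩
      exact ⟨z, hz, he ▸ h2⟩
    · obtain ⟨q, -, h2, -, z, hz, he⟩ := (hS 0 h0).2.2.2 r hr (hF r hr)
      exact ⟨z, hz, he ▸ h2⟩
  have huniq : ∀ {i k : St} {z z' : ℝ → ℝ}, ExcSlope κ 0 j a 0 i z → ExcSlope κ 0 j a 0 k z' →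
      levV (i.blk.level 0) = levV (k.blk.level 0) →
      Real.log (Ode.coefQ z a (a + L5)) = Real.log (Ode.coefQ z' a (a + L5)) := by
    intro i k z z' hz hz' hlev
    have := hz.log_sub_le (E := 0) hz' ha0 hc hR4 h0 h0 hlev le_rfl fun t _ => by
      simp [excProfile, excX, excP_zero, hlev]
    rw [zero_mul] at this
    exact sub_eq_zero.1 (abs_eq_zero.1 (le_antisymm this (abs_nonneg _)))
  let C : ℝ → ℝ := fun v =>
    if h : ∃ r : St, (r.blk.level 0 ∈ Lv ∨ r.blk.level 0 ∈ Ax) ∧ levV (r.blk.level 0) = v then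
      Ode.coefQ (hex h.choose h.choose_spec.1).choose a (a + L5) else 1
  have hC0 : ∀ v, 0 < C v := fun v => by
    simp only [C]; split_ifs
    exacts [Ode.coefQ_pos _ _ _, one_pos]
  have hC : ∀ (r : St), r.blk.level 0 ∈ Lv ∨ r.blk.level 0 ∈ Ax → ∀ z, ExcSlope κ 0 j a 0 r z →
      Real.log (C (levV (r.blk.level 0))) = Real.log (Ode.coefQ z a (a + L5)) := by
    intro r hr z hz
    have h : ∃ r' : St, (r'.blk.level 0 ∈ Lv ∨ r'.blk.level 0 ∈ Ax) ∧
        levV (r'.blk.level 0) = levV (r.blk.level 0) := ⟨r, hr, rfl⟩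
    simp only [C, dif_pos h]
    exact huniq (hex h.choose h.choose_spec.1).choose_spec.1 hz h.choose_spec.2
  have hgood' : Good (Icc (-R) R) K (K / Real.sqrt ((j : ℝ) + 1)) (fun θ => segMat 0 Lv (S θ))
      (levDiag fun L _ => C (levV L.1)) (fun θ => exp (θ • excGen F scaleInf)) := by
    have e : levDiag (J := 0) (fun (L : Lv) (_ : Fib 0 L.1) => C (levV L.1)) = levDiag cq := by
      funext L
      simp only [levDiag]
      congr 1
      funext i
      obtain ⟨hpos, -, z, hz, he⟩ := hcq L i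
      have h := hC i.1 (Or.inl (by rw [i.2]; exact L.2)) z hz
      rw [i.2, ← he] at h
      exact Real.log_injOn_pos (hC0 _) hpos h
    rw [e]; exact hgood
  have hKs : K / Real.sqrt ((j : ℝ) + 1) ≤ K' / Real.sqrt ((j : ℝ) + 1) :=
    div_le_div_of_nonneg_right hKK (Real.sqrt_nonneg _)
  refine ⟨S, C, fun θ hθ => ?_, hC0, fun r hr => ?_, hgood'.mono hKK hKs⟩
  · obtain ⟨he, hl, hb, hx⟩ := hS θ hθ
    refine ⟨he, hl, ⟨hb.Q.trans hKK, hb.B.trans hKK, hb.C.trans hKs, hb.D.trans hKK⟩,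
      fun r hr => ?_⟩
    obtain ⟨q, hq, -, hqs, z, hz, hqe⟩ := hx r hr (hF r hr)
    obtain ⟨q0, -, -, -, z0, hz0, -⟩ := (hS 0 h0).2.2.2 r hr (hF r hr)
    refine ⟨q, hq, hqs, ?_⟩
    rw [hC r (Or.inr hr) z0 hz0, hqe]
    have hP : |excP 0 r.blk| ≤ P₀ :=
      le_sum_levels (fun i : St => |excP 0 i.blk|) (fun i => abs_nonneg _) r hr
    refine (hz.log_sub_le (E := 6 * P₀ * (R / L5) ^ 2) hz0 ha0 hc hR4 hθ h0 rfl (by positivity)
      fun t ht => ?_).trans ?_
    · rw [(axisLev (hAx _ hr)).1, ← mul_sub, abs_mul, abs_of_nonneg (show 0 ≤ scaleFun κ t from Real.sqrt_nonneg _)]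
      have hx : |excX a (a + L5) θ t| ≤ R / L5 := by
        obtain ⟨b1, b2⟩ := bump_mem ((t - a) / L5)
        rw [excX, add_sub_cancel_left, abs_mul, abs_div, abs_of_pos (zero_lt_one.trans_le hL5'),
          abs_of_nonneg b1]
        exact (mul_le_of_le_one_right (by positivity) b2).trans
          (div_le_div_of_nonneg_right (abs_le.2 hθ) (by linarith))
      have hx4 : R / L5 ≤ 1 / 4 := by
        rw [div_le_iff₀ (by linarith)]; linarith
      have e0 : excProfile (excP 0 r.blk) (excP 0 r.blk) (excX a (a + L5) 0 t) = excP 0 r.blk := by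
        simp [excProfile, excX]
      rw [e0]
      calc scaleFun κ t * |excProfile (excP 0 r.blk) (excP 0 r.blk) (excX a (a + L5) θ t) - excP 0 r.blk|
          ≤ 3 * (2 * P₀ * (R / L5) ^ 2) := by
            refine mul_le_mul (scaleFun_le_three hκ (by linarith [ht.1]))
              ((excProfile_flat _ _ (hx.trans hx4)).trans ?_) (abs_nonneg _) (by norm_num)
            exact mul_le_mul (mul_le_mul_of_nonneg_left hP zero_le_two)
              (by rw [← sq_abs (excX a (a + L5) θ t)]; exact pow_le_pow_left₀ (abs_nonneg _) hx 2)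
              (sq_nonneg _) (by positivity)
        _ = 6 * P₀ * (R / L5) ^ 2 := by ring
    · calc 6 * P₀ * (R / L5) ^ 2 * L5 = 6 * P₀ * R ^ 2 * (1 / L5) := by
            field_simp
        _ ≤ 6 * P₀ * R ^ 2 * (1 / Real.sqrt ((j : ℝ) + 1)) :=
            mul_le_mul_of_nonneg_left (inv_pow_five_le_inv_sqrt j) (by positivity)
        _ ≤ K' / Real.sqrt ((j : ℝ) + 1) := by
            rw [mul_one_div]
            exact div_le_div_of_nonneg_right (le_add_of_nonneg_left (zero_le_one.trans hK))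
              (Real.sqrt_nonneg _)
  · obtain ⟨z, hz, hb⟩ := hex r hr
    rw [hC r hr z hz]
    exact hb

end

end Vale.Agent.P225.Loop
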