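import Vale.Agent.P225.Loop.CorrSupply
import Vale.Agent.P225.Loop.CorrPlan
import Vale.Agent.P225.Loop.ExcBase
import Vale.Agent.P225.Loop.SegAmp

/-!
P225 corrector: the data of one corrector from its baseline and the response of its insertions.
-/

namespace Vale.Agent.P225.Loop

open Filter Topology
open scoped Matrix.Norms.L2Operator

noncomputable section

/-- The baseline of the corrector: for every list a plan such that, whatever padding and spacing,
the amplitudes of the words can be chosen such that the corrector and the buffer are diagonal on the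
finite block and every prefix before an insertion is a function of the level value times its target.
-/
def LayoutData (κ : ℝ) (s Mb : ℕ) : Prop :=
  ∀ (n : ℕ) (g : Fin n → (Matrix (WSt (corrW Mb)) (WSt (corrW Mb)) ℝ)ˣ) (f : Fin n → ℕ),
    (∀ l, ((g l : _) : Matrix _ _ ℝ) ∈ Alg.expMonoid (corrGens Mb s) ∧
      (((g l)⁻¹ : _) : Matrix _ _ ℝ) ∈ Alg.expMonoid (corrGens Mb s)) →
    ∃ (P : CorrPlan (numCls Mb) n) (R2 : ℝ), P.f = f ∧ 0 ≤ R2 ∧
      ∀ nW : ℕ, ∃ b₀ : ℝ, 0 ≤ b₀ ∧ ∀ (N0 P0 Nf : ℕ) (Ra Cc K ε₀ A : ℝ),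
        (∀ l, f l < Nf) → R2 ≤ Ra → 0 ≤ Cc → 1 ≤ K → 0 < ε₀ → 1 ≤ A →
        ∃ (Cq Cb : ℝ) (N : ℕ), 0 ≤ Cq ∧ ∀ (W : LoopSpec) (j0 : ℕ) (t0 : ℝ) (ht : 1 ≤ t0),
          W.Ok P0 → N ≤ j0 → t0 = ((j0 : ℝ) + 1) ^ 8 →
          W.LoopsGood κ Cc (Model.modelPM s Nf) j0 t0 ht Ra K ε₀ A →
          ∀ i, 1 ≤ i → W.corr (j0 + i) = P.list nW N0 →
            (∀ J g k, Piece.exc J g k ∈ W.ctrl (j0 + i) → P.off ≤ k) →
            ∀ σ : ℕ → ℝ, (∀ k, |σ k| ≤ Ra) →
              ∃ (θ : ∀ i, Fin (P.m i) → ℝ) (β q : WSt (corrW Mb) → ℝ)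
                (F : Fin (numCls Mb) × Fin n → ℝ → ℝ)
                (ex : Fin (numCls Mb) × Fin n → WSt (corrW Mb) → ℝ),
              (∀ i k, |θ i k| ≤ R2) ∧ (∀ z, 0 < β z) ∧ (∀ z, 0 < q z) ∧
              (∀ z, |Real.log (q z)| ≤ Cq * (((j0 + i : ℕ) : ℝ) + 1) ^ 5) ∧
              (∀ z : WSt (corrW Mb),
                (W.bufSeg κ Cc (Model.modelPM s Nf) j0 t0 ht
                    (LoopSpec.oneParams i (P.amps θ 0 σ)) i).Q (lp.single 2 z.1 1)
                  = β z • (lp.single 2 z.1 1 : HSp)) ∧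
              (∀ y z : WSt (corrW Mb),
                facMat ((W.corrSeg κ Cc (Model.modelPM s Nf) j0 t0 ht
                    (LoopSpec.oneParams i (P.amps θ 0 σ)) i).comp
                  (W.bufSeg κ Cc (Model.modelPM s Nf) j0 t0 ht
                    (LoopSpec.oneParams i (P.amps θ 0 σ)) i)).Q y z
                  = if y = z then q z * β z else 0) ∧
              ∀ x, (∀ v, 0 < F x v) ∧
                SegLocal 0 (segRange (W.segs κ Cc (Model.modelPM s Nf) j0 t0 ht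
                  (LoopSpec.oneParams i (P.amps θ 0 σ)) i) 0 (P.insPos nW N0 x)) ∧
                (∀ y z : WSt (corrW Mb),
                  facMat (segRange (W.segs κ Cc (Model.modelPM s Nf) j0 t0 ht
                      (LoopSpec.oneParams i (P.amps θ 0 σ)) i) 0 (P.insPos nW N0 x)).Q y z
                    = F x (levV (y.1.blk.level 0)) * Real.exp (ex x y)
                      * (g x.2 : Matrix (WSt (corrW Mb)) (WSt (corrW Mb)) ℝ) y z) ∧
                (∀ y, |ex x y| ≤ Cb / Real.sqrt (((j0 + i : ℕ) : ℝ) + 1)) ∧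
                ∀ y : WSt (corrW Mb), |Real.log (F x (levV (y.1.blk.level 0)))
                    + Ode.alphaFn 5 (scaleInf * levV (y.1.blk.level 0)) * slotTime N0 (j0 + i) x.1|
                  ≤ b₀ * (((j0 + i : ℕ) : ℝ) + 1) ^ 5

/-- The response of the corrector: families of second order and the first order of every padded
insertion, given the exact prefixes. -/
def ResponseData (κ : ℝ) (s Mb : ℕ) : Prop :=
  ∀ (n : ℕ) (g : Fin n → (Matrix (WSt (corrW Mb)) (WSt (corrW Mb)) ℝ)ˣ) (f : Fin n → ℕ),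
    ∃ n₀ : ℕ, ∀ nW, n₀ ≤ nW → ∀ b₀ : ℝ, 0 ≤ b₀ → ∃ b : ℝ, 0 ≤ b ∧
      ∀ (P0 Nf : ℕ) (Ra Cc K ε₀ A Cq Cb : ℝ),
        (∀ l, f l < Nf) → 0 ≤ Ra → 0 ≤ Cc → 1 ≤ K → 0 < ε₀ → 1 ≤ A → 0 ≤ Cq →
        ∃ (C' K' : ℝ) (η : ℕ → ℝ) (N : ℕ), 0 ≤ C' ∧ K ≤ K' ∧ Tendsto η atTop (𝓝 0) ∧
          ∀ (W : LoopSpec) (j0 : ℕ) (t0 : ℝ) (ht : 1 ≤ t0),
          W.Ok P0 → N ≤ j0 → t0 = ((j0 : ℝ) + 1) ^ 8 →
          W.LoopsGood κ Cc (Model.modelPM s Nf) j0 t0 ht Ra K ε₀ A →
          ∀ (i : ℕ), 1 ≤ i →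
          ∀ (v : (Fin (numCls Mb) × Fin n → ℝ) → ℕ → ℝ)
            (pos kx : Fin (numCls Mb) × Fin n → ℕ) (S : ℕ → ℝ) (H : ℝ)
            (F : Fin (numCls Mb) × Fin n → ℝ → ℝ)
            (ex : Fin (numCls Mb) × Fin n → WSt (corrW Mb) → ℝ) (β q : WSt (corrW Mb) → ℝ),
          Function.Injective pos →
          (∀ x, (W.corr (j0 + i))[pos x]? = some (Piece.ins (f x.2) (kx x))) →
          (∀ x m, pos x ≤ m + (nW + 1) → m ≤ pos x + (nW + 1) → m ≠ pos x →
            (W.corr (j0 + i))[m]? = some (Piece.wait 0 5)) →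
          (∀ x, nW ≤ pos x) →
          (∀ m g' k, (W.corr (j0 + i))[m]? = some (Piece.ins g' k) → ∃ x, m = pos x) →
          (∀ e x, v e (kx x) = -e x) →
          (∀ e m (hm : m < (W.corr (j0 + i)).length), (∀ x, m ≠ pos x) →
            ((W.corr (j0 + i))[m]).amp (v e) = ((W.corr (j0 + i))[m]).amp (v 0)) →
          (∀ e, ‖e‖ ≤ Real.exp (-3 * (((j0 + i : ℕ) : ℝ) + 1) ^ 6) →
            W.AmpAt j0 i (v e) Ra (Real.exp (-3 * (((j0 + i : ℕ) : ℝ) + 1) ^ 6))) →
          (∀ z, 0 < β z) → (∀ z, 0 < q z) →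
          (∀ z, |Real.log (q z)| ≤ Cq * (((j0 + i : ℕ) : ℝ) + 1) ^ 5) →
          (∀ z : WSt (corrW Mb), (W.bufSeg κ Cc (Model.modelPM s Nf) j0 t0 ht
              (LoopSpec.oneParams i (v 0)) i).Q (lp.single 2 z.1 1)
            = β z • (lp.single 2 z.1 1 : HSp)) →
          (∀ y z : WSt (corrW Mb),
            facMat ((W.corrSeg κ Cc (Model.modelPM s Nf) j0 t0 ht
                (LoopSpec.oneParams i (v 0)) i).comp
              (W.bufSeg κ Cc (Model.modelPM s Nf) j0 t0 ht (LoopSpec.oneParams i (v 0)) i)).Q y z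
              = if y = z then q z * β z else 0) →
          (∀ x v', 0 < F x v') →
          (∀ x, SegLocal 0 (segRange (W.segs κ Cc (Model.modelPM s Nf) j0 t0 ht
            (LoopSpec.oneParams i (v 0)) i) 0 (pos x))) →
          (∀ x (y z : WSt (corrW Mb)),
            facMat (segRange (W.segs κ Cc (Model.modelPM s Nf) j0 t0 ht
                (LoopSpec.oneParams i (v 0)) i) 0 (pos x)).Q y z
              = F x (levV (y.1.blk.level 0)) * Real.exp (ex x y)
                * (g x.2 : Matrix (WSt (corrW Mb)) (WSt (corrW Mb)) ℝ) y z) →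
          (∀ x y, |ex x y| ≤ Cb / Real.sqrt (((j0 + i : ℕ) : ℝ) + 1)) →
          (∀ x (y : WSt (corrW Mb)), |Real.log (F x (levV (y.1.blk.level 0)))
              + Ode.alphaFn 5 (scaleInf * levV (y.1.blk.level 0)) * S x.1|
            ≤ b₀ * (((j0 + i : ℕ) : ℝ) + 1) ^ 5) →
          (∀ l k, l < k → k < numCls Mb → H ≤ S k - S l) →
          (∀ k, k < numCls Mb → |S k| ≤ Cq * (((j0 + i : ℕ) : ℝ) + 1) ^ 5) →
          let r := Real.exp (-3 * (((j0 + i : ℕ) : ℝ) + 1) ^ 6)
          let corr := fun e => W.corrSeg κ Cc (Model.modelPM s Nf) j0 t0 ht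
            (LoopSpec.oneParams i (v e)) i
          let buf := W.bufSeg κ Cc (Model.modelPM s Nf) j0 t0 ht (LoopSpec.oneParams i (v 0)) i
          (∃ LQ LB LC LD, CorrFam r K'
            (K * (1 / (((j0 + i : ℕ) : ℝ) + 1) ^ 5 + r)) corr LQ LB LC LD) ∧
          ∃ (KW : ℝ) (LW : (Fin (numCls Mb) × Fin n → ℝ) →ₗ[ℝ] HSp →L[ℝ] HSp)
            (c : CorrEnt Mb → ℝ) (S' : ℕ → ℝ)
            (phi : Fin (numCls Mb) → Fin (numCls Mb) → Fin n → ℝ)
            (err : CorrEnt Mb → Fin (numCls Mb) × Fin n → ℝ),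
            QLin r 0 KW (fun e => ((corr e).comp buf).Q) LW ∧
            (∀ (p : CorrEnt Mb) (x : Fin (numCls Mb) × Fin n),
              facMat (LW (Pi.single x 1)) p.1.1 p.1.2
                = β p.1.2 * (Real.exp (c p + phi (slotOf p) x.1 x.2)
                  * (conjEntry s g f p x.2 + err p x))) ∧
            (∀ p, |c p| ≤ C' * (((j0 + i : ℕ) : ℝ) + 1) ^ 5) ∧
            (∀ p x, |err p x| ≤ η (j0 + i)) ∧
            (∀ l k, l < k → k < numCls Mb → H ≤ S' k - S' l) ∧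
            (∀ k, k < numCls Mb → |S' k| ≤ C' * (((j0 + i : ℕ) : ℝ) + 1) ^ 5) ∧
            ∀ k x l, |phi k x l - slotRate Mb k * S' x| ≤ b * (((j0 + i : ℕ) : ℝ) + 1) ^ 5

/-- An insertion of the list is the one of its slot and element, at its position. -/
theorem CorrPlan.ins_of_getElem {R n : ℕ} (P : CorrPlan R n) {nW N0 m g k : ℕ}
    (hm : m < (P.list nW N0).length) (h : (P.list nW N0)[m] = Piece.ins g k) :
    ∃ x : Fin R × Fin n, m = P.insPos nW N0 x ∧ k = insIdx (CorrPlan.slotStep x) ∧ g = P.f x.2 := by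
  have key : ∀ i, i ≤ R * (n + 1) → ∀ (hm' : m < (P.upTo nW N0 i).length),
      (P.upTo nW N0 i)[m] = Piece.ins g k →
        ∃ i' < R * (n + 1), i' % (n + 1) ≠ 0 ∧ m = P.pos nW N0 i' ∧ k = insIdx i' := by
    intro i
    induction i with
    | zero =>
      intro _ hm' h'
      simp [CorrPlan.upTo] at hm' h'
    | succ i ih =>
      intro hi hm' h'
      simp only [CorrPlan.upTo] at hm' h'
      rcases lt_or_ge m (P.upTo nW N0 i).length with hlt | hge
      · rw [List.getElem_append_left hlt] at h'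
        exact ih (Nat.le_of_succ_le hi) hlt h'
      · rw [List.getElem_append_right hge] at h'
        have hmem : Piece.ins g k ∈ P.pre nW i ++ P.word i ++ P.post nW N0 i :=
          h' ▸ List.getElem_mem _
        obtain ⟨d, hd⟩ := Nat.exists_eq_add_of_le hge
        subst hd
        simp only [Nat.add_sub_cancel_left] at h'
        by_cases h0 : i % (n + 1) = 0
        · exfalso
          simp [CorrPlan.pre, h0, CorrPlan.word, CorrPlan.post] at hmem
        · obtain ⟨hpre, hl⟩ : (∃ g', P.pre nW i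
              = Piece.ins g' (insIdx i) :: List.replicate (nW + 1) (Piece.wait 0 5)) ∧ 0 < 1 :=
            ⟨⟨_, dif_neg h0⟩, Nat.one_pos⟩
          obtain ⟨g', hg'⟩ := hpre
          cases d with
          | zero =>
            simp only [hg', List.cons_append, List.getElem_cons_zero] at h'
            obtain ⟨-, rfl⟩ := Piece.ins.inj h'
            exact ⟨i, hi, h0, rfl, rfl⟩
          | succ d =>
            exfalso
            simp only [hg', List.cons_append, List.getElem_cons_succ] at h'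
            have hd : Piece.ins g k ∈ List.replicate (nW + 1) (Piece.wait 0 5) ++ P.word i
                ++ P.post nW N0 i := h' ▸ List.getElem_mem _
            simp [CorrPlan.word, CorrPlan.post] at hd
  obtain ⟨i, hi, h0, rfl, rfl⟩ := key _ le_rfl hm h
  have hmod := Nat.mod_lt i (show n + 1 > 0 from Nat.succ_pos n)
  let x : Fin R × Fin n := (⟨i / (n + 1), (Nat.div_lt_iff_lt_mul (Nat.succ_pos n)).2 hi⟩,
    ⟨i % (n + 1) - 1, by omega⟩)
  have hx : CorrPlan.slotStep x = i := by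
    have := Nat.div_add_mod' i (n + 1)
    simp only [CorrPlan.slotStep, x]
    omega
  refine ⟨x, by rw [CorrPlan.insPos, hx], by rw [hx], ?_⟩
  obtain ⟨h', e⟩ := P.getElem_ins nW N0 x
  simp only [CorrPlan.insPos, hx] at e
  rw [h] at e
  exact (Piece.ins.inj e).1

/-- The insertions lie after `nW` pieces. -/
theorem CorrPlan.le_insPos {R n : ℕ} (P : CorrPlan R n) (nW N0 : ℕ) (x : Fin R × Fin n) :
    nW ≤ P.insPos nW N0 x := by
  have h1 : P.pos nW N0 1 ≤ P.insPos nW N0 x :=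
    (P.pos_strictMono nW N0).monotone (Nat.succ_le_succ (Nat.zero_le _))
  have h2 : nW + 1 ≤ (P.post nW N0 0).length := by
    rw [P.length_post]
    split_ifs <;> omega
  have h3 := P.pos_succ nW N0 0
  simp only [Nat.zero_add] at h3
  omega

/-- An excursion of the list has the index of an excursion of its step. -/
theorem CorrPlan.exc_of_mem {R n : ℕ} (P : CorrPlan R n) {nW N0 g k : ℕ} {J : Fin 3}
    (h : Piece.exc J g k ∈ P.list nW N0) :
    ∃ i, i < R * (n + 1) ∧ ∃ l : Fin (P.m i), k = excIdx i l := by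
  unfold CorrPlan.list at h
  suffices key : ∀ i, i ≤ R * (n + 1) → Piece.exc J g k ∈ P.upTo nW N0 i →
      ∃ i', i' < R * (n + 1) ∧ ∃ l : Fin (P.m i'), k = excIdx i' l from key _ le_rfl h
  intro i
  induction i with
  | zero => intro _ h'; simp [CorrPlan.upTo] at h'
  | succ i ih =>
    intro hi h'
    simp only [CorrPlan.upTo, List.mem_append] at h'
    rcases h' with h' | (h' | h') | h'
    · exact ih (Nat.le_of_succ_le hi) h'
    · unfold CorrPlan.pre at h'
      split_ifs at h' <;> simp at h'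
    · obtain ⟨l, hl⟩ := List.mem_ofFn.1 h'
      exact ⟨i, hi, l, ((Piece.exc.inj hl).2.2).symm⟩
    · simp [CorrPlan.post] at h'

/-- The supply of the corrector from baseline and response. -/
theorem corrSupply_of {κ : ℝ} {s Mb : ℕ} (hL : LayoutData κ s Mb) (hR : ResponseData κ s Mb) :
    CorrSupply κ s Mb := by
  intro n g f hg
  obtain ⟨P, R2, hPf, hR2, hlay⟩ := hL n g f hg
  obtain ⟨nW, hresp⟩ := hR n g f
  obtain ⟨b₀, hb₀, hlay'⟩ := hlay nW
  obtain ⟨b, hb, hresp'⟩ := hresp nW le_rfl b₀ hb₀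
  refine ⟨b, hb, fun h₀ => ?_⟩
  obtain ⟨N0, hN0⟩ := exists_nat_ge h₀
  set Nf := Finset.univ.sup f + 1 with hNf
  have hf : ∀ l, f l < Nf := fun l => Nat.lt_succ_of_le (Finset.le_sup (Finset.mem_univ l))
  refine ⟨N0, Nf, P.off, (P.list nW N0).length, R2, P.list nW N0, hN0, Nat.cast_nonneg _, hR2,
    P.head? nW N0, le_rfl, P.isCorr, ?_, ?_, fun P0 Ra Cc K ε₀ A hRa hCc hK hε₀ hA => ?_⟩
  · intro f' k hk
    obtain ⟨m, hm, e⟩ := List.mem_iff_getElem.1 hk
    obtain ⟨x, -, -, hx⟩ := P.ins_of_getElem hm e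
    exact ⟨by rw [hx, hPf]; exact hf _, ((P.idx_lt_off _ hk).2 f' k rfl).1⟩
  · intro J g' k hk
    exact (P.idx_lt_off _ hk).1 J g' k rfl
  obtain ⟨Cq, Cb, N₁, hCq, hlay''⟩ := hlay' N0 P0 Nf Ra Cc K ε₀ A hf hRa hCc hK hε₀ hA
  set Cq' := Cq + (numCls Mb : ℝ) * N0 with hCq'
  obtain ⟨C', K', η, N₂, hC', hK', hη, hresp''⟩ := hresp' P0 Nf Ra Cc K ε₀ A Cq' Cb hf
    (hR2.trans hRa) hCc hK hε₀ hA (by positivity)
  refine ⟨Cq' + C', K', η, max N₁ N₂, by positivity, hK', hη,
    fun W j0 t0 ht hW hj ht0 hgood i hi hlist hctrl σ hσ => ?_⟩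
  obtain ⟨θ, β, q, F, ex, hθ, hβ, hq, hql, hbuf, hval, hpre⟩ := hlay'' W j0 t0 ht hW
    ((le_max_left _ _).trans hj) ht0 hgood i hi hlist hctrl σ hσ
  set T5 := (((j0 + i : ℕ) : ℝ) + 1) ^ 5 with hT5
  have hT5' : 0 ≤ T5 := by positivity
  set v : (Fin (numCls Mb) × Fin n → ℝ) → ℕ → ℝ := fun e => P.amps θ (fun x => -e x) σ with hv
  have hv0 : v 0 = P.amps θ 0 σ := by
    simp only [hv]
    congr 1
    funext x
    simp
  rw [← hv0] at hbuf hval
  simp only [← hv0] at hpre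
  have hampok : ∀ e ε, (∀ x, |e x| ≤ ε) → ∀ Q ∈ P.list nW N0, Q.AmpOk (v e) R2 ε := by
    intro e ε he Q hQ
    cases Q with
    | exc J g' k =>
      obtain ⟨i', hi', l, rfl⟩ := P.exc_of_mem hQ
      show |P.amps θ _ σ _| ≤ R2
      rw [P.amps_exc θ _ σ hi']
      exact hθ _ _
    | ins f' k =>
      obtain ⟨m, hm, e'⟩ := List.mem_iff_getElem.1 hQ
      obtain ⟨x, -, rfl, -⟩ := P.ins_of_getElem hm e'
      show |P.amps θ _ σ _| ≤ ε
      rw [P.amps_ins θ _ σ x, abs_neg]
      exact he x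
    | wait J q' => trivial
    | out J => trivial
    | back J => trivial
  have hother : ∀ e m (hm : m < (W.corr (j0 + i)).length),
      (∀ x, m ≠ P.insPos nW N0 x) →
        ((W.corr (j0 + i))[m]).amp (v e) = ((W.corr (j0 + i))[m]).amp (v 0) := by
    intro e m hm hne
    simp only [hlist] at hm ⊢
    rcases hQ : (P.list nW N0)[m] with ⟨J, q'⟩ | ⟨J, g', k⟩ | J | J | ⟨f', k⟩
    case exc =>
      obtain ⟨i', hi', l, rfl⟩ := P.exc_of_mem (hQ ▸ List.getElem_mem hm)
      simp only [Piece.amp, hv, P.amps_exc θ _ σ hi']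
    case ins =>
      obtain ⟨x, hx, -, -⟩ := P.ins_of_getElem hm hQ
      exact absurd hx (hne x)
    all_goals rfl
  have hampAt : ∀ e, ‖e‖ ≤ Real.exp (-3 * (((j0 + i : ℕ) : ℝ) + 1) ^ 6) →
      W.AmpAt j0 i (v e) Ra (Real.exp (-3 * (((j0 + i : ℕ) : ℝ) + 1) ^ 6)) := by
    intro e he Q hQ
    rw [LoopSpec.prog, loopProg] at hQ
    simp only [List.mem_append, List.mem_singleton, hlist] at hQ
    rcases hQ with ((((hQ | rfl) | rfl) | hQ) | rfl) | rfl
    · have h1 := hampok e _ (fun x => (Real.norm_eq_abs _ ▸ norm_le_pi_norm e x).trans he) Q hQ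
      cases Q with
      | exc J g' k => exact le_trans h1 hRa
      | ins f' k => exact h1
      | _ => trivial
    · trivial
    · trivial
    · have hok := hW.ctrl_ok (j0 + i) Q hQ
      cases Q with
      | exc J g' k =>
        show |P.amps θ _ σ k| ≤ Ra
        rw [P.amps_off θ _ σ (hctrl J g' k hQ)]
        exact hσ k
      | wait J q' => trivial
      | ins f' k => exact hok.elim
      | out J => exact hok.elim
      | back J => exact hok.elim
    · trivial
    · trivial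
  have hS : ∀ k, k < numCls Mb → |slotTime N0 (j0 + i) k| ≤ Cq' * T5 := by
    intro k hk
    rw [slotTime, abs_of_nonneg (by positivity)]
    refine mul_le_mul_of_nonneg_right (le_trans ?_ (le_add_of_nonneg_left hCq)) hT5'
    gcongr
  have hqle : Cq * T5 ≤ Cq' * T5 :=
    mul_le_mul_of_nonneg_right (le_add_of_nonneg_right (by positivity)) hT5'
  obtain ⟨hfam, KW, LW, c, S', phi, err, hW', hLW, hc, herr, hgap, hS', hphi⟩ :=
    hresp'' W j0 t0 ht hW ((le_max_right _ _).trans hj) ht0 hgood i hi v (P.insPos nW N0)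
      (fun x => insIdx (CorrPlan.slotStep x)) (slotTime N0 (j0 + i)) ((N0 : ℝ) * T5) F ex β q
      (P.insPos_injective nW N0)
      (fun x => by
        obtain ⟨h', e'⟩ := P.getElem_ins nW N0 x
        rw [hlist, List.getElem?_eq_getElem h', e', hPf])
      (fun x m h1 h2 h3 => by
        obtain ⟨h', e'⟩ := P.getElem_pad nW N0 x h1 h2 h3
        rw [hlist, List.getElem?_eq_getElem h', e'])
      (fun x => P.le_insPos nW N0 x)
      (fun m g' k hm => by
        rw [hlist] at hm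
        obtain ⟨hm', e'⟩ := List.getElem?_eq_some_iff.1 hm
        obtain ⟨y, hy, -, -⟩ := P.ins_of_getElem hm' e'
        exact ⟨y, hy⟩)
      (fun e x => P.amps_ins θ _ σ x) hother hampAt hβ hq (fun z => (hql z).trans hqle) hbuf hval
      (fun x => (hpre x).1) (fun x => (hpre x).2.1) (fun x => (hpre x).2.2.1)
      (fun x => (hpre x).2.2.2.1) (fun x => (hpre x).2.2.2.2)
      (fun l k hlk _ => slotTime_gap _ le_rfl hlk) hS
  refine ⟨v, β, q, fun e k hk => P.amps_off θ _ σ hk, hampok, ?_⟩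
  have hmono : ∀ {x C₁ : ℝ}, x ≤ C₁ * T5 → C₁ ≤ Cq' + C' → x ≤ (Cq' + C') * T5 :=
    fun h h' => h.trans (mul_le_mul_of_nonneg_right h' hT5')
  refine ⟨hfam, hβ, hq, fun z => hmono ((hql z).trans hqle) (by linarith), hbuf, hval,
    fun e _ => (keepsSeg_loop (Model.zeroCol_modelPM s Nf) _ i).1, KW, LW, c, S', phi, err, hW',
    hLW, fun p => hmono (hc p) (le_add_of_nonneg_left (by positivity)), herr, hgap,
    fun k hk => hmono (hS' k hk) (le_add_of_nonneg_left (by positivity)), hphi⟩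

end

end Vale.Agent.P225.Loop
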