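import Vale.Agent.P225.Loop.CorrLayoutTools
import Vale.Agent.P225.Loop.SegAmp
import Vale.Agent.P225.Loop.CorrGlue

/-!
P225 corrector (helper8): the layout of the corrector realises the exact baseline.  For every late
loop with the list of a plan there are amplitudes of the excursions such that, with zero insertions,
each prefix before an insertion is a function of the level value times its target and the corrector
followed by the buffer is diagonal.
-/

namespace Vale.Agent.P225.Loop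

open Finset Set
open scoped Matrix.Norms.L2Operator

noncomputable section

/-- The data of a baseline: the prefixes at the insertion positions `pos` and the value of the
corrector of length `c` followed by the buffer. -/
structure CorrLaid (Mb : ℕ) {n : ℕ}
    (g : Fin n → (Matrix (WSt (corrW Mb)) (WSt (corrW Mb)) ℝ)ˣ)
    (pos : Fin (numCls Mb) × Fin n → ℕ) (j N0 : ℕ) (Cq Cb b0 : ℝ) (S : ℕ → Seg HSp) (c : ℕ) :
    Prop where
  prefix_eq : ∀ x : Fin (numCls Mb) × Fin n, SegLocal 0 (segRange S 0 (pos x)) ∧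
    ∃ (F : ℝ → ℝ) (e : WSt (corrW Mb) → ℝ), (∀ v, 0 < F v) ∧
      (∀ y, |e y| ≤ Cb / Real.sqrt ((j : ℝ) + 1)) ∧
      (∀ y z, facMat (segRange S 0 (pos x)).Q y z = F (levV (y.1.blk.level 0)) * Real.exp (e y)
        * (g x.2 : Matrix (WSt (corrW Mb)) (WSt (corrW Mb)) ℝ) y z) ∧
      ∀ y : WSt (corrW Mb), |Real.log (F (levV (y.1.blk.level 0)))
        + alphaLev (y.1.blk.level 0) * slotTime N0 j x.1| ≤ b0 * ((j : ℝ) + 1) ^ 5
  value : ∃ β q : WSt (corrW Mb) → ℝ, (∀ z, 0 < β z) ∧ (∀ z, 0 < q z) ∧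
    (∀ z, |Real.log (q z)| ≤ Cq * ((j : ℝ) + 1) ^ 5) ∧
    (∀ z : WSt (corrW Mb), (S c).Q (lp.single 2 z.1 1) = β z • (lp.single 2 z.1 1 : HSp)) ∧
    ∀ y z : WSt (corrW Mb),
      facMat ((segRange S 0 c).comp (S c)).Q y z = if y = z then q z * β z else 0

namespace CorrPlan

variable {R n : ℕ} (P : CorrPlan R n) (nW N0 : ℕ)

/-- The start of the word of step `t`. -/
def wordStart (t : ℕ) : ℕ := P.pos nW N0 t + (P.pre nW t).length

/-- The end of the first `t` steps, with the buffer after the last one. -/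
def endPos (t : ℕ) : ℕ := P.pos nW N0 t + if t = R * (n + 1) then 1 else 0

/-- The length of the stretch after the word of step `t`. -/
def tailLen (t : ℕ) : ℕ := (P.post nW N0 t).length + if t + 1 = R * (n + 1) then 1 else 0

theorem endPos_succ {t : ℕ} (ht : t < R * (n + 1)) :
    P.endPos nW N0 (t + 1) = P.wordStart nW N0 t + (P.m t + P.tailLen nW N0 t) ∧
      P.endPos nW N0 t = P.pos nW N0 t ∧
      P.endPos nW N0 (t + 1) ≤ (P.list nW N0).length + 1 ∧
      P.pos nW N0 (t + 1) ≤ (P.list nW N0).length := by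
  have h1 := P.pos_le_length nW N0 (i := t + 1) ht
  refine ⟨?_, ?_, ?_, h1⟩
  · rw [endPos, pos_succ, wordStart, tailLen]; omega
  · rw [endPos, if_neg ht.ne, Nat.add_zero]
  · rw [endPos]; split_ifs <;> omega

theorem endPos_last (_hT : 0 < R * (n + 1)) :
    P.endPos nW N0 (R * (n + 1)) = (P.list nW N0).length + 1 := by
  rw [endPos, if_pos rfl]; rfl

/-- The pieces of one step, by their regions. -/
theorem step_getElem {t : ℕ} (ht : t < R * (n + 1)) {k : ℕ}
    (hk : P.pos nW N0 t + k < P.pos nW N0 (t + 1)) :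
    ∃ h : P.pos nW N0 t + k < (P.list nW N0).length,
      (k < (P.pre nW t).length → (P.list nW N0)[P.pos nW N0 t + k] ∈ P.pre nW t) ∧
      (∀ l : Fin (P.m t), k = (P.pre nW t).length + l →
        (P.list nW N0)[P.pos nW N0 t + k] = Piece.exc 0 (P.e t l) (excIdx t l)) ∧
      ((P.pre nW t).length + P.m t ≤ k →
        (P.list nW N0)[P.pos nW N0 t + k] = Piece.wait 0 5) := by
  rw [pos_succ] at hk
  obtain ⟨h, e⟩ := P.list_getElem nW N0 ht (k := k)
    (by simp only [List.length_append, length_word]; omega)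
  refine ⟨h, fun hp => ?_, fun l hl => ?_, fun hp => ?_⟩
  · rw [e, List.getElem_append_left (by simp only [List.length_append]; omega),
      List.getElem_append_left hp]
    exact List.getElem_mem _
  · subst hl
    rw [e, List.getElem_append_left (by simp [length_word]),
      List.getElem_append_right (Nat.le_add_right _ _)]
    simp [word]
  · rw [e, List.getElem_append_right (by simpa [length_word] using hp)]
    simp [post]

end CorrPlan

-- The layout.
set_option maxHeartbeats 1600000 in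
theorem exists_corr_layout {κ : ℝ} (hκ : 0 ≤ κ) (Mb s : ℕ) (hMb : 1 ≤ Mb) {n : ℕ}
    (g : Fin n → (Matrix (WSt (corrW Mb)) (WSt (corrW Mb)) ℝ)ˣ)
    (hg : ∀ l, ((g l : _) : Matrix _ _ ℝ) ∈ Alg.expMonoid (corrGens Mb s) ∧
      (((g l)⁻¹ : _) : Matrix _ _ ℝ) ∈ Alg.expMonoid (corrGens Mb s)) (f : Fin n → ℕ) :
    ∃ (P : CorrPlan (numCls Mb) n) (R2 : ℝ), P.f = f ∧ 0 ≤ R2 ∧
      ∀ nW : ℕ, ∃ b0 : ℝ, 0 ≤ b0 ∧
      ∀ (N0 P0 Nf : ℕ) (Ra Cc K ε₀ A : ℝ), R2 ≤ Ra → 0 ≤ Cc → 1 ≤ K → 0 < ε₀ → 1 ≤ A →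
      ∃ (Cq Cb : ℝ) (N : ℕ), 0 ≤ Cq ∧ 0 ≤ Cb ∧
        ∀ (W : LoopSpec) (j0 : ℕ) (t0 : ℝ) (ht : 1 ≤ t0), W.Ok P0 → N ≤ j0 →
        W.LoopsGood κ Cc (Model.modelPM s Nf) j0 t0 ht Ra K ε₀ A →
        ∀ i, W.corr (j0 + i) = P.list nW N0 →
        (∀ J g k, Piece.exc J g k ∈ W.ctrl (j0 + i) → P.off ≤ k) →
        ∀ σ : ℕ → ℝ, (∀ k, |σ k| ≤ Ra) →
        ∃ θ : ∀ t, Fin (P.m t) → ℝ, (∀ t k, |θ t k| ≤ R2) ∧
          CorrLaid Mb g (P.insPos nW N0) (j0 + i) N0 Cq Cb b0
            (W.segs κ Cc (Model.modelPM s Nf) j0 t0 ht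
              (LoopSpec.oneParams i (P.amps θ 0 σ)) i) (P.list nW N0).length := by
  classical
  choose uu hu hu' hue _hue' using fun l => exists_corr_unit Mb s (g l) (hg l).1 (hg l).2
  obtain ⟨m, ew, Rw, Bw, hRw, hBw, hbase⟩ := exists_corr_base (κ := κ) hκ
    (one_le_pow₀ one_le_two : (1 : ℝ) ≤ 2 ^ (s + 1)) (corrFrame Mb s) (corr_fib_nonempty Mb)
    (corrBig_nonempty hMb) (corr_gen Mb s) (Ax := corrAx Mb) corrAx_zero (corr_frameAt Mb s)
    (planTarget uu) (planTarget_zero uu) (fun t => by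
      rw [planTarget]
      split_ifs
      · exact ⟨by simp [(Alg.expMonoid _).one_mem], by simp [(Alg.expMonoid _).one_mem]⟩
      · exact ⟨hu _, hu' _⟩)
  set P : CorrPlan (numCls Mb) n := ⟨m, ew, f⟩ with hPdef
  set T := numCls Mb * (n + 1) with hT
  have hT0 : 0 < T := Nat.mul_pos (numCls_pos hMb) (Nat.succ_pos n)
  refine ⟨P, ∑ t ∈ Finset.range T, Rw t, rfl, Finset.sum_nonneg fun t _ => (hRw t).le,
    fun nW => ?_⟩
  set R2 := ∑ t ∈ Finset.range T, Rw t
  set Am := ∑ y : WSt (corrW Mb), alphaLev (y.1.blk.level 0)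
  have hAm : 0 ≤ Am := Finset.sum_nonneg fun y _ => alphaLev_nonneg _
  have hαA : ∀ y : WSt (corrW Mb), alphaLev (y.1.blk.level 0) ≤ Am := fun y =>
    Finset.single_le_sum (f := fun y : WSt (corrW Mb) => alphaLev (y.1.blk.level 0))
      (fun _ _ => alphaLev_nonneg _) (Finset.mem_univ y)
  set BB := ∑ t ∈ Finset.range T, Bw t
  have hBB : 0 ≤ BB := Finset.sum_nonneg fun t _ => hBw t
  refine ⟨(1 + T * (2 * nW + 3) : ℕ) * Am + BB + 1, by positivity,
    fun N0 P0 Nf Ra Cc K ε₀ A hRa hCc hK hε₀ hA => ?_⟩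
  set c := (P.list nW N0).length with hc
  obtain ⟨K', δ₀, hKK', hδ₀, hrange⟩ := exists_segRange_bd (c + 1) K hK
  have hK0 : 0 ≤ K := zero_le_one.trans hK
  have hK'1 : 1 ≤ K' := hK.trans hKK'
  have hK'0 : 0 ≤ K' := zero_le_one.trans hK'1
  obtain ⟨Cb, N₁, hCb, hcb⟩ := hbase T (max K' (K' * K)) (hK'1.trans (le_max_left _ _))
  set ce := 3 * Cc + 3 * κ * (3 + Am) + 2 * (K' * (K' * K))
  obtain ⟨N₂, hN₂⟩ := exists_nat_div_sqrt_le K hδ₀
  obtain ⟨N₃, hN₃⟩ := exists_nat_div_sqrt_le (K' * (K' * K)) (by norm_num : (0 : ℝ) < 1 / 4)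
  obtain ⟨N₄, hN₄⟩ := exists_nat_div_sqrt_le κ one_pos
  obtain ⟨N₅, hN₅⟩ := exists_nat_div_sqrt_le (((c + 1 : ℕ) : ℝ) * ce) one_pos
  refine ⟨((N0 * numCls Mb + (1 + T * (2 * nW + 3)) : ℕ) : ℝ) * Am + BB + 1 + Cb, Cb,
    max N₁ (max N₂ (max N₃ (max N₄ N₅))),
    add_nonneg (add_nonneg (add_nonneg (mul_nonneg (Nat.cast_nonneg _) hAm) hBB) zero_le_one)
      (zero_le_one.trans ((hK'1.trans (le_max_left _ _)).trans hCb)),
    zero_le_one.trans ((hK'1.trans (le_max_left _ _)).trans hCb),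
    fun W j0 t0 ht hW hj hgood i hlist hctrl σ hσ => ?_⟩
  simp only [max_le_iff] at hj
  obtain ⟨hj1, hj2, hj3, hj4, hj5⟩ := hj
  set j := j0 + i
  set T5 := ((j : ℝ) + 1) ^ 5
  set u := 1 / Real.sqrt ((j : ℝ) + 1) with hudef
  have hu0 : 0 ≤ u := by positivity
  have hdiv : ∀ x : ℝ, x / Real.sqrt ((j : ℝ) + 1) = x * u := fun x => by rw [hudef]; ring
  have hT5 : 1 ≤ T5 := one_le_pow₀ (le_add_of_nonneg_left (Nat.cast_nonneg j))
  have hdu : 1 / T5 ≤ u := inv_pow_five_le_inv_sqrt j
  have hn2 := hN₂ j (hj2.trans (Nat.le_add_right _ _))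
  have hn3 := hN₃ j (hj3.trans (Nat.le_add_right _ _))
  have hn4 := hN₄ j (hj4.trans (Nat.le_add_right _ _))
  have hn5 := hN₅ j (hj5.trans (Nat.le_add_right _ _))
  rw [hdiv] at hn2 hn3 hn5
  set δ' := K' * (K * (1 / T5))
  have hδ'u : δ' ≤ K' * K * u := by
    rw [mul_assoc K' K u]
    exact mul_le_mul_of_nonneg_left (mul_le_mul_of_nonneg_left hdu hK0) hK'0
  have hKδ : K' * δ' ≤ 1 / 4 :=
    (mul_le_mul_of_nonneg_left hδ'u hK'0).trans (le_trans (le_of_eq (by ring)) hn3)
  have hWlen := W.prog_length j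
  have hcorr : (W.corr j).length = c := by rw [hlist]
  have hget : ∀ l (hl : l < c) (hl' : l < (W.prog j).length),
      (W.prog j)[l] = (P.list nW N0)[l] := by
    intro l hl hl'
    rcases W.prog_getElem j l hl' with
      ⟨h, e⟩ | ⟨h, -⟩ | ⟨h, -⟩ | ⟨-, h, -⟩ | ⟨h, -⟩ | ⟨h, -⟩
    · rw [e]; exact List.getElem_of_eq hlist _
    all_goals omega
  set S : (∀ t, Fin (P.m t) → ℝ) → ℕ → Seg HSp := fun θ =>
    W.segs κ Cc (Model.modelPM s Nf) j0 t0 ht (LoopSpec.oneParams i (P.amps θ 0 σ)) i with hSdef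
  -- the loop is good at zero insertions
  have hloop : ∀ θ : ∀ t, Fin (P.m t) → ℝ, (∀ t k, |θ t k| ≤ R2) →
      W.LoopGood κ Cc (Model.modelPM s Nf) j0 t0 ht (LoopSpec.oneParams i (P.amps θ 0 σ)) K 0 i 0 := by
    intro θ hθ
    refine hgood i _ 0 le_rfl hε₀.le ?_ 0 (by simp only [norm_zero]; positivity)
    intro Q hQ
    simp only [LoopSpec.prog, loopProg, List.mem_append, List.mem_singleton] at hQ
    rcases hQ with ((((hQ | rfl) | rfl) | hQ) | rfl) | rfl
    · rw [hlist] at hQ
      have := P.ampOk (θ := θ) (ε := 0) (φ := σ) (R2 := R2) (δ := 0) hθ (fun x => by simp) Q hQ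
      revert this
      cases Q <;> intro hQ' <;> first | exact hQ' | exact le_trans hQ' hRa
    · trivial
    · trivial
    · have hok := hW.ctrl_ok j Q hQ
      cases Q with
      | exc J g' k =>
        show |P.amps θ 0 σ k| ≤ Ra
        rw [P.amps_off θ 0 σ (hctrl J g' k hQ)]
        exact hσ k
      | wait J q' => trivial
      | ins f' k => exact hok.elim
      | out J => exact hok.elim
      | back J => exact hok.elim
    · trivial
    · trivial
  have hgd : ∀ θ : ∀ t, Fin (P.m t) → ℝ, (∀ t k, |θ t k| ≤ R2) → ∀ l (hl : l < (W.prog j).length),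
      (W.sched j0 t0 ht).SegGood κ Cc K 0 (Model.modelPM s Nf)
        (LoopSpec.oneParams i (P.amps θ 0 σ)) (W.corr j).length i l ((W.prog j)[l]) :=
    fun θ hθ l hl => (hloop θ hθ).piece l hl
  have hranges : ∀ θ : ∀ t, Fin (P.m t) → ℝ, (∀ t k, |θ t k| ≤ R2) →
      RangesBd (S θ) (c + 1) K' δ' := by
    intro θ hθ l k hlk
    refine (hrange HSp (K * (1 / T5)) (by positivity)
      ((mul_le_mul_of_nonneg_left hdu hK0).trans hn2) (S θ) l k (by omega) fun l' _ h2 => ?_).1
    obtain ⟨q1, q2, q3, q4⟩ := (hgd θ hθ l' (by omega)).bd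
    exact ⟨q1, q2, q3.trans_eq (by rw [add_zero]; rfl), q4⟩
  -- pieces which are no excursions
  set θ₀ : ∀ t, Fin (P.m t) → ℝ := fun _ _ => 0
  have hR2 : 0 ≤ R2 := Finset.sum_nonneg fun t _ => (hRw t).le
  have hθ₀ : ∀ t k, |θ₀ t k| ≤ R2 := fun t k => by simpa [θ₀] using hR2
  let NE : ℕ → Prop := fun l => l ≤ c ∧ ∃ hl : l < (W.prog j).length,
    ((W.prog j)[l]).isExc = false ∧ ∀ f' k, (W.prog j)[l] = Piece.ins f' k →
      ∀ θ : ∀ t, Fin (P.m t) → ℝ, P.amps θ 0 σ k = 0
  have hins0 : ∀ (x : Fin (numCls Mb) × Fin n) (θ : ∀ t, Fin (P.m t) → ℝ),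
      P.amps θ 0 σ (insIdx (CorrPlan.slotStep x)) = 0 := fun x θ => by rw [P.amps_ins]; rfl
  have hne0 : NE 0 := by
    refine ⟨Nat.zero_le _, by omega, ?_⟩
    have h0 : 0 < c := by
      rcases Nat.eq_zero_or_pos c with h | h
      · have := P.head? nW N0; simp [List.eq_nil_of_length_eq_zero h] at this
      · exact h
    rw [hget 0 h0]
    have := P.head? nW N0
    rw [List.head?_eq_getElem?, List.getElem?_eq_getElem (by omega)] at this
    rw [Option.some.inj this]
    exact ⟨rfl, by simp⟩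
  have hnec : NE c := by
    refine ⟨le_rfl, by omega, ?_⟩
    have : (W.prog j)[c]'(by omega) = Piece.wait 0 6 := by
      rcases W.prog_getElem j c (by omega) with
        ⟨h, -⟩ | ⟨-, e⟩ | ⟨h, -⟩ | ⟨-, h, -⟩ | ⟨h, -⟩ | ⟨h, -⟩
      · omega
      · exact e
      all_goals omega
    rw [this]
    exact ⟨rfl, by simp⟩
  have hnepre : ∀ t < T, ∀ k < (P.pre nW t).length,
      NE (P.pos nW N0 t + k) ∧ P.pos nW N0 t + k < c := by
    intro t htT k hk
    obtain ⟨h, hpre, -, -⟩ := P.step_getElem nW N0 htT (k := k) (by rw [CorrPlan.pos_succ]; omega)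
    refine ⟨⟨h.le, by omega, ?_⟩, h⟩
    rw [hget _ h]
    rcases P.mem_pre htT (hpre hk) with e | ⟨x, e⟩ <;> rw [e]
    · exact ⟨rfl, by simp⟩
    · exact ⟨rfl, fun f' k' e' θ => by obtain ⟨-, rfl⟩ := Piece.ins.inj e'; exact hins0 x θ⟩
  have hnepost : ∀ t < T, ∀ k < (P.post nW N0 t).length,
      NE (P.wordStart nW N0 t + (P.m t + k)) ∧ P.wordStart nW N0 t + (P.m t + k) < c := by
    intro t htT k hk
    rw [CorrPlan.wordStart, Nat.add_assoc]
    obtain ⟨h, -, -, hpost⟩ := P.step_getElem nW N0 htT (k := (P.pre nW t).length + (P.m t + k))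
      (by rw [CorrPlan.pos_succ]; omega)
    refine ⟨⟨h.le, by omega, ?_⟩, h⟩
    rw [hget _ h, hpost (by omega)]
    exact ⟨rfl, by simp⟩
  have hsame : ∀ θ θ' : ∀ t, Fin (P.m t) → ℝ, ∀ l, NE l → S θ l = S θ' l := by
    rintro θ θ' l ⟨-, hl, he, hi⟩
    refine W.segs_amp κ Cc _ j0 t0 ht fun hm => ?_
    simp only [LoopSpec.oneParams_self]
    generalize hQ : (W.prog (j0 + i))[l] = Q at he hi
    cases Q with
    | exc J g' k => simp [Piece.isExc] at he
    | ins f' k => show P.amps θ 0 σ k = P.amps θ' 0 σ k; rw [hi f' k rfl θ, hi f' k rfl θ']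
    | _ => rfl
  choose! qp hqp hql hqn using fun l (h : NE l) =>
    W.seg_levScal (m := l) hκ hW h.2.1 (h.1.trans_eq hcorr.symm) h.2.2.1
      (fun f' k e => by rw [LoopSpec.oneParams_self]; exact h.2.2.2 f' k e θ₀) hn4
      (hgd θ₀ hθ₀ l h.2.1)
  set η := ce * u with hη
  have hη0 : 0 ≤ η := by positivity
  have hcmp : 2 * (K' * δ') ≤ T5 * η := by
    have h1 : 2 * (K' * δ') ≤ 2 * (K' * (K' * K)) * u := by
      have := mul_le_mul_of_nonneg_left hδ'u hK'0
      linarith
    refine h1.trans (le_trans ?_ (le_mul_of_one_le_left hη0 hT5))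
    refine mul_le_mul_of_nonneg_right ?_ hu0
    have : 0 ≤ 3 * κ * (3 + Am) := by positivity
    linarith
  let lpv : ℕ → WSt (corrW Mb) → ℝ := fun l y => Real.log (qp l (levV (y.1.blk.level 0)))
  have hlp : ∀ l, NE l → l < c → ∀ y,
      |lpv l y + T5 * alphaLev (y.1.blk.level 0)| ≤ T5 * (η - 2 * (K' * (K' * K)) * u) := by
    intro l h hlc y
    have hlen : ((W.prog (j0 + i))[l]'h.2.1).len (j0 + i) = T5 := by
      rw [hget l hlc h.2.1, Piece.len, (P.isCorr _ (List.getElem_mem _)).facts.2.2]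
    have := hqn l h y.1
    rw [hlen] at this
    refine this.trans (mul_le_mul_of_nonneg_left ?_ (by positivity))
    have h1 : 3 * Cc / T5 ≤ 3 * Cc * u :=
      calc 3 * Cc / T5 = 3 * Cc * (1 / T5) := by ring
        _ ≤ 3 * Cc * u := mul_le_mul_of_nonneg_left hdu (by positivity)
    have h2 : 3 * (κ / Real.sqrt ((j : ℝ) + 1)) * (3 + alphaLev (y.1.blk.level 0))
        ≤ 3 * κ * (3 + Am) * u := by
      rw [hdiv, show 3 * κ * (3 + Am) * u = 3 * (κ * u) * (3 + Am) by ring]
      exact mul_le_mul_of_nonneg_left (by linarith [hαA y]) (by positivity)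
    have e : η - 2 * (K' * (K' * K)) * u = 3 * Cc * u + 3 * κ * (3 + Am) * u := by
      simp only [hη, ce]; ring
    rw [e]
    exact add_le_add h1 h2
  -- stretches
  have hstr : ∀ l k, l + k ≤ c + 1 → (∀ l', l ≤ l' → l' < l + k → NE l') →
      ∃ sv : ℝ → ℝ, DiagAt (corrBig Mb) (corrAx Mb) (segRange (S θ₀) l k) sv ∧
        SegLocal 0 (segRange (S θ₀) l k) ∧
        SegBd (max K' (K' * K)) (max K' (K' * K) / Real.sqrt ((j : ℝ) + 1)) (segRange (S θ₀) l k) ∧
        ∀ y : WSt (corrW Mb),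
          |Real.log (sv (levV (y.1.blk.level 0))) - ∑ l' ∈ Finset.range k, lpv (l + l') y|
            ≤ k * (2 * (K' * δ')) := by
    intro l k hlk hne
    obtain ⟨sv, hsv, hsl⟩ := segRange_levScal (hranges θ₀ hθ₀) hKδ k l hlk
      (q := qp) fun l' h1 h2 => hqp l' (hne l' h1 h2)
    refine ⟨sv, hsv.diagAt corrAx_zero,
      segRange_segLocal (hranges θ₀ hθ₀) hKδ k l hlk fun l' h1 h2 => hql l' (hne l' h1 h2),
      ((hranges θ₀ hθ₀) l k hlk).mono (le_max_left _ _) ?_, fun y => hsl y.1⟩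
    rw [hdiv]
    exact hδ'u.trans (mul_le_mul_of_nonneg_right (le_max_right _ _) hu0)
  let tailD : ℕ → ℕ → Prop := fun t l => NE (P.wordStart nW N0 t + (P.m t + l))
  have hnetail : ∀ t < T, ∀ k < P.tailLen nW N0 t, tailD t k := by
    intro t htT k hk
    rcases Nat.lt_or_ge k (P.post nW N0 t).length with h | h
    · exact (hnepost t htT k h).1
    · simp only [CorrPlan.tailLen] at hk
      split_ifs at hk with hlast
      · have e : P.wordStart nW N0 t + (P.m t + k) = c := by
          have h1 := (P.endPos_succ nW N0 htT).1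
          rw [CorrPlan.tailLen, if_pos hlast, hlast, P.endPos_last nW N0 hT0] at h1
          omega
        show NE _
        rw [e]; exact hnec
      · omega
  obtain ⟨F₀, hF₀, hP₀l, hP₀b, hF₀n⟩ := hstr 0 1 (by omega) fun l' _ h2 => by
    obtain rfl : l' = 0 := by omega
    exact hne0
  choose! dv hdv hdl hdb hdn using fun t (htT : t < T) =>
    hstr (P.pos nW N0 t) (P.pre nW t).length
      (by have := P.endPos_succ nW N0 htT; have := (P.pos_succ nW N0 t); omega)
      fun l' h1 h2 => by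
        obtain ⟨k, rfl⟩ := Nat.exists_eq_add_of_le h1
        exact (hnepre t htT k (by omega)).1
  choose! zv hzv hzl hzb hzn using fun t (htT : t < T) =>
    hstr (P.wordStart nW N0 t + P.m t) (P.tailLen nW N0 t)
      (by have := P.endPos_succ nW N0 htT; omega)
      fun l' h1 h2 => by
        obtain ⟨k, rfl⟩ := Nat.exists_eq_add_of_le h1
        rw [Nat.add_assoc]
        exact hnetail t htT k (by omega)
  have hws : ∀ t < T, P.wordStart nW N0 t + P.m t ≤ c := fun t htT => by
    have h1 := (P.endPos_succ nW N0 htT).2.2.2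
    rw [CorrPlan.pos_succ] at h1
    simp only [CorrPlan.wordStart]
    omega
  obtain ⟨θw, Sw, cw, hSw, hcw, hcwl, hpre⟩ := hcb j
    (fun t => (W.sched j0 t0 ht).pieceStart i (P.wordStart nW N0 t))
    (hj1.trans (Nat.le_add_right _ _))
    (fun t htT => (hgd θ₀ hθ₀ _ (by have := hws t htT; omega)).good.start_ge)
    (segRange (S θ₀) 0 1) (fun t => segRange (S θ₀) (P.pos nW N0 t) (P.pre nW t).length)
    (fun t => segRange (S θ₀) (P.wordStart nW N0 t + P.m t) (P.tailLen nW N0 t)) F₀ dv zv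
    hP₀l hP₀b hF₀ (fun t htT =>
      ⟨hdl t htT, hdb t htT, hdv t htT, hzl t htT, hzb t htT, hzv t htT⟩)
  let θ : ∀ t, Fin (P.m t) → ℝ := fun t k => if t < T then θw t k else 0
  have hθ : ∀ t k, |θ t k| ≤ R2 := fun t k => by
    simp only [θ]
    split_ifs with h
    · exact (abs_le.2 (hSw t h k).1).trans
        (Finset.single_le_sum (fun t _ => (hRw t).le) (Finset.mem_range.2 h))
    · simpa using hR2
  refine ⟨θ, hθ, ?_⟩
  have hb := hranges θ hθ
  -- the excursions
  have hexc : ∀ t (htT : t < T) (k : Fin (P.m t)), S θ (P.wordStart nW N0 t + k) = Sw t k := by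
    intro t htT k
    have hlen : ∀ l : Fin (P.m t), ∃ h : P.wordStart nW N0 t + l < (W.prog j).length,
        (W.prog j)[P.wordStart nW N0 t + l] = Piece.exc 0 (P.e t l) (excIdx t l) := by
      intro l
      have := l.2
      obtain ⟨h, -, hw, -⟩ := P.step_getElem nW N0 htT (k := (P.pre nW t).length + l)
        (by rw [CorrPlan.pos_succ]; omega)
      have hh := hws t htT
      refine ⟨by omega, ?_⟩
      have hl' : P.wordStart nW N0 t + l < c := by omega
      rw [hget _ hl']
      simp only [CorrPlan.wordStart, Nat.add_assoc]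
      exact hw l rfl
    obtain ⟨hl, he⟩ := hlen k
    have hstart : (W.sched j0 t0 ht).pieceStart i (P.wordStart nW N0 t + k)
        = (W.sched j0 t0 ht).pieceStart i (P.wordStart nW N0 t) + (k : ℕ) * T5 :=
      (W.sched j0 t0 ht).pieceStart_add T5 k fun l hlk => by
        obtain ⟨h, e⟩ := hlen ⟨l, by omega⟩
        exact ⟨h, (congrArg (fun Q : Piece => Q.len j) e).trans rfl⟩
    have G := hgd θ hθ _ hl
    rw [he] at G
    have hamp : LoopSpec.oneParams i (P.amps θ 0 σ) i (excIdx t k) = θw t k := by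
      rw [LoopSpec.oneParams_self, P.amps_exc θ 0 σ htT]
      simp only [θ, if_pos htT]
    refine (G.exc 0 _ _ rfl).trans ?_
    refine G.good.excSeg_eq (Lv := corrBig Mb) (Model.modelFrame s 0 (P.e t k)) ?_
    rw [hstart, hamp]
    exact (hSw t htT k).2.1
  -- the prefixes of the baseline are ranges
  have hid : ∀ t ≤ T, basePrefix (segRange (S θ₀) 0 1)
      (fun t => segRange (S θ₀) (P.pos nW N0 t) (P.pre nW t).length)
      (fun t => segRange (S θ₀) (P.wordStart nW N0 t + P.m t) (P.tailLen nW N0 t)) Sw t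
        = segRange (S θ) 0 (P.endPos nW N0 t) := by
    intro t htT
    induction t with
    | zero =>
      have e0 : P.endPos nW N0 0 = 1 := by
        rw [CorrPlan.endPos, if_neg (by omega)]; rfl
      rw [e0, basePrefix]
      refine segRange_congr 1 0 fun l _ h2 => ?_
      obtain rfl : l = 0 := by omega
      exact hsame _ _ _ hne0
    | succ t ih =>
      have htT' : t < T := htT
      obtain ⟨e1, e2, e3, -⟩ := P.endPos_succ nW N0 htT'
      rw [basePrefix, ih htT'.le, e2]
      have hD : segRange (S θ₀) (P.pos nW N0 t) (P.pre nW t).length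
          = segRange (S θ) (0 + P.pos nW N0 t) (P.pre nW t).length := by
        rw [Nat.zero_add]
        refine segRange_congr _ _ fun l h1 h2 => ?_
        obtain ⟨k, rfl⟩ := Nat.exists_eq_add_of_le h1
        exact hsame _ _ _ (hnepre t htT' k (by omega)).1
      have hZ : segRange (S θ₀) (P.wordStart nW N0 t + P.m t) (P.tailLen nW N0 t)
          = segRange (S θ) (P.wordStart nW N0 t + P.m t) (P.tailLen nW N0 t) := by
        refine segRange_congr _ _ fun l h1 h2 => ?_
        obtain ⟨k, rfl⟩ := Nat.exists_eq_add_of_le h1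
        rw [Nat.add_assoc]
        exact hsame _ _ _ (hnetail t htT' k (by omega))
      have hwd : segChain (Sw t) = segRange (S θ) (P.wordStart nW N0 t) (P.m t) := by
        rw [segRange_eq_segChain]
        congr 1
        funext k
        exact (hexc t htT' k).symm
      have hwl : 0 + P.pos nW N0 t + (P.pre nW t).length = P.wordStart nW N0 t := by
        rw [CorrPlan.wordStart, Nat.zero_add]
      show ((segRange (S θ) 0 (P.pos nW N0 t)).comp _).comp ((segChain (Sw t)).comp _) = _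
      rw [hD, hZ, hwd, ← segRange_append hb hKδ _ 0 _ (by
          have := hws t htT'; simp only [CorrPlan.wordStart] at this; omega),
        ← segRange_append hb hKδ _ _ _ (by omega),
        show P.pos nW N0 t + (P.pre nW t).length = P.wordStart nW N0 t from rfl]
      have e4 := segRange_append hb hKδ (P.wordStart nW N0 t) 0
        (P.m t + P.tailLen nW N0 t) (by omega)
      rw [Nat.zero_add, ← e1] at e4
      exact e4.symm
  -- the logarithms of the value functions
  have hlog : ∀ t ≤ T, ∀ y : WSt (corrW Mb),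
      |Real.log (baseFun F₀ dv cw zv t (levV (y.1.blk.level 0)))
          + T5 * alphaLev (y.1.blk.level 0) * P.waits nW N0 t - (if t = T then lpv c y else 0)|
        ≤ (∑ l ∈ Finset.range t, Bw l) * T5 + P.endPos nW N0 t * (T5 * η) := by
    have hsum : ∀ (y : WSt (corrW Mb)) l k, (∀ l' < k, NE (l + l') ∧ l + l' < c) →
        |(∑ l' ∈ Finset.range k, lpv (l + l') y) + k * (T5 * alphaLev (y.1.blk.level 0))|
          ≤ k * (T5 * (η - 2 * (K' * (K' * K)) * u)) := by
      intro y l k hk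
      have e : (∑ l' ∈ Finset.range k, lpv (l + l') y) + k * (T5 * alphaLev (y.1.blk.level 0))
          = ∑ l' ∈ Finset.range k, (lpv (l + l') y + T5 * alphaLev (y.1.blk.level 0)) := by
        rw [Finset.sum_add_distrib, Finset.sum_const, Finset.card_range, nsmul_eq_mul]
      rw [e]
      refine (Finset.abs_sum_le_sum_abs _ _).trans ((Finset.sum_le_sum fun l' hl' =>
        hlp _ (hk l' (Finset.mem_range.1 hl')).1 (hk l' (Finset.mem_range.1 hl')).2 y).trans_eq ?_)
      rw [Finset.sum_const, Finset.card_range, nsmul_eq_mul]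
    have hstep : ∀ k : ℕ, (k : ℝ) * (2 * (K' * δ')) + k * (T5 * (η - 2 * (K' * (K' * K)) * u))
        ≤ k * (T5 * η) := by
      intro k
      rw [← mul_add]
      refine mul_le_mul_of_nonneg_left ?_ (Nat.cast_nonneg k)
      have h1 : 2 * (K' * δ') ≤ T5 * (2 * (K' * (K' * K)) * u) := by
        have := mul_le_mul_of_nonneg_left hδ'u hK'0
        have h2 : 2 * (K' * δ') ≤ 2 * (K' * (K' * K)) * u := by linarith
        exact h2.trans (le_mul_of_one_le_left (by positivity) hT5)
      linarith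
    intro t htT y
    induction t with
    | zero =>
      have h1 := hF₀n y
      have h2 := hsum y 0 1 (fun l' hl' => by
        obtain rfl : l' = 0 := by omega
        refine ⟨by simpa using hne0, ?_⟩
        rcases Nat.eq_zero_or_pos c with h | h
        · have := P.head? nW N0; simp [List.eq_nil_of_length_eq_zero h] at this
        · simpa using h)
      have h3 := hstep 1
      rw [if_neg hT0.ne, Finset.range_zero, Finset.sum_empty, zero_mul, zero_add, sub_zero,
        show P.endPos nW N0 0 = 1 by rw [CorrPlan.endPos, if_neg hT0.ne]; rfl,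
        show P.waits nW N0 0 = 1 from rfl]
      simp only [baseFun, Nat.cast_one, one_mul, mul_one] at h1 h2 h3 ⊢
      rw [abs_le] at h1 h2 ⊢
      constructor <;> linarith
    | succ t ih =>
      have htT' : t < T := htT
      have hIH := ih htT'.le
      rw [if_neg htT'.ne, sub_zero] at hIH
      obtain ⟨e1, e2, -, -⟩ := P.endPos_succ nW N0 htT'
      have hd := hdn t htT' y
      have hd' := hsum y (P.pos nW N0 t) (P.pre nW t).length fun l' hl' => hnepre t htT' l' hl'
      have hc' := hcwl t htT' y.1 (by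
        by_cases h : y.1.blk.level 0 ∈ corrBig Mb
        · exact Or.inl h
        · exact Or.inr (corrAx_of_not y h))
      have hz := hzn t htT' y
      have hz' := hsum y (P.wordStart nW N0 t + P.m t) (P.post nW N0 t).length fun l' hl' => by
        rw [Nat.add_assoc]
        exact hnepost t htT' l' hl'
      have hk : (∑ l' ∈ Finset.range (P.tailLen nW N0 t),
          lpv (P.wordStart nW N0 t + P.m t + l') y)
          = (∑ l' ∈ Finset.range (P.post nW N0 t).length,
              lpv (P.wordStart nW N0 t + P.m t + l') y) + (if t + 1 = T then lpv c y else 0) := by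
        rw [CorrPlan.tailLen]
        by_cases hlast : t + 1 = T
        · rw [if_pos hlast, Finset.sum_range_succ, if_pos hlast]
          congr 2
          have h1 := e1
          rw [CorrPlan.tailLen, if_pos hlast, hlast, P.endPos_last nW N0 hT0] at h1
          omega
        · rw [if_neg hlast, Nat.add_zero, if_neg hlast, add_zero]
      have hs1 := hstep (P.pre nW t).length
      have hs2 := hstep (P.post nW N0 t).length
      have hlen : (P.endPos nW N0 t : ℝ) + (P.pre nW t).length + P.tailLen nW N0 t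
          ≤ P.endPos nW N0 (t + 1) := by
        have : P.endPos nW N0 t + (P.pre nW t).length + P.tailLen nW N0 t
            ≤ P.endPos nW N0 (t + 1) := by rw [e1, e2, CorrPlan.wordStart]; omega
        exact_mod_cast this
      have htail : (P.tailLen nW N0 t : ℝ) * (2 * (K' * δ'))
          ≤ (P.post nW N0 t).length * (2 * (K' * δ'))
            + ((P.tailLen nW N0 t : ℝ) - (P.post nW N0 t).length) * (T5 * η) := by
        have h1 : ((P.post nW N0 t).length : ℝ) ≤ P.tailLen nW N0 t :=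
          Nat.cast_le.2 (Nat.le_add_right _ _)
        have h2 := mul_le_mul_of_nonneg_left hcmp (sub_nonneg.2 h1)
        linarith
      have hlen' := mul_le_mul_of_nonneg_right hlen (show 0 ≤ T5 * η by positivity)
      have hp1 := (hdv t htT').1 (levV (y.1.blk.level 0))
      have hp2 := (hzv t htT').1 (levV (y.1.blk.level 0))
      have hp3 := hcw t (levV (y.1.blk.level 0))
      have hp4 : 0 < baseFun F₀ dv cw zv t (levV (y.1.blk.level 0)) := (hpre t htT'.le).2.2.F_pos _
      rw [hk] at hz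
      rw [Finset.sum_range_succ, add_mul, baseFun, Real.log_mul (by positivity) hp2.ne',
        Real.log_mul (by positivity) hp3.ne', Real.log_mul hp4.ne' hp1.ne']
      simp only [CorrPlan.waits, Nat.cast_add]
      rw [abs_le] at hIH hd hd' hc' hz hz' ⊢
      constructor <;> linarith
  have hends : ∀ t ≤ T, (P.endPos nW N0 t : ℝ) * (T5 * η) ≤ T5 := by
    intro t htT
    have h1 : P.endPos nW N0 t ≤ c + 1 := by
      have := P.pos_le_length nW N0 htT
      rw [CorrPlan.endPos]; split_ifs <;> omega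
    have h2 : (P.endPos nW N0 t : ℝ) * η ≤ 1 :=
      (mul_le_mul_of_nonneg_right (Nat.cast_le.2 h1) hη0).trans
        ((le_of_eq (by rw [hη]; ring)).trans hn5)
    calc (P.endPos nW N0 t : ℝ) * (T5 * η) = T5 * (P.endPos nW N0 t * η) := by ring
      _ ≤ T5 * 1 := mul_le_mul_of_nonneg_left h2 (by positivity)
      _ = T5 := mul_one _
  have hBt : ∀ t ≤ T, (∑ l ∈ Finset.range t, Bw l) * T5 ≤ BB * T5 := fun t htT =>
    mul_le_mul_of_nonneg_right (Finset.sum_le_sum_of_subset_of_nonneg
      (Finset.range_mono htT) fun l _ _ => hBw l) (by positivity)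
  refine ⟨fun x => ?_, ?_⟩
  · have hxT : CorrPlan.slotStep x < T := CorrPlan.slotStep_lt x
    obtain ⟨hl, -, hP⟩ := hpre _ hxT.le
    rw [hid _ hxT.le, (P.endPos_succ nW N0 hxT).2.1] at hl hP
    obtain ⟨e, he, hQ⟩ := hP.facMat_eq hl
    refine ⟨hl, _, e, hP.F_pos, he, fun y z => ?_, fun y => ?_⟩
    · rw [show P.insPos nW N0 x = P.pos nW N0 (CorrPlan.slotStep x) from rfl, hQ y z,
        planTarget_slot, hue]
    · have h := hlog _ hxT.le y
      rw [if_neg hxT.ne, sub_zero] at h
      obtain ⟨hw1, hw2⟩ := P.waits_bounds nW N0 (CorrPlan.slotStep x)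
      rw [CorrPlan.slotStep_div] at hw1 hw2
      have h1 := Nat.mul_le_mul_right (2 * nW + 3) hxT.le
      have hnat : P.waits nW N0 (CorrPlan.slotStep x) ≤ N0 * x.1.1 + (1 + T * (2 * nW + 3)) := by
        omega
      have hr1 : ((N0 * x.1.1 : ℕ) : ℝ) ≤ P.waits nW N0 (CorrPlan.slotStep x) := Nat.cast_le.2 hw1
      have hr2 : (P.waits nW N0 (CorrPlan.slotStep x) : ℝ)
          ≤ (N0 * x.1.1 : ℕ) + (1 + T * (2 * nW + 3) : ℕ) := by exact_mod_cast hnat
      have hα0 := alphaLev_nonneg (y.1.blk.level 0)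
      have hw : |(P.waits nW N0 (CorrPlan.slotStep x) : ℝ) - (N0 * x.1.1 : ℕ)|
          * (T5 * alphaLev (y.1.blk.level 0)) ≤ ((1 + T * (2 * nW + 3) : ℕ) : ℝ) * (T5 * Am) :=
        mul_le_mul (abs_le.2 ⟨by linarith [Nat.cast_nonneg (α := ℝ) (1 + T * (2 * nW + 3))],
          by linarith⟩) (mul_le_mul_of_nonneg_left (hαA y) (by positivity)) (by positivity)
          (Nat.cast_nonneg _)
      rw [show alphaLev (y.1.blk.level 0) * slotTime N0 j x.1
        = T5 * alphaLev (y.1.blk.level 0) * (N0 * x.1.1 : ℕ) by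
          simp only [slotTime, T5, Nat.cast_mul]; ring]
      rw [show ((N0 * x.1.1 : ℕ) : ℝ) = ((N0 * x.1.1 : ℕ) : ℝ) from rfl] at hw
      rw [← abs_of_nonneg (show 0 ≤ T5 * alphaLev (y.1.blk.level 0) by positivity), ← abs_mul] at hw
      rw [abs_le] at h hw ⊢
      have := hends _ hxT.le
      have := hBt _ hxT.le
      constructor <;> linarith
  · obtain ⟨hl, -, hP⟩ := hpre T le_rfl
    rw [hid T le_rfl, P.endPos_last nW N0 hT0,
      (planTarget_close uu (numCls Mb) : planTarget uu T = 1)] at hP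
    rw [hid T le_rfl, P.endPos_last nW N0 hT0] at hl
    obtain ⟨e, he, hQ⟩ := hP.facMat_eq hl
    have hsplit : (segRange (S θ) 0 c).comp (S θ c) = segRange (S θ) 0 (c + 1) := by
      rw [segRange_append hb hKδ c 0 1 (by omega), segRange_one, Nat.zero_add]
    obtain ⟨_, _, _, hact⟩ := (hqp c hnec).act
    have hbuf : ∀ z : WSt (corrW Mb), (S θ c).Q (lp.single 2 z.1 1)
        = qp c (levV (z.1.blk.level 0)) • (lp.single 2 z.1 1 : HSp) := fun z => by
      rw [hsame θ θ₀ c hnec]
      exact (hact z.1).1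
    refine ⟨fun z => qp c (levV (z.1.blk.level 0)),
      fun z => baseFun F₀ dv cw zv T (levV (z.1.blk.level 0)) * Real.exp (e z)
        / qp c (levV (z.1.blk.level 0)),
      fun z => (hqp c hnec).pos _,
      fun z => div_pos (mul_pos (hP.F_pos _) (Real.exp_pos _)) ((hqp c hnec).pos _),
      fun z => ?_, hbuf, fun y z => ?_⟩
    · have h := hlog T le_rfl z
      rw [if_pos rfl] at h
      obtain ⟨-, hw2⟩ := P.waits_bounds nW N0 T
      have hdivT : T / (n + 1) = numCls Mb := Nat.mul_div_cancel _ (Nat.succ_pos n)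
      rw [hdivT] at hw2
      have hw3 : (P.waits nW N0 T : ℝ)
          ≤ ((N0 * numCls Mb + (1 + T * (2 * nW + 3)) : ℕ) : ℝ) := Nat.cast_le.2 (by omega)
      have hw4 : T5 * alphaLev (z.1.blk.level 0) * P.waits nW N0 T
          ≤ T5 * Am * ((N0 * numCls Mb + (1 + T * (2 * nW + 3)) : ℕ) : ℝ) :=
        mul_le_mul (mul_le_mul_of_nonneg_left (hαA z) (by positivity)) hw3 (Nat.cast_nonneg _)
          (by positivity)
      have hw5 : 0 ≤ T5 * alphaLev (z.1.blk.level 0) * P.waits nW N0 T :=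
        mul_nonneg (mul_nonneg (by positivity) (alphaLev_nonneg _)) (Nat.cast_nonneg _)
      have he' : |e z| ≤ Cb * T5 := by
        refine (he z).trans ?_
        rw [hdiv]
        refine mul_le_mul_of_nonneg_left (le_trans ?_ hT5)
          (zero_le_one.trans ((hK'1.trans (le_max_left _ _)).trans hCb))
        rw [hudef, div_le_one (by positivity)]
        exact Real.one_le_sqrt.2 (le_add_of_nonneg_left (Nat.cast_nonneg j))
      rw [Real.log_div (mul_pos (hP.F_pos _) (Real.exp_pos _)).ne' ((hqp c hnec).pos _).ne',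
        Real.log_mul (hP.F_pos _).ne' (Real.exp_pos _).ne', Real.log_exp]
      have := hends T le_rfl
      simp only [lpv] at h
      rw [abs_le] at h he' ⊢
      constructor <;> linarith
    · show facMat ((segRange (S θ) 0 c).comp (S θ c)).Q y z = _
      rw [hsplit, hQ y z, Units.val_one, map_one, Matrix.one_apply]
      split_ifs with h
      · subst h
        rw [mul_one, div_mul_cancel₀ _ ((hqp c hnec).pos _).ne']
      · rw [mul_zero]

/-- **The baseline of the corrector.** -/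
theorem layoutData {κ : ℝ} (hκ : 0 ≤ κ) (s : ℕ) {Mb : ℕ} (hMb : 1 ≤ Mb) : LayoutData κ s Mb := by
  intro n g f hg
  obtain ⟨P, R2, hPf, hR2, h⟩ := exists_corr_layout hκ Mb s hMb g hg f
  refine ⟨P, R2, hPf, hR2, fun nW => ?_⟩
  obtain ⟨b0, hb0, h'⟩ := h nW
  refine ⟨b0, hb0, fun N0 P0 Nf Ra Cc K ε₀ A _ hRa hCc hK hε₀ hA => ?_⟩
  obtain ⟨Cq, Cb, N, hCq, -, hN⟩ := h' N0 P0 Nf Ra Cc K ε₀ A hRa hCc hK hε₀ hA
  refine ⟨Cq, Cb, N, hCq, fun W j0 t0 ht hW hj _ hgood i _ hlist hctrl σ hσ => ?_⟩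
  obtain ⟨θ, hθ, hpre, hval⟩ := hN W j0 t0 ht hW hj hgood i hlist hctrl σ hσ
  obtain ⟨β, q, hβ, hq, hql, hbuf, hv⟩ := hval
  choose hloc F e hF he hm hlog using hpre
  refine ⟨θ, β, q, F, e, hθ, hβ, hq, hql, ?_, ?_, fun x => ⟨hF x, hloc x, hm x, he x, hlog x⟩⟩
  · intro z
    rw [LoopSpec.bufSeg, hlist]
    exact hbuf z
  · intro y z
    rw [LoopSpec.bufSeg, LoopSpec.corrSeg, hlist]
    exact hv y z

end

end Vale.Agent.P225.Loop
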