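import Vale.Agent.P225.Loop.ExcBase

/-!
P225 corrector, section 2 (helper8): the exact baseline, one word at a time.  A word between two
diagonal stretches carries a prefix `level value function times g` to `level value function times h`,
exactly, up to a relative error `O(1 / sqrt (j+1))` per level.
-/

namespace Vale.Agent.P225.Loop

open NormedSpace Matrix Set Alg
open scoped lp ENNReal Matrix.Norms.L2Operator

noncomputable section

variable {Lv Ax : Finset (ℕ × ℕ)}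

/-- A segment which carries every value on the given levels by a scalar depending only on the level
value, and is a scalar on the levels with a zero label. -/
def DiagAt (Lv Ax : Finset (ℕ × ℕ)) (S : Seg HSp) (d : ℝ → ℝ) : Prop :=
  (∀ v, 0 < d v) ∧ ∀ r : St,
    (r.blk.level 0 ∈ Lv →
      S.Q (lp.single 2 r 1) = d (levV (r.blk.level 0)) • (lp.single 2 r 1 : HSp)) ∧
    (r.blk.level 0 ∈ Ax → ScalarAt 0 S r (d (levV (r.blk.level 0))))

theorem DiagAt.levMat_Q {S : Seg HSp} {d : ℝ → ℝ} (h : DiagAt Lv Ax S d) :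
    levMat 0 Lv S.Q = levDiag fun L _ => d (levV L.1) := by
  funext L
  ext i k
  have hQ : S.Q (lp.single 2 k.1 1) = d (levV (k.1.blk.level 0)) • (lp.single 2 k.1 1 : HSp) :=
    (h.2 k.1).1 (by rw [k.2]; exact L.2)
  rw [levMat_apply, hQ, lp.coeFn_smul, Pi.smul_apply, smul_eq_mul, k.2]
  by_cases hik : i = k
  · subst hik
    simp [levDiag]
  · have : i.1 ≠ k.1 := fun e => hik (Subtype.ext e)
    rw [lp.single_apply_ne _ _ _ this]
    simp [levDiag, Matrix.diagonal_apply_ne _ hik]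

/-- The exact form of a prefix: a function of the level value, times `g`, up to small relative errors
which are scalar on each level. -/
structure PrefixBase (Lv Ax : Finset (ℕ × ℕ)) (F : ℝ → ℝ) (δ : ℝ) (P : Seg HSp)
    (g : LevAlg 0 Lv) : Prop where
  F_pos : ∀ v, 0 < F v
  nonaxis : ∃ e : Lv → ℝ, (∀ L, |e L| ≤ δ) ∧
    levMat 0 Lv P.Q = levDiag (fun L _ => F (levV L.1) * Real.exp (e L)) * g
  axis : ∀ r : St, r.blk.level 0 ∈ Ax → ∃ e : ℝ, |e| ≤ δ ∧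
    ScalarAt 0 P r (F (levV (r.blk.level 0)) * Real.exp e)

theorem PrefixBase.mono {F : ℝ → ℝ} {δ δ' : ℝ} {P : Seg HSp} {g : LevAlg 0 Lv}
    (h : PrefixBase Lv Ax F δ P g) (hδ : δ ≤ δ') : PrefixBase Lv Ax F δ' P g := by
  obtain ⟨e, he, hQ⟩ := h.nonaxis
  refine ⟨h.F_pos, ⟨e, fun L => (he L).trans hδ, hQ⟩, fun r hr => ?_⟩
  obtain ⟨e', he', hs⟩ := h.axis r hr
  exact ⟨e', he'.trans hδ, hs⟩

/-- A diagonal stretch is the prefix with target one. -/
theorem DiagAt.prefixBase {S : Seg HSp} {d : ℝ → ℝ} (h : DiagAt Lv Ax S d) :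
    PrefixBase Lv Ax d 0 S 1 := by
  refine ⟨h.1, ⟨0, fun L => by simp, ?_⟩, fun r hr => ⟨0, by simp, ?_⟩⟩
  · rw [h.levMat_Q, mul_one]; simp
  · simpa using (h.2 r).2 hr

/-- Constant of a composition. -/
def compK (K K' : ℝ) : ℝ := K + K' + 2 * K * K' * (1 + K) + (K' + 2 * K' * K * K')

theorem le_compK {K K' : ℝ} (hK : 0 ≤ K) (hK' : 0 ≤ K') : K ≤ compK K K' ∧ K' ≤ compK K K' := by
  have h1 : 0 ≤ 2 * K * K' * (1 + K) := by positivity
  have h2 : 0 ≤ 2 * K' * K * K' := by positivity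
  constructor <;> · rw [compK]; linarith

theorem SegBd.comp_scaled {S T : Seg HSp} {K K' u : ℝ} (hK : 0 ≤ K) (hK' : 0 ≤ K') (hu : 0 ≤ u)
    (hS : SegBd K (K * u) S) (hT : SegBd K' (K' * u) T) (h : K' * (K * u) ≤ 1 / 2) :
    SegBd (compK K K') (compK K K' * u) (S.comp T) ∧ ‖T.B.comp S.C‖ < 1 ∧
      ‖T.B‖ * ‖S.C‖ ≤ K' * K * u := by
  obtain ⟨hc, hn⟩ := hS.comp hT h
  have h0 : 0 ≤ K' + 2 * K' * K * K' := by positivity
  have hle : K + K' + 2 * K * K' * (1 + K) ≤ compK K K' := le_add_of_nonneg_right h0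
  refine ⟨⟨hc.Q.trans hle, hc.B.trans hle, hc.C.trans ?_, hc.D.trans hle⟩, hn,
    (mul_le_mul hT.B hS.C (norm_nonneg _) hK').trans_eq (mul_assoc _ _ _).symm⟩
  have h1 : 0 ≤ (K + K' + 2 * K * K' * (1 + K)) * u := by positivity
  rw [compK]
  linarith

theorem levDiag_lev_congr {f f' : Lv → ℝ} (h : ∀ L, f L = f' L) :
    levDiag (J := 0) (fun L _ => f L) = levDiag fun L _ => f' L := by
  simp only [h]

theorem abs_log_le_of_near {r x : ℝ} (hr : 0 < r) (h : |r - 1| ≤ x) (hx : x ≤ 1 / 2) :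
    |Real.log r| ≤ 2 * x := by
  obtain ⟨h1, h2⟩ := abs_le.1 h
  rw [abs_le]
  constructor
  · refine le_trans ?_ (Real.one_sub_inv_le_log_of_pos hr)
    have h3 : (r⁻¹ - 1) * r = 1 - r := by rw [sub_mul, inv_mul_cancel₀ hr.ne', one_mul]
    nlinarith
  · exact (Real.log_le_sub_one_of_pos hr).trans (by linarith)

/-- Central factors gather in front. -/
theorem central_gather {A : Type*} [Monoid A] {s g n d c ρ n' h z : A} (hd : ∀ x, Commute d x)
    (hc : ∀ x, Commute c x) (hρ : ∀ x, Commute ρ x) (hz : ∀ x, Commute z x) :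
    s * g * (n * d) * (c * (ρ * (n' * h))) * z = s * d * c * z * ρ * (g * (n * n') * h) := by
  calc s * g * (n * d) * (c * (ρ * (n' * h))) * z
      = s * ((g * n) * (d * c * ρ)) * (n' * h) * z := by simp only [mul_assoc]
    _ = s * ((d * c * ρ) * (g * n)) * (n' * h) * z := by
        rw [(((hd (g * n)).mul_left (hc _)).mul_left (hρ _)).eq]
    _ = s * d * c * (ρ * (g * (n * n') * h) * z) := by simp only [mul_assoc]
    _ = s * d * c * (z * (ρ * (g * (n * n') * h))) := by rw [(hz _).eq]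
    _ = _ := by simp only [mul_assoc]

/-- A product of a prefix, the excursion constants, a perturbed target and a stretch. -/
theorem step_identity {Lv : Finset (ℕ × ℕ)} (g : (LevAlg 0 Lv)ˣ) (h : LevAlg 0 Lv)
    (f d c z r : Lv → ℝ) (hr : ∀ L, r L ≠ 0) {X σ ν : LevAlg 0 Lv}
    (hσ : σ = levDiag fun L _ => r L) (hX : IsUnit (1 - X))
    (hν : σ * ν = (1 - X) * (((g⁻¹ : (LevAlg 0 Lv)ˣ) : LevAlg 0 Lv) * h)) :
    levDiag (fun L _ => f L) * (g : LevAlg 0 Lv)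
        * (Ring.inverse (1 - X) * levDiag fun L _ => d L)
        * (levDiag (fun L _ => c L) * ν) * levDiag (fun L _ => z L)
      = levDiag (fun L _ => f L * d L * c L * z L / r L) * h := by
  have hc : ∀ (f : Lv → ℝ) (x : LevAlg 0 Lv), Commute (levDiag fun L _ => f L) x := fun f =>
    commute_levDiag fun _ _ _ => rfl
  have hν' : ν = levDiag (fun L _ => (r L)⁻¹)
      * ((1 - X) * (((g⁻¹ : (LevAlg 0 Lv)ˣ) : LevAlg 0 Lv) * h)) := by
    rw [← hν, ← mul_assoc, hσ, levDiag_mul]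
    simp only [inv_mul_cancel₀ (hr _), levDiag_one, one_mul]
  rw [hν', central_gather (hc d) (hc c) (hc _) (hc z), Ring.inverse_mul_cancel _ hX, mul_one,
    ← mul_assoc (g : LevAlg 0 Lv), Units.mul_inv, one_mul]
  simp only [levDiag_mul, div_eq_mul_inv]

/-- The axis part of one step. -/
theorem axis_step {P D Z : Seg HSp} {m : ℕ} {S : Fin m → Seg HSp} {r : St}
    {F d z s e₁ a₁ a₂ b x : ℝ} {C q : Fin m → ℝ}
    (hP : ScalarAt 0 P r (F * Real.exp e₁)) (hD : ScalarAt 0 D r d) (hZ : ScalarAt 0 Z r z)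
    (hF : 0 < F) (hd : 0 < d) (hz : 0 < z) (hC : ∀ k, 0 < C k) (hs : 0 < s)
    (hS : ScalarAt 0 (segChain S) r s)
    (h1 : ‖D.B‖ * ‖P.C‖ ≤ a₁) (h2 : ‖Z.B‖ * ‖(segChain S).C‖ ≤ a₂)
    (h3 : ‖((segChain S).comp Z).B‖ * ‖(P.comp D).C‖ ≤ b) (ha₁ : a₁ ≤ 1 / 2) (ha₂ : a₂ ≤ 1 / 2)
    (hb : b ≤ 1 / 2) (hq : ∀ k, |Real.log (q k) - Real.log (C k)| ≤ x) {y : ℝ}
    (hsl : |Real.log s - ∑ k, Real.log (q k)| ≤ y) :
    ∃ e, |e| ≤ |e₁| + 2 * a₁ + 2 * a₂ + 2 * b + y + m * x ∧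
      ScalarAt 0 ((P.comp D).comp ((segChain S).comp Z)) r
        (F * d * (∏ k, C k) * z * Real.exp e) := by
  obtain ⟨o, ho, hos, hol⟩ := hP.comp hD (mul_pos hF (Real.exp_pos _)) hd (h1.trans ha₁)
  obtain ⟨s₁, hs₁, hsa₁, hsl₁⟩ := hS.comp hZ hs hz (h2.trans ha₂)
  obtain ⟨t, ht, hta, htl⟩ := hos.comp hsa₁ ho hs₁ (h3.trans hb)
  have hCp : 0 < ∏ k, C k := Finset.prod_pos fun k _ => hC k
  have hpos : 0 < F * d * (∏ k, C k) * z := mul_pos (mul_pos (mul_pos hF hd) hCp) hz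
  refine ⟨Real.log t - Real.log (F * d * (∏ k, C k) * z), ?_, ?_⟩
  · rw [Real.log_mul hF.ne' (Real.exp_pos e₁).ne', Real.log_exp] at hol
    rw [Real.log_mul (mul_pos (mul_pos hF hd) hCp).ne' hz.ne',
      Real.log_mul (mul_pos hF hd).ne' hCp.ne', Real.log_mul hF.ne' hd.ne',
      Real.log_prod fun k _ => (hC k).ne']
    have hsum : |∑ k, (Real.log (q k) - Real.log (C k))| ≤ m * x := by
      refine (Finset.abs_sum_le_sum_abs _ _).trans ?_
      refine (Finset.sum_le_sum fun k _ => hq k).trans (le_of_eq ?_)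
      rw [Finset.sum_const, Finset.card_univ, Fintype.card_fin, nsmul_eq_mul]
    rw [Finset.sum_sub_distrib] at hsum
    have h4 := neg_le_abs e₁
    have h5 := le_abs_self e₁
    rw [abs_le] at hol hsl hsl₁ htl hsum
    rw [abs_le]
    constructor <;> linarith
  · rw [Real.exp_sub, Real.exp_log ht, Real.exp_log hpos, mul_div_cancel₀ _ hpos.ne']
    exact hta

/-- One word of the corrector, between two diagonal stretches. -/
theorem exists_corr_step {E : Type*} {κ M : ℝ} (hκ : 0 ≤ κ) (hM : 1 ≤ M)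
    (F : E → Frame 0 Lv M) (hne : ∀ L : Lv, Nonempty (Fib 0 L.1)) (hLv : Lv.Nonempty)
    (hgen : ∀ P : Submodule ℝ (LevAlg 0 Lv),
      range (fun e => excGen (F e) scaleInf) ∪ levOnes 0 Lv ⊆ P →
      (∀ Y ∈ range (fun e => excGen (F e) scaleInf) ∪ levOnes 0 Lv, ∀ Z ∈ P,
        Y * Z - Z * Y ∈ P) → P = ⊤)
    (hAx : ∀ L ∈ Ax, L.1 = 0 ∨ L.2 = 0)
    (hFAx : ∀ (e : E) (r : St), r.blk.level 0 ∈ Ax → FrameAt (F e) r)
    (g h : (LevAlg 0 Lv)ˣ)
    (hg : ((g⁻¹ : (LevAlg 0 Lv)ˣ) : LevAlg 0 Lv) ∈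
      expMonoid (range fun e => excGen (F e) scaleInf))
    (hh : (h : LevAlg 0 Lv) ∈ expMonoid (range fun e => excGen (F e) scaleInf)) :
    ∃ (m : ℕ) (e : Fin m → E) (R B : ℝ), 0 < R ∧ 0 ≤ B ∧ ∀ K₀ : ℝ, 1 ≤ K₀ →
      ∃ (K : ℝ) (N : ℕ), K₀ ≤ K ∧ ∀ (j : ℕ) (a : ℝ), N ≤ j →
        2 * ((j : ℝ) + 1) ^ 5 ≤ a →
        ∀ (P D Z : Seg HSp) (Fl d z : ℝ → ℝ),
          SegLocal 0 P → SegLocal 0 D → SegLocal 0 Z →
          SegBd K₀ (K₀ / Real.sqrt ((j : ℝ) + 1)) P → SegBd K₀ (K₀ / Real.sqrt ((j : ℝ) + 1)) D →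
          SegBd K₀ (K₀ / Real.sqrt ((j : ℝ) + 1)) Z →
          PrefixBase Lv Ax Fl (K₀ / Real.sqrt ((j : ℝ) + 1)) P g →
          DiagAt Lv Ax D d → DiagAt Lv Ax Z z →
          ∃ (θ : Fin m → ℝ) (S : Fin m → Seg HSp) (c : ℝ → ℝ),
            (∀ k, θ k ∈ Icc (-R) R ∧
              ExcSeg κ 0 (F (e k)) j (a + (k : ℕ) * ((j : ℝ) + 1) ^ 5) (θ k) (S k) ∧
              SegLocal 0 (S k) ∧ SegBd K (K / Real.sqrt ((j : ℝ) + 1)) (S k)) ∧
            (∀ v, 0 < c v) ∧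
            (∀ r : St, r.blk.level 0 ∈ Lv ∨ r.blk.level 0 ∈ Ax →
              |Real.log (c (levV (r.blk.level 0)))| ≤ B * ((j : ℝ) + 1) ^ 5) ∧
            SegLocal 0 ((P.comp D).comp ((segChain S).comp Z)) ∧
            SegBd K (K / Real.sqrt ((j : ℝ) + 1)) ((P.comp D).comp ((segChain S).comp Z)) ∧
            PrefixBase Lv Ax (fun v => Fl v * d v * c v * z v) (K / Real.sqrt ((j : ℝ) + 1))
              ((P.comp D).comp ((segChain S).comp Z)) h := by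
  classical
  have : CompleteSpace (LevAlg 0 Lv) := FiniteDimensional.complete ℝ _
  have : Nonempty Lv := hLv.to_subtype
  have := normOneClass_levAlg 0 Lv hne
  obtain ⟨m, e, R, hR, hctrl⟩ := ideal_control_near (fun z hz x => levOnes_central hz x) hgen
    (g⁻¹ * h) (by rw [Units.val_mul]; exact mul_mem hg hh)
  obtain ⟨Kf, hKf, A, hA, Nf, hfam⟩ := exists_base_family hκ hR.le hM Lv Ax hAx (κ := κ) (M := M)
  refine ⟨m, e, R, (m : ℝ) * A, hR, by positivity, fun K₀ hK₀ => ?_⟩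
  set Ko := compK K₀ K₀ with hKo
  have hK₀0 : 0 ≤ K₀ := zero_le_one.trans hK₀
  obtain ⟨hKo1, -⟩ := le_compK hK₀0 hK₀0
  set K₁ := max Kf Ko with hK₁
  have hK₁1 : 1 ≤ K₁ := hKf.trans (le_max_left _ _)
  have hK₁0 : 0 ≤ K₁ := zero_le_one.trans hK₁1
  have hKo0 : 0 ≤ Ko := hK₀0.trans hKo1
  obtain ⟨B, δc, hB, hδc, hc⟩ := hctrl K₁ hK₁1
  obtain ⟨K₂, hK₂, δb, hδb, hchain⟩ := exists_segChain (J := 0) (Lv := Lv) m K₁ hK₁1
  obtain ⟨Cc, δa, hCc, hδa, haxc⟩ := exists_scalarAt_chain 0 m K₁ hK₁1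
  set Kc := K₂ * K₁ with hKc
  have hKc0 : 0 ≤ Kc := by positivity
  have hKcc : K₂ ≤ Kc := le_mul_of_one_le_right (zero_le_one.trans hK₂) hK₁1
  set Km := compK Kc K₀ with hKm
  have hKm0 : 0 ≤ Km := hKc0.trans (le_compK hKc0 hK₀0).1
  set Kt := compK Ko Km with hKt
  set G := ‖((g⁻¹ * h : (LevAlg 0 Lv)ˣ) : LevAlg 0 Lv)‖ with hG
  -- coefficients of the error terms
  set Eσ := 2 * (B * (K₁ + K₀ * K₀ * G)) with hEσ
  set Ea := 2 * (K₀ * K₀) + Cc * K₁ + (m : ℝ) * K₁ + 2 * (K₀ * Kc) + 2 * (Km * Ko) with hEa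
  have hEσ0 : 0 ≤ Eσ := by positivity
  have hEa0 : 0 ≤ Ea := by positivity
  set K := Kt + K₁ + K₀ + Eσ + Ea with hK
  have hKt0 : 0 ≤ Kt := hKo0.trans (le_compK hKo0 hKm0).1
  obtain ⟨N₁, hN₁⟩ := exists_nat_div_sqrt_le (K₁ + K₀ * K₀ * G) hδc
  obtain ⟨N₂, hN₂⟩ := exists_nat_div_sqrt_le K₁ hδb
  obtain ⟨N₃, hN₃⟩ := exists_nat_div_sqrt_le
    (K₀ * K₀ + K₀ * Kc + Km * Ko + Eσ) (by norm_num : (0 : ℝ) < 1 / 2)
  obtain ⟨N₄, hN₄⟩ := exists_nat_div_sqrt_le K₁ hδa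
  refine ⟨K, max (max Nf N₁) (max N₂ (max N₃ N₄)), by rw [hK]; linarith, fun j a hj ha P D Z Fl d z hPl hDl hZl hPb hDb hZb hP hD hZ => ?_⟩
  simp only [max_le_iff] at hj
  obtain ⟨⟨hjf, hj1⟩, hj2, hj3, hj4⟩ := hj
  set u := 1 / Real.sqrt ((j : ℝ) + 1) with hu
  have hu0 : 0 ≤ u := by positivity
  have hdiv : ∀ x : ℝ, x / Real.sqrt ((j : ℝ) + 1) = x * u := fun x => by rw [hu]; ring
  simp only [hdiv] at hPb hDb hZb hP ⊢
  have hn1 := hN₁ j hj1
  have hn3 := hN₃ j hj3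
  rw [hdiv] at hn1 hn3
  have p1 : 0 ≤ K₀ * K₀ * u := by positivity
  have p2 : 0 ≤ K₀ * Kc * u := by positivity
  have p3 : 0 ≤ Km * Ko * u := by positivity
  have p4 : 0 ≤ Eσ * u := by positivity
  have p5 : 0 ≤ K₁ * u := by positivity
  have p6 : 0 ≤ K₀ * K₀ * G * u := by positivity
  -- the segments
  set L5 := ((j : ℝ) + 1) ^ 5
  have hwin : ∀ k : Fin m, 2 * L5 ≤ a + (k : ℕ) * L5 := fun k => by
    have : 0 ≤ ((k : ℕ) : ℝ) * L5 := by positivity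
    linarith
  choose Sf Cf hSf hCf hCfl hgood using fun k : Fin m =>
    hfam (F (e k)) j _ hjf (hwin k) (fun r hr => hFAx (e k) r hr)
  simp only [hdiv] at hSf hgood
  obtain ⟨hO, hnO, hpO⟩ := SegBd.comp_scaled hK₀0 hK₀0 hu0 hPb hDb (by linarith)
  rw [← hKo] at hO
  have hOl := hPl.comp hDl hnO
  have hOC : ‖levMat 0 Lv (P.comp D).C‖ ≤ K₁ * u :=
    ((norm_levMat_le _).trans hO.C).trans (mul_le_mul_of_nonneg_right (le_max_right _ _) hu0)
  -- the target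
  set ds : LevAlg 0 Lv := levDiag fun L _ => d (levV L.1) with hds
  have hdsc : ∀ x, Commute ds x := commute_levDiag fun _ _ _ => rfl
  set X := levMat 0 Lv D.B * levMat 0 Lv P.C with hX
  set gh : LevAlg 0 Lv := ((g⁻¹ * h : (LevAlg 0 Lv)ˣ) : LevAlg 0 Lv) with hgh
  have hXn : ‖X‖ ≤ K₀ * K₀ * u :=
    (norm_mul_le _ _).trans (((mul_le_mul ((norm_levMat_le _).trans hDb.B)
      ((norm_levMat_le _).trans hPb.C) (norm_nonneg _) hK₀0)).trans_eq (mul_assoc _ _ _).symm)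
  set y := (1 - X) * gh with hy
  have hyn : ‖y - gh‖ ≤ K₀ * K₀ * G * u := by
    rw [hy, sub_mul, one_mul, sub_sub_cancel_left, norm_neg]
    calc ‖X * gh‖ ≤ ‖X‖ * ‖gh‖ := norm_mul_le _ _
      _ ≤ K₀ * K₀ * u * G := mul_le_mul_of_nonneg_right hXn (norm_nonneg _)
      _ = K₀ * K₀ * G * u := by ring
  obtain ⟨θ, hθ, σ, hσ, ν, hσB, hνB, hσ1, hσν, hQ⟩ := hc (K₁ * u) p5 (by linarith)
    (fun k θ => segMat 0 Lv (Sf k θ)) (fun k => levDiag fun L _ => Cf k (levV L.1))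
    (segMat 0 Lv (P.comp D)) (segMat 0 Lv Z)
    (fun k => (hgood k).mono (le_max_left _ _) (mul_le_mul_of_nonneg_right (le_max_left _ _) hu0))
    hOC (((norm_levMat_le _).trans hZb.B).trans (hKo1.trans (le_max_right _ _))) y
    (by linarith)
  set S : Fin m → Seg HSp := fun k => Sf k (θ k) with hS
  have hSb : ∀ k, SegBd K₁ (K₁ * u) (S k) ∧ SegLocal 0 (S k) := fun k => by
    obtain ⟨-, hl, hb, -⟩ := hSf k (θ k) (hθ k)
    exact ⟨⟨hb.Q.trans (le_max_left _ _), hb.B.trans (le_max_left _ _),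
      hb.C.trans (mul_le_mul_of_nonneg_right (le_max_left _ _) hu0),
      hb.D.trans (le_max_left _ _)⟩, hl⟩
  have hn2 := hN₂ j hj2
  rw [hdiv] at hn2
  obtain ⟨hcb, hcl, hcm⟩ := hchain (K₁ * u) p5 hn2 S hSb
  have hcb' : SegBd Kc (Kc * u) (segChain S) := ⟨hcb.Q.trans hKcc, hcb.B.trans hKcc,
    hcb.C.trans_eq (by rw [hKc]; ring), hcb.D.trans hKcc⟩
  obtain ⟨hMZ, hnM, hpM⟩ := SegBd.comp_scaled hKc0 hK₀0 hu0 hcb' hZb (by linarith)
  rw [← hKm] at hMZ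
  have hMZl := hcl.comp hZl hnM
  obtain ⟨hall, hnA, hpA⟩ := SegBd.comp_scaled hKo0 hKm0 hu0 hO hMZ (by linarith)
  rw [← hKt] at hall
  refine ⟨θ, S, fun v => ∏ k, Cf k v, fun k => ⟨hθ k, (hSf k (θ k) (hθ k)).1, (hSb k).2, ?_⟩,
    fun v => Finset.prod_pos fun k _ => hCf k v, fun r hr => ?_, hOl.comp hMZl hnA, ?_, ?_⟩
  · have h1 : K₁ ≤ K := by rw [hK]; linarith
    exact ⟨(hSb k).1.Q.trans h1, (hSb k).1.B.trans h1,
      (hSb k).1.C.trans (mul_le_mul_of_nonneg_right h1 hu0), (hSb k).1.D.trans h1⟩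
  · dsimp only
    rw [Real.log_prod fun k _ => (hCf k _).ne', mul_assoc]
    refine (Finset.abs_sum_le_sum_abs _ _).trans ?_
    refine (Finset.sum_le_sum fun k _ => hCfl k r hr).trans (le_of_eq ?_)
    rw [Finset.sum_const, Finset.card_univ, Fintype.card_fin, nsmul_eq_mul]
  · have h1 : Kt ≤ K := by rw [hK]; linarith
    exact ⟨hall.Q.trans h1, hall.B.trans h1, hall.C.trans (mul_le_mul_of_nonneg_right h1 hu0),
      hall.D.trans h1⟩
  obtain ⟨e₀, he₀, hPQ⟩ := hP.nonaxis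
  obtain ⟨r, hr, hσr⟩ := exists_levScalar hσ
  refine PrefixBase.mk (fun v => mul_pos (mul_pos (mul_pos (hP.F_pos v) (hD.1 v))
    (Finset.prod_pos fun k _ => hCf k v)) (hZ.1 v)) ⟨fun L => e₀ L - Real.log (r L), ?_, ?_⟩ ?_
  · intro L
    have h1 : |r L - 1| ≤ B * (K₁ + K₀ * K₀ * G) * u := by
      obtain ⟨i⟩ := hne L
      have := (abs_levEntry_le (σ - 1) L i i).trans hσ1
      simp only [hσr, levDiag, Pi.sub_apply, Matrix.sub_apply, Matrix.diagonal_apply_eq,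
        Pi.one_apply, Matrix.one_apply_eq] at this
      calc |r L - 1| ≤ B * (K₁ * u + ‖y - gh‖) := this
        _ ≤ B * (K₁ * u + K₀ * K₀ * G * u) := by gcongr
        _ = B * (K₁ + K₀ * K₀ * G) * u := by ring
    have h2 : |Real.log (r L)| ≤ Eσ * u := by
      refine (abs_log_le_of_near (hr L) h1 ?_).trans_eq (by rw [hEσ]; ring)
      rw [hEσ] at hn3; linarith
    have h3 : (K₀ + Eσ) * u ≤ K * u := mul_le_mul_of_nonneg_right (by rw [hK]; linarith) hu0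
    exact (abs_sub _ _).trans (by linarith [he₀ L])
  · have hu1 : IsUnit (1 - X) := ⟨Units.oneSub X (hXn.trans_lt (by linarith)), rfl⟩
    have e1 := segMat_comp (Lv := Lv) hOl hMZl hnA
    rw [segMat_comp hcl hZl hnM, hcm] at e1
    have e2 := congrArg RSeg.Q e1
    rw [show (segMat 0 Lv ((P.comp D).comp ((segChain S).comp Z))).Q
      = levMat 0 Lv ((P.comp D).comp ((segChain S).comp Z)).Q from rfl] at e2
    have eO : (segMat 0 Lv (P.comp D)).Q
        = levDiag (fun L _ => Fl (levV L.1) * Real.exp (e₀ L)) * (g : LevAlg 0 Lv)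
          * (Ring.inverse (1 - X) * levDiag fun L _ => d (levV L.1)) := by
      rw [segMat_comp hPl hDl hnO]
      show levMat 0 Lv P.Q * (Ring.inverse (1 - X) * levMat 0 Lv D.Q) = _
      rw [hPQ, hD.levMat_Q]
    rw [e2, hQ, eO, prod_levDiag,
      show (segMat 0 Lv Z).Q = levDiag fun L _ => z (levV L.1) from hZ.levMat_Q,
      step_identity g (h : LevAlg 0 Lv) _ _ (fun L => ∏ k, Cf k (levV L.1)) _ r (fun L => (hr L).ne')
        hσr hu1 (by rw [hσν, hy, hgh, Units.val_mul])]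
    congr 1
    refine levDiag_lev_congr fun L => ?_
    rw [Real.exp_sub, Real.exp_log (hr L)]
    ring
  · intro r hrA
    obtain ⟨e₁, he₁, hPs⟩ := hP.axis r hrA
    choose q hq hqs hql using fun k : Fin m => (hSf k (θ k) (hθ k)).2.2.2 r hrA
    have hn4 := hN₄ j hj4
    rw [hdiv] at hn4
    obtain ⟨s, hs, hsa, hsl⟩ := haxc (K₁ * u) p5 hn4 S r q hSb fun k => ⟨hq k, hqs k⟩
    obtain ⟨e', he', hse⟩ := axis_step (C := fun k => Cf k (levV (r.blk.level 0))) (q := q)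
      (x := K₁ * u) hPs ((hD.2 r).2 hrA) ((hZ.2 r).2 hrA) (hP.F_pos _) (hD.1 _) (hZ.1 _)
      (fun k => hCf k _) hs hsa hpO hpM hpA (by linarith) (by linarith) (by linarith)
      (fun k => (hql k).trans (mul_le_mul_of_nonneg_right (le_max_left _ _) hu0)) hsl
    have : (K₀ + Ea) * u ≤ K * u := mul_le_mul_of_nonneg_right (by rw [hK]; linarith) hu0
    rw [hEa] at this
    exact ⟨e', he'.trans (by linarith), hse⟩

end

end Vale.Agent.P225.Loop
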