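import Vale.Agent.P225.Loop.CorrWaits
import Vale.Agent.P225.Loop.CorrStep
import Vale.Agent.P225.Seg.RangeTools

/-!
P225 corrector (helper8): the stretches of waits and zero insertions.  Each is diagonal with
coefficients which are functions of the level value, up to the weight of the state in `B` and `C`;
this survives concatenation also where `C` does not vanish.
-/

namespace Vale.Agent.P225

open Finset Set
open Loop (levV bv)

noncomputable section

/-- Diagonal, with coefficients functions of the level value; the weight of the state enters `B` and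
`C` inversely. -/
structure LevScal (S : Seg HSp) (q : ℝ → ℝ) : Prop where
  pos : ∀ v, 0 < q v
  act : ∃ b c d : ℝ → ℝ, ∀ i : St,
    S.Q (bv i) = q (levV (i.blk.level 0)) • bv i ∧
    S.B (bv i) = (i.blk.mu * b (levV (i.blk.level 0))) • bv i ∧
    S.C (bv i) = (c (levV (i.blk.level 0)) / i.blk.mu) • bv i ∧
    S.D (bv i) = d (levV (i.blk.level 0)) • bv i

theorem levScal_one : LevScal (Loop.segOne : Seg HSp) fun _ => 1 :=
  ⟨fun _ => one_pos, fun _ => 0, fun _ => 0, fun _ => 1, fun i => by simp [Loop.segOne]⟩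

/-- A function of the states as a function of their level values, when it is one. -/
def levSel (f : St → ℝ) (v : ℝ) : ℝ :=
  open Classical in
  if h : ∃ i : St, levV (i.blk.level 0) = v then f h.choose else 1

theorem levSel_eq {f : St → ℝ}
    (hf : ∀ i k : St, levV (i.blk.level 0) = levV (k.blk.level 0) → f i = f k) (i : St) :
    levSel f (levV (i.blk.level 0)) = f i := by
  have h : ∃ k : St, levV (k.blk.level 0) = levV (i.blk.level 0) := ⟨i, rfl⟩
  rw [levSel, dif_pos h]
  exact hf _ _ h.choose_spec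

/-- A slope segment whose slopes and references are functions of the level value. -/
theorem SlopeFam.levScal {a b k δ : ℝ} {c : ℝ → ℝ} {z : St → ℝ → ℝ} {ρ : St → ℝ}
    (h : SlopeFam a b c z ρ k δ)
    (hz : ∀ i i' : St, levV (i.blk.level 0) = levV (i'.blk.level 0) → z i = z i')
    (hρ : ∀ i i' : St, levV (i.blk.level 0) = levV (i'.blk.level 0) → ρ i = ρ i') :
    LevScal h.coef.seg (levSel fun i => Ode.coefQ (z i) a b) := by
  refine ⟨fun v => ?_, levSel (fun i => Ode.coefB c (z i) a b),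
    levSel (fun i => z i b - ρ i), levSel (fun i => Ode.coefD c (z i) a b), fun i => ?_⟩
  · unfold levSel
    split_ifs
    · exact Ode.coefQ_pos _ _ _
    · exact one_pos
  rw [levSel_eq fun _ _ h => by rw [hz _ _ h], levSel_eq fun _ _ h => by rw [hz _ _ h],
    levSel_eq fun _ _ h => by rw [hz _ _ h, hρ _ _ h], levSel_eq fun _ _ h => by rw [hz _ _ h]]
  simp only [DiagCoef.seg]
  exact ⟨Loop.diagOp_bv _ _ _ _ _, Loop.diagOp_bv _ _ _ _ _, Loop.diagOp_bv _ _ _ _ _,
    Loop.diagOp_bv _ _ _ _ _⟩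

/-- Two such segments compose; the logarithms add up to the small product. -/
theorem LevScal.comp {S T : Seg HSp} {p q : ℝ → ℝ} (hS : LevScal S p) (hT : LevScal T q)
    (h : ‖T.B‖ * ‖S.C‖ ≤ 1 / 2) :
    ∃ s, LevScal (S.comp T) s ∧ ∀ i : St,
      |Real.log (s (levV (i.blk.level 0))) - (Real.log (p (levV (i.blk.level 0)))
        + Real.log (q (levV (i.blk.level 0))))| ≤ 2 * (‖T.B‖ * ‖S.C‖) := by
  classical
  obtain ⟨b, c, d, hS'⟩ := hS.act
  obtain ⟨b', c', d', hT'⟩ := hT.act
  have hlt : ‖T.B.comp S.C‖ < 1 :=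
    ((ContinuousLinearMap.opNorm_comp_le _ _).trans h).trans_lt (by norm_num)
  have hμ : ∀ i : St, i.blk.mu ≠ 0 := fun i => (zero_lt_one.trans_le (Blk.one_le_mu _)).ne'
  have hx : ∀ i : St,
      |b' (levV (i.blk.level 0)) * c (levV (i.blk.level 0))| ≤ ‖T.B‖ * ‖S.C‖ := by
    intro i
    have h1 := (T.B.comp S.C).le_opNorm (bv i)
    rw [ContinuousLinearMap.comp_apply, (hS' i).2.2.1, map_smul, (hT' i).2.1, smul_smul, norm_smul,
      Loop.norm_bv, mul_one, mul_one, Real.norm_eq_abs] at h1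
    refine le_trans (le_of_eq ?_) (h1.trans (ContinuousLinearMap.opNorm_comp_le _ _))
    congr 1
    field_simp [hμ i]
  let w : ℝ → ℝ := fun v => if 0 < 1 - b' v * c v then (1 - b' v * c v)⁻¹ else 1
  have hw : ∀ v, 0 < w v := fun v => by
    simp only [w]; split_ifs with h1
    · exact inv_pos.2 h1
    · exact one_pos
  have hwv : ∀ i : St, 0 < 1 - b' (levV (i.blk.level 0)) * c (levV (i.blk.level 0)) ∧
      w (levV (i.blk.level 0)) = (1 - b' (levV (i.blk.level 0)) * c (levV (i.blk.level 0)))⁻¹ :=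
    fun i => by
      have := (abs_le.1 ((hx i).trans h)).2
      have hp : 0 < 1 - b' (levV (i.blk.level 0)) * c (levV (i.blk.level 0)) := by linarith
      exact ⟨hp, if_pos hp⟩
  have hN : ∀ i : St, neumann (T.B.comp S.C) (bv i) = w (levV (i.blk.level 0)) • bv i := by
    intro i
    obtain ⟨hp, hwi⟩ := hwv i
    have e : (1 - T.B.comp S.C) (bv i)
        = (1 - b' (levV (i.blk.level 0)) * c (levV (i.blk.level 0))) • bv i := by
      rw [_root_.sub_apply, one_apply_eq_self, ContinuousLinearMap.comp_apply, (hS' i).2.2.1,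
        map_smul, (hT' i).2.1, smul_smul, sub_smul, one_smul]
      congr 2
      field_simp [hμ i]
    have h2 := congrArg (neumann (T.B.comp S.C)) e
    rw [neumann_mul' hlt, map_smul] at h2
    nth_rewrite 2 [h2]
    rw [hwi, smul_smul, inv_mul_cancel₀ hp.ne', one_smul]
  refine ⟨fun v => p v * w v * q v, ⟨fun v => mul_pos (mul_pos (hS.pos v) (hw v)) (hT.pos v),
    fun v => b v + p v * w v * b' v * d v, fun v => c' v + d' v * c v * w v * q v,
    fun v => d' v * (d v + c v * w v * b' v * d v), fun i => ?_⟩, fun i => ?_⟩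
  · obtain ⟨sQ, sB, sC, sD⟩ := hS' i
    obtain ⟨tQ, tB, tC, tD⟩ := hT' i
    simp only [Seg.comp, _root_.add_apply, ContinuousLinearMap.comp_apply, map_smul, sQ, sB, sC, sD,
      tQ, tB, tC, tD, hN i, smul_smul, ← add_smul]
    refine ⟨?_, ?_, ?_, ?_⟩ <;> · congr 1; field_simp [hμ i]
  · obtain ⟨hp, hwi⟩ := hwv i
    obtain ⟨h1, h2⟩ := abs_le.1 (hx i)
    obtain ⟨h3, h4⟩ := abs_le.1 ((hx i).trans h)
    simp only [hwi]
    set u := 1 - b' (levV (i.blk.level 0)) * c (levV (i.blk.level 0))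
    rw [Real.log_mul (mul_pos (hS.pos _) (inv_pos.2 hp)).ne' (hT.pos _).ne',
      Real.log_mul (hS.pos _).ne' (inv_pos.2 hp).ne', Real.log_inv,
      show ∀ x y z : ℝ, x + -y + z - (x + z) = -y from fun _ _ _ => by ring, abs_neg, abs_le]
    constructor
    · refine le_trans ?_ (Real.one_sub_inv_le_log_of_pos hp)
      have h5 : (u⁻¹ - 1) * u = 1 - u := by rw [sub_mul, inv_mul_cancel₀ hp.ne', one_mul]
      nlinarith
    · exact (Real.log_le_sub_one_of_pos hp).trans (by linarith)

/-- A range of such segments. -/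
theorem segRange_levScal {S : ℕ → Seg HSp} {q : ℕ → ℝ → ℝ} {N : ℕ} {K δ : ℝ}
    (hb : RangesBd S N K δ) (hKδ : K * δ ≤ 1 / 4) :
    ∀ k l, l + k ≤ N → (∀ m, l ≤ m → m < l + k → LevScal (S m) (q m)) →
      ∃ s, LevScal (segRange S l k) s ∧ ∀ i : St,
        |Real.log (s (levV (i.blk.level 0))) - ∑ m ∈ range k, Real.log (q (l + m) (levV (i.blk.level 0)))|
          ≤ k * (2 * (K * δ))
  | 0, l, _, _ => ⟨fun _ => 1, levScal_one, fun i => by simp⟩
  | k + 1, l, h, hq => by
      obtain ⟨s, hs, hsl⟩ :=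
        segRange_levScal hb hKδ k (l + 1) (by omega) fun m h1 h2 => hq m (by omega) (by omega)
      have hA : Loop.SegBd K δ (S l) := segRange_one S l ▸ hb l 1 (by omega)
      have hB := hb (l + 1) k (by omega)
      have hp : ‖(segRange S (l + 1) k).B‖ * ‖(S l).C‖ ≤ K * δ :=
        mul_le_mul hB.B hA.C (norm_nonneg _) ((norm_nonneg _).trans hB.B)
      obtain ⟨t, ht, htl⟩ := (hq l le_rfl (by omega)).comp hs (by linarith)
      refine ⟨t, ht, fun i => ?_⟩
      have e : ∑ m ∈ range (k + 1), Real.log (q (l + m) (levV (i.blk.level 0)))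
          = Real.log (q l (levV (i.blk.level 0)))
            + ∑ m ∈ range k, Real.log (q (l + 1 + m) (levV (i.blk.level 0))) := by
        rw [Finset.sum_range_succ', add_zero, add_comm]
        simp only [Nat.add_assoc, Nat.add_comm 1]
      have h1 := abs_le.1 (htl i)
      have h2 := abs_le.1 (hsl i)
      rw [e, abs_le]
      push_cast
      constructor <;> linarith

/-- Such a segment is a stretch of the baseline. -/
theorem LevScal.diagAt {S : Seg HSp} {q : ℝ → ℝ} {Lv Ax : Finset (ℕ × ℕ)} (h : LevScal S q)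
    (hAx : ∀ L ∈ Ax, L.1 = 0 ∨ L.2 = 0) : Loop.DiagAt Lv Ax S q := by
  obtain ⟨b, c, d, h'⟩ := h.act
  refine ⟨h.pos, fun r => ⟨fun _ => (h' r).1, fun hr => ?_⟩⟩
  refine ⟨r.blk.mu * b (levV (r.blk.level 0)), c (levV (r.blk.level 0)) / r.blk.mu,
    d (levV (r.blk.level 0)), fun i hi => ?_⟩
  obtain ⟨-, hblk⟩ := Loop.axisLev (V := r.blk) (hAx _ hr)
  have := h' i
  rwa [hi, hblk i.blk hi] at this

namespace LoopSpec

variable {W : LoopSpec} {P0 : ℕ} {κ C K ε : ℝ} {Mo : PieceModel} {j0 : ℕ} {t0 : ℝ} {ht : 1 ≤ t0}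
  {τ : Params} {i m : ℕ}

/-- A piece of the corrector or the buffer which is no excursion, with amplitude zero if it is an
insertion: a scalar of the level value whose logarithm is near `-T alpha`, and level local. -/
theorem seg_levScal (hκ : 0 ≤ κ) (hW : W.Ok P0) (hm : m < (W.prog (j0 + i)).length)
    (hc : m ≤ (W.corr (j0 + i)).length) (he : ((W.prog (j0 + i))[m]).isExc = false)
    (h0 : ∀ f k, (W.prog (j0 + i))[m] = Piece.ins f k → τ i k = 0)
    (hb : κ / Real.sqrt (((j0 + i : ℕ) : ℝ) + 1) ≤ 1)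
    (g : (W.sched j0 t0 ht).SegGood κ C K ε Mo τ (W.corr (j0 + i)).length i m
      ((W.prog (j0 + i))[m])) :
    ∃ q, LevScal (W.segs κ C Mo j0 t0 ht τ i m) q ∧ SegLocal 0 (W.segs κ C Mo j0 t0 ht τ i m) ∧
      ∀ k : St, |Real.log (q (levV (k.blk.level 0)))
          + ((W.prog (j0 + i))[m]).len (j0 + i) * alphaLev (k.blk.level 0)|
        ≤ ((W.prog (j0 + i))[m]).len (j0 + i) * (3 * C / (((j0 + i : ℕ) : ℝ) + 1) ^ 5
          + 3 * (κ / Real.sqrt (((j0 + i : ℕ) : ℝ) + 1)) * (3 + alphaLev (k.blk.level 0))) := by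
  set S := W.sched j0 t0 ht
  have hz : ∀ k k' : St, levV (k.blk.level 0) = levV (k'.blk.level 0) →
      S.slope κ τ i m k = S.slope κ τ i m k' := fun k k' h =>
    W.slope_valFun hW j0 t0 ht κ τ hc (fun _ => he) h
  have hρ : ∀ k k' : St, levV (k.blk.level 0) = levV (k'.blk.level 0) →
      S.endRef κ i m k = S.endRef κ i m k' := W.endRef_valFun hW j0 t0 ht κ hc
  have e0 : W.segs κ C Mo j0 t0 ht τ i m = g.good.fam.coef.seg := by
    by_cases hi : ∀ f k, (W.prog (j0 + i))[m] ≠ Piece.ins f k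
    · exact g.diag he hi
    push Not at hi
    obtain ⟨f, k', hP⟩ := hi
    obtain ⟨hr, hseg, -⟩ := g.ins f k' hP
    show S.seg κ C Mo τ i m = _
    rw [hseg, insSegOf_eq _ hr]
    refine InsOp.segH_zero _ hr.fam _ hr.low hr.cont.1 hr.cont.2 _ hr.bd (fun t => ?_)
      (fun k => hz _ _ (by rw [levRep_level])) fun k => hρ _ _ (by rw [levRep_level])
    obtain ⟨h1, h2⟩ :=
      insF_scale κ (τ i k') (((W.prog (j0 + i))[m]).len (S.j0 + i)) (S.pieceStart i m) t
    rw [h1, h2, h0 f k' hP]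
    simp
  rw [e0]
  refine ⟨_, g.good.fam.levScal hz hρ, DiagCoef.segLocal _ _, fun k => ?_⟩
  rw [levSel_eq fun _ _ h => by rw [hz _ _ h]]
  exact abs_log_coefQ_add (g.good.fam.cont_z k) (((W.prog (j0 + i))[m]).len_pos _).le
    (W.slope_near_alphaLev hκ hW hm hc he g.good hb k)

end LoopSpec

end

end Vale.Agent.P225
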