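import Vale.Agent.P225.Loop.IdealTools
import Vale.Agent.P225.Loop.AxisScalar
import Vale.Agent.P225.Loop.PieceExc

/-!
P225, module 10 (helper8): the ideal program of one loop at its junction.  A fixed word of
excursions, between two diagonal segments, realises exactly a transposition times nonzero scalars on
the controlled levels, with controlled logarithms of the scalars.
-/

namespace Vale.Agent.P225.Loop

open NormedSpace Matrix Set Alg
open scoped lp ENNReal Matrix.Norms.L2Operator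

noncomputable section

variable {J : Fin 3} {Lv : Finset (ℕ × ℕ)}

theorem refSlope_zero {κ t : ℝ} {i : St} (hc : 0 ≤ cDrift κ t) (h : i.blk.mu = 1) :
    refSlope κ J t i = 0 := by
  obtain ⟨ha, hb, hcc⟩ := cas_eq_zero_of_mu_eq_one h
  simp [refSlope, Ode.alphaFn, Blk.lam, ha, hb, hcc, Real.sqrt_sq hc]

theorem continuous_scaleFun_clampT (κ : ℝ) {a : ℝ} (ha : 0 < a) :
    Continuous fun t => scaleFun κ (clampT a t) := by
  refine Real.continuous_sqrt.comp (continuous_const.div ?_ fun t => (dFun_pos _ _).ne')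
  refine continuous_const.mul (Real.continuous_exp.comp ?_)
  exact continuous_const.mul ((continuous_clampT a).rpow_const fun t =>
    Or.inl (lt_of_lt_of_le (by linarith) (half_le_clampT ha t)).ne')

/-- Large `j` make `D / √(j+1)` small. -/
theorem exists_nat_div_sqrt_le (D : ℝ) {ε : ℝ} (hε : 0 < ε) :
    ∃ N : ℕ, ∀ j : ℕ, N ≤ j → D / Real.sqrt ((j : ℝ) + 1) ≤ ε := by
  refine ⟨⌈(D / ε) ^ 2⌉₊, fun j hj => ?_⟩
  have h0 : 0 < Real.sqrt ((j : ℝ) + 1) := Real.sqrt_pos.2 (by positivity)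
  have h1 : (D / ε) ^ 2 ≤ (j : ℝ) + 1 := by
    have : ((⌈(D / ε) ^ 2⌉₊ : ℕ) : ℝ) ≤ j := by exact_mod_cast hj
    linarith [Nat.le_ceil ((D / ε) ^ 2)]
  rw [div_le_iff₀ h0]
  have h2 : D / ε ≤ Real.sqrt ((j : ℝ) + 1) :=
    (le_abs_self _).trans ((Real.sqrt_sq_eq_abs _).symm.trans_le (Real.sqrt_le_sqrt h1))
  rw [div_le_iff₀ hε] at h2
  linarith

theorem inv_pow_five_le_inv_sqrt (j : ℕ) :
    1 / ((j : ℝ) + 1) ^ 5 ≤ 1 / Real.sqrt ((j : ℝ) + 1) := by
  have hj : (1 : ℝ) ≤ (j : ℝ) + 1 := le_add_of_nonneg_left (Nat.cast_nonneg j)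
  refine one_div_le_one_div_of_le (Real.sqrt_pos.2 (by linarith)) ?_
  refine le_trans ?_ (le_self_pow₀ hj (by norm_num))
  rw [Real.sqrt_le_iff]
  exact ⟨by linarith, by rw [sq]; exact le_mul_of_one_le_left (by linarith) hj⟩

/-- One excursion of the program: a slope family on its window, seen in its frame. -/
def ExcSeg (κ : ℝ) (J : Fin 3) {M : ℝ} (F : Frame J Lv M) (j : ℕ) (a θ : ℝ) (S : Seg HSp) : Prop :=
  ∃ (z : St → ℝ → ℝ) (δ : ℝ),
    (∀ i, z i a = refSlope κ J a i) ∧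
    (∀ i, ∀ t ∈ Icc a (a + ((j : ℝ) + 1) ^ 5), ∃ z', HasDerivAt (z i) z' t ∧
      z' + z i t ^ 2 + cPiece κ a t * z i t = scaleFun κ t *
        excProfile (excP J i.blk) (excS J i.blk) (excX a (a + ((j : ℝ) + 1) ^ 5) θ t)) ∧
    ∃ h : SlopeFam a (a + ((j : ℝ) + 1) ^ 5) (cPiece κ a) z
        (refSlope κ J (a + ((j : ℝ) + 1) ^ 5)) (1 / 10) δ,
      S = h.coef.seg.conj F.Uu F.Vu F.Uw F.Vw

/-- The slope of one state along an excursion of amplitude `θ`. -/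
def ExcSlope (κ : ℝ) (J : Fin 3) (j : ℕ) (a θ : ℝ) (i : St) (z : ℝ → ℝ) : Prop :=
  Continuous z ∧ z a = refSlope κ J a i ∧
    (∀ t ∈ Icc a (a + ((j : ℝ) + 1) ^ 5), 0 ≤ z t) ∧
    ∀ t ∈ Icc a (a + ((j : ℝ) + 1) ^ 5), ∃ z', HasDerivAt z z' t ∧
      z' + z t ^ 2 + cPiece κ a t * z t = scaleFun κ t *
        excProfile (excP J i.blk) (excS J i.blk) (excX a (a + ((j : ℝ) + 1) ^ 5) θ t)

/-- Bounds of a slope segment seen in a frame. -/
theorem conj_segBd {M K c a b k δ : ℝ} {cf : ℝ → ℝ} {z : St → ℝ → ℝ} {ρ : St → ℝ}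
    (F : Frame J Lv M) (hM : 1 ≤ M) (h : SlopeFam a b cf z ρ k δ) (hK : M ^ 2 * (1 + 1 / k) ≤ K)
    (hc : M * δ * M ≤ c) : SegBd K c (h.coef.seg.conj F.Uu F.Vu F.Uw F.Vw) := by
  obtain ⟨q1, q2, q3, q4⟩ := Seg.norm_conj_le h.coef.seg (M := M) F.bd.1 F.bd.2.1 F.bd.2.2.1
    F.bd.2.2.2
  have hM0 : 0 ≤ M := zero_le_one.trans hM
  have hk : 0 ≤ 1 / k := (div_pos one_pos h.k_pos).le
  have e1 : M * 1 * M ≤ K := by
    refine le_trans ?_ hK
    rw [mul_add, show M * 1 * M = M ^ 2 * 1 by ring]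
    exact le_add_of_nonneg_right (by positivity)
  have e2 : M * (1 / k) * M ≤ K := by
    refine le_trans ?_ hK
    rw [mul_add, show M * (1 / k) * M = M ^ 2 * (1 / k) by ring]
    exact le_add_of_nonneg_left (by positivity)
  refine ⟨q1.trans (le_trans ?_ e1), q2.trans (le_trans ?_ e2), q3.trans (le_trans ?_ hc),
    q4.trans (le_trans ?_ e1)⟩
  · exact mul_le_mul_of_nonneg_right (mul_le_mul_of_nonneg_left h.coef.norm_Q hM0) hM0
  · exact mul_le_mul_of_nonneg_right (mul_le_mul_of_nonneg_left h.coef.norm_B hM0) hM0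
  · exact mul_le_mul_of_nonneg_right (mul_le_mul_of_nonneg_left h.coef.norm_C hM0) hM0
  · exact mul_le_mul_of_nonneg_right (mul_le_mul_of_nonneg_left h.coef.norm_D hM0) hM0

/-- Bound of the logarithm of a coefficient from a bound of the slope. -/
theorem abs_log_coefQ_le {z : ℝ → ℝ} {a b A : ℝ} (hz : Continuous z) (hab : a ≤ b) (hA : 0 ≤ A)
    (h : ∀ t ∈ Icc a b, |z t| ≤ A) : |Real.log (Ode.coefQ z a b)| ≤ A * (b - a) := by
  rw [show Real.log (Ode.coefQ z a b) = -Ode.prim z a b from Real.log_exp _, abs_neg]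
  have := abs_prim_sub_le_of (g := fun _ => (0 : ℝ)) hz continuous_const hab le_rfl hA
    (fun t ht => by simpa using h t ht)
  simpa [Ode.prim] using this

theorem le_sum_levels {Ax : Finset (ℕ × ℕ)} (g : St → ℝ) (hg : ∀ i, 0 ≤ g i) (r : St)
    (hr : r.blk.level J ∈ Ax) : g r ≤ ∑ L : Ax, ∑ i : Fib J L.1, g i.1 := by
  have h1 : g r ≤ ∑ i : Fib J (r.blk.level J), g i.1 :=
    Finset.single_le_sum (f := fun i : Fib J (r.blk.level J) => g i.1) (fun i _ => hg i.1)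
      (Finset.mem_univ (⟨r, rfl⟩ : Fib J (r.blk.level J)))
  exact h1.trans (Finset.single_le_sum (f := fun L : Ax => ∑ i : Fib J L.1, g i.1)
    (fun L _ => Finset.sum_nonneg fun i _ => hg i.1) (Finset.mem_univ (⟨_, hr⟩ : Ax)))

/-- Two states with equal slopes have the same coefficients. -/
theorem diag_coef_congr {a b k δ : ℝ} {c : ℝ → ℝ} {z : St → ℝ → ℝ} {ρ : St → ℝ}
    (h : SlopeFam a b c z ρ k δ) {i i' : St} (hb : i.blk = i'.blk)
    (he : ∀ t ∈ Icc a b, z i t = z i' t) (hρ : ρ i = ρ i') :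
    h.coef.q i = h.coef.q i' ∧ h.coef.b i = h.coef.b i' ∧ h.coef.c i = h.coef.c i' ∧
      h.coef.d i = h.coef.d i' := by
  have hu : ∀ t ∈ uIcc a b, z i t = z i' t := fun t ht => he t (by rwa [uIcc_of_le h.le] at ht)
  have hp : ∀ t ∈ uIcc a b, Ode.prim (z i) a t = Ode.prim (z i') a t := fun t ht =>
    intervalIntegral.integral_congr fun s hs => hu s (uIcc_subset_uIcc_left ht hs)
  have hpc : ∀ t ∈ uIcc a b, Ode.prim (fun s => c s + z i s) a t
      = Ode.prim (fun s => c s + z i' s) a t := fun t ht =>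
    intervalIntegral.integral_congr fun s hs => by
      simp only [hu s (uIcc_subset_uIcc_left ht hs)]
  refine ⟨?_, ?_, ?_, ?_⟩
  · show Ode.coefQ (z i) a b = Ode.coefQ (z i') a b
    rw [Ode.coefQ, Ode.coefQ, hp b right_mem_uIcc]
  · show i.blk.mu * Ode.coefB c (z i) a b = i'.blk.mu * Ode.coefB c (z i') a b
    rw [hb]
    simp only [Ode.coefB]
    congr 2
    exact intervalIntegral.integral_congr fun s hs => by simp only [hp s hs, hpc s hs]
  · show (z i b - ρ i) / i.blk.mu = (z i' b - ρ i') / i'.blk.mu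
    rw [hb, he b (right_mem_Icc.2 h.le), hρ]
  · show Ode.coefD c (z i) a b = Ode.coefD c (z i') a b
    rw [Ode.coefD, Ode.coefD, hpc b right_mem_uIcc]

/-- An excursion is a scalar on a level made of one block. -/
theorem scalarAt_exc {κ a L R θ δ W M : ℝ} {z : St → ℝ → ℝ} {r : St} (F : Frame J Lv M)
    (h : SlopeFam a (a + L) (cPiece κ a) z (refSlope κ J (a + L)) (1 / 10) δ) (ha : 0 < a)
    (hL : 1 ≤ L) (h0 : ∀ i, z i a = refSlope κ J a i)
    (hode : ∀ i, ∀ t ∈ Icc a (a + L), ∃ z', HasDerivAt (z i) z' t ∧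
      z' + z i t ^ 2 + cPiece κ a t * z i t = scaleFun κ t *
        excProfile (excP J i.blk) (excS J i.blk) (excX a (a + L) θ t))
    (hθ : θ ∈ Icc (-R) R) (hR : R ≤ L / 4)
    (hblk : ∀ k : St, k.blk.level J = r.blk.level J → k.blk = r.blk) (hW : 0 ≤ W)
    (hz : ∀ t ∈ Icc a (a + L), z r t ≤ W) (hF : FrameAt F r) :
    ∃ q : ℝ, 0 < q ∧ |Real.log q| ≤ W * L ∧
      ScalarAt J (h.coef.seg.conj F.Uu F.Vu F.Uw F.Vw) r q ∧ q = Ode.coefQ (z r) a (a + L) := by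
  have hab : a < a + L := by linarith
  have hlc := (continuous_scaleFun_clampT κ ha).mul
    (continuous_excProfile (excP J r.blk) (excS J r.blk) hab
      (by rw [add_sub_cancel_left]; exact hR) hθ)
  have hode' : ∀ k : St, k.blk = r.blk → ∀ t ∈ Icc a (a + L), ∃ z',
      HasDerivAt (z k) z' t ∧ z' + z k t ^ 2 + cPiece κ a t * z k t
        = scaleFun κ (clampT a t)
          * excProfile (excP J r.blk) (excS J r.blk) (excX a (a + L) θ t) := by
    intro k hk t ht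
    obtain ⟨z', h1, h2⟩ := hode k t ht
    exact ⟨z', h1, by rw [(clampT_of_ge ha ht.1).1, ← hk]; exact h2⟩
  have hlev : ∀ k : St, k.blk.level J = r.blk.level J →
      ∀ t ∈ Icc a (a + L), z k t = z r t := by
    intro k hk t ht
    have := Ode.abs_slope_sub_le (E := 0) (k := 1 / 10) h.cont_c (h.cont_z k) (h.cont_z r) hlc hlc
      (by norm_num)
      (fun u hu => by
        have g1 := h.gain k u hu
        have g2 := h.gain r u hu
        have m1 := Blk.one_le_mu k.blk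
        have m2 := Blk.one_le_mu r.blk
        linarith)
      (by simp) (hode' k (hblk k hk)) (hode' r rfl) t ht
    rw [h0 k, h0 r, refSlope_level κ J a hk, sub_self, abs_zero, zero_mul, zero_div,
      add_zero] at this
    linarith [abs_eq_zero.1 (le_antisymm this (abs_nonneg _))]
  refine ⟨h.coef.q r, Ode.coefQ_pos _ _ _, ?_, scalarAt_conj F _ hF fun k hk =>
    diag_coef_congr h (hblk k hk) (hlev k hk) (refSlope_level κ J (a + L) hk), rfl⟩
  refine (abs_log_coefQ_le (h.cont_z r) hab.le hW fun t ht => ?_).trans_eq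
    (by rw [add_sub_cancel_left])
  rw [abs_of_nonneg (h.z_nonneg r t ht)]
  exact hz t ht

variable (J Lv) in
/-- Excursion families of one frame: segments for all amplitudes, uniform bounds, and closeness to
the one-parameter group on the controlled levels. -/
theorem exists_exc_family {κ R M : ℝ} (hκ : 0 ≤ κ) (hR : 0 ≤ R) (hM : 1 ≤ M)
    (Ax : Finset (ℕ × ℕ))
    (hAx : ∀ i k : St, i.blk.level J ∈ Ax → k.blk.level J = i.blk.level J → k.blk = i.blk) :
    ∃ K : ℝ, 1 ≤ K ∧ ∃ A : ℝ, 0 ≤ A ∧ ∃ N : ℕ, ∀ (F : Frame J Lv M) (j : ℕ) (a : ℝ),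
      N ≤ j → 2 * ((j : ℝ) + 1) ^ 5 ≤ a →
      ∃ (S : ℝ → Seg HSp) (cq : ∀ L : Lv, Fib J L.1 → ℝ),
        (∀ θ ∈ Icc (-R) R, ExcSeg κ J F j a θ (S θ) ∧ SegLocal J (S θ) ∧
          SegBd K (K / Real.sqrt ((j : ℝ) + 1)) (S θ) ∧
          ∀ r : St, r.blk.level J ∈ Ax → FrameAt F r →
            ∃ q : ℝ, 0 < q ∧ |Real.log q| ≤ A * ((j : ℝ) + 1) ^ 5 ∧ ScalarAt J (S θ) r q ∧
              ∃ z, ExcSlope κ J j a θ r z ∧ q = Ode.coefQ z a (a + ((j : ℝ) + 1) ^ 5)) ∧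
        (∀ L i, 0 < cq L i ∧ |Real.log (cq L i)| ≤ A * ((j : ℝ) + 1) ^ 5 ∧
          ∃ z, ExcSlope κ J j a 0 i.1 z ∧ cq L i = Ode.coefQ z a (a + ((j : ℝ) + 1) ^ 5)) ∧
        Good (Icc (-R) R) K (K / Real.sqrt ((j : ℝ) + 1)) (fun θ => segMat J Lv (S θ))
          (levDiag cq) (fun θ => exp (θ • excGen F scaleInf)) := by
  obtain ⟨N₁, C, C', hC, hexc⟩ := Piece.exists_exc κ R 0 hκ hR
  obtain ⟨Kg, Cg, hKg, hCg, hgood⟩ :=
    exists_exc_good J Lv (1 / 10) R scaleInf M (by norm_num) (by norm_num) hR (Real.sqrt_nonneg _) hM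
  set N2 : ℝ := ∑ L : Lv, ∑ i : Fib J L.1, i.1.blk.mu ^ 2 with hN2
  have hN20 : 0 ≤ N2 := Finset.sum_nonneg fun L _ => Finset.sum_nonneg fun i _ => sq_nonneg _
  set D := |C'| * (N2 + 1) + 4 * |C| with hD
  have hD0 : 0 ≤ D := by positivity
  set A : ℝ := ∑ L : Lv, ∑ i : Fib J L.1, (excKap J scaleInf i.1.blk + 1) with hA
  have hsI : 0 ≤ scaleInf := Real.sqrt_nonneg _
  have hA1 : ∀ (L : Lv) (i : Fib J L.1), excKap J scaleInf i.1.blk + 1 ≤ A := fun L i =>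
    le_trans (Finset.single_le_sum (f := fun i : Fib J L.1 => excKap J scaleInf i.1.blk + 1)
        (fun i _ => by linarith [five_le_excKap (J := J) hsI i.1.blk]) (Finset.mem_univ i))
      (Finset.single_le_sum (f := fun L : Lv => ∑ i : Fib J L.1, (excKap J scaleInf i.1.blk + 1))
        (fun L _ => Finset.sum_nonneg fun i _ => by
          linarith [five_le_excKap (J := J) hsI i.1.blk]) (Finset.mem_univ L))
  have hA0 : 0 ≤ A := Finset.sum_nonneg fun L _ => Finset.sum_nonneg fun i _ => by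
    linarith [five_le_excKap (J := J) hsI i.1.blk]
  set Wa : ℝ := ∑ L : Ax, ∑ i : Fib J L.1, (excKap J scaleInf i.1.blk + |C'| * i.1.blk.mu ^ 2)
    with hWa
  have hWa0 : 0 ≤ Wa := Finset.sum_nonneg fun L _ => Finset.sum_nonneg fun i _ => add_nonneg
    (by linarith [five_le_excKap (J := J) hsI i.1.blk]) (by positivity)
  have hWa1 : ∀ r : St, r.blk.level J ∈ Ax →
      excKap J scaleInf r.blk + |C'| * r.blk.mu ^ 2 ≤ Wa := fun r hr =>
    le_sum_levels (fun i : St => excKap J scaleInf i.blk + |C'| * i.blk.mu ^ 2)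
      (fun i => add_nonneg (by linarith [five_le_excKap (J := J) hsI i.blk]) (by positivity)) r hr
  set K := max Kg (11 * M ^ 2) + Cg * (D + 1) + 4 * |C| * M ^ 2 with hK
  have hKg' : Kg ≤ K := by
    have h1 := le_max_left Kg (11 * M ^ 2)
    have h2 : 0 ≤ Cg * (D + 1) := by positivity
    have h3 : 0 ≤ 4 * |C| * M ^ 2 := by positivity
    linarith
  obtain ⟨N₂, hN₂⟩ := exists_nat_div_sqrt_le (Cg * (D + 1)) one_pos
  obtain ⟨N₃, hN₃⟩ := exists_nat_ge (max κ (4 * R))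
  refine ⟨K, hKg.trans hKg', A + Wa, add_nonneg hA0 hWa0, max N₁ (max N₂ N₃),
    fun F j a hj ha => ?_⟩
  have hj1 : N₁ ≤ j := (le_max_left _ _).trans hj
  have hj2 : N₂ ≤ j := ((le_max_left _ _).trans (le_max_right _ _)).trans hj
  have hj3 : (N₃ : ℝ) ≤ j := by
    exact_mod_cast ((le_max_right _ _).trans (le_max_right _ _)).trans hj
  have hw1 : (1 : ℝ) ≤ (j : ℝ) + 1 := le_add_of_nonneg_left (Nat.cast_nonneg j)
  set L5 := ((j : ℝ) + 1) ^ 5 with hL5
  have hL1 : 1 ≤ L5 := one_le_pow₀ hw1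
  have hab : a < a + L5 := by linarith
  have ha0 : 0 < a := by linarith
  have hcd : 0 ≤ cDrift κ a := by
    have h := abs_le.1 (abs_vFun_le hκ hL1 (by linarith : L5 ≤ a)).1
    have : κ / L5 ≤ 1 := by
      rw [div_le_one (by linarith)]
      linarith [le_self_pow₀ hw1 (by norm_num : 5 ≠ 0), le_max_left κ (4 * R)]
    simp only [cDrift]
    linarith
  have hy0 : ∀ i : St, i.blk.mu = 1 → refSlope κ J a i = 0 := fun i hi => refSlope_zero hcd hi
  have hCL : 0 ≤ C / L5 := div_nonneg hC (by linarith)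
  obtain ⟨-, z, hz⟩ := hexc J 0 0 j a hj1 ha (refSlope κ J a) (refSlope κ J (a + L5)) hy0
    (fun i => by simpa using hCL)
    (fun i => by
      rw [show (Piece.exc J 0 0).len j = L5 from rfl]
      simpa using hCL)
  rw [show (Piece.exc J 0 0).len j = L5 from rfl] at hz
  classical
  let S : ℝ → Seg HSp := fun θ =>
    if h : θ ∈ Icc (-R) R then (hz θ h).2.1.coef.seg.conj F.Uu F.Vu F.Uw F.Vw else segOne
  have hS : ∀ θ (h : θ ∈ Icc (-R) R),
      S θ = (hz θ h).2.1.coef.seg.conj F.Uu F.Vu F.Uw F.Vw := fun θ h => dif_pos h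
  have h0 : (0 : ℝ) ∈ Icc (-R) R := ⟨by linarith, hR⟩
  have hsq : 0 < Real.sqrt ((j : ℝ) + 1) := Real.sqrt_pos.2 (by linarith)
  have hinv := inv_pow_five_le_inv_sqrt j
  set δ := D / Real.sqrt ((j : ℝ) + 1) with hδ
  have hδ0 : 0 ≤ δ := div_nonneg hD0 hsq.le
  have hsum : δ + 1 / (a + L5 - a) ≤ (D + 1) / Real.sqrt ((j : ℝ) + 1) := by
    rw [add_sub_cancel_left, hδ, add_div D 1]
    exact add_le_add le_rfl hinv
  have hsmall : Cg * (δ + 1 / (a + L5 - a)) ≤ 1 := by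
    refine (mul_le_mul_of_nonneg_left hsum (zero_le_one.trans hCg)).trans ?_
    rw [← mul_div_assoc]
    exact hN₂ j hj2
  have hδ1 : δ ≤ 1 := by
    refine le_trans ((le_add_of_nonneg_right ?_).trans (le_mul_of_one_le_left ?_ hCg)) hsmall
    · rw [add_sub_cancel_left]; positivity
    · rw [add_sub_cancel_left]; positivity
  have hclamp : ∀ t ∈ Icc a (a + L5), scaleFun κ (clampT a t) = scaleFun κ t := fun t ht => by
    rw [(clampT_of_ge ha0 ht.1).1]
  have hδC : 4 * C / L5 ≤ δ := by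
    rw [hδ, div_eq_mul_one_div, div_eq_mul_one_div D]
    have hC4 : 4 * C ≤ D := by
      rw [hD]; linarith [le_abs_self C, mul_nonneg (abs_nonneg C') (by linarith : 0 ≤ N2 + 1)]
    exact mul_le_mul hC4 hinv (by positivity) hD0
  have hkap : ∀ (L : Lv) (i : Fib J L.1), ∀ θ ∈ Icc (-R) R, ∀ t ∈ Icc a (a + L5),
      |cPiece κ a t + 2 * z θ i.1 t - excKap J scaleInf i.1.blk| ≤ δ := by
    intro L i θ hθ t ht
    have h := ((hz θ hθ).2.2.2.2.1 θ hθ i.1 t ht).2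
    rw [Ode.two_alphaFn_add] at h
    have e : Real.sqrt (5 ^ 2 + 4 * (scaleInf * excP J i.1.blk))
        = excKap J scaleInf i.1.blk := by
      rw [excKap]; norm_num
    rw [e] at h
    rw [show cPiece κ a t + 2 * z θ i.1 t = z θ i.1 t + z θ i.1 t + cPiece κ a t by ring]
    refine h.trans (div_le_div_of_nonneg_right ?_ hsq.le)
    have hμ : i.1.blk.mu ^ 2 ≤ N2 :=
      le_trans (Finset.single_le_sum (f := fun i : Fib J L.1 => i.1.blk.mu ^ 2)
          (fun i _ => sq_nonneg _) (Finset.mem_univ i))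
        (Finset.single_le_sum (f := fun L : Lv => ∑ i : Fib J L.1, i.1.blk.mu ^ 2)
          (fun L _ => Finset.sum_nonneg fun i _ => sq_nonneg _) (Finset.mem_univ L))
    calc C' * i.1.blk.mu ^ 2 ≤ |C'| * (N2 + 1) :=
          mul_le_mul (le_abs_self _) (by linarith) (sq_nonneg _) (abs_nonneg _)
      _ ≤ D := by rw [hD]; linarith [abs_nonneg C]
  have hscale : ∀ t ∈ Icc a (a + L5), |scaleFun κ (clampT a t) - scaleInf| ≤ δ := by
    intro t ht
    rw [hclamp t ht]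
    refine ((hz 0 h0).2.2.2.2.2 t ht).trans (div_le_div_of_nonneg_right ?_ hsq.le)
    rw [hD]
    linarith [le_abs_self C', abs_nonneg C, le_mul_of_one_le_right (abs_nonneg C')
      (le_add_of_nonneg_left hN20 : (1 : ℝ) ≤ N2 + 1)]
  have hG := hgood F a (a + L5) δ (4 * C / L5) (cPiece κ a) (fun t => scaleFun κ (clampT a t)) z
    (refSlope κ J a) (refSlope κ J (a + L5)) S hab hδ0 hδC hsmall
    (continuous_scaleFun_clampT κ ha0) hscale (fun i i' h => refSlope_level κ J a h)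
    (fun θ hθ => ⟨(hz θ hθ).2.1, hS θ hθ⟩)
    (fun θ hθ L i => ⟨(hz θ hθ).1 i.1, fun t ht => ⟨hkap L i θ hθ t ht, by
      obtain ⟨z', h1, h2⟩ := (hz θ hθ).2.2.1 i.1 t ht
      exact ⟨z', h1, by rw [hclamp t ht]; exact h2⟩⟩⟩)
  refine ⟨S, fun (L : Lv) (i : Fib J L.1) => Ode.coefQ (z 0 i.1) a (a + L5), fun θ hθ => ?_,
    fun L i => ?_, hG.mono hKg' ?_⟩
  · refine ⟨⟨z θ, 4 * C / L5, (hz θ hθ).1, (hz θ hθ).2.2.1, (hz θ hθ).2.1, hS θ hθ⟩, ?_, ?_,
      fun r hr hF => ?_⟩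
    · rw [hS θ hθ]
      exact (DiagCoef.segLocal _ J).conj F.loc.1 F.loc.2.1 F.loc.2.2.1 F.loc.2.2.2
    · rw [hS θ hθ]
      refine conj_segBd F hM (hz θ hθ).2.1 ?_ ?_
      · have h1 := le_max_right Kg (11 * M ^ 2)
        have h2 : 0 ≤ Cg * (D + 1) := by positivity
        have h3 : 0 ≤ |C| * M ^ 2 := by positivity
        have h4 := le_max_left Kg (11 * M ^ 2)
        rw [show M ^ 2 * (1 + 1 / (1 / 10 : ℝ)) = 11 * M ^ 2 by ring, hK]
        have h5 : M ^ 2 * 1 ≤ 11 * M ^ 2 := by linarith [sq_nonneg M]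
        linarith
      · calc M * (4 * C / L5) * M = 4 * C * M ^ 2 * (1 / L5) := by ring
          _ ≤ 4 * |C| * M ^ 2 * (1 / Real.sqrt ((j : ℝ) + 1)) :=
              mul_le_mul (by gcongr; exact le_abs_self C) hinv (by positivity) (by positivity)
          _ ≤ K / Real.sqrt ((j : ℝ) + 1) := by
              rw [mul_one_div]
              refine div_le_div_of_nonneg_right ?_ hsq.le
              have h1 : 0 ≤ max Kg (11 * M ^ 2) := le_trans (by positivity) (le_max_right _ _)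
              have h2 : 0 ≤ Cg * (D + 1) := by positivity
              rw [hK]; linarith
    · have hzf := (hz θ hθ).2.1
      have hR4 : R ≤ L5 / 4 := by
        linarith [le_self_pow₀ hw1 (by norm_num : 5 ≠ 0), le_max_right κ (4 * R)]
      have hz' : ∀ t ∈ Icc a (a + L5), z θ r t ≤ Wa := fun t ht => by
        have h := ((hz θ hθ).2.2.2.2.1 θ hθ r t ht).2
        rw [Ode.two_alphaFn_add,
          show Real.sqrt (5 ^ 2 + 4 * (scaleInf * excP J r.blk)) = excKap J scaleInf r.blk by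
            rw [excKap]; norm_num] at h
        have h4 : C' * r.blk.mu ^ 2 / Real.sqrt ((j : ℝ) + 1) ≤ |C'| * r.blk.mu ^ 2 := by
          rw [div_le_iff₀ hsq]
          exact (mul_le_mul_of_nonneg_right (le_abs_self C') (sq_nonneg _)).trans
            (le_mul_of_one_le_right (mul_nonneg (abs_nonneg _) (sq_nonneg _))
              (Real.one_le_sqrt.2 hw1))
        have h' := (abs_le.1 h).2
        linarith [hWa1 r hr, hzf.z_nonneg r t ht, hzf.c_nonneg t ht]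
      obtain ⟨q, hq, hql, hqs, hqe⟩ := scalarAt_exc F hzf ha0 hL1 (hz θ hθ).1 (hz θ hθ).2.2.1 hθ hR4
        (fun k hk => hAx r k hr hk) hWa0 hz' hF
      refine ⟨q, hq, ?_, ?_, z θ r,
        ⟨hzf.cont_z r, (hz θ hθ).1 r, hzf.z_nonneg r, (hz θ hθ).2.2.1 r⟩, hqe⟩
      · have : 0 ≤ A * L5 := mul_nonneg hA0 (zero_le_one.trans hL1)
        rw [add_mul]
        linarith
      · simpa only [hS θ hθ] using hqs
  · refine ⟨Ode.coefQ_pos _ _ _, ?_, z 0 i.1,
      ⟨(hz 0 h0).2.1.cont_z i.1, (hz 0 h0).1 i.1, (hz 0 h0).2.1.z_nonneg i.1,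
        (hz 0 h0).2.2.1 i.1⟩, rfl⟩
    have hzc := (hz 0 h0).2.1
    refine (abs_log_coefQ_le (hzc.cont_z i.1) hab.le hA0 fun t ht => ?_).trans
      (by rw [add_sub_cancel_left]
          exact mul_le_mul_of_nonneg_right (le_add_of_nonneg_right hWa0) (zero_le_one.trans hL1))
    rw [abs_of_nonneg (hzc.z_nonneg i.1 t ht)]
    have h1 := (abs_le.1 (hkap L i 0 h0 t ht)).2
    have h2 := hzc.c_nonneg t ht
    have h3 := hA1 L i
    linarith [five_le_excKap (J := J) hsI i.1.blk, hδ1, hzc.z_nonneg i.1 t ht]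
  · rw [mul_comm Cg]
    calc (δ + 1 / (a + L5 - a)) * Cg ≤ (D + 1) / Real.sqrt ((j : ℝ) + 1) * Cg :=
          mul_le_mul_of_nonneg_right hsum (zero_le_one.trans hCg)
      _ = Cg * (D + 1) / Real.sqrt ((j : ℝ) + 1) := by ring
      _ ≤ K / Real.sqrt ((j : ℝ) + 1) := by
          refine div_le_div_of_nonneg_right ?_ hsq.le
          have h1 : 0 ≤ max Kg (11 * M ^ 2) := le_trans (by positivity) (le_max_right _ _)
          have h2 : 0 ≤ 4 * |C| * M ^ 2 := by positivity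
          linarith

/-- The ideal program at one junction. -/
theorem ideal_program {E : Type*} {κ M : ℝ} (hκ : 0 ≤ κ) (hM : 1 ≤ M) (F : E → Frame J Lv M)
    (hne : ∀ L : Lv, Nonempty (Fib J L.1))
    (hgen : ∀ P : Submodule ℝ (LevAlg J Lv),
      range (fun e => excGen (F e) scaleInf) ∪ levOnes J Lv ⊆ P →
      (∀ Y ∈ range (fun e => excGen (F e) scaleInf) ∪ levOnes J Lv, ∀ Z ∈ P,
        Y * Z - Z * Y ∈ P) → P = ⊤)
    (Ax : Finset (ℕ × ℕ))
    (hAx : ∀ i k : St, i.blk.level J ∈ Ax → k.blk.level J = i.blk.level J → k.blk = i.blk)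
    (hFAx : ∀ (e : E) (r : St), r.blk.level J ∈ Ax → FrameAt (F e) r)
    {i₀ i₁ : St} (hL : i₀.blk.level J ∈ Lv)
    (hlev : i₁.blk.level J = i₀.blk.level J) :
    ∃ (m : ℕ) (e : Fin m → E) (R : ℝ), 0 < R ∧ ∀ K₀ : ℝ, 1 ≤ K₀ →
      ∃ (K B : ℝ) (N : ℕ), 1 ≤ K ∧ 0 ≤ B ∧ ∀ (j : ℕ) (a : ℝ), N ≤ j →
        2 * ((j : ℝ) + 1) ^ 5 ≤ a →
        ∀ (O Z : Seg HSp) (qO qZ : St → ℝ), SegLocal J O → SegLocal J Z →
          SegBd K₀ (K₀ / Real.sqrt ((j : ℝ) + 1)) O → SegBd K₀ (K₀ / Real.sqrt ((j : ℝ) + 1)) Z →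
          levMat J Lv O.Q = levDiag (fun (L : Lv) (i : Fib J L.1) => qO i.1) →
          levMat J Lv Z.Q = levDiag (fun (L : Lv) (i : Fib J L.1) => qZ i.1) →
          (∀ i, 0 < qO i) → (∀ i, 0 < qZ i) →
          ∃ (θ : Fin m → ℝ) (S : Fin m → Seg HSp),
            (∀ k, θ k ∈ Icc (-R) R ∧
              ExcSeg κ J (F (e k)) j (a + (k : ℕ) * ((j : ℝ) + 1) ^ 5) (θ k) (S k) ∧
              SegLocal J (S k)) ∧
            SegLocal J (O.comp ((segChain S).comp Z)) ∧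
            SegBd K (K / Real.sqrt ((j : ℝ) + 1)) (O.comp ((segChain S).comp Z)) ∧
            (∀ r : St, r.blk.level J ∈ Lv → ∃ c : ℝ, c ≠ 0 ∧ (r ≠ i₀ → r ≠ i₁ → 0 < c) ∧
              (O.comp ((segChain S).comp Z)).Q (lp.single 2 r 1)
                = c • (lp.single 2 (Equiv.swap i₀ i₁ r) 1 : HSp) ∧
              |Real.log (|c|) - (Real.log (qO (Equiv.swap i₀ i₁ r)) + Real.log (qZ r))|
                ≤ B * ((j : ℝ) + 1) ^ 5) ∧
            ∀ r : St, r.blk.level J ∈ Ax → ScalarAt J O r (qO r) → ScalarAt J Z r (qZ r) →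
              ∃ c : ℝ, 0 < c ∧ ScalarAt J (O.comp ((segChain S).comp Z)) r c ∧
                |Real.log c - (Real.log (qO r) + Real.log (qZ r))| ≤ B * ((j : ℝ) + 1) ^ 5 := by
  classical
  have : CompleteSpace (LevAlg J Lv) := FiniteDimensional.complete ℝ _
  have : Nonempty Lv := ⟨⟨_, hL⟩⟩
  have := normOneClass_levAlg J Lv hne
  set L₀ : Lv := ⟨i₀.blk.level J, hL⟩
  set p : Fib J L₀.1 := ⟨i₀, rfl⟩
  set q : Fib J L₀.1 := ⟨i₁, hlev⟩
  obtain ⟨g, hg, hge⟩ : ∃ g : (LevAlg J Lv)ˣ,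
      (g : LevAlg J Lv) ∈ expMonoid (range (fun e => excGen (F e) scaleInf) ∪ levOnes J Lv) ∧
      ∀ (L : Lv) (i r : Fib J L.1),
        (i.1 = Equiv.swap i₀ i₁ r.1 → |(g : LevAlg J Lv) L i r| = 1) ∧
        (i.1 ≠ Equiv.swap i₀ i₁ r.1 → (g : LevAlg J Lv) L i r = 0) ∧
        (r.1 ≠ i₀ → r.1 ≠ i₁ → i.1 = r.1 → (g : LevAlg J Lv) L i r = 1) := by
    rcases eq_or_ne i₀ i₁ with rfl | hne01
    · refine ⟨1, one_mem _, fun L i r => ?_⟩
      simp only [Units.val_one, Pi.one_apply, Equiv.swap_self, Equiv.refl_apply, Matrix.one_apply,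
        Subtype.ext_iff]
      exact ⟨fun h => by rw [if_pos h, abs_one], fun h => if_neg h, fun _ _ h => if_pos h⟩
    obtain ⟨g, hg, hgL, hgo⟩ := exists_levSwap _ hgen L₀ (i := p) (j := q)
      fun h => hne01 (congrArg Subtype.val h)
    refine ⟨g, hg, fun L i r => ?_⟩
    by_cases hLL : L = L₀
    · subst hLL
      rw [hgL]
      have hsw : (Equiv.swap p q r).1 = Equiv.swap i₀ i₁ r.1 := by
        simp only [Equiv.swap_apply_def]
        by_cases a1 : r = p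
        · subst a1; simp [p, q]
        · have b1 : r.1 ≠ i₀ := fun h => a1 (Subtype.ext h)
          by_cases a2 : r = q
          · subst a2; simp [p, q, hne01.symm, Subtype.ext_iff]
          · have b2 : r.1 ≠ i₁ := fun h => a2 (Subtype.ext h)
            simp [a1, a2, b1, b2]
      simp only [signedPerm, Matrix.of_apply, Subtype.ext_iff, hsw]
      refine ⟨fun h => ?_, fun h => if_neg h, fun h₀ h₁ h => ?_⟩
      · rw [if_pos h]
        split_ifs <;> simp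
      · rw [Equiv.swap_apply_of_ne_of_ne h₀ h₁, if_pos h]
        exact if_neg h₀
    · have hfix : Equiv.swap i₀ i₁ r.1 = r.1 :=
        Equiv.swap_apply_of_ne_of_ne
          (fun h => hLL (Subtype.ext (by show L.1 = i₀.blk.level J; rw [← h, r.2])))
          (fun h => hLL (Subtype.ext (by show L.1 = i₀.blk.level J; rw [← hlev, ← h, r.2])))
      rw [hgo L hLL]
      simp only [hfix, Matrix.one_apply, Subtype.ext_iff]
      exact ⟨fun h => by rw [if_pos h, abs_one], fun h => if_neg h, fun _ _ h => if_pos h⟩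
  obtain ⟨m, e, R, hR, hctrl⟩ := ideal_control (fun z hz x => levOnes_central hz x) hgen g hg
  refine ⟨m, e, R, hR, fun K₀ hK₀ => ?_⟩
  obtain ⟨Ke, hKe, A, hA, Ne, hfam⟩ :=
    exists_exc_family J Lv (κ := κ) (R := R) (M := M) hκ hR.le hM Ax hAx
  set K₁ := max Ke K₀ with hK₁
  have hK₁1 : 1 ≤ K₁ := hKe.trans (le_max_left _ _)
  obtain ⟨B, δc, hB, hδc, hc⟩ := hctrl K₁ hK₁1
  obtain ⟨K₂, hK₂, δb, hδb, hchain⟩ := exists_segChain (J := J) (Lv := Lv) m K₁ hK₁1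
  set K₃ := K₂ + K₁ + 2 * K₂ * K₁ * (1 + K₂) with hK₃
  set K₄ := K₁ + K₃ + 2 * K₁ * K₃ * (1 + K₁)
    + ((K₁ + 2 * K₁ * (K₂ * K₁) * K₁) + 2 * K₃ * K₁ * K₃) with hK₄
  have hK₃0 : 0 ≤ K₃ := by positivity
  obtain ⟨N₁, hN₁⟩ := exists_nat_div_sqrt_le K₁ hδc
  obtain ⟨N₂, hN₂⟩ := exists_nat_div_sqrt_le K₁ hδb
  obtain ⟨N₃, hN₃⟩ := exists_nat_div_sqrt_le (K₁ * (K₂ * K₁) + K₃ * K₁) (by norm_num : (0 : ℝ) < 1 / 2)
  obtain ⟨Cc, δa, hCc, hδa, haxc⟩ := exists_scalarAt_chain J m K₁ hK₁1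
  obtain ⟨N₄, hN₄⟩ := exists_nat_div_sqrt_le K₁ hδa
  refine ⟨K₄, B + m * A + Cc * δa + 2, max (max Ne N₁) (max N₂ (max N₃ N₄)), ?_, by positivity,
    fun j a hj ha O Z qO qZ hOl hZl hOb hZb hOQ hZQ hqO hqZ => ?_⟩
  · rw [hK₄]
    have h1 : 0 ≤ 2 * K₁ * K₃ * (1 + K₁) := by positivity
    have h2 : 0 ≤ K₁ + 2 * K₁ * (K₂ * K₁) * K₁ + 2 * K₃ * K₁ * K₃ := by positivity
    linarith
  simp only [max_le_iff] at hj
  obtain ⟨⟨hje, hj1⟩, hj2, hj3, hj4⟩ := hj
  set L5 := ((j : ℝ) + 1) ^ 5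
  set u := 1 / Real.sqrt ((j : ℝ) + 1) with hu
  have hu0 : 0 ≤ u := by positivity
  set δ := K₁ / Real.sqrt ((j : ℝ) + 1) with hδdef
  have hδ0 : 0 ≤ δ := by positivity
  have hδu : δ = K₁ * u := by rw [hδdef, hu]; ring
  have hle : K₀ / Real.sqrt ((j : ℝ) + 1) ≤ δ :=
    div_le_div_of_nonneg_right (le_max_right _ _) (Real.sqrt_nonneg _)
  have hKeδ : Ke / Real.sqrt ((j : ℝ) + 1) ≤ δ :=
    div_le_div_of_nonneg_right (le_max_left _ _) (Real.sqrt_nonneg _)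
  have hK0K : K₀ ≤ K₁ := le_max_right _ _
  have hKeK : Ke ≤ K₁ := le_max_left _ _
  have hwin : ∀ k : Fin m, 2 * L5 ≤ a + (k : ℕ) * L5 := fun k => by
    have : 0 ≤ ((k : ℕ) : ℝ) * L5 := by positivity
    linarith
  choose Sf cq hSf hcq hgood using fun k : Fin m => hfam (F (e k)) j _ hje (hwin k)
  obtain ⟨θ, hθ, σ, hσ, ν, hσB, hνB, hσν, hQ⟩ := hc δ hδ0 (hN₁ j hj1)
    (fun k θ => segMat J Lv (Sf k θ)) (fun k => levDiag (cq k)) (segMat J Lv O) (segMat J Lv Z)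
    (fun k => (hgood k).mono hKeK hKeδ)
    ((norm_levMat_le _).trans (hOb.C.trans hle)) ((norm_levMat_le _).trans (hZb.B.trans hK0K))
  obtain ⟨hcb, hcl, hcm⟩ := hchain δ hδ0 (hN₂ j hj2) (fun k => Sf k (θ k)) fun k =>
    ⟨⟨(hSf k (θ k) (hθ k)).2.2.1.Q.trans hKeK, (hSf k (θ k) (hθ k)).2.2.1.B.trans hKeK,
      (hSf k (θ k) (hθ k)).2.2.1.C.trans hKeδ, (hSf k (θ k) (hθ k)).2.2.1.D.trans hKeK⟩,
      (hSf k (θ k) (hθ k)).2.1⟩
  have hOb' : SegBd K₁ δ O :=
    ⟨hOb.Q.trans hK0K, hOb.B.trans hK0K, hOb.C.trans hle, hOb.D.trans hK0K⟩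
  have hZb' : SegBd K₁ δ Z :=
    ⟨hZb.Q.trans hK0K, hZb.B.trans hK0K, hZb.C.trans hle, hZb.D.trans hK0K⟩
  have h3 : (K₁ * (K₂ * K₁) + K₃ * K₁) * u ≤ 1 / 2 := by
    rw [hu, mul_one_div]; exact hN₃ j hj3
  have hs1 : K₁ * (K₂ * δ) ≤ 1 / 2 := by
    have : 0 ≤ K₃ * K₁ * u := by positivity
    rw [hδu]; linarith
  have hs2 : K₃ * δ ≤ 1 / 2 := by
    have : 0 ≤ K₁ * (K₂ * K₁) * u := by positivity
    rw [hδu]; linarith
  obtain ⟨hMZ, hn1⟩ := hcb.comp hZb' hs1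
  obtain ⟨hall, hn2⟩ := hOb'.comp hMZ hs2
  have hMZl := hcl.comp hZl hn1
  have hloc := hOl.comp hMZl hn2
  refine ⟨θ, fun k => Sf k (θ k),
    fun k => ⟨hθ k, (hSf k (θ k) (hθ k)).1, (hSf k (θ k) (hθ k)).2.1⟩, hloc, ?_, fun r hr => ?_,
    fun r hr hOs hZs => ?_⟩
  · have hsum : ∀ x : ℝ, x * u = x / Real.sqrt ((j : ℝ) + 1) := fun x => by rw [hu]; ring
    have hQK : K₁ + K₃ + 2 * K₁ * K₃ * (1 + K₁) ≤ K₄ := by
      rw [hK₄]; exact le_add_of_nonneg_right (by positivity)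
    refine ⟨hall.Q.trans hQK, hall.B.trans hQK, hall.C.trans ?_, hall.D.trans hQK⟩
    rw [← hsum K₄, hK₄, hδu]
    have q1 : 0 ≤ (K₁ + K₃ + 2 * K₁ * K₃ * (1 + K₁)) * u := by positivity
    linarith
  swap
  · choose q hq hql hqs _hz using fun k : Fin m =>
      (hSf k (θ k) (hθ k)).2.2.2 r hr (hFAx (e k) r hr)
    obtain ⟨s, hs, hsa, hsl⟩ := haxc δ hδ0 (hN₄ j hj4) (fun k => Sf k (θ k)) r q
      (fun k => ⟨⟨(hSf k (θ k) (hθ k)).2.2.1.Q.trans hKeK, (hSf k (θ k) (hθ k)).2.2.1.B.trans hKeK,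
        (hSf k (θ k) (hθ k)).2.2.1.C.trans hKeδ, (hSf k (θ k) (hθ k)).2.2.1.D.trans hKeK⟩,
        (hSf k (θ k) (hθ k)).2.1⟩) fun k => ⟨hq k, hqs k⟩
    have hp1 : ‖Z.B‖ * ‖(segChain fun k => Sf k (θ k)).C‖ ≤ 1 / 2 :=
      (mul_le_mul hZb'.B hcb.C (norm_nonneg _) (zero_le_one.trans hK₁1)).trans hs1
    obtain ⟨s₁, hs₁, hsa₁, hsl₁⟩ := hsa.comp hZs hs (hqZ r) hp1
    have hp2 : ‖((segChain fun k => Sf k (θ k)).comp Z).B‖ * ‖O.C‖ ≤ 1 / 2 :=
      (mul_le_mul hMZ.B hOb'.C (norm_nonneg _) hK₃0).trans hs2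
    obtain ⟨c, hc, hca, hcl'⟩ := hOs.comp hsa₁ (hqO r) hs₁ hp2
    refine ⟨c, hc, hca, ?_⟩
    have hL5 : 1 ≤ L5 := one_le_pow₀ (le_add_of_nonneg_left (Nat.cast_nonneg j))
    have hsum : |∑ k, Real.log (q k)| ≤ m * (A * L5) := by
      refine (Finset.abs_sum_le_sum_abs _ _).trans ?_
      refine (Finset.sum_le_sum fun k _ => hql k).trans (le_of_eq ?_)
      rw [Finset.sum_const, Finset.card_univ, Fintype.card_fin, nsmul_eq_mul]
    have h5 : Cc * δa + 2 ≤ (Cc * δa + 2) * L5 := le_mul_of_one_le_right (by positivity) hL5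
    have h7 : Cc * δ ≤ Cc * δa := mul_le_mul_of_nonneg_left (hN₄ j hj4) hCc
    have hp1' : 2 * (‖Z.B‖ * ‖(segChain fun k => Sf k (θ k)).C‖) ≤ 1 := by linarith
    have hp2' : 2 * (‖((segChain fun k => Sf k (θ k)).comp Z).B‖ * ‖O.C‖) ≤ 1 := by linarith
    have h6 : 0 ≤ B * L5 := mul_nonneg hB (zero_le_one.trans hL5)
    rw [abs_le] at hsum hsl hsl₁ hcl' ⊢
    constructor <;> linarith
  set L : Lv := ⟨r.blk.level J, hr⟩
  set rF : Fib J L.1 := ⟨r, rfl⟩
  have hswl : (Equiv.swap i₀ i₁ r).blk.level J = L.1 := by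
    rcases eq_or_ne r i₀ with rfl | h0
    · rw [Equiv.swap_apply_left]; exact hlev
    rcases eq_or_ne r i₁ with rfl | h1
    · rw [Equiv.swap_apply_right]; exact hlev.symm
    rw [Equiv.swap_apply_of_ne_of_ne h0 h1]
  set sF : Fib J L.1 := ⟨Equiv.swap i₀ i₁ r, hswl⟩
  have hentry : ∀ i : Fib J L.1,
      (i.1 = sF.1 → |(g : LevAlg J Lv) L i rF| = 1) ∧
        (i.1 ≠ sF.1 → (g : LevAlg J Lv) L i rF = 0) := fun i =>
    ⟨(hge L i rF).1, (hge L i rF).2.1⟩
  have hmat : levMat J Lv (O.comp ((segChain fun k => Sf k (θ k)).comp Z)).Q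
      = levDiag (fun (L : Lv) (i : Fib J L.1) => qO i.1)
        * (levDiag (fun (L : Lv) (i : Fib J L.1) => ∏ k, cq k L i) * ν)
        * levDiag (fun (L : Lv) (i : Fib J L.1) => qZ i.1) := by
    have e1 := segMat_comp (Lv := Lv) hOl hMZl hn2
    rw [segMat_comp hcl hZl hn1, hcm] at e1
    have e2 := congrArg RSeg.Q e1
    rw [show (segMat J Lv (O.comp ((segChain fun k => Sf k (θ k)).comp Z))).Q
      = levMat J Lv (O.comp ((segChain fun k => Sf k (θ k)).comp Z)).Q from rfl] at e2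
    rw [e2, hQ, prod_levDiag]
    show levMat J Lv O.Q * _ * levMat J Lv Z.Q = _
    rw [hOQ, hZQ]
  set cc := ∏ k, cq k L sF with hcc
  have hcpos : 0 < cc := Finset.prod_pos fun k _ => (hcq k L sF).1
  obtain ⟨hν0, hνlog⟩ := (levScalar_inverse hσ hσB hνB hσν L sF rF).2 ((hentry sF).1 rfl)
  refine ⟨qO sF.1 * cc * ν L sF rF * qZ r, ?_, fun h₀ h₁ => ?_, ?_, ?_⟩
  · have := hqO sF.1
    have := hqZ r
    positivity
  · have hν : 0 < ν L sF rF := by
      obtain ⟨s, hs, hse⟩ := exists_levScalar hσ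
      have h : (g : LevAlg J Lv) L sF rF = s L * ν L sF rF := by
        rw [← hσν, hse]
        simp [levDiag, Matrix.diagonal_mul]
      rw [(hge L sF rF).2.2 h₀ h₁ (Equiv.swap_apply_of_ne_of_ne h₀ h₁)] at h
      exact pos_of_mul_pos_right (h ▸ one_pos) (hs L).le
    exact mul_pos (mul_pos (mul_pos (hqO sF.1) hcpos) hν) (hqZ r)
  · ext i
    rw [lp.coeFn_smul, Pi.smul_apply, LevelLocal.apply_single hloc.Q L rF i]
    by_cases hi : i.blk.level J = L.1
    · rw [dif_pos hi, hmat, mid_entry]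
      by_cases hsi : i = Equiv.swap i₀ i₁ r
      · subst hsi
        simp [sF, rF, hcc]
      · rw [(levScalar_inverse hσ hσB hνB hσν L ⟨i, hi⟩ rF).1 ((hentry ⟨i, hi⟩).2 hsi),
          lp.single_apply_ne _ _ _ hsi]
        simp
    · rw [dif_neg hi, lp.single_apply_ne _ _ _ fun h : i = _ => hi (h ▸ hswl)]
      simp
  · have h1 := hqO sF.1
    have h2 := hqZ r
    rw [abs_mul, abs_mul, abs_mul, abs_of_pos h1, abs_of_pos hcpos, abs_of_pos h2,
      Real.log_mul (by positivity) h2.ne', Real.log_mul (by positivity) (abs_pos.2 hν0).ne',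
      Real.log_mul h1.ne' hcpos.ne']
    rw [show Real.log (qO sF.1) + Real.log cc + Real.log (|ν L sF rF|) + Real.log (qZ r)
        - (Real.log (qO (Equiv.swap i₀ i₁ r)) + Real.log (qZ r))
        = Real.log cc + Real.log (|ν L sF rF|) by simp only [sF]; ring]
    refine (abs_add_le _ _).trans ?_
    have hL5 : 1 ≤ L5 := one_le_pow₀ (le_add_of_nonneg_left (Nat.cast_nonneg j))
    have hlc : |Real.log cc| ≤ m * (A * L5) := by
      rw [hcc, Real.log_prod fun k _ => (hcq k L sF).1.ne']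
      refine (Finset.abs_sum_le_sum_abs _ _).trans ?_
      refine (Finset.sum_le_sum fun k _ => (hcq k L sF).2.1).trans (le_of_eq ?_)
      rw [Finset.sum_const, Finset.card_univ, Fintype.card_fin, nsmul_eq_mul]
    calc |Real.log cc| + |Real.log (|ν L sF rF|)| ≤ m * (A * L5) + B * L5 :=
          add_le_add hlc (hνlog.trans (le_mul_of_one_le_right hB hL5))
      _ = (B + m * A) * L5 := by ring
      _ ≤ (B + m * A + Cc * δa + 2) * L5 := mul_le_mul_of_nonneg_right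
          (by linarith [mul_nonneg hCc hδa.le]) (zero_le_one.trans hL5)

end

end Vale.Agent.P225.Loop
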