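import Vale.Agent.P225.Loop.LoopData
import Vale.Agent.P225.Loop.IdealProgram
import Vale.Agent.P225.Sphere.Op

/-!
P225, module B (helper26): tools for the ideal map of a loop.  References and slopes of a schedule
depend on a state through its block only, and those of a piece which is not an excursion do not see
the amplitudes; diagonal segments compose diagonally; single-block levels do not see the frames.
-/

open Set

namespace Vale.Agent.P225

noncomputable section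

open scoped lp ENNReal

/-! ### Slopes only see blocks -/

theorem pieceSlope_congr {κ a y : ℝ} {P : Piece} {j : ℕ} {τ τ' : ℕ → ℝ} {i i' : St}
    (h : ∀ t, pieceLam κ P j τ a i t = pieceLam κ P j τ' a i' t) :
    pieceSlope κ P j τ a y i = pieceSlope κ P j τ' a y i' := by
  classical
  have key : ∀ p q : (ℝ → ℝ) → Prop, p = q →
      (if hp : ∃ z, p z then Classical.choose hp else fun _ => 0)
        = if hq : ∃ z, q z then Classical.choose hq else fun _ => 0 := by
    rintro p q rfl; rfl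
  refine key _ _ (funext fun z => propext ⟨fun hz => ?_, fun hz => ?_⟩)
  · exact ⟨hz.cont, hz.start, hz.nonneg, fun t ht => by rw [← h t]; exact hz.ode t ht⟩
  · exact ⟨hz.cont, hz.start, hz.nonneg, fun t ht => by rw [h t]; exact hz.ode t ht⟩

theorem pieceLam_blk (κ : ℝ) (P : Piece) (j : ℕ) (τ : ℕ → ℝ) (a : ℝ) {i i' : St}
    (h : i.blk = i'.blk) (t : ℝ) : pieceLam κ P j τ a i t = pieceLam κ P j τ a i' t := by
  rw [pieceLam, pieceLam, h]

theorem refSlope_blk (κ : ℝ) (J : Fin 3) (t : ℝ) {i i' : St} (h : i.blk = i'.blk) :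
    refSlope κ J t i = refSlope κ J t i' := refSlope_level κ J t (by rw [h])

namespace Sched

variable (S : Sched) (κ : ℝ)

theorem entryRef_blk (i m : ℕ) {y : St → ℝ}
    (hy : ∀ k k' : St, k.blk = k'.blk → y k = y k') {k k' : St} (h : k.blk = k'.blk) :
    S.entryRef κ i m y k = S.entryRef κ i m y k' := by
  unfold entryRef
  split_ifs
  · exact refSlope_blk _ _ _ h
  · exact hy _ _ h
  · exact hy _ _ h

theorem stepRef_blk (i m : ℕ) {y : St → ℝ}
    (hy : ∀ k k' : St, k.blk = k'.blk → y k = y k') {k k' : St} (h : k.blk = k'.blk) :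
    S.stepRef κ i m y k = S.stepRef κ i m y k' := by
  unfold stepRef
  split_ifs
  · exact refSlope_blk _ _ _ h
  · dsimp only
    rw [S.entryRef_blk κ i m hy h, pieceSlope_congr fun t => pieceLam_blk _ _ _ _ _ h t]
  · exact hy _ _ h

theorem carry_blk (i : ℕ) {y : St → ℝ} (hy : ∀ k k' : St, k.blk = k'.blk → y k = y k') :
    ∀ m, ∀ k k' : St, k.blk = k'.blk → S.carry κ i y m k = S.carry κ i y m k'
  | 0 => hy
  | m + 1 => fun _ _ h => S.stepRef_blk κ i m (carry_blk i hy m) h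

theorem loopIn_blk : ∀ i, ∀ k k' : St, k.blk = k'.blk → S.loopIn κ i k = S.loopIn κ i k'
  | 0 => fun _ _ h => refSlope_blk _ _ _ h
  | i + 1 => fun k k' h => S.carry_blk κ i (loopIn_blk i) _ k k' h

theorem startRef_blk (i m : ℕ) {k k' : St} (h : k.blk = k'.blk) :
    S.startRef κ i m k = S.startRef κ i m k' :=
  S.entryRef_blk κ i m (S.carry_blk κ i (S.loopIn_blk κ i) m) h

theorem endRef_blk (i m : ℕ) {k k' : St} (h : k.blk = k'.blk) :
    S.endRef κ i m k = S.endRef κ i m k' := by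
  unfold endRef
  split_ifs <;> exact S.startRef_blk κ _ _ h

theorem slope_blk (τ : Params) (i m : ℕ) {k k' : St} (h : k.blk = k'.blk) :
    S.slope κ τ i m k = S.slope κ τ i m k' := by
  unfold slope
  split_ifs
  · rw [S.startRef_blk κ i m h]
    exact pieceSlope_congr fun t => pieceLam_blk _ _ _ _ _ h t
  · rfl

/-- Constant pieces and transits do not see the amplitudes. -/
theorem seg_congr_params (C : ℝ) (Mo : PieceModel) (τ τ' : Params) {i m : ℕ} {P : Piece}
    (hm : m < (S.prog (S.j0 + i)).length) (hP : (S.prog (S.j0 + i))[m] = P)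
    (he : P.isExc = false) (hi : ∀ f k, P ≠ Piece.ins f k) :
    S.seg κ C Mo τ i m = S.seg κ C Mo τ' i m := by
  have hz : S.slope κ τ i m = S.slope κ τ' i m := by
    funext k
    rw [slope, slope, dif_pos hm, dif_pos hm, hP]
    exact pieceSlope_congr fun t => by rw [pieceLam_not_exc he]
  rw [seg, seg, dif_pos hm, dif_pos hm, hP, hz]
  cases P
  case exc => simp [Piece.isExc] at he
  case ins => exact absurd rfl (hi _ _)
  all_goals rfl

end Sched

/-! ### Diagonal segments -/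

theorem SlopeFam.seg_congr {a b k δ δ' : ℝ} {c : ℝ → ℝ} {z z' : St → ℝ → ℝ} {ρ ρ' : St → ℝ}
    (h : SlopeFam a b c z ρ k δ) (h' : SlopeFam a b c z' ρ' k δ') (hρ : ∀ i, ρ i = ρ' i)
    (he : ∀ i, EqOn (z i) (z' i) (Icc a b)) : h.coef.seg = h'.coef.seg := by
  have hu : ∀ i, ∀ t ∈ uIcc a b, z i t = z' i t := fun i t ht =>
    he i (by rwa [uIcc_of_le h.le] at ht)
  have hp : ∀ i, ∀ t ∈ uIcc a b, Ode.prim (z i) a t = Ode.prim (z' i) a t := fun i t ht =>
    intervalIntegral.integral_congr fun s hs => hu i s (uIcc_subset_uIcc_left ht hs)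
  have hpc : ∀ i, ∀ t ∈ uIcc a b, Ode.prim (fun s => c s + z i s) a t
      = Ode.prim (fun s => c s + z' i s) a t := fun i t ht =>
    intervalIntegral.integral_congr fun s hs => by
      simp only [hu i s (uIcc_subset_uIcc_left ht hs)]
  refine Seg.ext ?_ ?_ ?_ ?_ <;> ext x i
  · show Ode.coefQ (z i) a b * x i = Ode.coefQ (z' i) a b * x i
    rw [Ode.coefQ, Ode.coefQ, hp i b right_mem_uIcc]
  · show i.blk.mu * Ode.coefB c (z i) a b * x i = i.blk.mu * Ode.coefB c (z' i) a b * x i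
    simp only [Ode.coefB]
    congr 3
    exact intervalIntegral.integral_congr fun s hs => by simp only [hp i s hs, hpc i s hs]
  · show (z i b - ρ i) / i.blk.mu * x i = (z' i b - ρ' i) / i.blk.mu * x i
    rw [he i (right_mem_Icc.2 h.le), hρ i]
  · show Ode.coefD c (z i) a b * x i = Ode.coefD c (z' i) a b * x i
    rw [Ode.coefD, Ode.coefD, hpc i b right_mem_uIcc]

theorem Seg.comp_segOne {H : Type*} [NormedAddCommGroup H] [NormedSpace ℝ H] [CompleteSpace H]
    (S : Seg H) : S.comp (Loop.segOne : Seg H) = S := by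
  have h : neumann (0 : H →L[ℝ] H) = 1 := by simp [neumann]
  refine Seg.ext ?_ ?_ ?_ ?_ <;> ext x <;> simp [Seg.comp, Loop.segOne, h]

namespace Loop

theorem diagOp_bv (g : St → ℝ) (K : ℝ) (hK : 0 ≤ K) (hg : ∀ i, |g i| ≤ K) (i : St) :
    diagOp g K hK hg (bv i) = g i • bv i := by
  ext k
  rw [diagOp_apply, lp.coeFn_smul, Pi.smul_apply, smul_eq_mul]
  rcases eq_or_ne k i with rfl | h
  · rfl
  · rw [bv, lp.single_apply_ne _ _ _ h, mul_zero, mul_zero]

theorem bv_self (i : St) : bv i i = 1 := by simp [bv]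

theorem bv_ne {i k : St} (h : k ≠ i) : bv i k = 0 := lp.single_apply_ne _ _ _ h

/-- Two diagonal segments compose diagonally. -/
theorem diag_comp_Q (P T : DiagCoef) (r : St) (h : ‖T.seg.B‖ * ‖P.seg.C‖ ≤ 1 / 2) :
    ∃ u : ℝ, 0 < u ∧ |Real.log u| ≤ 1 ∧
      (P.seg.comp T.seg).Q (bv r) = (P.q r * u * T.q r) • bv r := by
  have hB : T.seg.B (bv r) = T.b r • bv r := diagOp_bv T.b T.Kb T.Kb_nonneg T.b_le r
  have hC : P.seg.C (bv r) = P.c r • bv r := diagOp_bv P.c P.Kc P.Kc_nonneg P.c_le r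
  have hlt : ‖T.seg.B.comp P.seg.C‖ < 1 :=
    ((ContinuousLinearMap.opNorm_comp_le _ _).trans h).trans_lt (by norm_num)
  have hx : |T.b r * P.c r| ≤ 1 / 2 := by
    have h1 := (T.seg.B.comp P.seg.C).le_opNorm (bv r)
    rw [ContinuousLinearMap.comp_apply, hC, map_smul, hB, smul_smul, norm_smul, norm_bv, mul_one,
      mul_one, Real.norm_eq_abs, mul_comm (P.c r)] at h1
    exact h1.trans ((ContinuousLinearMap.opNorm_comp_le _ _).trans h)
  obtain ⟨hx1, hx2⟩ := abs_le.1 hx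
  set v := 1 - T.b r * P.c r with hv
  have hv0 : 0 < v := by linarith
  refine ⟨v⁻¹, inv_pos.2 hv0, ?_, ?_⟩
  · rw [Real.log_inv, abs_neg, abs_le]
    constructor
    · have := Real.one_sub_inv_le_log_of_pos hv0
      have : v⁻¹ ≤ 2 := by rw [inv_le_comm₀ hv0 two_pos]; linarith
      linarith
    · linarith [Real.log_le_sub_one_of_pos hv0]
  · have e : (1 - T.seg.B.comp P.seg.C) (bv r) = v • bv r := by
      rw [_root_.sub_apply, one_apply_eq_self, ContinuousLinearMap.comp_apply, hC, map_smul, hB,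
        smul_smul, hv, sub_smul, one_smul, mul_comm (P.c r)]
    have h2 := congrArg (neumann (T.seg.B.comp P.seg.C)) e
    rw [neumann_mul' hlt, map_smul] at h2
    have hN : neumann (T.seg.B.comp P.seg.C) (bv r) = v⁻¹ • bv r := by
      nth_rewrite 2 [h2]
      rw [smul_smul, inv_mul_cancel₀ hv0.ne', one_smul]
    have hTQ : T.seg.Q (bv r) = T.q r • bv r := diagOp_bv T.q T.Kq T.Kq_nonneg T.q_le r
    have hPQ : P.seg.Q (bv r) = P.q r • bv r := diagOp_bv P.q P.Kq P.Kq_nonneg P.q_le r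
    simp only [Seg.comp, ContinuousLinearMap.comp_apply, hTQ, map_smul, hN, hPQ, smul_smul]
    congr 1
    ring

theorem levMat_eq_levDiag {J : Fin 3} {Lv : Finset (ℕ × ℕ)} {T : HSp →L[ℝ] HSp} {q : St → ℝ}
    (h : ∀ r, T (bv r) = q r • bv r) :
    levMat J Lv T = levDiag (fun (L : Lv) (i : Fib J L.1) => q i.1) := by
  funext L
  ext i j
  rw [levMat_apply, show (lp.single 2 j.1 (1 : ℝ) : HSp) = bv j.1 from rfl, h j.1, lp.coeFn_smul,
    Pi.smul_apply, smul_eq_mul, levDiag]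
  rcases eq_or_ne i j with rfl | hij
  · rw [bv_self, mul_one, Matrix.diagonal_apply_eq]
  · rw [Matrix.diagonal_apply_ne _ hij, bv,
      lp.single_apply_ne _ _ _ (Subtype.coe_injective.ne hij), mul_zero]

/-! ### Levels with a zero label -/

theorem blk_eq_of_zero_level {J : Fin 3} {i k : St}
    (h0 : (i.blk.level J).1 = 0 ∨ (i.blk.level J).2 = 0) (h : k.blk.level J = i.blk.level J) :
    k.blk = i.blk := by
  obtain ⟨-, a1, a2, a3⟩ := i.blk.2
  obtain ⟨-, b1, b2, b3⟩ := k.blk.2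
  obtain ⟨e1, e2⟩ := Prod.ext_iff.1 h
  refine Subtype.ext (Prod.ext ?_ (Prod.ext ?_ ?_))
  all_goals
    rcases (by decide : ∀ J : Fin 3, J = 0 ∨ J = 1 ∨ J = 2) J with rfl | rfl | rfl <;>
      simp [Blk.level, Blk.la, Blk.lb, Blk.lc] at h0 e1 e2 <;> omega

theorem frameAt_of_blk {J : Fin 3} {M : ℝ} (F : GFrame J M) (Lv : Finset (ℕ × ℕ)) {r : St}
    (hblk : ∀ k : St, k.blk.level J = r.blk.level J → k.blk = r.blk) :
    FrameAt (F.toFrame Lv) r := by
  have hb : ∀ k : St, k.blk.level J = r.blk.level J → F.Uw (bv k) = F.Uu (bv k) := by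
    intro k hk
    ext l
    by_cases hl : l.blk.level J = r.blk.level J
    · have hd := F.dev l k
      rw [hblk l hl, hblk k hk] at hd
      exact mul_left_cancel₀ (zero_lt_one.trans_le (Blk.one_le_mu _)).ne' hd
    · rw [LevelLocal.support F.loc.2.2.1 k l (by rw [hk]; exact hl),
        LevelLocal.support F.loc.1 k l (by rw [hk]; exact hl)]
  have hUw : ∀ (V : HSp →L[ℝ] HSp), LevelLocal J V → ∀ i : St, i.blk.level J = r.blk.level J →
      F.Uw (V (bv i)) = F.Uu (V (bv i)) := by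
    intro V hV i hi
    have e : V (bv i) = ∑ k ∈ Sphere.levSet J (r.blk.level J), V (bv i) k • bv k := by
      ext l
      rw [lp.coeFn_sum, Finset.sum_apply]
      simp only [lp.coeFn_smul, Pi.smul_apply, smul_eq_mul]
      by_cases hl : l.blk.level J = r.blk.level J
      · rw [Finset.sum_eq_single l (fun k _ hk => by rw [bv_ne hk.symm, mul_zero])
          (fun h => absurd (Sphere.mem_levSet.2 hl) h), bv_self, mul_one]
      · rw [LevelLocal.support hV i l (by rwa [hi]), Finset.sum_eq_zero fun k hk => by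
          rw [bv_ne fun e => hl (by rw [e]; exact Sphere.mem_levSet.1 hk), mul_zero]]
    rw [e, map_sum, map_sum]
    exact Finset.sum_congr rfl fun k hk => by
      rw [map_smul, map_smul, hb k (Sphere.mem_levSet.1 hk)]
  intro i hi
  have h1 : F.Uu (F.Vu (bv i)) = bv i := congrArg (fun T : HSp →L[ℝ] HSp => T (bv i)) F.inv_u.1
  have h4 : F.Uw (F.Vw (bv i)) = bv i := congrArg (fun T : HSp →L[ℝ] HSp => T (bv i)) F.inv_w.1
  exact ⟨h1, (hUw _ F.loc.2.2.2 i hi).symm.trans h4, (hUw _ F.loc.2.1 i hi).trans h1, h4⟩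

end Loop

/-! ### Size of a coefficient -/

/-- A bound of the quasi-static slope of a state on every piece. -/
def slopeCap (k : St) : ℝ :=
  Real.sqrt (2 / dMin) * (2 * (Blk.cas k.blk.la + Blk.cas k.blk.lb + Blk.cas k.blk.lc)) + 1

theorem one_le_slopeCap (k : St) : 1 ≤ slopeCap k := by
  unfold slopeCap
  have := cas_nonneg k.blk.la; have := cas_nonneg k.blk.lb; have := cas_nonneg k.blk.lc
  exact le_add_of_nonneg_left (by positivity)

/-- Logarithm of the factor of a piece on a given state. -/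
theorem Sched.PieceGood.abs_log_coefQ {S : Sched} {κ C : ℝ} {τ : Params} {c i m : ℕ} {P : Piece}
    (g : S.PieceGood κ C τ c i m P) (hκ : 0 ≤ κ) (hC : 0 ≤ C) (k : St) :
    |Real.log (Ode.coefQ (S.slope κ τ i m k) (S.pieceStart i m)
      (S.pieceStart i m + P.len (S.j0 + i)))| ≤ (3 * C + slopeCap k) * P.len (S.j0 + i) := by
  set a := S.pieceStart i m
  have hb : (1 : ℝ) ≤ (((S.j0 + i : ℕ) : ℝ) + 1) ^ 5 :=
    one_le_pow₀ (le_add_of_nonneg_left (Nat.cast_nonneg _))
  have ha : 0 < a := by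
    have : 2 * (((S.j0 + i : ℕ) : ℝ) + 1) ^ 5 ≤ a := g.start_ge
    linarith
  have hlen := (P.len_pos (S.j0 + i)).le
  refine (Loop.abs_log_coefQ_le (A := 3 * C + slopeCap k) (g.is_slope k).cont (by linarith)
    (by linarith [one_le_slopeCap k]) fun t ht => ?_).trans_eq (by rw [add_sub_cancel_left])
  rw [abs_of_nonneg (g.fam.z_nonneg k t ht)]
  have h1 := (abs_le.1 (g.near k t ht)).2
  have h3 : 3 * C / (((S.j0 + i : ℕ) : ℝ) + 1) ^ 5 ≤ 3 * C := div_le_self (by linarith) hb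
  set w := P.raw (S.j0 + i) (τ i) (t - a) with hw
  have hW : Wide w := g.wide _
  have ht0 : 0 < t := ha.trans_le ht.1
  have hlam : 0 ≤ Blk.lam w k.blk := hW.lam_nonneg _
  have hc : 0 ≤ cDrift κ t := by rw [← cPiece_of_ge κ ha ht.1]; linarith [(g.drift t).1]
  have hl : pieceLam κ P (S.j0 + i) (τ i) a k t
      = Real.sqrt (1 / (dFun κ t * wdet w)) * Blk.lam w k.blk := lam_wNorm _ _ _
  have hl0 : 0 ≤ pieceLam κ P (S.j0 + i) (τ i) a k t := by rw [hl]; positivity
  have hsq : ∀ l : ℝ, 0 ≤ l → Real.sqrt l ≤ l + 1 := fun l hl => by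
    rw [Real.sqrt_le_iff]; constructor <;> nlinarith
  have hα : Ode.alphaFn (cDrift κ t) (pieceLam κ P (S.j0 + i) (τ i) a k t) ≤ slopeCap k := by
    refine (Ode.alphaFn_le_sqrt hc hl0).trans ((hsq _ hl0).trans ?_)
    rw [slopeCap, hl, add_le_add_iff_right]
    have hd : (0 : ℝ) < dMin := by norm_num [dMin]
    refine mul_le_mul (Real.sqrt_le_sqrt ?_) ?_ hlam (Real.sqrt_nonneg _)
    · rw [div_le_div_iff₀ (mul_pos (dFun_pos _ _) (lt_of_lt_of_le (by norm_num) hW.det)) hd]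
      nlinarith [dMin_le_dFun hκ ht0.le, hW.det]
    · have := cas_nonneg k.blk.la; have := cas_nonneg k.blk.lb; have := cas_nonneg k.blk.lc
      have := mul_le_mul_of_nonneg_right ((le_abs_self _).trans (hW.le_two 0))
        (cas_nonneg k.blk.la)
      have := mul_le_mul_of_nonneg_right ((le_abs_self _).trans (hW.le_two 1))
        (cas_nonneg k.blk.lb)
      have := mul_le_mul_of_nonneg_right ((le_abs_self _).trans (hW.le_two 2))
        (cas_nonneg k.blk.lc)
      simp only [Blk.lam]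
      linarith
  linarith

/-! ### Pieces of a loop -/

/-- The pieces outside the corrector. -/
theorem LoopSpec.prog_at (W : LoopSpec) {j c m : ℕ} (hc : (W.corr j).length = c)
    (hm : (W.ctrl j).length = m) :
    ∃ (h0 : c < (W.prog j).length) (h1 : c + 1 < (W.prog j).length)
      (h2 : c + m + 2 < (W.prog j).length) (h3 : c + m + 3 < (W.prog j).length),
      (W.prog j)[c] = Piece.wait 0 6 ∧ (W.prog j)[c + 1] = Piece.out (W.junc j) ∧
      (W.prog j)[c + m + 2] = Piece.back (W.junc j) ∧ (W.prog j)[c + m + 3] = Piece.wait 0 7 ∧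
      ∀ (k : ℕ) (hk : k < m) (h : c + 2 + k < (W.prog j).length),
        (W.prog j)[c + 2 + k] = (W.ctrl j)[k]'(hm ▸ hk) := by
  subst hc hm
  have hlen := W.prog_length j
  have key : ∀ n (hn : n < (W.prog j).length),
      (n = (W.corr j).length → (W.prog j)[n] = Piece.wait 0 6) ∧
      (n = (W.corr j).length + 1 → (W.prog j)[n] = Piece.out (W.junc j)) ∧
      (n = (W.corr j).length + (W.ctrl j).length + 2 → (W.prog j)[n] = Piece.back (W.junc j)) ∧
      (n = (W.corr j).length + (W.ctrl j).length + 3 → (W.prog j)[n] = Piece.wait 0 7) ∧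
      ∀ (k : ℕ) (hk : k < (W.ctrl j).length), n = (W.corr j).length + 2 + k →
        (W.prog j)[n] = (W.ctrl j)[k] := by
    intro n hn
    refine ⟨fun h => ?_, fun h => ?_, fun h => ?_, fun h => ?_, fun k hk h => ?_⟩
    all_goals
      rcases W.prog_getElem j n hn with
        ⟨h', -⟩ | ⟨h', e⟩ | ⟨h', e⟩ | ⟨h', h'', e⟩ | ⟨h', e⟩ | ⟨h', e⟩
    all_goals first | exact e | omega | skip
    rw [e]
    congr 1
    omega
  exact ⟨by omega, by omega, by omega, by omega, (key _ _).1 rfl, (key _ _).2.1 rfl,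
    (key _ _).2.2.1 rfl, (key _ _).2.2.2.1 rfl, fun k hk h => (key _ h).2.2.2.2 k hk rfl⟩

theorem Sched.pieceStart_add (S : Sched) {i m : ℕ} (L : ℝ) : ∀ n : ℕ,
    (∀ k < n, ∃ h : m + k < (S.prog (S.j0 + i)).length,
      ((S.prog (S.j0 + i))[m + k]).len (S.j0 + i) = L) →
    S.pieceStart i (m + n) = S.pieceStart i m + n * L
  | 0, _ => by simp
  | n + 1, hp => by
    obtain ⟨h, hl⟩ := hp n (by omega)
    rw [show m + (n + 1) = m + n + 1 from rfl, S.pieceStart_succ i _ h,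
      pieceStart_add S L n fun k hk => hp k (by omega), hl]
    push_cast
    ring

/-- An excursion of the ideal program is the piece of the schedule with that amplitude. -/
theorem Sched.PieceGood.excSeg_eq {S : Sched} {κ C : ℝ} {τ : Params} {c i m g k : ℕ} {J : Fin 3}
    (G : S.PieceGood κ C τ c i m (Piece.exc J g k)) {M : ℝ} {Lv : Finset (ℕ × ℕ)}
    (F : GFrame J M) {Sk : Seg HSp}
    (hS : Loop.ExcSeg κ J (F.toFrame Lv) (S.j0 + i) (S.pieceStart i m) (τ i k) Sk) :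
    G.fam.coef.seg.conj F.Uu F.Vu F.Uw F.Vw = Sk := by
  obtain ⟨z, δ, hz0, hzo, h, rfl⟩ := hS
  obtain ⟨hr1, hr2⟩ := G.exc_ref rfl
  have hlen : (Piece.exc J g k).len (S.j0 + i) = (((S.j0 + i : ℕ) : ℝ) + 1) ^ 5 := rfl
  have hb : (1 : ℝ) ≤ (((S.j0 + i : ℕ) : ℝ) + 1) ^ 5 :=
    one_le_pow₀ (le_add_of_nonneg_left (Nat.cast_nonneg _))
  have ha : 0 < S.pieceStart i m := by
    have : 2 * (((S.j0 + i : ℕ) : ℝ) + 1) ^ 5 ≤ S.pieceStart i m := G.start_ge
    linarith
  have he : ∀ r, EqOn (S.slope κ τ i m r) (z r)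
      (Icc (S.pieceStart i m) (S.pieceStart i m + (Piece.exc J g k).len (S.j0 + i))) := fun r =>
    (G.is_slope r).unique ha G.wide (fun t _ => by linarith [(G.drift t).1]) (fun _ => rfl)
      ⟨h.cont_z r, by rw [hr1]; exact hz0 r, fun t ht => h.z_nonneg r t ht, fun t ht => by
        obtain ⟨z', h1, h2⟩ := hzo r t ht
        refine ⟨z', h1, ?_⟩
        rw [h2, pieceLam_exc]
        rfl⟩
  show _ = h.coef.seg.conj F.Uu F.Vu F.Uw F.Vw
  rw [show G.fam.coef.seg = h.coef.seg from SlopeFam.seg_congr G.fam h (congrFun hr2) he]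

theorem Loop.segBd_conj {J : Fin 3} {M C L : ℝ} (F : GFrame J M) (hM : 1 ≤ M) (hC : 0 ≤ C)
    (hL : 0 < L) {a b : ℝ} {c : ℝ → ℝ} {z : St → ℝ → ℝ} {ρ : St → ℝ}
    (h : SlopeFam a b c z ρ (1 / 10) (4 * C / L)) :
    Loop.SegBd (M * M * (10 + 4 * C)) (M * M * (10 + 4 * C) / L)
      (h.coef.seg.conj F.Uu F.Vu F.Uw F.Vw) := by
  obtain ⟨q1, q2, q3, q4⟩ := Seg.norm_conj_le h.coef.seg F.bd.1 F.bd.2.1 F.bd.2.2.1 F.bd.2.2.2
  have hM0 : 0 ≤ M := zero_le_one.trans hM
  have step : ∀ {v w : ℝ}, v ≤ w → M * v * M ≤ M * M * w := fun {v w} hvw => by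
    rw [mul_right_comm]; exact mul_le_mul_of_nonneg_left hvw (mul_nonneg hM0 hM0)
  refine ⟨q1.trans (step (h.coef.norm_Q.trans (by show (1 : ℝ) ≤ _; linarith))),
    q2.trans (step (h.coef.norm_B.trans (by show 1 / (1 / 10 : ℝ) ≤ _; norm_num; linarith))),
    (q3.trans (step h.coef.norm_C)).trans ?_,
    q4.trans (step (h.coef.norm_D.trans (by show (1 : ℝ) ≤ _; linarith)))⟩
  show M * M * (4 * C / L) ≤ _
  rw [mul_div_assoc']
  exact div_le_div_of_nonneg_right (mul_le_mul_of_nonneg_left (by linarith)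
    (mul_nonneg hM0 hM0)) hL.le

theorem Loop.segBd_diag {C L : ℝ} {a b : ℝ} {c : ℝ → ℝ} {z : St → ℝ → ℝ} {ρ : St → ℝ}
    (h : SlopeFam a b c z ρ (1 / 10) (4 * C / L)) :
    Loop.SegBd 10 (4 * C / L) h.coef.seg :=
  ⟨h.coef.norm_Q.trans (by show (1 : ℝ) ≤ 10; norm_num),
    h.coef.norm_B.trans (by show 1 / (1 / 10 : ℝ) ≤ 10; norm_num), h.coef.norm_C,
    h.coef.norm_D.trans (by show (1 : ℝ) ≤ 10; norm_num)⟩

/-- On a level made of one block a diagonal piece is a scalar. -/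
theorem Sched.PieceGood.scalarAt {S : Sched} {κ C : ℝ} {τ : Params} {c i m : ℕ} {P : Piece}
    (g : S.PieceGood κ C τ c i m P) {J : Fin 3} {r : St}
    (hblk : ∀ k : St, k.blk.level J = r.blk.level J → k.blk = r.blk) :
    Loop.ScalarAt J g.fam.coef.seg r (g.fam.coef.q r) :=
  Loop.scalarAt_diag _ fun k hk => Loop.diag_coef_congr g.fam (hblk k hk)
    (fun t _ => by rw [S.slope_blk κ τ i m (hblk k hk)]) (S.endRef_blk κ i m (hblk k hk))

/-- The scalar of two diagonal segments. -/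
theorem Loop.ScalarAt.eq_of_comp {J : Fin 3} {P T : DiagCoef} {r : St} {v : ℝ}
    (hP : Loop.ScalarAt J P.seg r (P.q r)) (hT : Loop.ScalarAt J T.seg r (T.q r))
    (hp : 0 < P.q r) (hq : 0 < T.q r) (h : ‖T.seg.B‖ * ‖P.seg.C‖ ≤ 1 / 2)
    (hv : (P.seg.comp T.seg).Q (Loop.bv r) = v • Loop.bv r) :
    Loop.ScalarAt J (P.seg.comp T.seg) r v := by
  obtain ⟨t, -, hts, -⟩ := hP.comp hT hp hq h
  obtain ⟨_, _, _, hts'⟩ := id hts
  have h1 := congrArg (fun x : HSp => x r) ((hts' r rfl).1.symm.trans hv)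
  simp only [lp.coeFn_smul, Pi.smul_apply, smul_eq_mul, Loop.bv_self, mul_one] at h1
  rwa [← h1]

/-- Norm of the chain of factors of a loop after the hold. -/
theorem Loop.norm_idealQ_le {Pb Po Pk Ph : DiagCoef} {Mid : Seg HSp} {K₂ r : ℝ}
    (hb : ‖Pb.seg.Q‖ ≤ 1) (ho : ‖Po.seg.Q‖ ≤ 1) (hk : ‖Pk.seg.Q‖ ≤ 1) (hM : ‖Mid.Q‖ ≤ K₂)
    (h1 : ‖Ph.seg.B‖ * ‖Pk.seg.C‖ ≤ 1 / 2)
    (h2 : ‖(Pk.seg.comp Ph.seg).B‖ * ‖Mid.C‖ ≤ 1 / 2)
    (h3 : ‖(Mid.comp (Pk.seg.comp Ph.seg)).B‖ * ‖Po.seg.C‖ ≤ 1 / 2)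
    (T : HSp →L[ℝ] HSp) (hT : ‖Ph.seg.Q.comp T‖ ≤ r) :
    ‖(Pb.seg.Q.comp (Po.seg.comp (Mid.comp (Pk.seg.comp Ph.seg))).Q).comp T‖ ≤ 8 * K₂ * r := by
  have hn : ∀ {X Y : HSp →L[ℝ] HSp}, ‖X‖ * ‖Y‖ ≤ 1 / 2 → ‖neumann (X.comp Y)‖ ≤ 2 := fun h =>
    norm_neumann_two ((ContinuousLinearMap.opNorm_comp_le _ _).trans h)
  have step : ∀ (X Y : HSp →L[ℝ] HSp) (p q : ℝ), ‖X‖ ≤ p → ‖Y‖ ≤ q → ‖X.comp Y‖ ≤ p * q :=
    fun X Y p q hp hq => (ContinuousLinearMap.opNorm_comp_le _ _).trans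
      (mul_le_mul hp hq (norm_nonneg _) ((norm_nonneg _).trans hp))
  simp only [Seg.comp, ContinuousLinearMap.comp_assoc]
  refine (step _ _ _ _ hb (step _ _ _ _ ho (step _ _ _ _ (hn h3) (step _ _ _ _ hM
    (step _ _ _ _ (hn h2) (step _ _ _ _ hk (step _ _ _ _ (hn h1) hT))))))).trans_eq ?_
  ring

end

end Vale.Agent.P225
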