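import Vale.Agent.P225.Loop.Ideal
import Vale.Agent.P225.Loop.ExcGood

/-!
P225, module 10 (helper8): central exponentials of level scalars, the central factor of a chain of
excursions, and the entries of the ideal level matrix.
-/

namespace Vale.Agent.P225.Loop

open NormedSpace Matrix Set Alg
open scoped lp ENNReal Matrix.Norms.L2Operator

noncomputable section

variable {J : Fin 3} {Lv : Finset (ℕ × ℕ)}

variable (J Lv) in
/-- The level scalars. -/
def levOnes : Set (LevAlg J Lv) :=
  Set.range fun L : Lv => (Pi.single L 1 : LevAlg J Lv)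

theorem levDiag_one : levDiag (J := J) (Lv := Lv) (fun _ _ => (1 : ℝ)) = 1 :=
  funext fun L => Matrix.diagonal_one

theorem single_one_eq_levDiag (L : Lv) :
    (Pi.single L 1 : LevAlg J Lv) = levDiag fun L' _ => if L' = L then (1 : ℝ) else 0 := by
  funext L'
  rcases eq_or_ne L' L with rfl | h
  · simp [levDiag, Matrix.diagonal_one]
  · simp [levDiag, Pi.single_eq_of_ne h, h]

theorem levOnes_central {z : LevAlg J Lv} (hz : z ∈ levOnes J Lv) (x : LevAlg J Lv) :
    Commute z x := by
  obtain ⟨L, rfl⟩ := hz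
  dsimp only
  rw [single_one_eq_levDiag]
  exact commute_levDiag (fun _ _ _ => rfl) x

/-- Central exponentials are positive scalars on each level. -/
theorem exists_levScalar {σ : LevAlg J Lv} (h : σ ∈ expMonoid (levOnes J Lv)) :
    ∃ r : Lv → ℝ, (∀ L, 0 < r L) ∧ σ = levDiag fun L _ => r L := by
  induction h using Submonoid.closure_induction with
  | mem g hg =>
    obtain ⟨z, ⟨L, rfl⟩, t, rfl⟩ := hg
    refine ⟨fun L' => Real.exp (if L' = L then t else 0), fun _ => Real.exp_pos _, ?_⟩
    have e : t • (Pi.single L 1 : LevAlg J Lv)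
        = levDiag fun L' _ => if L' = L then t else (0 : ℝ) := by
      rw [single_one_eq_levDiag]
      funext L'
      rw [Pi.smul_apply, levDiag, levDiag, ← Matrix.diagonal_smul]
      congr 1
      funext i
      simp only [Pi.smul_apply, smul_eq_mul, mul_ite, mul_one, mul_zero]
    dsimp only
    rw [e, exp_levDiag]
  | one => exact ⟨fun _ => 1, fun _ => one_pos, levDiag_one.symm⟩
  | mul a b _ _ ha hb =>
    obtain ⟨r, hr, rfl⟩ := ha
    obtain ⟨r', hr', rfl⟩ := hb
    exact ⟨fun L => r L * r' L, fun L => mul_pos (hr L) (hr' L), levDiag_mul _ _⟩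

theorem prod_levDiag : ∀ {m : ℕ} (f : Fin m → ∀ L : Lv, Fib J L.1 → ℝ),
    (List.ofFn fun k => levDiag (f k)).prod = levDiag fun L i => ∏ k, f k L i
  | 0, _ => by simpa using levDiag_one.symm
  | m + 1, f => by
    rw [List.ofFn_succ, List.prod_cons, prod_levDiag fun k => f k.succ, levDiag_mul]
    simp only [Fin.prod_univ_succ]

/-- An entry is bounded by the norm. -/
theorem abs_entry_le {n : Type*} [Fintype n] [DecidableEq n] (M : Matrix n n ℝ) (i j : n) :
    |M i j| ≤ ‖M‖ := by
  have h := M.l2_opNorm_mulVec (EuclideanSpace.single j (1 : ℝ))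
  rw [PiLp.norm_single, norm_one, mul_one] at h
  refine le_trans ?_ h
  refine le_trans (le_of_eq ?_) (PiLp.norm_apply_le _ i)
  simp [Real.norm_eq_abs]

theorem abs_levEntry_le (A : LevAlg J Lv) (L : Lv) (i j : Fib J L.1) : |A L i j| ≤ ‖A‖ :=
  (abs_entry_le (A L) i j).trans (norm_le_pi_norm A L)

/-- Entries of a monomial level matrix between diagonal factors. -/
theorem mid_entry {f h cc : ∀ L : Lv, Fib J L.1 → ℝ} {ν : LevAlg J Lv} (L : Lv)
    (i r : Fib J L.1) :
    (levDiag f * (levDiag cc * ν) * levDiag h) L i r = f L i * cc L i * ν L i r * h L r := by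
  simp only [levDiag, Pi.mul_apply, Matrix.mul_diagonal, Matrix.diagonal_mul]
  ring

/-- From `σ ν = g` with a monomial `g`: `ν` is monomial, with entries between `1/B` and `B`. -/
theorem levScalar_inverse {σ ν g : LevAlg J Lv} {B : ℝ} (hσ : σ ∈ expMonoid (levOnes J Lv))
    (hσB : ‖σ‖ ≤ B) (hνB : ‖ν‖ ≤ B) (e : σ * ν = g) (L : Lv) (i r : Fib J L.1) :
    (g L i r = 0 → ν L i r = 0) ∧
      (|g L i r| = 1 → ν L i r ≠ 0 ∧ |Real.log (|ν L i r|)| ≤ B) := by
  obtain ⟨s, hs, rfl⟩ := exists_levScalar hσ
  have he : g L i r = s L * ν L i r := by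
    rw [← e]
    simp [levDiag, Matrix.diagonal_mul]
  refine ⟨fun h => ?_, fun h => ?_⟩
  · rw [h] at he
    exact (mul_eq_zero.1 he.symm).resolve_left (hs L).ne'
  · have hν : ν L i r ≠ 0 := by
      intro h0; rw [he, h0, mul_zero, abs_zero] at h; exact zero_ne_one h
    refine ⟨hν, ?_⟩
    rw [he, abs_mul, abs_of_pos (hs L)] at h
    have h1 : |ν L i r| ≤ B := (abs_levEntry_le ν L i r).trans hνB
    have h2 : s L ≤ B := by
      refine le_trans (le_trans (le_of_eq ?_) (abs_levEntry_le _ L i i)) hσB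
      simp [levDiag, abs_of_pos (hs L)]
    have h3 : |ν L i r| = (s L)⁻¹ := by
      exact eq_inv_of_mul_eq_one_right h
    have hB : 0 < B := (hs L).trans_le h2
    rw [abs_le]
    constructor
    · rw [h3, Real.log_inv, neg_le_neg_iff]
      exact (Real.log_le_sub_one_of_pos (hs L)).trans (by linarith)
    · exact (Real.log_le_sub_one_of_pos (abs_pos.2 hν)).trans (by linarith)

end

end Vale.Agent.P225.Loop
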