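import Vale.Agent.P225.Loop.CorrPlan
import Vale.Agent.P225.Loop.CorrBase
import Vale.Agent.P225.Loop.DiagLev
import Vale.Agent.P225.Loop.IdealLoopTools
import Vale.Agent.P225.Model.GenInst

/-!
P225 corrector (helper8): what the layout needs from its parts: the pieces of the list and their
amplitudes, the number of waits, the frames of the model as generators, and the entries of an exact
prefix on the block of the corrector.
-/

namespace Vale.Agent.P225.Loop

open NormedSpace Matrix Set Finset Alg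
open scoped lp ENNReal Matrix.Norms.L2Operator

noncomputable section

/-- The levels of the corrector with a zero label. -/
def corrAx (Mb : ℕ) : Finset (ℕ × ℕ) :=
  (Finset.range (Mb + 1) ×ˢ Finset.range (Mb + 1)).filter fun L => L.1 = 0 ∨ L.2 = 0

theorem corrAx_zero {Mb : ℕ} : ∀ L ∈ corrAx Mb, L.1 = 0 ∨ L.2 = 0 := fun _ hL =>
  (Finset.mem_filter.1 hL).2

theorem corrAx_of_not {Mb : ℕ} (y : WSt (corrW Mb)) (h : y.1.blk.level 0 ∉ corrBig Mb) :
    y.1.blk.level 0 ∈ corrAx Mb := by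
  obtain ⟨h1, h2⟩ := mem_corrW.1 y.2
  rw [level_zero_eq] at h ⊢
  rw [mem_corrBig] at h
  simp only [bigLev, not_and] at h
  rw [corrAx, Finset.mem_filter, Finset.mem_product, Finset.mem_range, Finset.mem_range]
  dsimp only at h ⊢
  omega

/-- There is a constrained entry, so a slot. -/
theorem numCls_pos {Mb : ℕ} (hMb : 1 ≤ Mb) : 0 < numCls Mb := by
  classical
  have hbig : bigLev ((1, 1) : ℕ × ℕ) := ⟨one_ne_zero, one_ne_zero⟩
  obtain ⟨a, ha, b, hb, hab⟩ := Finset.one_lt_card.1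
    (lt_of_lt_of_le (by norm_num : 1 < 3) (three_le_card_levSet hbig))
  rw [Sphere.mem_levSet] at ha hb
  have hla : ∀ {k : St}, k.blk.level 0 = (1, 1) → k.blk.la = 1 ∧ k.blk.lb = 1 := fun {k} h => by
    rw [level_zero_eq, Prod.mk.injEq] at h; exact h
  have hz : ∀ {k : St}, k.blk.level 0 = (1, 1) → ¬ zeroLev k := fun {k} h h0 => by
    rw [zeroLev, h] at h0
    exact one_ne_zero (congrArg Prod.fst h0)
  have hx : ¬ axSt a := by
    simp only [axSt, (hla ha).1, (hla ha).2, not_not]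
  have hW : ∀ {k : St}, k.blk.level 0 = (1, 1) → k ∈ corrW Mb := fun {k} h =>
    mem_corrW.2 ⟨by rw [(hla h).1]; exact hMb, by rw [(hla h).2]; exact hMb⟩
  let p : CorrEnt Mb := ⟨(⟨a, hW ha⟩, ⟨b, hW hb⟩), fun e => hab (congrArg Subtype.val e),
    hz ha, hz hb, fun h => hx h.1⟩
  exact Finset.card_pos.2 ⟨entRate p, Finset.mem_image_of_mem _ (Finset.mem_univ _)⟩

namespace CorrPlan

variable {R n : ℕ} (P : CorrPlan R n)

theorem mem_pre {nW t : ℕ} (ht : t < R * (n + 1)) {Q : Piece} (h : Q ∈ P.pre nW t) :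
    Q = Piece.wait 0 5 ∨ ∃ x : Fin R × Fin n, Q = Piece.ins (P.f x.2) (insIdx (slotStep x)) := by
  unfold pre at h
  split_ifs at h with h0
  · simp at h
  rcases List.mem_cons.1 h with rfl | h
  · have hn : t % (n + 1) < n + 1 := Nat.mod_lt t (Nat.succ_pos n)
    have hd : t / (n + 1) < R := (Nat.div_lt_iff_lt_mul (Nat.succ_pos n)).2 ht
    refine Or.inr ⟨(⟨t / (n + 1), hd⟩, ⟨t % (n + 1) - 1, by omega⟩), ?_⟩
    have e : slotStep (R := R) (n := n) (⟨t / (n + 1), hd⟩, ⟨t % (n + 1) - 1, by omega⟩) = t := by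
      have := Nat.div_add_mod t (n + 1)
      rw [slotStep, Nat.mul_comm]
      dsimp only
      omega
    rw [e]
  · exact Or.inl (List.eq_of_mem_replicate h)

/-- The pieces of the corrector. -/
theorem mem_list {nW N0 : ℕ} {Q : Piece} (h : Q ∈ P.list nW N0) :
    Q = Piece.wait 0 5 ∨
      (∃ t < R * (n + 1), ∃ k, Q = Piece.exc 0 (P.e t k) (excIdx t k)) ∨
      ∃ x : Fin R × Fin n, Q = Piece.ins (P.f x.2) (insIdx (slotStep x)) := by
  suffices key : ∀ t ≤ R * (n + 1), Q ∈ P.upTo nW N0 t → Q = Piece.wait 0 5 ∨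
      (∃ t < R * (n + 1), ∃ k, Q = Piece.exc 0 (P.e t k) (excIdx t k)) ∨
      ∃ x : Fin R × Fin n, Q = Piece.ins (P.f x.2) (insIdx (slotStep x)) from key _ le_rfl h
  intro t
  induction t with
  | zero => exact fun _ h => Or.inl (List.mem_singleton.1 h)
  | succ t ih =>
    intro ht h
    simp only [upTo, List.mem_append] at h
    rcases h with h | (h | h) | h
    · exact ih (Nat.le_of_succ_le ht) h
    · rcases P.mem_pre ht h with h | h
      · exact Or.inl h
      · exact Or.inr (Or.inr h)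
    · obtain ⟨k, rfl⟩ := List.mem_ofFn.1 h
      exact Or.inr (Or.inl ⟨t, ht, k, rfl⟩)
    · exact Or.inl (List.eq_of_mem_replicate h)

/-- The amplitudes of the corrector are in range. -/
theorem ampOk {θ : ∀ t, Fin (P.m t) → ℝ} {ε : Fin R × Fin n → ℝ} {φ : ℕ → ℝ} {R2 δ : ℝ}
    {nW N0 : ℕ} (hθ : ∀ t k, |θ t k| ≤ R2) (hε : ∀ x, |ε x| ≤ δ) :
    ∀ Q ∈ P.list nW N0, Q.AmpOk (P.amps θ ε φ) R2 δ := by
  intro Q hQ
  rcases P.mem_list hQ with rfl | ⟨t, ht, k, rfl⟩ | ⟨x, rfl⟩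
  · trivial
  · show |P.amps θ ε φ (excIdx t k)| ≤ R2
    rw [P.amps_exc θ ε φ ht]
    exact hθ t k
  · show |P.amps θ ε φ (insIdx (slotStep x))| ≤ δ
    rw [P.amps_ins]
    exact hε x

/-- The number of waits and insertions before step `t`. -/
def waits (nW N0 : ℕ) : ℕ → ℕ
  | 0 => 1
  | t + 1 => waits nW N0 t + (P.pre nW t).length + (P.post nW N0 t).length

theorem waits_bounds (nW N0 : ℕ) : ∀ t,
    N0 * (t / (n + 1)) ≤ P.waits nW N0 t ∧
      P.waits nW N0 t ≤ N0 * (t / (n + 1)) + 1 + t * (2 * nW + 3)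
  | 0 => by simp [waits]
  | t + 1 => by
    obtain ⟨h1, h2⟩ := waits_bounds nW N0 t
    have hlt : t % (n + 1) < n + 1 := Nat.mod_lt t (Nat.succ_pos n)
    have he := Nat.div_add_mod t (n + 1)
    have hpre : (P.pre nW t).length ≤ nW + 2 := by rw [length_pre]; split_ifs <;> omega
    have hmul : (t + 1) * (2 * nW + 3) = t * (2 * nW + 3) + (2 * nW + 3) := by ring
    simp only [waits]
    rw [length_post]
    by_cases hc : t % (n + 1) = n
    · have e : (t + 1) / (n + 1) = t / (n + 1) + 1 := by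
        rw [show t + 1 = (n + 1) * (t / (n + 1) + 1) by rw [Nat.mul_add]; omega,
          Nat.mul_div_cancel_left _ (show 0 < n + 1 from Nat.succ_pos n)]
      rw [if_pos hc, e, Nat.mul_add, Nat.mul_one]
      omega
    · have e : (t + 1) / (n + 1) = t / (n + 1) := by
        rw [show t + 1 = (n + 1) * (t / (n + 1)) + (t % (n + 1) + 1) by omega,
          Nat.mul_add_div (show 0 < n + 1 from Nat.succ_pos n), Nat.div_eq_of_lt (show t % (n + 1) + 1 < n + 1 by omega), Nat.add_zero]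
      rw [if_neg hc, e]
      omega

end CorrPlan

/-- The frames of the model at `J3` on the levels of the corrector. -/
def corrFrame (Mb s : ℕ) (e : ℕ) : Frame 0 (corrBig Mb) ((2 : ℝ) ^ (s + 1)) :=
  (Model.modelFrame s 0 e).toFrame (corrBig Mb)

theorem corrExcGens_eq (Mb s : ℕ) :
    corrExcGens Mb s = range fun e => excGen (corrFrame Mb s e) scaleInf := rfl

theorem corr_gen (Mb s : ℕ) (P : Submodule ℝ (LevAlg 0 (corrBig Mb)))
    (hP : range (fun e => excGen (corrFrame Mb s e) scaleInf) ∪ levOnes 0 (corrBig Mb) ⊆ P)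
    (hlie : ∀ Y ∈ range (fun e => excGen (corrFrame Mb s e) scaleInf) ∪ levOnes 0 (corrBig Mb),
      ∀ Z ∈ P, Y * Z - Z * Y ∈ P) : P = ⊤ := by
  let F : Alg.IsoIdx → Frame 0 (corrBig Mb) ((2 : ℝ) ^ (s + 1)) := fun e =>
    corrFrame Mb s (Model.isoNum e)
  have hF : ∀ e, (F e).Uu = Sphere.Pullback.wOp (Alg.isoJ_moves 0 e) s := by
    intro e
    show Sphere.Pullback.wOp (Alg.isoJ_moves 0 (Model.isoIdx (Model.isoNum e))) (s : ℤ) = _
    rw [Model.isoIdx_isoNum]
  have hsub : range (fun e => excGen (F e) scaleInf) ∪ levOnes 0 (corrBig Mb)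
      ⊆ range (fun e => excGen (corrFrame Mb s e) scaleInf) ∪ levOnes 0 (corrBig Mb) :=
    union_subset_union_left _ fun x ⟨e, he⟩ => ⟨Model.isoNum e, he⟩
  exact Alg.excGen_generates
    (fun L hL => ⟨Nat.one_le_iff_ne_zero.2 (mem_corrBig.1 hL).1.1,
      Nat.one_le_iff_ne_zero.2 (mem_corrBig.1 hL).1.2⟩)
    scaleInf_pos s F hF P (hsub.trans hP) fun Y hY Z hZ => hlie Y (hsub hY) Z hZ

theorem corr_frameAt (Mb s e : ℕ) (r : St) (hr : r.blk.level 0 ∈ corrAx Mb) :
    FrameAt (corrFrame Mb s e) r :=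
  frameAt_of_blk _ _ fun k hk => (axisLev (corrAx_zero _ hr)).2 k.blk hk

theorem corr_fib_nonempty (Mb : ℕ) (L : corrBig Mb) : Nonempty (Fib 0 L.1) :=
  ⟨⟨levRep L.1, levRep_level L.1⟩⟩

theorem corrBig_nonempty {Mb : ℕ} (h : 1 ≤ Mb) : (corrBig Mb).Nonempty :=
  ⟨(1, 1), mem_corrBig.2 ⟨⟨one_ne_zero, one_ne_zero⟩, h, h⟩⟩

/-- The entries of an exact prefix on the block of the corrector. -/
theorem PrefixBase.facMat_eq {Mb : ℕ} {F : ℝ → ℝ} {δ : ℝ} {P : Seg HSp}
    {g : LevAlg 0 (corrBig Mb)} (h : PrefixBase (corrBig Mb) (corrAx Mb) F δ P g)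
    (hl : SegLocal 0 P) :
    ∃ e : WSt (corrW Mb) → ℝ, (∀ y, |e y| ≤ δ) ∧
      ∀ y z : WSt (corrW Mb), facMat P.Q y z = F (levV (y.1.blk.level 0)) * Real.exp (e y)
        * levExt (corrBig_sub (Mb := Mb)) g y z := by
  classical
  obtain ⟨en, hen, hQ⟩ := h.nonaxis
  choose ea hea hsc using fun y : {y : WSt (corrW Mb) // y.1.blk.level 0 ∉ corrBig Mb} =>
    h.axis y.1.1 (corrAx_of_not y.1 y.2)
  let e : WSt (corrW Mb) → ℝ := fun y =>
    if hy : y.1.blk.level 0 ∈ corrBig Mb then en ⟨_, hy⟩ else ea ⟨y, hy⟩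
  refine ⟨e, fun y => ?_, fun y z => ?_⟩
  · simp only [e]
    split_ifs with hy
    · exact hen _
    · exact hea _
  rw [levExt_apply]
  by_cases hz : z.1.blk.level 0 ∈ corrBig Mb
  · rw [if_pos hz, ← levBlock_levMat hl.Q y hz, hQ]
    by_cases hyz : y.1.blk.level 0 = z.1.blk.level 0
    · have hy : y.1.blk.level 0 ∈ corrBig Mb := by rw [hyz]; exact hz
      rw [levBlock_apply _ ⟨_, hy⟩ rfl hyz.symm, levBlock_apply g ⟨_, hy⟩ rfl hyz.symm]
      simp only [e, dif_pos hy]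
      simp [levDiag, Matrix.diagonal_mul]
    · rw [levBlock_apply_ne _ fun h => hyz h.1, levBlock_apply_ne _ fun h => hyz h.1, mul_zero]
  · rw [if_neg hz]
    obtain ⟨b, c, d, hs⟩ := hsc ⟨z, hz⟩
    show P.Q (lp.single 2 z.1 1) y.1 = _
    rw [show P.Q (lp.single 2 z.1 1) = _ from (hs z.1 rfl).1, lp.coeFn_smul, Pi.smul_apply,
      smul_eq_mul]
    by_cases hyz : y = z
    · subst hyz
      rw [if_pos rfl, bv, lp.single_apply_self, mul_one, mul_one]
      simp only [e, dif_neg hz]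
    · rw [if_neg hyz, bv, lp.single_apply_ne _ _ _ fun h => hyz (Subtype.ext h), mul_zero, mul_zero]

end

end Vale.Agent.P225.Loop
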