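import Vale.Agent.P225.Loop.CorrEntry
import Vale.Agent.P225.Loop.CorrFamily

/-!
P225, CorrResponse (helper2): the first order of one insertion of a loop along its line, on the
entries of a finite set of whole levels.
-/

open Finset

namespace Vale.Agent.P225

open Loop (facMat WSt)

noncomputable section

theorem SegSec.congr {X H : Type*} [NormedAddCommGroup X] [NormedSpace ℝ X] [NormedAddCommGroup H]
    [NormedSpace ℝ H] {r K : ℝ} {S T : X → Seg H} (h : SegSec r K S)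
    (e : ∀ p, ‖p‖ ≤ r → S p = T p) : SegSec r K T := by
  obtain ⟨⟨_, hQ⟩, ⟨_, hB⟩, ⟨_, hC⟩, ⟨_, hD⟩⟩ := h
  exact ⟨⟨_, hQ.congr fun p hp => by rw [e p hp]⟩, ⟨_, hB.congr fun p hp => by rw [e p hp]⟩,
    ⟨_, hC.congr fun p hp => by rw [e p hp]⟩, ⟨_, hD.congr fun p hp => by rw [e p hp]⟩⟩

/-- The rows of the first order of an insertion and its waits on a vector of one level. -/
theorem InsOp.band_sum (O : InsOp) {M1 : St → St → ℝ}
    (hO : ∀ (g h : ℕ × ℕ) (w : LevSp 0 h) (j : Fib 0 g), O.O₁ g h w j = ∑ i, w i * M1 j.1 i.1)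
    {W : Finset St} {gz : ℕ × ℕ} (hW : ∀ k : St, k.blk.level 0 = gz → k ∈ W) {w : HSp}
    (hw : w ∈ levSub gz) (κ : ℕ × ℕ → ℝ) (x : St) :
    ∑ g' ∈ bandSet O.N (x.blk.level 0), κ g' * O.O₁ (x.blk.level 0) g' (toLev 0 w g') ⟨x, rfl⟩
      = κ gz * ∑ x' : WSt W, M1 x x'.1 * w x'.1 := by
  classical
  rw [Finset.sum_eq_single gz]
  · rw [hO]
    congr 1
    refine Fintype.sum_of_injective (fun i : Fib 0 gz => (⟨i.1, hW i.1 i.2⟩ : WSt W))
      (fun a b e => Subtype.ext (Subtype.mk.inj e)) _ _ (fun x' hx' => ?_) fun i => ?_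
    · rw [hw x'.1 fun h => hx' ⟨⟨x'.1, h⟩, rfl⟩, mul_zero]
    · rw [toLev_apply, mul_comm]
  · intro g' _ hne
    have e : toLev 0 w g' = 0 := by
      ext i
      rw [toLev_apply]
      exact hw i.1 fun h => hne (i.2.symm.trans h)
    rw [e, map_zero]
    simp
  · intro h
    rw [(O.band _ _ h).1]
    simp

namespace LoopSpec

variable {W : LoopSpec} {P0 : ℕ} {κ C K ε : ℝ} {Mo : PieceModel} {j0 : ℕ} {t0 : ℝ} {ht : 1 ≤ t0}
  {i nW m f k : ℕ}

/-- The constant of the error of one insertion. -/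
def siteC (Ki K' : ℝ) (N : ℕ) : ℝ :=
  (5 * K' ^ 3) ^ N * (16 * chainK Ki N + 13 * K' * (Ki + K' * K' * Ki) + 16 * (K' * K' * Ki))

/-- **One insertion along its line.** -/
theorem site_response (hκ : 0 ≤ κ) (hC : 0 ≤ C) (hW : W.Ok P0)
    (hsite : W.CorrSite (j0 + i) nW m f k) {r Ki K' δ : ℝ} (hr : 0 < r) (hr1 : r ≤ 1)
    (hs : 6 * Mo.Ks * r ≤ 1 / 2) (hK' : 1 ≤ K') (hKi : K' ≤ Ki) (hKi' : insSecK Mo.Ks C ≤ Ki)
    (hδ : K' * δ ≤ 1 / 4) {τl : ℝ → Params}
    (hg : ∀ t, ‖t‖ ≤ r → ∀ q (hq : q < (W.prog (j0 + i)).length),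
      (W.sched j0 t0 ht).SegGood κ C K ε Mo (τl t) (W.corr (j0 + i)).length i q
        ((W.prog (j0 + i))[q]))
    (hamp : ∀ t, τl t i k = -t)
    (hfix : ∀ t, ‖t‖ ≤ r → ∀ q ≤ (W.corr (j0 + i)).length, q ≠ m →
      W.segs κ C Mo j0 t0 ht (τl t) i q = W.segs κ C Mo j0 t0 ht (τl 0) i q)
    (hb : ∀ t, ‖t‖ ≤ r →
      RangesBd (W.segs κ C Mo j0 t0 ht (τl t) i) ((W.corr (j0 + i)).length + 1) K' δ)
    (hloc : ∀ q ≤ (W.corr (j0 + i)).length, SegLocal 0 (W.segs κ C Mo j0 t0 ht (τl 0) i q))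
    (hsmall : K' * ((5 * K' ^ 3) ^ ((W.corr (j0 + i)).length + 1)
      * Real.exp (-(4 * (((j0 + i : ℕ) : ℝ) + 1) ^ 5)) ^ nW) ≤ 1 / 2)
    {Ws : Finset St} (hWs : ∀ i' ∈ Ws, ∀ k' : St, k'.blk.level 0 = i'.blk.level 0 → k' ∈ Ws)
    {M1 : St → St → ℝ}
    (hO : ∀ (g h : ℕ × ℕ) (w : LevSp 0 h) (j : Fib 0 g),
      (Mo.ins f).O₁ g h w j = ∑ i, w i * M1 j.1 i.1)
    {G Gi : Matrix (WSt Ws) (WSt Ws) ℝ} (hGi : Gi * G = 1) {ρ : WSt Ws → ℝ} (hρ : ∀ y, ρ y ≠ 0)
    (hLG : ∀ y z, facMat (segRange (W.segs κ C Mo j0 t0 ht (τl 0) i) 0 m).Q y z = ρ y * G y z)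
    {val : WSt Ws → ℝ}
    (hval : ∀ y z, facMat (segRange (W.segs κ C Mo j0 t0 ht (τl 0) i) 0
      ((W.corr (j0 + i)).length + 1)).Q y z = if y = z then val z else 0)
    {KW : ℝ} {Lw : ℝ →L[ℝ] HSp →L[ℝ] HSp}
    (hLw : SecOrd r KW (fun t => (segRange (W.segs κ C Mo j0 t0 ht (τl t) i) 0
      ((W.corr (j0 + i)).length + 1)).Q) Lw) :
    ∃ β : ℕ × ℕ → ℝ, LevInv β ∧ (∀ g, -(nW * 10 : ℝ) ≤ β g ∧ β g ≤ 0) ∧
      ∀ y z : WSt Ws,
        |facMat (Lw 1) y z
          + ρ y * (val z / (W.sitePhi κ j0 t0 ht (τl 0) i nW m (z.1.blk.level 0) * ρ z))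
            * W.siteKap κ j0 t0 ht (τl 0) i nW m β (y.1.blk.level 0) (z.1.blk.level 0)
            * (G * Matrix.of (fun a b : WSt Ws => M1 a.1 b.1) * Gi) y z|
          ≤ |ρ y| * |val z / (W.sitePhi κ j0 t0 ht (τl 0) i nW m (z.1.blk.level 0) * ρ z)|
            * (∑ x, |G y x|) * (∑ x, |Gi x z|)
            * (siteC Ki K' ((W.corr (j0 + i)).length + 1)
              * Real.exp (-(4 * (((j0 + i : ℕ) : ℝ) + 1) ^ 5)) ^ nW
              * W.siteQW κ j0 t0 ht (τl 0) i nW m (z.1.blk.level 0)) := by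
  classical
  set N := (W.corr (j0 + i)).length with hN
  set e := Real.exp (-(4 * (((j0 + i : ℕ) : ℝ) + 1) ^ 5)) ^ nW with he
  set S := fun t : ℝ => W.segs κ C Mo j0 t0 ht (τl t) i with hS
  have he0 : 0 ≤ e := by positivity
  have hK0 : 0 ≤ K' := zero_le_one.trans hK'
  have hKi0 : 0 ≤ Ki := hK0.trans hKi
  have hδ0 : 0 ≤ δ := (norm_nonneg _).trans (hb 0 (by simpa using hr.le) 0 0 (by omega)).C
  have hKδ : δ ≤ 1 / 4 := (le_mul_of_one_le_left hδ0 hK').trans hδ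
  have h00 : ‖(0 : ℝ)‖ ≤ r := by simpa using hr.le
  have hhi := hsite.hi
  have hlo := hsite.lo
  have hlp := hsite.lt_prog
  have hb0 := hb 0 h00
  -- waits
  obtain ⟨⟨β, hβ⟩, hLC0, hLD0⟩ := exists_site_waits (τ := τl 0) hW hsite (hg 0 h00)
  refine ⟨β, hβ.inv.2, hβ.β_mem, fun y z => ?_⟩
  set gz := z.1.blk.level 0
  set qW := W.siteQW κ j0 t0 ht (τl 0) i nW m
  set Φ := W.sitePhi κ j0 t0 ht (τl 0) i nW m
  -- the insertion
  have hm : m < (W.prog (j0 + i)).length := by omega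
  have hP := hsite.prog_ins hm
  have ha : 0 < (W.sched j0 t0 ht).pieceStart i m := by
    have h1 := (hg 0 h00 m hm).good.start_ge
    have h2 : (0 : ℝ) < (((j0 + i : ℕ) : ℝ) + 1) ^ 5 := by positivity
    show 0 < (W.sched j0 t0 ht).pieceStart i m
    have : 2 * (((j0 + i : ℕ) : ℝ) + 1) ^ 5 ≤ (W.sched j0 t0 ht).pieceStart i m := h1
    linarith
  obtain ⟨h0, -, -⟩ := (hg 0 h00 m hm).ins f k hP
  rw [show ((W.prog (j0 + i))[m]).len ((W.sched j0 t0 ht).j0 + i) = (((j0 + i : ℕ) : ℝ) + 1) ^ 5 by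
    rw [hP]; rfl] at h0
  obtain ⟨hSm, hQm, hCm⟩ := ins_secOrd (τf := τl) hκ hC hr1 hr.le hs hm hP
    (-ContinuousLinearMap.id ℝ ℝ) (by rw [norm_neg]; exact ContinuousLinearMap.norm_id_le)
    (fun t _ => by simp [hamp]) (fun t ht' => hg t ht' m hm) h0 ha
  obtain ⟨hl0, hQ0, hC0⟩ := ins_zero (τ := τl 0) hW (show m < (W.corr (j0 + i)).length by omega)
    (hsite.ins (by omega)) (show m + 1 < (W.prog (j0 + i)).length by omega)
    (hsite.restarts (by omega) (by omega) (by omega)) (by simp [hamp]) (hg 0 h00 m hm)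
  set T := segRange (S 0) (m + 1) nW with hT
  have hTeq : ∀ t, ‖t‖ ≤ r → segRange (S t) (m + 1) nW = T := fun t ht' =>
    segRange_congr _ _ fun q h1 h2 => hfix t ht' q (by omega) (by omega)
  set L := segRange (S 0) 0 m with hL
  have hLeq : ∀ t, ‖t‖ ≤ r → segRange (S t) 0 m = L := fun t ht' =>
    segRange_congr _ _ fun q h1 h2 => hfix t ht' q (by omega) (by omega)
  set Rt := segRange (S 0) (m + 1 + nW) (N - (m + nW)) with hRt
  have hReq : ∀ t, ‖t‖ ≤ r → segRange (S t) (m + 1 + nW) (N - (m + nW)) = Rt := fun t ht' =>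
    segRange_congr _ _ fun q h1 h2 => hfix t ht' q (by omega) (by omega)
  set M := fun t : ℝ => (S t m).comp T with hM
  have hMeq : ∀ t, ‖t‖ ≤ r → M t = segRange (S t) m (nW + 1) := fun t ht' => by
    show _ = (S t m).comp (segRange (S t) (m + 1) nW)
    rw [hTeq t ht']
  have hMR : ∀ t, ‖t‖ ≤ r → (M t).comp Rt = segRange (S t) m (N + 1 - m) := fun t ht' => by
    rw [hMeq t ht', ← hReq t ht', show N + 1 - m = nW + 1 + (N - (m + nW)) by omega,
      segRange_append (hb t ht') hδ (nW + 1) m _ (by omega)]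
    rw [show m + (nW + 1) = m + 1 + nW by omega]
  have hall : ∀ t, ‖t‖ ≤ r → L.comp ((M t).comp Rt) = segRange (S t) 0 (N + 1) := fun t ht' => by
    rw [hMR t ht', ← hLeq t ht', show N + 1 = m + (N + 1 - m) by omega,
      segRange_append (hb t ht') hδ m 0 _ (by omega), Nat.zero_add,
      show m + (N + 1 - m) - m = N + 1 - m by omega]
  have hBC : ∀ {A B : Seg HSp}, Loop.SegBd K' δ A → Loop.SegBd K' δ B → ‖B.B.comp A.C‖ ≤ 1 / 2 :=
    fun hA hB => (ContinuousLinearMap.opNorm_comp_le _ _).trans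
      ((mul_le_mul hB.B hA.C (norm_nonneg _) hK0).trans (by linarith))
  have bS : ∀ t, ‖t‖ ≤ r → Loop.SegBd K' δ (S t m) := fun t ht' =>
    segRange_one (S t) m ▸ hb t ht' m 1 (by omega)
  have bT : Loop.SegBd K' δ T := hb0 (m + 1) nW (by omega)
  have bL : Loop.SegBd K' δ L := hb0 0 m (by omega)
  have bR : Loop.SegBd K' δ Rt := hb0 _ _ (by omega)
  -- second orders
  obtain ⟨K₁, QL, CL, hQ, hCo, hQLf, hCLf⟩ := module_secOrd (W := T) hQm hCm hC0
    fun t ht' => hBC (bS t ht') bT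
  have hsec : ∀ q < N + 1, SegSec r Ki fun t => S t q := by
    intro q hq
    rcases eq_or_ne q m with rfl | hne
    · exact hSm.mono hKi'
    · have hq' := segRange_one (S 0) q ▸ hb0 q 1 (by omega)
      exact (segSec_const (X := ℝ) (S 0 q) hr1 hr.le (hq'.Q.trans hKi) (hq'.B.trans hKi)
        (hq'.C.trans (by linarith)) (hq'.D.trans hKi)).congr fun t ht' =>
          (hfix t ht' q (by omega) hne).symm
  obtain ⟨BL, hB⟩ := (segRange_secSeg_of (S := S) hr1 hr.le hδ hb hsec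
    (l := m) (n := N + 1 - m) (by omega)).B
  have hB' := hB.congr (g := fun t => ((M t).comp Rt).B) fun t ht' => by rw [hMR t ht']
  have hw' := hLw.congr (g := fun t => (L.comp ((M t).comp Rt)).Q) fun t ht' => by rw [hall t ht']
  have hM0C : (M 0).C = 0 := by
    show T.C + T.D.comp ((S 0 m).C.comp _) = 0
    rw [hC0]
    simp [hT]
    exact hβ.C
  have hsL : ∀ q ≤ N, SegLocal 0 (S 0 q) := hloc
  have hlocR : ∀ l n, l + n ≤ N + 1 → SegLocal 0 (segRange (S 0) l n) := fun l n hln =>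
    segRange_segLocal hb0 hδ n l hln fun q _ h2 => hsL q (by omega)
  -- small incoming coupling
  set x := (5 * K' ^ 3) ^ (N + 1) * e with hx
  have h5 : (1 : ℝ) ≤ 5 * K' ^ 3 := by linarith [one_le_pow₀ (n := 3) hK']
  have hex : e ≤ x := le_mul_of_one_le_left he0 (one_le_pow₀ h5)
  have hLCx : ‖L.C‖ ≤ x := by
    have h := (segRange_damp hb0 hK' hδ (M := m - nW) (n := nW) (by omega) hLC0 hLD0 (m - nW)
      le_rfl).1
    rw [Nat.sub_self, show nW + (m - nW) = m by omega] at h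
    exact h.trans (mul_le_mul_of_nonneg_right (pow_le_pow_right₀ h5 (by omega)) he0)
  have hK2 := hB.nonneg
  have hMRB : ‖((M 0).comp Rt).B‖ ≤ K' := by
    rw [hMR 0 h00]; exact (hb0 m _ (by omega)).B
  have hX : ‖((M 0).comp Rt).B.comp L.C‖ ≤ K' * x :=
    (ContinuousLinearMap.opNorm_comp_le _ _).trans (mul_le_mul hMRB hLCx (norm_nonneg _) hK0)
  have hBL1 : ‖(BL 1).comp L.C‖ ≤ chainK Ki (N + 1) * x := by
    refine (ContinuousLinearMap.opNorm_comp_le _ _).trans (mul_le_mul ?_ hLCx (norm_nonneg _) hK2)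
    simpa using BL.le_of_opNorm_le hB.norm_lin 1
  -- values on one level
  have hWQ : ∀ w ∈ levSub gz, T.Q w = qW gz • w := fun w hw => lp.ext (funext fun l => by
    rw [hβ.Q, lp.coeFn_smul, Pi.smul_apply, smul_eq_mul]
    by_cases h : l.blk.level 0 = gz
    · rw [h]
    · rw [hw l h, mul_zero, mul_zero])
  have hQ0w : ∀ w ∈ levSub gz, (M 0).Q w = Φ gz • w := fun w hw => by
    show (S 0 m).Q (neumann (T.B.comp (S 0 m).C) (T.Q w)) = _
    rw [hC0, ContinuousLinearMap.comp_zero, neumann_zero_eq, one_apply_eq_self, hWQ w hw, map_smul]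
    refine lp.ext (funext fun l => ?_)
    rw [lp.coeFn_smul, lp.coeFn_smul, Pi.smul_apply, Pi.smul_apply, smul_eq_mul, smul_eq_mul, hQ0]
    by_cases h : l.blk.level 0 = gz
    · rw [h]
      show _ = Ode.coefQ _ _ _ * qW gz * _
      ring
    · rw [hw l h, mul_zero, mul_zero, mul_zero]
  have hqW : 0 < qW gz := (hβ.q_mem gz).1
  have hQn : ‖insLin (Mo.ins f) h0.fam (by norm_num : (0 : ℝ) < 1 / 16) h0.low
      (L := (((j0 + i : ℕ) : ℝ) + 1) ^ 5) hκ ha‖ ≤ Ki := by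
    have h := hQm.norm_lin
    rw [ContinuousLinearMap.norm_smulRight_apply, norm_neg, ContinuousLinearMap.norm_id, one_mul] at h
    exact h.trans hKi'
  have hCn : ‖insLinC (Mo.ins f) h0.fam (by norm_num : (0 : ℝ) < 1 / 16) h0.low
      (L := (((j0 + i : ℕ) : ℝ) + 1) ^ 5) hκ ha‖ ≤ Ki := by
    have h := hCm.norm_lin
    rw [ContinuousLinearMap.norm_smulRight_apply, norm_neg, ContinuousLinearMap.norm_id, one_mul] at h
    exact h.trans hKi'
  set kk := (Ki + K' * K' * Ki) * qW gz with hkk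
  have hQLb : ∀ w ∈ levSub gz, ‖QL 1 w‖ ≤ kk * ‖w‖ := by
    intro w hw
    rw [hQLf, ContinuousLinearMap.comp_apply, hWQ w hw, map_smul, norm_smul,
      Real.norm_of_nonneg hqW.le, hkk, mul_comm (Ki + K' * K' * Ki) (qW gz), mul_assoc]
    refine mul_le_mul_of_nonneg_left (ContinuousLinearMap.le_of_opNorm_le _ ?_ w) hqW.le
    refine (norm_add_le _ _).trans (add_le_add (by rw [ContinuousLinearMap.smulRight_apply, neg_apply, ContinuousLinearMap.id_apply, neg_smul, one_smul, norm_neg]; exact hQn) ?_)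
    refine (ContinuousLinearMap.opNorm_comp_le _ _).trans ?_
    rw [mul_assoc K']
    refine mul_le_mul (bS 0 h00).Q ((ContinuousLinearMap.opNorm_comp_le _ _).trans
      (mul_le_mul bT.B ?_ (norm_nonneg _) hK0)) (norm_nonneg _) hK0
    exact (by rw [ContinuousLinearMap.smulRight_apply, neg_apply, ContinuousLinearMap.id_apply, neg_smul, one_smul, norm_neg]; exact hCn)
  have hYL : ∀ w ∈ levSub gz,
      ‖(M 0).Q‖ * ‖Rt.B (CL 1 w)‖ ≤ K' * K' * Ki * x * qW gz * ‖w‖ := by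
    intro w hw
    have h1 : ‖(M 0).Q‖ ≤ K' := by
      rw [hMeq 0 h00]; exact (hb0 m _ (by omega)).Q
    have h2 : ‖Rt.B (CL 1 w)‖ ≤ K' * (e * (Ki * (qW gz * ‖w‖))) := by
      refine (Rt.B.le_of_opNorm_le bR.B _).trans (mul_le_mul_of_nonneg_left ?_ hK0)
      rw [hCLf, ContinuousLinearMap.comp_apply, ContinuousLinearMap.comp_apply, hWQ w hw]
      refine (T.D.le_of_opNorm_le hβ.norm_D _).trans (mul_le_mul_of_nonneg_left ?_ he0)
      refine (ContinuousLinearMap.le_of_opNorm_le _ ?_ _).trans_eq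
        (by rw [norm_smul, Real.norm_of_nonneg hqW.le])
      exact (by rw [ContinuousLinearMap.smulRight_apply, neg_apply, ContinuousLinearMap.id_apply, neg_smul, one_smul, norm_neg]; exact hCn)
    calc ‖(M 0).Q‖ * ‖Rt.B (CL 1 w)‖ ≤ K' * (K' * (e * (Ki * (qW gz * ‖w‖)))) :=
          mul_le_mul h1 h2 (norm_nonneg _) hK0
      _ = K' * K' * Ki * e * qW gz * ‖w‖ := by ring
      _ ≤ K' * K' * Ki * x * qW gz * ‖w‖ := by gcongr
  have hQL1 : ∀ w ∈ levSub gz, ∀ l : WSt Ws, QL 1 w l.1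
      = -(W.siteKap κ j0 t0 ht (τl 0) i nW m β (l.1.blk.level 0) gz
          * ∑ x' : WSt Ws, M1 l.1 x'.1 * w x'.1) := by
    intro w hw l
    rw [← (Mo.ins f).band_sum hO (fun k' hk' => hWs z.1 z.2 k' hk') hw
      (fun g' => W.siteKap κ j0 t0 ht (τl 0) i nW m β (l.1.blk.level 0) g') l.1]
    have e1 := (Mo.ins f).moduleLin_apply h0.fam (by norm_num : (0 : ℝ) < 1 / 16) h0.low
      (L := (((j0 + i : ℕ) : ℝ) + 1) ^ 5) hκ ha (Q₀ := (S 0 m).Q) (WQ := T.Q) (WB := T.B) hQ0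
      hβ.Q hβ.B w l.1
    refine Eq.trans ?_ (congrArg Neg.neg e1)
    have hneg : ∀ v : HSp →L[ℝ] HSp, (-ContinuousLinearMap.id ℝ ℝ).smulRight v 1 = -v := fun v => by
      rw [ContinuousLinearMap.smulRight_apply, neg_apply, ContinuousLinearMap.id_apply, neg_smul,
        one_smul]
    rw [hQLf, hneg, hneg, ContinuousLinearMap.comp_neg, ContinuousLinearMap.comp_neg, ← neg_add,
      ContinuousLinearMap.neg_comp, neg_apply, lp.coeFn_neg, Pi.neg_apply]
    rfl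
  have hΦq : Φ gz ≤ qW gz := by
    refine mul_le_of_le_one_left hqW.le ?_
    have hfam := h0.fam
    simpa using Ode.coefQ_le (k := 0) (hfam.cont_z (levRep gz)) hfam.le (hfam.z_nonneg (levRep gz))
  have hΦ : 0 < Φ gz := mul_pos (Ode.coefQ_pos _ _ _) hqW
  have hx0 : 0 ≤ x := he0.trans hex
  refine (site_entry hWs hr hQ hCo hB' hw' hM0C
    (fun t ht' => hBC bL (show Loop.SegBd K' δ ((M t).comp Rt) by rw [hMR t ht']; exact hb t ht' m _ (by omega)))
    (fun t ht' => hBC (show Loop.SegBd K' δ (M t) by rw [hMeq t ht']; exact hb t ht' m _ (by omega)) bR)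
    (hlocR 0 m (by omega)).Q (hlocR 0 m (by omega)).C
    (show LevelLocal 0 ((M 0).comp Rt).B by rw [hMR 0 h00]; exact (hlocR m _ (by omega)).B) (hlocR _ _ (by omega)).Q hGi hρ hLG (z := z) hΦ
    (by rw [hkk]; positivity) hX hsmall hBL1 hQ0w hQLb hYL (M1 := Matrix.of fun a b => M1 a.1 b.1)
    (kap := fun g => W.siteKap κ j0 t0 ht (τl 0) i nW m β g gz)
    hQL1 (fun y => by rw [hall 0 h00]; exact hval y z) y).trans ?_
  refine mul_le_mul_of_nonneg_left ?_ (by positivity)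
  have h16 : chainK Ki (N + 1) * x * Φ gz ≤ chainK Ki (N + 1) * x * qW gz :=
    mul_le_mul_of_nonneg_left hΦq (by positivity)
  rw [hkk, siteC, show (5 * K' ^ 3) ^ (N + 1)
      * (16 * chainK Ki (N + 1) + 13 * K' * (Ki + K' * K' * Ki) + 16 * (K' * K' * Ki)) * e * qW gz
    = x * qW gz * (16 * chainK Ki (N + 1) + 13 * K' * (Ki + K' * K' * Ki) + 16 * (K' * K' * Ki)) by
      rw [hx]; ring]
  linarith

end LoopSpec

end

end Vale.Agent.P225
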