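import Vale.Agent.P225.Loop.CorrData
import Vale.Agent.P225.Loop.Keeps

/-!
P225 corrector: the amplitudes of one loop.  From the baseline and the response of the corrector, for
every small incoming slope, amplitudes which correct the left factor.
-/

namespace Vale.Agent.P225.Loop

open Filter Topology Metric

noncomputable section

/-- The data of a corrector stay valid with larger constants. -/
theorem CorrHyp.mono {Mb n : ℕ} {A : CorrEnt Mb → Fin n → ℝ} {C C' H Bp η T5 r K δ : ℝ}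
    {corr : (Fin (numCls Mb) × Fin n → ℝ) → Seg HSp} {buf : Seg HSp}
    {β q : WSt (corrW Mb) → ℝ} (h : CorrHyp Mb A C H Bp η T5 r K δ corr buf β q)
    (hC : C ≤ C') (hT : 0 ≤ T5) : CorrHyp Mb A C' H Bp η T5 r K δ corr buf β q := by
  obtain ⟨KW, LW, c, S, phi, err, hW, hresp, hc, herr, hS, hU, hphi⟩ := h.response
  have hle : C * T5 ≤ C' * T5 := mul_le_mul_of_nonneg_right hC hT
  exact ⟨h.fam, h.β_pos, h.q_pos, fun z => (h.q_log z).trans hle, h.bufQ, h.value, h.keeps,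
    KW, LW, c, S, phi, err, hW, hresp, fun p => (hc p).trans hle, herr, hS,
    fun k hk => (hU k hk).trans hle, hphi⟩

/-- From loop `N` on, a corrector with the data of `CorrHyp` has, for every tiny incoming slope,
amplitudes which correct the left factor. -/
def Corrects (Mb : ℕ) {n : ℕ} (A : CorrEnt Mb → Fin n → ℝ) (C K h b : ℝ) (η : ℕ → ℝ) (N : ℕ)
    (δ₀ : ℝ) : Prop :=
  ∀ (j : ℕ) (δ : ℝ) (corr : (Fin (numCls Mb) × Fin n → ℝ) → Seg HSp) (buf rest : Seg HSp)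
    (R : HSp →L[ℝ] HSp) (β q : WSt (corrW Mb) → ℝ), N ≤ j → δ ≤ δ₀ →
    CorrHyp Mb A C (h * ((j : ℝ) + 1) ^ 5) (b * ((j : ℝ) + 1) ^ 5) (η j) (((j : ℝ) + 1) ^ 5)
      (Real.exp (-3 * ((j : ℝ) + 1) ^ 6)) K δ corr buf β q →
    ‖buf.Q‖ ≤ K → ‖buf.B‖ ≤ K → ‖rest.B‖ ≤ K →
    ‖buf.D‖ ≤ Real.exp (-4 * ((j : ℝ) + 1) ^ 6) → ‖R‖ ≤ Real.exp (-4 * ((j : ℝ) + 1) ^ 6) →
    Keeps0 R → KeepsSeg buf → KeepsSeg rest →
    ∃ e, ‖e‖ ≤ Real.exp (-3 * ((j : ℝ) + 1) ^ 6) ∧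
      Corrected (fun q : WSt (corrW Mb) => axSt q.1) (C + 3) (((j : ℝ) + 1) ^ 5)
        (((j : ℝ) + 1) ^ 6) (facMat (loopFactor (corr e) buf rest R)) ∧
      ‖loopFactor (corr e) buf rest R‖ ≤ Real.exp (((j : ℝ) + 1) ^ 6)

open scoped Matrix.Norms.L2Operator in
/-- **The corrector of one loop.**  A fixed list and spacing such that every late loop with the
baseline and response of this list has, for every tiny incoming slope, amplitudes which correct the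
left factor. -/
theorem exists_loop_corrector (Mb s : ℕ)
    (gens : Set (Matrix (WSt (corrW Mb)) (WSt (corrW Mb)) ℝ))
    (hgens : ∀ i j : WSt (corrW Mb), i ≠ j → i.1.blk.level 0 = j.1.blk.level 0 →
      bigLev (i.1.blk.level 0) →
      ∀ G : Submodule ℝ (Matrix (WSt (corrW Mb)) (WSt (corrW Mb)) ℝ),
        gens ⊆ G → (∀ x ∈ G, ∀ y ∈ G, x * y - y * x ∈ G) → Matrix.single i j (1 : ℝ) ∈ G) :
    ∃ (n : ℕ) (g : Fin n → (Matrix (WSt (corrW Mb)) (WSt (corrW Mb)) ℝ)ˣ) (f : Fin n → ℕ)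
      (A : CorrEnt Mb → Fin n → ℝ),
      (∀ l, ((g l : _) : Matrix _ _ ℝ) ∈ Alg.expMonoid gens ∧
        (((g l)⁻¹ : _) : Matrix _ _ ℝ) ∈ Alg.expMonoid gens) ∧
      (∀ p l, A p l = ((g l : Matrix (WSt (corrW Mb)) (WSt (corrW Mb)) ℝ)
        * Matrix.of (fun y z : WSt (corrW Mb) =>
            (y.1.blk.mu / z.1.blk.mu) ^ s * Model.ins1 (f l) z.1 y.1)
        * (((g l)⁻¹ : _) : Matrix (WSt (corrW Mb)) (WSt (corrW Mb)) ℝ)) p.1.1 p.1.2) ∧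
      ∀ b : ℝ, 0 ≤ b → ∃ h₀ : ℝ, ∀ h C K : ℝ, h₀ ≤ h → 0 ≤ h → 0 ≤ C → 1 ≤ K →
        ∀ η : ℕ → ℝ, Tendsto η atTop (𝓝 0) →
        ∃ (N : ℕ) (δ₀ : ℝ), 0 < δ₀ ∧ Corrects Mb A C K h b η N δ₀ := by
  obtain ⟨n, g, f, A, hg, hA, hmain⟩ := exists_corrector Mb s gens hgens
  refine ⟨n, g, f, A, hg, hA, fun b hb => ?_⟩
  obtain ⟨h₀, hh₀⟩ := hmain b hb
  refine ⟨h₀, fun h C K hh hh0 hC hK η hη => ?_⟩
  obtain ⟨N₁, hN₁⟩ := hh₀ h (C + 1) hh hh0 (by linarith) η hη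
  obtain ⟨K', δ₁, hδ₁, hfd⟩ := exists_factorData Mb K hK
  obtain ⟨K₂, δ₂, hK₂, hδ₂, hql⟩ := exists_factor_qlin K hK
  set δ₀ := min δ₁ (δ₂ / 2) with hδ₀
  have hδ₀p : 0 < δ₀ := lt_min hδ₁ (by positivity)
  obtain ⟨N₂, hN₂⟩ := exists_nat_ge (max K' (max K₂ (1 / δ₀)))
  refine ⟨max N₁ N₂, δ₀, hδ₀p, fun j δ corr buf rest R β q hj hδ hh' hbQ hbB hrB hbD hR kR kb kr => ?_⟩
  set T5 := ((j : ℝ) + 1) ^ 5
  set T6 := ((j : ℝ) + 1) ^ 6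
  have hj1 : (1 : ℝ) ≤ (j : ℝ) + 1 := le_add_of_nonneg_left (Nat.cast_nonneg j)
  have h5 : (j : ℝ) + 1 ≤ T5 := le_self_pow₀ hj1 (by norm_num)
  have h6 : (j : ℝ) + 1 ≤ T6 := le_self_pow₀ hj1 (by norm_num)
  have hbig := hN₂.trans (Nat.cast_le.2 ((le_max_right _ _).trans hj))
  simp only [max_le_iff] at hbig
  have hexp : ∀ {x y : ℝ}, (j : ℝ) + 1 ≤ x → y ≤ (j : ℝ) → y ≤ Real.exp x := fun {x _} hx hy => by
    linarith [Real.add_one_le_exp x]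
  have hr : Real.exp (-3 * T6) ≤ δ₀ := by
    have h1 : 1 / δ₀ ≤ Real.exp (3 * T6) := hexp (by linarith) hbig.2.2
    rw [div_le_iff₀ hδ₀p] at h1
    rw [neg_mul, Real.exp_neg, inv_le_iff_one_le_mul₀ (Real.exp_pos _)]
    linarith
  have hed : Real.exp (-4 * T6) ≤ δ₀ := (Real.exp_le_exp.2 (by linarith)).trans hr
  have hK'C : K' ≤ Real.exp ((C + 1) * T5) :=
    hexp (le_trans h5 (le_mul_of_one_le_left (by linarith) (by linarith))) hbig.1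
  have hmono := hh'.mono (show C ≤ C + 1 by linarith) (by linarith : (0 : ℝ) ≤ T5)
  obtain ⟨e, he, hcor⟩ := hN₁ j _ q ((le_max_left _ _).trans hj)
    (hfd hmono (by linarith) (hδ.trans (min_le_left _ _)) (hr.trans (min_le_left _ _)) hbQ hbB hrB
      hR hbD hK'C kR kb.1 kb.2.1 kb.2.2.2 kr.2.1)
  refine ⟨e, he, ?_, ?_⟩
  · rw [show C + 3 = C + 1 + 2 by ring]
    exact hcor
  · obtain ⟨LQ, LB, LC, LD, hF⟩ := hh'.fam
    have h2 : δ₀ ≤ δ₂ / 2 := min_le_right _ _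
    obtain ⟨hQ, -⟩ := hql _ (Real.exp (-3 * T6)) δ (Real.exp (-4 * T6)) corr buf rest R LQ LB LC LD
      (Real.exp_pos _).le (by linarith) (by linarith) hF hbQ hbB hbD hrB (by linarith)
    exact (hQ.bd e he).trans (hexp h6 hbig.2.1)

/-- The corrected factor of loop `i` of a program, for amplitudes `τ e` which move only the
insertions of its corrector. -/
theorem Corrects.loop {Mb n : ℕ} {A : CorrEnt Mb → Fin n → ℝ} {C K h b : ℝ} {η : ℕ → ℝ} {N : ℕ}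
    {δ₀ : ℝ} (hcor : Corrects Mb A C K h b η N δ₀) {W : LoopSpec} {κ Cs : ℝ} {Mo : PieceModel}
    {j0 : ℕ} {t0 : ℝ} {ht : 1 ≤ t0} {i : ℕ} {τ : (Fin (numCls Mb) × Fin n → ℝ) → Params}
    {R : HSp →L[ℝ] HSp} {Kg ε : ℝ} {β q : WSt (corrW Mb) → ℝ} (hMo : ZeroCol Mo) (hR : Keeps0 R)
    (hRn : ‖R‖ ≤ Real.exp (-4 * (((j0 + i : ℕ) : ℝ) + 1) ^ 6))
    (hj : N ≤ j0 + i) (hgood : W.LoopGood κ Cs Mo j0 t0 ht (τ 0) Kg ε i R) (hKg : Kg ≤ K)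
    (hδ : Kg * (1 / (((j0 + i : ℕ) : ℝ) + 1) ^ 5 + ε) ≤ δ₀)
    (hbuf : ∀ e, W.bufSeg κ Cs Mo j0 t0 ht (τ e) i = W.bufSeg κ Cs Mo j0 t0 ht (τ 0) i)
    (hrest : ∀ e, W.restSeg κ Cs Mo j0 t0 ht (τ e) i = W.restSeg κ Cs Mo j0 t0 ht (τ 0) i)
    (hh : CorrHyp Mb A C (h * (((j0 + i : ℕ) : ℝ) + 1) ^ 5) (b * (((j0 + i : ℕ) : ℝ) + 1) ^ 5)
      (η (j0 + i)) ((((j0 + i : ℕ) : ℝ) + 1) ^ 5)
      (Real.exp (-3 * (((j0 + i : ℕ) : ℝ) + 1) ^ 6)) K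
      (Kg * (1 / (((j0 + i : ℕ) : ℝ) + 1) ^ 5 + ε))
      (fun e => W.corrSeg κ Cs Mo j0 t0 ht (τ e) i) (W.bufSeg κ Cs Mo j0 t0 ht (τ 0) i) β q) :
    ∃ e, ‖e‖ ≤ Real.exp (-3 * (((j0 + i : ℕ) : ℝ) + 1) ^ 6) ∧
      Corrected (fun q : WSt (corrW Mb) => axSt q.1) (C + 3) ((((j0 + i : ℕ) : ℝ) + 1) ^ 5)
        ((((j0 + i : ℕ) : ℝ) + 1) ^ 6)
        (facMat (loopFactor (W.corrSeg κ Cs Mo j0 t0 ht (τ e) i)
          (W.bufSeg κ Cs Mo j0 t0 ht (τ e) i) (W.restSeg κ Cs Mo j0 t0 ht (τ e) i) R)) ∧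
      ‖loopFactor (W.corrSeg κ Cs Mo j0 t0 ht (τ e) i) (W.bufSeg κ Cs Mo j0 t0 ht (τ e) i)
        (W.restSeg κ Cs Mo j0 t0 ht (τ e) i) R‖ ≤ Real.exp ((((j0 + i : ℕ) : ℝ) + 1) ^ 6) := by
  obtain ⟨-, kb, kr⟩ := keepsSeg_loop (W := W) (κ := κ) (C := Cs) (j0 := j0) (t0 := t0) (ht := ht)
    hMo (τ 0) i
  obtain ⟨e, h1, h2, h3⟩ := hcor (j0 + i) _ _ _ _ R β q hj hδ hh
    (hgood.buf_bd.Q.trans hKg) (hgood.buf_bd.B.trans hKg) (hgood.rest_bd.B.trans hKg)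
    (hgood.buf_D.trans_eq (by rw [neg_mul])) hRn hR kb kr
  exact ⟨e, h1, by rw [hbuf, hrest]; exact ⟨h2, h3⟩⟩

end

end Vale.Agent.P225.Loop
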