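import Vale.Agent.P225.Loop.CorrLine
import Vale.Agent.P225.Assembly.Parts

/-!
P225, CorrResponse (helper2): the families of one loop in the amplitudes of its insertions, and the
first order of each on the entries of a finite set of whole levels.
-/

open Finset

namespace Vale.Agent.P225

open Loop (facMat WSt)

noncomputable section

namespace LoopSpec

variable {W : LoopSpec} {P0 : ℕ} {κ C K ε : ℝ} {Mo : PieceModel} {j0 : ℕ} {t0 : ℝ} {ht : 1 ≤ t0}
  {i : ℕ} {X : Type*} [Fintype X] [DecidableEq X]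

/-- **The families of one loop.** -/
theorem loop_response (hκ : 0 ≤ κ) (hC : 0 ≤ C) (hW : W.Ok P0) {nW : ℕ}
    {pos kx : X → ℕ} {fi : X → ℕ} {v : (X → ℝ) → ℕ → ℝ} (hinj : Function.Injective pos)
    (hsite : ∀ x, W.CorrSite (j0 + i) nW (pos x) (fi x) (kx x))
    (hins : ∀ m g k, (W.corr (j0 + i))[m]? = some (Piece.ins g k) → ∃ x, m = pos x)
    (hv : ∀ e x, v e (kx x) = -e x)
    (hother : ∀ e m (hm : m < (W.corr (j0 + i)).length), (∀ x, m ≠ pos x) →
      ((W.corr (j0 + i))[m]).amp (v e) = ((W.corr (j0 + i))[m]).amp (v 0))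
    {r Ki K' δ : ℝ} (hr : 0 < r) (hr1 : r ≤ 1) (hs : 6 * Mo.Ks * r ≤ 1 / 2) (hK' : 1 ≤ K')
    (hKi : K' ≤ Ki) (hKi' : insSecK Mo.Ks C ≤ Ki) (hδ : K' * δ ≤ 1 / 4)
    (hg : ∀ e, ‖e‖ ≤ r → ∀ q (hq : q < (W.prog (j0 + i)).length),
      (W.sched j0 t0 ht).SegGood κ C K ε Mo (oneParams i (v e)) (W.corr (j0 + i)).length i q
        ((W.prog (j0 + i))[q]))
    (hb : ∀ e, ‖e‖ ≤ r → RangesBd (W.segs κ C Mo j0 t0 ht (oneParams i (v e)) i)
      ((W.corr (j0 + i)).length + 1) K' δ)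
    (hsmall : K' * ((5 * K' ^ 3) ^ ((W.corr (j0 + i)).length + 1)
      * Real.exp (-(4 * (((j0 + i : ℕ) : ℝ) + 1) ^ 5)) ^ nW) ≤ 1 / 2) :
    (SegSec r (chainK Ki (P0 + 1)) fun e => W.corrSeg κ C Mo j0 t0 ht (oneParams i (v e)) i) ∧
    ∃ (KW : ℝ) (LW : (X → ℝ) →L[ℝ] HSp →L[ℝ] HSp),
      SecOrd r KW (fun e => ((W.corrSeg κ C Mo j0 t0 ht (oneParams i (v e)) i).comp
        (W.bufSeg κ C Mo j0 t0 ht (oneParams i (v 0)) i)).Q) LW ∧
      ∀ {Ws : Finset St}, (∀ i' ∈ Ws, ∀ k' : St, k'.blk.level 0 = i'.blk.level 0 → k' ∈ Ws) →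
      ∀ (x : X) {M1 : St → St → ℝ}, (∀ (g h : ℕ × ℕ) (w : LevSp 0 h) (j : Fib 0 g),
        (Mo.ins (fi x)).O₁ g h w j = ∑ i, w i * M1 j.1 i.1) →
      ∀ {G Gi : Matrix (WSt Ws) (WSt Ws) ℝ}, Gi * G = 1 →
      ∀ {ρ : WSt Ws → ℝ}, (∀ y, ρ y ≠ 0) →
        (∀ y z, facMat (segRange (W.segs κ C Mo j0 t0 ht (oneParams i (v 0)) i) 0 (pos x)).Q y z
          = ρ y * G y z) →
      ∀ {val : WSt Ws → ℝ}, (∀ y z, facMat ((W.corrSeg κ C Mo j0 t0 ht (oneParams i (v 0)) i).comp
          (W.bufSeg κ C Mo j0 t0 ht (oneParams i (v 0)) i)).Q y z = if y = z then val z else 0) →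
      ∃ β : ℕ × ℕ → ℝ, LevInv β ∧ (∀ g, -(nW * 10 : ℝ) ≤ β g ∧ β g ≤ 0) ∧
        ∀ y z : WSt Ws,
          |facMat (LW (Pi.single x 1)) y z
            + ρ y * (val z / (W.sitePhi κ j0 t0 ht (oneParams i (v 0)) i nW (pos x) (z.1.blk.level 0)
                * ρ z))
              * W.siteKap κ j0 t0 ht (oneParams i (v 0)) i nW (pos x) β (y.1.blk.level 0)
                (z.1.blk.level 0)
              * (G * Matrix.of (fun a b : WSt Ws => M1 a.1 b.1) * Gi) y z|
            ≤ |ρ y| * |val z / (W.sitePhi κ j0 t0 ht (oneParams i (v 0)) i nW (pos x)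
                (z.1.blk.level 0) * ρ z)|
              * (∑ x', |G y x'|) * (∑ x', |Gi x' z|)
              * (siteC Ki K' ((W.corr (j0 + i)).length + 1)
                * Real.exp (-(4 * (((j0 + i : ℕ) : ℝ) + 1) ^ 5)) ^ nW
                * W.siteQW κ j0 t0 ht (oneParams i (v 0)) i nW (pos x) (z.1.blk.level 0)) := by
  classical
  set N := (W.corr (j0 + i)).length with hN
  set τe := fun e : X → ℝ => oneParams i (v e) with hτe
  set S := fun e : X → ℝ => W.segs κ C Mo j0 t0 ht (τe e) i with hS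
  have h00 : ‖(0 : X → ℝ)‖ ≤ r := by simpa using hr.le
  have hδ0 : 0 ≤ δ := (norm_nonneg _).trans (hb 0 h00 0 0 (by omega)).C
  have hKδ : δ ≤ 1 / 4 := (le_mul_of_one_le_left hδ0 hK').trans hδ
  have hNp : N ≤ P0 := hW.corr_len _
  have hlen : ∀ q ≤ N, q < (W.prog (j0 + i)).length := fun q hq => by rw [W.prog_length]; omega
  have hcorr : ∀ q (hq : q < N), (W.prog (j0 + i))[q]'(hlen q hq.le) = (W.corr (j0 + i))[q] := by
    intro q hq
    rcases W.prog_getElem (j0 + i) q (hlen q hq.le) with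
      ⟨h', e⟩ | ⟨h', -⟩ | ⟨h', -⟩ | ⟨-, h', -⟩ | ⟨h', -⟩ | ⟨h', -⟩
    · exact e
    all_goals omega
  have hτ : ∀ e x, τe e i (kx x) = -e x := fun e x => by
    show oneParams i (v e) i (kx x) = _
    rw [oneParams_self, hv]
  -- pieces away from the insertion do not move
  have hfix : ∀ e, ∀ q ≤ N, (∀ x, q = pos x → e x = 0) → S e q = S 0 q := by
    intro e q hq hx
    rcases Nat.lt_or_eq_of_le hq with hlt | rfl
    · refine W.segs_amp κ C Mo j0 t0 ht fun hm => ?_
      rw [hcorr q hlt]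
      by_cases hex : ∃ x, q = pos x
      · obtain ⟨x, rfl⟩ := hex
        rw [(hsite x).ins hlt]
        show τe e i (kx x) = τe 0 i (kx x)
        rw [hτ, hτ, hx x rfl]
        rfl
      · simp only [hτe, oneParams_self]
        exact hother e q hlt fun x he => hex ⟨x, he⟩
    · exact W.bufSeg_congr κ C Mo j0 t0 ht _ _ i
  have hloc : ∀ q ≤ N, SegLocal 0 (S 0 q) := by
    intro q hq
    by_cases hex : ∃ x, q = pos x
    · obtain ⟨x, rfl⟩ := hex
      have := (hsite x).hi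
      have := (hsite x).lt_prog
      exact (ins_zero hW (show pos x < N by omega) ((hsite x).ins (by omega))
        (show pos x + 1 < (W.prog (j0 + i)).length by omega)
        ((hsite x).restarts (by omega) (by omega) (by omega))
        (show τe 0 i (kx x) = 0 by rw [hτ]; simp)
        (hg 0 h00 (pos x) (hlen _ hq))).1
    · have h := (hg 0 h00 q (hlen q hq)).local' fun g k he => by
        rcases W.prog_getElem (j0 + i) q (hlen q hq) with
          ⟨h', e⟩ | ⟨-, e⟩ | ⟨h', e⟩ | ⟨-, h', -⟩ | ⟨h', -⟩ | ⟨h', -⟩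
        · exact hex (hins q g k (by rw [List.getElem?_eq_getElem h', ← e, he]))
        · rw [he] at e; exact absurd e (by simp)
        all_goals omega
      rw [(W.src_corr hW j0 (i := i) (m := q) (Nat.le_succ_of_le hq) (hlen q hq)).1] at h
      exact h
  -- second order
  have hsecq : ∀ q < N + 1, SegSec r Ki fun e => S e q := by
    intro q hq
    by_cases hex : ∃ x, q = pos x
    · obtain ⟨x, rfl⟩ := hex
      have hhi := (hsite x).hi
      have hm := hlen (pos x) (by omega)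
      have hP := (hsite x).prog_ins hm
      obtain ⟨h0, -, -⟩ := (hg 0 h00 (pos x) hm).ins _ _ hP
      rw [show ((W.prog (j0 + i))[pos x]).len ((W.sched j0 t0 ht).j0 + i)
        = (((j0 + i : ℕ) : ℝ) + 1) ^ 5 by rw [hP]; rfl] at h0
      have ha : 0 < (W.sched j0 t0 ht).pieceStart i (pos x) := by
        have h1 : 2 * (((j0 + i : ℕ) : ℝ) + 1) ^ 5 ≤ (W.sched j0 t0 ht).pieceStart i (pos x) :=
          (hg 0 h00 (pos x) hm).good.start_ge
        have : (0 : ℝ) < (((j0 + i : ℕ) : ℝ) + 1) ^ 5 := by positivity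
        linarith
      refine (ins_secOrd (τf := τe) hκ hC hr1 hr.le hs hm hP
        (-ContinuousLinearMap.proj (R := ℝ) x) ?_ (fun e _ => by rw [hτ]; rfl)
        (fun e he => hg e he (pos x) hm) h0 ha).1.mono hKi'
      rw [norm_neg]
      refine ContinuousLinearMap.opNorm_le_bound _ zero_le_one fun e => ?_
      rw [one_mul]
      exact norm_le_pi_norm e x
    · have hq' := segRange_one (S 0) q ▸ hb 0 h00 q 1 (by omega)
      exact (segSec_const (X := X → ℝ) (S 0 q) hr1 hr.le (hq'.Q.trans hKi) (hq'.B.trans hKi)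
        (hq'.C.trans (by linarith)) (hq'.D.trans hKi)).congr fun e _ =>
          (hfix e q (by omega) fun x he => absurd ⟨x, he⟩ hex).symm
  refine ⟨(segRange_secSeg_of (S := S) hr1 hr.le hδ hb hsecq (l := 0) (n := N) (by omega)).mono
    (chainK_mono Ki (by omega)), ?_⟩
  obtain ⟨LW, hLW⟩ := (segRange_secSeg_of (S := S) hr1 hr.le hδ hb hsecq (l := 0) (n := N + 1)
    (by omega)).Q
  have hall : ∀ e, ‖e‖ ≤ r → (W.corrSeg κ C Mo j0 t0 ht (τe e) i).comp
      (W.bufSeg κ C Mo j0 t0 ht (τe 0) i) = segRange (S e) 0 (N + 1) := fun e he => by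
    refine Eq.trans ?_ (segRange_append (hb e he) hδ N 0 1 (by omega)).symm
    rw [Nat.zero_add, segRange_one, W.bufSeg_congr κ C Mo j0 t0 ht (τe 0) (τe e) i]
    rfl
  refine ⟨_, LW, hLW.congr fun e he => by rw [hall e he], ?_⟩
  intro Ws hWs x M1 hO G Gi hGi ρ hρ hLG val hval
  set ex : X → ℝ := Pi.single x 1 with hex
  have hex1 : ‖ex‖ ≤ 1 := (pi_norm_le_iff_of_nonneg zero_le_one).2 fun y => by
    rw [hex]
    rcases eq_or_ne y x with rfl | h <;> simp [*]
  have hline : ∀ t : ℝ, ‖t‖ ≤ r → ‖t • ex‖ ≤ r := fun t ht' => norm_smul_line_le hex1 ht'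
  have h0e : τe ((0 : ℝ) • ex) = τe 0 := by rw [zero_smul]
  obtain ⟨β, hβ1, hβ2, hβ3⟩ := site_response (τl := fun t : ℝ => τe (t • ex)) hκ hC hW (hsite x)
    hr hr1 hs hK' hKi hKi' hδ (fun t ht' => hg _ (hline t ht'))
    (fun t => by rw [hτ]; simp [hex])
    (fun t ht' q hq hne => by
      rw [show τe ((0 : ℝ) • ex) = τe 0 from h0e]
      refine hfix _ q hq fun y hy => ?_
      have hyx : y ≠ x := fun h => hne (by rw [hy, h])
      simp [hex, hyx])
    (fun t ht' => hb _ (hline t ht'))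
    (fun q hq => by
      rw [show τe ((0 : ℝ) • ex) = τe 0 from h0e]
      exact hloc q hq)
    hsmall hWs hO hGi hρ (val := val) (by simpa only [h0e] using hLG)
    (fun y z => by
      rw [show τe ((0 : ℝ) • ex) = τe 0 from h0e, ← hall 0 h00]
      exact hval y z) (hLW.line hex1)
  rw [h0e] at hβ3
  refine ⟨β, hβ1, hβ2, fun y z => ?_⟩
  have := hβ3 y z
  rw [ContinuousLinearMap.comp_apply, ContinuousLinearMap.toSpanSingleton_apply, one_smul] at this
  exact this

end LoopSpec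

end

end Vale.Agent.P225
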