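import Vale.Agent.P225.Model.Fields
import Vale.Agent.P225.Alg.CorrSpan
import Vale.Agent.P225.Loop.CorrCore

/-!
P225 corrector, section 4 for the model: finitely many conjugates of first order insertion blocks
span all constrained entries of a finite union of levels.
-/

namespace Vale.Agent.P225.Loop

open Vale.Agent.P225.Sphere (Pol ev evN ip Slot crd2)
open InsTensor (IsRe brk symN comb)
open scoped ComplexConjugate Matrix.Norms.L2Operator

noncomputable section

/-- The bracket pairs with a real polynomial as the matrix of the insertion does. -/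
theorem ip_brk (e : InsTensor.NilIdx) (P Q : Pol) (hP : IsRe P) (hQ : IsRe Q) (F : Pol) :
    ip (brk e P Q) F = ∑ a : Fin 2 × Fin 3, ∑ b : Fin 2 × Fin 3, (symN e a b : ℂ) *
      ip ((Slot.R a.1).rder a.2 P) (F * (Slot.R b.1).rder b.2 Q) := by
  have hl : ∀ x y z : Pol, ip (x + y) z = ip x z + ip y z := Sphere.ip_add_left
  have h0 : ∀ z : Pol, ip 0 z = 0 := fun z => by simp [ip]
  have hs : ∀ (s : Finset (Fin 2 × Fin 3)) (f : Fin 2 × Fin 3 → Pol) (z : Pol),
      ip (∑ a ∈ s, f a) z = ∑ a ∈ s, ip (f a) z := by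
    intro s f z
    induction s using Finset.induction_on with
    | empty => simp [h0]
    | insert a s has ih => rw [Finset.sum_insert has, Finset.sum_insert has, hl, ih]
  simp only [brk, hs, Sphere.ip_smul_left, Complex.conj_ofReal]
  refine Finset.sum_congr rfl fun a _ => Finset.sum_congr rfl fun b _ => ?_
  congr 1
  refine MeasureTheory.integral_congr_ae (Filter.Eventually.of_forall fun x => ?_)
  simp only [Sphere.evN_apply, Sphere.ev_mul, map_mul, (hQ.rder _ _) (crd2 x)]
  ring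

/-- Some monomial pairs nontrivially. -/
theorem exists_nil_pairing {p q : Pol} (hp : IsRe p) (hq : IsRe q)
    (hp' : ∃ z y, InsTensor.Unit2 z ∧ InsTensor.Unit2 y ∧ ev p z ≠ ev p y)
    (hq' : ∃ z y, InsTensor.Unit2 z ∧ InsTensor.Unit2 y ∧ ev q z ≠ ev q y) :
    ∃ f, (ip (brk (InsTensor.nilTen f) p q) (InsTensor.nilPol f)).re ≠ 0 := by
  obtain ⟨e, z, hz, hne⟩ := InsTensor.exists_grad_pair hp hq hp' hq'
  obtain ⟨x, rfl⟩ := Sphere.exists_crd2 hz.1 hz.2
  by_contra h
  push Not at h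
  have hreb : IsRe (brk e p q) := fun w => by rw [InsTensor.ev_brk hp hq, Complex.conj_ofReal]
  have hzero : ∀ k, ip (brk e p q) (InsTensor.monP k) = 0 := by
    intro k
    obtain ⟨f, hf1, hf2⟩ := InsTensor.exists_nil k e
    have h1 := h f
    rw [hf1, hf2] at h1
    have hr : conj (ip (brk e p q) (InsTensor.monP k)) = ip (brk e p q) (InsTensor.monP k) := by
      rw [ip, ← integral_conj]
      refine MeasureTheory.integral_congr_ae (Filter.Eventually.of_forall fun w => ?_)
      simp only [map_mul, Complex.conj_conj, Sphere.evN_apply, hreb (crd2 w),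
        InsTensor.isRe_monP k (crd2 w)]
    rw [← Complex.conj_eq_iff_re.1 hr, h1, Complex.ofReal_zero]
  obtain ⟨c, hc⟩ := Finsupp.mem_span_range_iff_exists_finsupp.1 (InsTensor.ev_mem_span (brk e p q))
  have he : ev (brk e p q) = ev (c.sum fun k a => a • InsTensor.monP k) := by
    rw [← hc, Finsupp.sum, Finsupp.sum, map_sum]
    simp only [map_smul]
  refine hne (Sphere.mem_K.1 (Sphere.ip_self_eq_zero.1 ?_) x)
  rw [Sphere.ip_congr (p := brk e p q) rfl (Sphere.evN_congr he), Finsupp.sum, Sphere.ip_sum_right]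
  refine Finset.sum_eq_zero fun k _ => ?_
  rw [Sphere.ip_smul_right, hzero k, mul_zero]

/-- Two combinations off the zero level pair nontrivially through some insertion of the list. -/
theorem exists_ins_pairing {s : Finset St} {v u : St → ℝ}
    (hv : ∃ i ∈ s, v i ≠ 0 ∧ i.blk.level 0 ≠ 0) (hu : ∃ i ∈ s, u i ≠ 0 ∧ i.blk.level 0 ≠ 0) :
    ∃ f, ∑ i ∈ s, ∑ j ∈ s, v i * u j * Model.ins1 f i j ≠ 0 := by
  obtain ⟨i, hi, h1, h2⟩ := hu
  obtain ⟨k, hk, h3, h4⟩ := hv
  obtain ⟨f, hf⟩ := exists_nil_pairing (InsTensor.isRe_comb s u) (InsTensor.isRe_comb s v)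
    (InsTensor.nonconst_comb hi h1 h2) (InsTensor.nonconst_comb hk h3 h4)
  refine ⟨f, fun h => hf ?_⟩
  rw [ip_brk _ _ _ (InsTensor.isRe_comb s u) (InsTensor.isRe_comb s v), Complex.re_sum, ← h]
  have hl : ∀ (a b : Fin 2 × Fin 3),
      (ip ((Slot.R a.1).rder a.2 (comb s u)) (InsTensor.nilPol f
          * (Slot.R b.1).rder b.2 (comb s v))).re =
        ∑ i ∈ s, ∑ j ∈ s, v i * u j * (ip ((Slot.R a.1).rder a.2 (Sphere.Q j))
          (InsTensor.nilPol f * (Slot.R b.1).rder b.2 (Sphere.Q i))).re := by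
    intro a b
    simp only [comb, map_sum, Derivation.map_smul, Finset.mul_sum, mul_smul_comm]
    rw [Sphere.ip_sum_right, Complex.re_sum]
    refine Finset.sum_congr rfl fun i _ => ?_
    rw [Sphere.ip_smul_right, ← Sphere.ip_conj, Sphere.ip_sum_right, map_sum,
      Complex.re_ofReal_mul, Complex.re_sum, Finset.mul_sum]
    refine Finset.sum_congr rfl fun j _ => ?_
    rw [Sphere.ip_smul_right, map_mul, Complex.conj_ofReal, Sphere.ip_conj, Complex.re_ofReal_mul,
      mul_assoc]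
  have he : ∀ i j, Model.ins1 f i j
      = Model.insEnt (InsTensor.nilPol f) (symN (InsTensor.nilTen f)) i j := fun i j => rfl
  simp only [Complex.re_sum, Complex.re_ofReal_mul, hl, he, Model.insEnt_eq, Finset.mul_sum]
  rw [Finset.sum_congr rfl fun a _ => Finset.sum_comm, Finset.sum_comm]
  refine Finset.sum_congr rfl fun i _ => ?_
  rw [Finset.sum_congr rfl fun a _ => Finset.sum_comm, Finset.sum_comm]
  exact Finset.sum_congr rfl fun j _ => Finset.sum_congr rfl fun a _ =>
    Finset.sum_congr rfl fun b _ => by ring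

/-- Axis states. -/
def axSt (i : St) : Prop := ¬(i.blk.la = 0 ↔ i.blk.lb = 0)

/-- States of the zero level. -/
def zeroLev (i : St) : Prop := i.blk.level 0 = 0

/-- Nonaxis levels. -/
def bigLev (g : ℕ × ℕ) : Prop := g.1 ≠ 0 ∧ g.2 ≠ 0

theorem level_zero_eq (i : St) : i.blk.level 0 = (i.blk.la, i.blk.lb) := rfl

theorem bigLev_of_not {i : St} (h1 : ¬ axSt i) (h2 : ¬ zeroLev i) : bigLev (i.blk.level 0) := by
  simp only [axSt, not_not] at h1
  simp only [zeroLev, level_zero_eq, bigLev, Prod.ext_iff] at h2 ⊢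
  simp only [Prod.fst_zero, Prod.snd_zero, not_and] at h2
  exact ⟨fun h => h2 h (h1.1 h), fun h => h2 (h1.2 h) h⟩

theorem three_le_card_levSet {g : ℕ × ℕ} (hg : bigLev g) : 3 ≤ (Sphere.levSet 0 g).card := by
  obtain ⟨a, b⟩ := g
  rw [Sphere.levSet, Finset.card_map, Finset.card_univ, Alg.card_fib a b]
  simp only [Fintype.card_prod, Fintype.card_fin]
  obtain ⟨ha, hb⟩ : a ≠ 0 ∧ b ≠ 0 := hg
  have h1 : 2 ≤ a + 1 := by omega
  have h2 : 2 ≤ b + 1 := by omega
  calc 3 ≤ 2 * 2 * (2 * 2) := by norm_num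
    _ ≤ _ := by gcongr

/-- The states of a finite set. -/
abbrev WSt (W : Finset St) : Type := {q : St // q ∈ W}

/-- The first order block of insertion `f` on a finite set of states, up to the scalings of rows
and columns. -/
def insMat (W : Finset St) (a b : St → ℝ) (f : ℕ) :
    Matrix (WSt W) (WSt W) ℝ :=
  Matrix.of fun y z => a y.1 * b z.1 * Model.ins1 f z.1 y.1

/-- **The list of the corrector.** Finitely many conjugates of insertion blocks span all constrained
entries, as soon as the generators give the off diagonal units of the nonaxis levels. -/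
theorem exists_slotList (W : Finset St)
    (hW : ∀ i ∈ W, ∀ k : St, k.blk.level 0 = i.blk.level 0 → k ∈ W) (a b : St → ℝ)
    (ha : ∀ i, a i ≠ 0) (hb : ∀ i, b i ≠ 0)
    (gens : Set (Matrix (WSt W) (WSt W) ℝ))
    (hgens : ∀ i j : (WSt W), i ≠ j → i.1.blk.level 0 = j.1.blk.level 0 →
      bigLev (i.1.blk.level 0) → ∀ G : Submodule ℝ (Matrix (WSt W) (WSt W) ℝ),
        gens ⊆ G → (∀ x ∈ G, ∀ y ∈ G, x * y - y * x ∈ G) → Matrix.single i j (1 : ℝ) ∈ G) :
    ∃ (n : ℕ) (g : Fin n → (Matrix (WSt W) (WSt W) ℝ)ˣ) (f : Fin n → ℕ),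
      (∀ l, ((g l : _) : Matrix _ _ ℝ) ∈ Alg.expMonoid gens ∧
        (((g l)⁻¹ : _) : Matrix _ _ ℝ) ∈ Alg.expMonoid gens) ∧
      ∀ (R : ℕ) (cls : {p : (WSt W) × (WSt W) //
          Constrained (fun q => axSt q.1) (fun q => zeroLev q.1) p} → Fin R) (T : _ → ℝ),
        ∃ c : Fin R → Fin n → ℝ, ∀ p, ∑ l,
          ((g l : Matrix (WSt W) (WSt W) ℝ) * insMat W a b (f l)
            * (((g l)⁻¹ : _) : Matrix (WSt W) (WSt W) ℝ)) p.1.1 p.1.2
            * c (cls p) l = T p := by
  classical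
  set lev : WSt W → ℕ × ℕ := fun q => q.1.blk.level 0 with hlevdef
  set S : Set (Matrix (WSt W) (WSt W) ℝ) := Set.range (insMat W a b) with hS
  set C : Set (Matrix (WSt W) (WSt W) ℝ) := {x | ∃ g : (Matrix (WSt W) (WSt W) ℝ)ˣ, (g : Matrix (WSt W) (WSt W) ℝ) ∈ Alg.expMonoid gens ∧
    ((g⁻¹ : _) : Matrix (WSt W) (WSt W) ℝ) ∈ Alg.expMonoid gens ∧
      ∃ s ∈ S, x = (g : Matrix (WSt W) (WSt W) ℝ) * s * ((g⁻¹ : _) : Matrix (WSt W) (WSt W) ℝ)} with hC
  have hstab : Alg.LevStable lev bigLev (Submodule.span ℝ C) := fun i j hij hl hbig =>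
    Alg.bracket_stable_of_lie gens S fun G hG hG' => hgens i j hij hl hbig G hG hG'
  have hcard : ∀ i j, lev i = lev j → bigLev (lev i) → ∃ k, lev k = lev i ∧ k ≠ i ∧ k ≠ j := by
    intro i j _ hbig
    obtain ⟨k, hk, hk'⟩ := Finset.exists_mem_notMem_of_card_lt_card
      (s := {i.1, j.1}) (t := Sphere.levSet 0 (lev i))
      (Finset.card_le_two.trans_lt (three_le_card_levSet hbig))
    rw [Sphere.mem_levSet] at hk
    refine ⟨⟨k, hW i.1 i.2 k hk⟩, hk, fun e => hk' ?_, fun e => hk' ?_⟩ <;>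
      simp [← e]
  set Cls : (WSt W) → (WSt W) → Prop := fun y z =>
    Constrained (fun q : (WSt W) => axSt q.1) (fun q : (WSt W) => zeroLev q.1) (y, z)
  have hsurj : ∀ T : (WSt W) → (WSt W) → ℝ, ∃ X ∈ Submodule.span ℝ C, ∀ y z, Cls y z → X y z = T y z := by
    refine hstab.class_surjective hcard Cls (fun y z h => h.1) (fun y z h => ?_)
      (fun y z y' z' h hy hz hne => ?_) fun v u hv hu hsupp => ?_
    · obtain ⟨-, h0, h0', hax⟩ := h
      rcases not_and_or.1 hax with h | h
      exacts [Or.inl (bigLev_of_not h h0), Or.inr (bigLev_of_not h h0')]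
    · obtain ⟨-, h0, h0', hax⟩ := h
      have e : ∀ {q q' : (WSt W)}, lev q' = lev q →
          (zeroLev q'.1 ↔ zeroLev q.1) ∧ (axSt q'.1 ↔ axSt q.1) := by
        intro q q' h
        simp only [hlevdef, level_zero_eq, Prod.mk.injEq] at h
        simp [zeroLev, axSt, level_zero_eq, h.1, h.2]
      exact ⟨hne, fun h => h0 ((e hy).1.1 h), fun h => h0' ((e hz).1.1 h),
        fun h => hax ⟨(e hy).2.1 h.1, (e hz).2.1 h.2⟩⟩
    · obtain ⟨y0, hy0⟩ := Function.ne_iff.1 hv
      obtain ⟨z0, hz0⟩ := Function.ne_iff.1 hu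
      have hc := hsupp y0 z0 hy0 hz0
      let v' : St → ℝ := fun i => if h : i ∈ W then v ⟨i, h⟩ * a i else 0
      let u' : St → ℝ := fun i => if h : i ∈ W then u ⟨i, h⟩ * b i else 0
      obtain ⟨f, hf⟩ := exists_ins_pairing (s := W) (v := u') (u := v')
        ⟨z0.1, z0.2, by simp only [u', dif_pos z0.2]; exact mul_ne_zero hz0 (hb _), hc.2.2.1⟩
        ⟨y0.1, y0.2, by simp only [v', dif_pos y0.2]; exact mul_ne_zero hy0 (ha _), hc.2.1⟩
      refine ⟨insMat W a b f, Submodule.subset_span ⟨1, ?_, ?_, _, ⟨f, rfl⟩, by simp⟩, fun h => hf ?_⟩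
      · simp [(Alg.expMonoid gens).one_mem]
      · simp [(Alg.expMonoid gens).one_mem]
      rw [← h, ← Finset.sum_coe_sort W]
      simp only [← Finset.sum_coe_sort W (fun j => u' _ * v' j * Model.ins1 f _ j)]
      rw [Finset.sum_comm]
      refine Finset.sum_congr rfl fun y _ => Finset.sum_congr rfl fun z _ => ?_
      simp only [u', v', dif_pos y.2, dif_pos z.2, Subtype.coe_eta, insMat, Matrix.of_apply]
      ring
  set P := {p : (WSt W) × (WSt W) // Constrained (fun q : (WSt W) => axSt q.1) (fun q : (WSt W) => zeroLev q.1) p}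
  let π : Matrix (WSt W) (WSt W) ℝ →ₗ[ℝ] P → ℝ :=
    { toFun := fun X p => X p.1.1 p.1.2
      map_add' := fun X Y => rfl
      map_smul' := fun r X => rfl }
  obtain ⟨n, x, hx, hspan⟩ := Alg.exists_list_surjective C π fun T => by
    obtain ⟨X, hX, e⟩ := hsurj fun y z => if h : Cls y z then T ⟨(y, z), h⟩ else 0
    exact ⟨X, hX, funext fun p => (e p.1.1 p.1.2 p.2).trans (dif_pos p.2)⟩
  choose g hg hg' s hs hxe using hx
  choose f hf using hs
  refine ⟨n, g, f, fun l => ⟨hg l, hg' l⟩, fun R cls T => ?_⟩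
  choose c hc using fun k : Fin R => hspan fun p => if cls p = k then T p else 0
  refine ⟨fun k => c k, fun p => ?_⟩
  have h := congrFun (hc (cls p)) p
  rw [if_pos rfl, Finset.sum_apply] at h
  rw [← h]
  refine Finset.sum_congr rfl fun l _ => ?_
  rw [Pi.smul_apply, smul_eq_mul, mul_comm, hf l, ← hxe l]
  rfl

end

end Vale.Agent.P225.Loop
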