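import Mathlib

/-!
P225, CorrResponse (helper2): the scalar estimates of the response of one insertion.
-/

namespace Vale.Agent.P225

noncomputable section

/-- The scalar of an insertion relative to the value, on the exponential scale. -/
theorem site_log {kp qW Φ L α Z e c₀ : ℝ} {nW : ℕ} (hL : 1 ≤ L) (hc₀ : 0 < c₀)
    (hlc : -Real.log c₀ ≤ L) (hnL : 30 * (nW : ℝ) ≤ L) (hα : α ≤ Z)
    (hne : (2 * (nW : ℝ) + 1) * e ≤ 1) (hn : 3 * Z + 11 ≤ 4 * (nW : ℝ)) (hZ : 0 ≤ Z)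
    (hlo : c₀ * Real.exp (-((6 + 3 * (Z + 1)) * L)) * qW ≤ |kp|)
    (hhi : |kp| ≤ (3 * L + 3 * ((nW : ℝ) * 10)) * qW) (hqW : 0 < qW)
    (hlq : |Real.log qW + nW * (L * α)| ≤ nW * (L * e)) (hΦ : 0 < Φ) (hΦq : Φ ≤ qW)
    (hlΦ : |Real.log Φ + (nW + 1) * (L * α)| ≤ (nW + 1) * (L * e)) :
    0 < |kp| ∧ |Real.log |kp| - Real.log Φ| ≤ (3 * Z + 10) * L ∧
      ∀ E : ℝ, 0 ≤ E → E * Real.exp (-(4 * L)) ^ nW * qW / |kp| ≤ E / c₀ * Real.exp (-L) := by
  have hp : 0 < c₀ * Real.exp (-((6 + 3 * (Z + 1)) * L)) * qW :=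
    mul_pos (mul_pos hc₀ (Real.exp_pos _)) hqW
  have hk : 0 < |kp| := hp.trans_le hlo
  refine ⟨hk, ?_, fun E hE => ?_⟩
  · have h1 := Real.log_le_log hp hlo
    rw [Real.log_mul (mul_pos hc₀ (Real.exp_pos _)).ne' hqW.ne',
      Real.log_mul hc₀.ne' (Real.exp_pos _).ne', Real.log_exp] at h1
    have h2 := Real.log_le_log hΦ hΦq
    have hpre : 0 < 3 * L + 3 * ((nW : ℝ) * 10) := by positivity
    have h3 := Real.log_le_log hk hhi
    rw [Real.log_mul hpre.ne' hqW.ne'] at h3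
    have h4 := Real.log_le_sub_one_of_pos hpre
    have hLα : L * α ≤ L * Z := mul_le_mul_of_nonneg_left hα (by linarith)
    have hLe : (2 * (nW : ℝ) + 1) * (L * e) ≤ L * 1 := by
      rw [mul_left_comm]
      exact mul_le_mul_of_nonneg_left hne (by linarith)
    have hLZ : 0 ≤ L * Z := mul_nonneg (by linarith) hZ
    rw [abs_le] at hlq hlΦ ⊢
    constructor <;> linarith
  · have h1 : E * Real.exp (-(4 * L)) ^ nW * qW ≤ E / c₀ * Real.exp (-L) * |kp| := by
      refine le_trans ?_ (mul_le_mul_of_nonneg_left hlo (by positivity))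
      have hexp : Real.exp (-(4 * L)) ^ nW ≤ Real.exp (-L) * Real.exp (-((6 + 3 * (Z + 1)) * L)) := by
        rw [← Real.exp_nat_mul, ← Real.exp_add, Real.exp_le_exp]
        nlinarith [mul_le_mul_of_nonneg_left hn (by linarith : (0 : ℝ) ≤ L)]
      calc E * Real.exp (-(4 * L)) ^ nW * qW
          ≤ E * (Real.exp (-L) * Real.exp (-((6 + 3 * (Z + 1)) * L))) * qW := by gcongr
        _ = _ := by field_simp
    rwa [div_le_iff₀ hk]

/-- The diagonal scalar. -/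
theorem site_log_diag {kp Φ M E : ℝ} (hΦ : 0 < Φ) (hM : 0 < M) (hk : kp ≤ 0)
    (h : |kp + M * Φ| ≤ E * Φ) (hE : E / M ≤ 1 / 2) :
    |Real.log |kp| - Real.log Φ - Real.log M| ≤ 2 * (E / M) := by
  rw [abs_of_nonpos hk]
  have hr : 0 < M * Φ := mul_pos hM hΦ
  set ρ := -kp / (M * Φ) with hρ
  have h1 : |ρ - 1| ≤ E / M := by
    rw [hρ, div_sub_one hr.ne', abs_div, abs_of_pos hr, div_le_div_iff₀ hr hM,
      show -kp - M * Φ = -(kp + M * Φ) by ring, abs_neg]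
    calc |kp + M * Φ| * M ≤ E * Φ * M := mul_le_mul_of_nonneg_right h hM.le
      _ = E * (M * Φ) := by ring
  obtain ⟨ha, hb⟩ := abs_le.1 h1
  have hρ0 : 0 < ρ := by linarith
  have hkp : 0 < -kp := by
    by_contra hc
    have : ρ ≤ 0 := div_nonpos_of_nonpos_of_nonneg (not_lt.1 hc) hr.le
    linarith
  rw [show Real.log (-kp) - Real.log Φ - Real.log M = Real.log ρ by
    rw [hρ, Real.log_div hkp.ne' hr.ne', Real.log_mul hM.ne' hΦ.ne']; ring, abs_le]
  constructor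
  · refine le_trans ?_ (Real.one_sub_inv_le_log_of_pos hρ0)
    have h3 : (ρ⁻¹ - 1) * ρ = 1 - ρ := by rw [sub_mul, inv_mul_cancel₀ hρ0.ne', one_mul]
    nlinarith
  · exact (Real.log_le_sub_one_of_pos hρ0).trans (by linarith)

/-- The relative error of one entry. -/
theorem resp_err {δ e₀ A D : ℝ} (hδ : |δ| ≤ D) (hD : D ≤ 1) :
    |Real.exp δ * (A + e₀) - A| ≤ 2 * D * |A| + 3 * |e₀| := by
  have h1 := Real.abs_exp_sub_one_le (hδ.trans hD)
  have h2 : Real.exp δ ≤ 3 :=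
    (Real.exp_le_exp.2 ((le_abs_self δ).trans (hδ.trans hD))).trans (by
      have := Real.exp_one_lt_d9
      linarith)
  rw [show Real.exp δ * (A + e₀) - A = (Real.exp δ - 1) * A + Real.exp δ * e₀ by ring]
  refine (abs_add_le _ _).trans (add_le_add ?_ ?_) <;> rw [abs_mul]
  · exact mul_le_mul_of_nonneg_right (h1.trans (by linarith)) (abs_nonneg _)
  · rw [abs_of_pos (Real.exp_pos δ)]
    exact mul_le_mul_of_nonneg_right h2 (abs_nonneg _)

end

end Vale.Agent.P225
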