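import Vale.Agent.P225.Loop.CorrLoopLine
import Vale.Agent.P225.Loop.CorrScalar
import Vale.Agent.P225.Loop.CorrGlue

/-!
P225, CorrResponse (helper2): the response of the corrector.  For every late loop the corrector is a
family of second order in the amplitudes of its insertions; the first order of one insertion has on
the constrained entries the rate of its slot, times the entry of the conjugated insertion, up to an
error tending to zero.
-/

open Finset Filter Topology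

namespace Vale.Agent.P225.Loop

open LoopSpec (siteKap sitePhi siteQW siteErr siteC)

noncomputable section

theorem levV_level_eq (i : St) : levV (i.blk.level 0) = (levVal i : ℝ) := by
  simp [levV, levVal, Count.lev, level_zero_eq, Blk.cas]

/-- Every slot has the rate of an entry. -/
theorem exists_entRate {Mb : ℕ} (k : Fin (numCls Mb)) :
    ∃ p : CorrEnt Mb, entRate p = slotRate Mb k := by
  have h := (rateSet Mb).orderEmbOfFin_mem rfl k
  obtain ⟨p, -, hp⟩ := Finset.mem_image.1 (show _ ∈ univ.image (entRate (Mb := Mb)) from h)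
  exact ⟨p, hp.trans (by rw [slotRate, dif_pos k.2]; rfl)⟩

/-- A slot with an off diagonal class has only this pair of values. -/
theorem levPair_eq {Mb : ℕ} {p p' : CorrEnt Mb} (h : entRate p = entRate p')
    (hp : levVal p.1.1.1 ≠ levVal p.1.2.1) :
    levVal p.1.1.1 = levVal p'.1.1.1 ∧ levVal p.1.2.1 = levVal p'.1.2.1 := by
  by_contra hc
  exact classRate_ne (p := (levVal p.1.1.1, levVal p.1.2.1)) (q := (levVal p'.1.1.1, levVal p'.1.2.1))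
    (fun e => hc (Prod.ext_iff.1 e)) (Or.inl hp) h

theorem entRate_diag {Mb : ℕ} {p : CorrEnt Mb} (hp : levVal p.1.1.1 = levVal p.1.2.1) :
    entRate p = 0 := by
  rw [entRate, classRate]
  simp [hp]

theorem exp_neg_le_sqrt {b : ℝ} (hb : 1 ≤ b) {L : ℝ} (hL : b ≤ L) :
    Real.exp (-L) ≤ 1 / Real.sqrt b := by
  refine (exp_neg_le_inv (by linarith)).trans (one_div_le_one_div_of_le (Real.sqrt_pos.2 (by linarith)) ?_)
  refine le_trans ?_ hL
  calc Real.sqrt b ≤ Real.sqrt (b * b) := Real.sqrt_le_sqrt (le_mul_of_one_le_left (by linarith) hb)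
    _ = b := Real.sqrt_mul_self (by linarith)

/-- The smallness at late loops. -/
theorem resp_small {b Dd Ce κ c₀ sm ml ε₀ Ks K δ₀ K2 : ℝ} {nW P0 : ℕ} (hb1 : 1 ≤ b) (hDd : 0 ≤ Dd)
    (hCe : 0 ≤ Ce) (hκ : 0 ≤ κ) (hml : 0 ≤ ml) (hε₀ : 0 < ε₀) (hKs : 0 ≤ Ks) (hK : 0 ≤ K)
    (hδ₀ : 0 < δ₀) (hK2 : 1 ≤ K2) (hnW : 1 ≤ nW)
    (hall : (Dd + (2 * nW + 4) * Ce + 2 * κ
      + (8 + |Real.log c₀| + 30 * (nW : ℝ) + |Real.log sm| + ml)
      + (1 / ε₀ + 12 * Ks + 2 * K / δ₀ + 8 * K2 ^ 2 * K)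
      + 2 * K2 * (5 * K2 ^ 3) ^ (P0 + 1)) * (1 / Real.sqrt b) ≤ 1) :
    (Dd * (1 / Real.sqrt b) ≤ 1 ∧ (2 * nW + 4) * Ce * (1 / Real.sqrt b) ≤ 1 ∧
      2 * κ / Real.sqrt b ≤ 1) ∧
    (8 ≤ b ^ 5 ∧ -Real.log c₀ ≤ b ^ 5 ∧ 30 * (nW : ℝ) ≤ b ^ 5 ∧ |Real.log sm| ≤ b ^ 5 ∧ ml ≤ b ^ 5) ∧
    (Real.exp (-3 * b ^ 6) ≤ 1 ∧ Real.exp (-3 * b ^ 6) ≤ ε₀ ∧
      6 * Ks * Real.exp (-3 * b ^ 6) ≤ 1 / 2 ∧ K * (1 / b ^ 5 + Real.exp (-3 * b ^ 6)) ≤ δ₀ ∧
      K2 * (K2 * (K * (1 / b ^ 5 + Real.exp (-3 * b ^ 6)))) ≤ 1 / 4) ∧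
    (∀ N, N ≤ P0 + 1 → K2 * ((5 * K2 ^ 3) ^ N * Real.exp (-(4 * b ^ 5)) ^ nW) ≤ 1 / 2) ∧
    Real.exp (-b ^ 5) ≤ 1 / Real.sqrt b ∧ 1 / b ^ 5 ≤ 1 / Real.sqrt b := by
  have hsb : 0 < Real.sqrt b := Real.sqrt_pos.2 (by linarith)
  set sq := 1 / Real.sqrt b with hsq
  have hsq0 : 0 ≤ sq := by positivity
  have hsqb : Real.sqrt b ≤ b := by
    calc Real.sqrt b ≤ Real.sqrt (b * b) := Real.sqrt_le_sqrt (le_mul_of_one_le_left (by linarith) hb1)
      _ = b := Real.sqrt_mul_self (by linarith)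
  have hbL : b ≤ b ^ 5 := le_self_pow₀ hb1 (by norm_num)
  set X₁ := 8 + |Real.log c₀| + 30 * (nW : ℝ) + |Real.log sm| + ml
  set X₂ := 1 / ε₀ + 12 * Ks + 2 * K / δ₀ + 8 * K2 ^ 2 * K
  set X₃ := 2 * K2 * (5 * K2 ^ 3) ^ (P0 + 1)
  have h1 : 0 ≤ X₁ := by positivity
  have h2 : 0 ≤ X₂ := by positivity
  have h3 : 0 ≤ X₃ := by positivity
  have h4 : 0 ≤ (2 * (nW : ℝ) + 4) * Ce := by positivity
  have part : ∀ x, x ≤ Dd + (2 * nW + 4) * Ce + 2 * κ + X₁ + X₂ + X₃ → x * sq ≤ 1 := fun x hx =>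
    (mul_le_mul_of_nonneg_right hx hsq0).trans hall
  have large : ∀ x, x ≤ X₁ → x ≤ b ^ 5 := fun x hx => by
    have h : x * sq ≤ 1 := part x (by linarith)
    rw [hsq, mul_one_div, div_le_one hsb] at h
    linarith
  have b1 : 0 ≤ |Real.log c₀| := abs_nonneg _
  have b2 : 0 ≤ |Real.log sm| := abs_nonneg _
  have b3 : 0 ≤ 30 * (nW : ℝ) := by positivity
  have a1 : 0 ≤ 1 / ε₀ := by positivity
  have a2 : 0 ≤ 12 * Ks := by positivity
  have a3 : 0 ≤ 2 * K / δ₀ := by positivity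
  have a4 : 0 ≤ 8 * K2 ^ 2 * K := by positivity
  have hLsq : 1 / b ^ 5 ≤ sq := one_div_le_one_div_of_le hsb (hsqb.trans hbL)
  have hrsq : Real.exp (-3 * b ^ 6) ≤ sq := by
    rw [show -3 * b ^ 6 = -(3 * b ^ 6) by ring]
    refine exp_neg_le_sqrt hb1 ?_
    linarith [le_self_pow₀ hb1 (show 6 ≠ 0 by norm_num)]
  refine ⟨⟨part _ (by linarith), part _ (by linarith), ?_⟩,
    ⟨large _ (by linarith), (neg_le_abs _).trans (large _ (by linarith)), large _ (by linarith),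
      large _ (by linarith), large _ (by linarith)⟩,
    ⟨Real.exp_le_one_iff.2 (by have : 0 ≤ b ^ 6 := (by positivity); linarith), hrsq.trans ?_, ?_,
      ?_, ?_⟩, fun N hN => ?_, exp_neg_le_sqrt hb1 hbL, hLsq⟩
  · rw [div_eq_mul_one_div]
    exact part _ (by linarith)
  · have h := part (1 / ε₀) (by linarith)
    rw [div_mul_eq_mul_div, one_mul, div_le_one hε₀] at h
    exact h
  · have h := part (12 * Ks) (by linarith)
    have := mul_le_mul_of_nonneg_left hrsq (by positivity : (0 : ℝ) ≤ 6 * Ks)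
    linarith
  · have h := part (2 * K / δ₀) (by linarith)
    rw [div_mul_eq_mul_div, div_le_one hδ₀] at h
    have := mul_le_mul_of_nonneg_left (add_le_add hLsq hrsq) hK
    linarith
  · have h := part (8 * K2 ^ 2 * K) (by linarith)
    have := mul_le_mul_of_nonneg_left (add_le_add hLsq hrsq) (by positivity : (0 : ℝ) ≤ K2 ^ 2 * K)
    linarith
  · have he : Real.exp (-(4 * b ^ 5)) ^ nW ≤ sq :=
      (pow_le_of_le_one (Real.exp_pos _).le (Real.exp_le_one_iff.2 (by linarith)) (by omega)).trans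
        (exp_neg_le_sqrt hb1 (by linarith))
    have h := part X₃ (by linarith)
    have h5 : (1 : ℝ) ≤ 5 * K2 ^ 3 := by linarith [one_le_pow₀ (n := 3) hK2]
    calc K2 * ((5 * K2 ^ 3) ^ N * Real.exp (-(4 * b ^ 5)) ^ nW)
        ≤ K2 * ((5 * K2 ^ 3) ^ (P0 + 1) * sq) := by gcongr
      _ ≤ 1 / 2 := by simp only [X₃] at h; linarith

/-- One entry of the response, relative to its model. -/
theorem entry_err {fm β q kp Φ ρy ρz A' T Te cp D : ℝ} (hβ : 0 < β) (hq : 0 < q) (hk : 0 < |kp|)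
    (hkn : kp ≤ 0) (hΦ : 0 < Φ) (hy : 0 < ρy) (hz : 0 < ρz)
    (h : |fm + ρy * (q * β / (Φ * ρz)) * kp * A'| ≤ |ρy| * |q * β / (Φ * ρz)| * T)
    (hT : T / |kp| ≤ Te)
    (hδ : |Real.log q + (Real.log |kp| - Real.log Φ) + (Real.log ρy - Real.log ρz) - cp| ≤ D)
    (hD : D ≤ 1) : |fm / (β * Real.exp cp) - A'| ≤ 2 * D * |A'| + 3 * Te := by
  set P' := q * (|kp| / Φ) * (ρy / ρz) with hP'
  have hP0 : 0 < P' := mul_pos (mul_pos hq (div_pos hk hΦ)) (div_pos hy hz)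
  have hl : Real.log P' = Real.log q + (Real.log |kp| - Real.log Φ) + (Real.log ρy - Real.log ρz) := by
    rw [hP', Real.log_mul (mul_pos hq (div_pos hk hΦ)).ne' (div_pos hy hz).ne',
      Real.log_mul hq.ne' (div_pos hk hΦ).ne', Real.log_div hk.ne' hΦ.ne', Real.log_div hy.ne' hz.ne']
  set R := fm - β * P' * A' with hR
  have e : fm / (β * Real.exp cp) = Real.exp (Real.log P' - cp) * (A' + R / (β * P')) := by
    rw [Real.exp_sub, Real.exp_log hP0, hR]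
    field_simp [hβ.ne', hP0.ne']
    ring
  rw [e]
  refine (resp_err (by rw [hl]; exact hδ) hD).trans
    (add_le_add le_rfl (mul_le_mul_of_nonneg_left ?_ (by norm_num)))
  have e2 : R = fm + ρy * (q * β / (Φ * ρz)) * kp * A' := by
    rw [hR, hP', abs_of_nonpos hkn]
    field_simp
    ring
  rw [e2, abs_div, abs_of_pos (mul_pos hβ hP0), div_le_iff₀ (mul_pos hβ hP0)]
  refine h.trans ?_
  rw [abs_of_pos hy, abs_of_pos (div_pos (mul_pos hq hβ) (mul_pos hΦ hz)),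
    show ρy * (q * β / (Φ * ρz)) * T = T / |kp| * (β * P') by rw [hP']; field_simp]
  exact mul_le_mul_of_nonneg_right hT (mul_pos hβ hP0).le

/-- The relative error of the diagonal scalar. -/
theorem diag_err {κ sm ml Ce e L b α Z : ℝ} {nW : ℕ} (hsm : 0 < sm) (hml : ml = (5 + 2 * Z) / sm)
    (hα0 : 0 ≤ α) (hα : α ≤ Z) (hκ : 0 ≤ κ) (hb : 1 ≤ b) (hbL : b ≤ L) (he0 : 0 ≤ e)
    (he : e ≤ Ce * (1 / Real.sqrt b)) :
    (3 * e * (3 * L) + 3 + 3 * ((nW : ℝ) * 10) + 2 * κ / Real.sqrt b * L) / (sm * L / (5 + 2 * α))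
      ≤ ml * (9 * Ce + 3 + 30 * nW + 2 * κ) * (1 / Real.sqrt b) := by
  have hsb : 0 < Real.sqrt b := Real.sqrt_pos.2 (by linarith)
  have hsqb : Real.sqrt b ≤ b := by
    calc Real.sqrt b ≤ Real.sqrt (b * b) := Real.sqrt_le_sqrt (le_mul_of_one_le_left (by linarith) hb)
      _ = b := Real.sqrt_mul_self (by linarith)
  set E := 3 * e * (3 * L) + 3 + 3 * ((nW : ℝ) * 10) + 2 * κ / Real.sqrt b * L
  have hL : 0 < L := by linarith
  have hEL : E / L ≤ (9 * Ce + 3 + 30 * nW + 2 * κ) * (1 / Real.sqrt b) := by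
    rw [div_le_iff₀ hL]
    have hone : 1 ≤ 1 / Real.sqrt b * L := by
      rw [div_mul_eq_mul_div, one_mul, one_le_div hsb]; linarith
    have t1 := mul_le_mul_of_nonneg_right he hL.le
    have t2 := mul_le_mul_of_nonneg_left hone (by positivity : (0 : ℝ) ≤ 3 + 30 * (nW : ℝ))
    have t3 : 2 * κ / Real.sqrt b * L = 2 * κ * (1 / Real.sqrt b) * L := by ring
    linarith
  have hE0 : 0 ≤ E := by positivity
  calc E / (sm * L / (5 + 2 * α)) = (5 + 2 * α) / sm * (E / L) := by field_simp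
    _ ≤ ml * (E / L) := mul_le_mul_of_nonneg_right (hml ▸
        div_le_div_of_nonneg_right (by linarith) hsm.le) (div_nonneg hE0 hL.le)
    _ ≤ ml * ((9 * Ce + 3 + 30 * nW + 2 * κ) * (1 / Real.sqrt b)) :=
        mul_le_mul_of_nonneg_left hEL (by rw [hml]; exact div_nonneg (by linarith) hsm.le)
    _ = _ := by ring

/-- The logarithm of the diagonal model scalar. -/
theorem log_diag_le {sm ml L α Z : ℝ} (hsm : 0 < sm) (hml : ml = (5 + 2 * Z) / sm) (hα0 : 0 ≤ α)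
    (hα : α ≤ Z) (hL : 1 ≤ L) (hlm : |Real.log sm| ≤ L) (hm : ml ≤ L) :
    |Real.log (sm * L / (5 + 2 * α))| ≤ 2 * L := by
  have hM1 : 1 ≤ sm * L / (5 + 2 * α) := by
    rw [le_div_iff₀ (by linarith), one_mul]
    rw [hml, div_le_iff₀ hsm] at hm
    linarith
  rw [abs_of_nonneg (Real.log_nonneg hM1), Real.log_div (by positivity) (by linarith),
    Real.log_mul hsm.ne' (by linarith)]
  have h1 := Real.log_le_sub_one_of_pos (show 0 < L by linarith)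
  have h2 := le_abs_self (Real.log sm)
  have h3 := Real.log_nonneg (show 1 ≤ 5 + 2 * α by linarith)
  linarith

theorem siteC_nonneg {Ki K2 : ℝ} (hKi : 0 ≤ Ki) (hK2 : 0 ≤ K2) (N : ℕ) : 0 ≤ siteC Ki K2 N := by
  have := zero_le_one.trans ((le_max_right Ki 1).trans (le_chainK Ki N))
  rw [siteC]
  positivity

theorem siteC_mono {Ki K2 : ℝ} (hKi : 0 ≤ Ki) (hK2 : 1 ≤ K2) {N N' : ℕ} (h : N ≤ N') :
    siteC Ki K2 N ≤ siteC Ki K2 N' := by
  have h5 : (1 : ℝ) ≤ 5 * K2 ^ 3 := by linarith [one_le_pow₀ (n := 3) hK2]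
  have := zero_le_one.trans ((le_max_right Ki 1).trans (le_chainK Ki N))
  rw [siteC, siteC]
  gcongr
  exact chainK_mono Ki h

theorem row_col_le {Mb n : ℕ} (g : Fin n → (Matrix (WSt (corrW Mb)) (WSt (corrW Mb)) ℝ)ˣ) (l : Fin n)
    (y z : WSt (corrW Mb)) :
    (∑ x, |(g l : Matrix (WSt (corrW Mb)) (WSt (corrW Mb)) ℝ) y x|)
        * (∑ x, |(((g l)⁻¹ : _) : Matrix (WSt (corrW Mb)) (WSt (corrW Mb)) ℝ) x z|)
      ≤ ∑ l, (∑ y, ∑ k, |(g l : Matrix (WSt (corrW Mb)) (WSt (corrW Mb)) ℝ) y k|)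
          * (∑ z, ∑ k, |(((g l)⁻¹ : _) : Matrix (WSt (corrW Mb)) (WSt (corrW Mb)) ℝ) k z|) := by
  have hy := Finset.single_le_sum (f := fun y => ∑ k, |(g l : Matrix (WSt (corrW Mb))
    (WSt (corrW Mb)) ℝ) y k|) (fun _ _ => Finset.sum_nonneg fun _ _ => abs_nonneg _)
    (Finset.mem_univ y)
  have hz := Finset.single_le_sum (f := fun z => ∑ k, |(((g l)⁻¹ : _) : Matrix (WSt (corrW Mb))
    (WSt (corrW Mb)) ℝ) k z|) (fun _ _ => Finset.sum_nonneg fun _ _ => abs_nonneg _)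
    (Finset.mem_univ z)
  refine (mul_le_mul hy hz (Finset.sum_nonneg fun _ _ => abs_nonneg _)
    (Finset.sum_nonneg fun _ _ => Finset.sum_nonneg fun _ _ => abs_nonneg _)).trans ?_
  exact Finset.single_le_sum (f := fun l =>
    (∑ y, ∑ k, |(g l : Matrix (WSt (corrW Mb)) (WSt (corrW Mb)) ℝ) y k|)
      * (∑ z, ∑ k, |(((g l)⁻¹ : _) : Matrix (WSt (corrW Mb)) (WSt (corrW Mb)) ℝ) k z|))
    (fun l _ => by positivity) (Finset.mem_univ l)

/-- **Constants, slot factors and errors** from the estimates of the entries. -/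
theorem resp_assemble {Mb n : ℕ} {fm A' : CorrEnt Mb → Fin (numCls Mb) × Fin n → ℝ}
    {β q : WSt (corrW Mb) → ℝ} {F : Fin (numCls Mb) × Fin n → ℝ → ℝ}
    {ex : Fin (numCls Mb) × Fin n → WSt (corrW Mb) → ℝ} {S : ℕ → ℝ}
    {kap : Fin (numCls Mb) × Fin n → WSt (corrW Mb) → WSt (corrW Mb) → ℝ}
    {Φ : Fin (numCls Mb) × Fin n → WSt (corrW Mb) → ℝ} {M : WSt (corrW Mb) → ℝ}
    {L b₀ b₁ Cq D₁ D₂ D Te : ℝ} (hL : 0 ≤ L) (hb₀ : 0 ≤ b₀) (hb₁ : 0 ≤ b₁) (hD1 : D₁ + D₂ ≤ D)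
    (hD₁ : 0 ≤ D₁) (hD : D ≤ 1) (hβ : ∀ z, 0 < β z) (hq : ∀ z, 0 < q z)
    (hql : ∀ z, |Real.log (q z)| ≤ Cq * L) (hM : ∀ z, |Real.log (M z)| ≤ 2 * L)
    (hF : ∀ x v, 0 < F x v) (hex : ∀ x y z, |ex x y - ex x z| ≤ D₂)
    (hlogF : ∀ x (y : WSt (corrW Mb)), |Real.log (F x (levV (y.1.blk.level 0)))
      + Ode.alphaFn 5 (scaleInf * levV (y.1.blk.level 0)) * S x.1| ≤ b₀ * L)
    (hkap : ∀ x y z, kap x y z ≤ 0 ∧ 0 < |kap x y z| ∧ 0 < Φ x z ∧
      |Real.log |kap x y z| - Real.log (Φ x z)| ≤ b₁ * L ∧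
      (levVal y.1 = levVal z.1 → |Real.log |kap x y z| - Real.log (Φ x z) - Real.log (M y)| ≤ D₁))
    (hinv : ∀ x (y z y' z' : WSt (corrW Mb)), levVal y.1 = levVal y'.1 → levVal z.1 = levVal z'.1 →
      kap x y z = kap x y' z' ∧ Φ x z = Φ x z')
    (hfm : ∀ (p : CorrEnt Mb) x, ∃ T, T / |kap x p.1.1 p.1.2| ≤ Te ∧
      |fm p x + F x (levV (p.1.1.1.blk.level 0)) * Real.exp (ex x p.1.1)
          * (q p.1.2 * β p.1.2 / (Φ x p.1.2 * (F x (levV (p.1.2.1.blk.level 0)) * Real.exp (ex x p.1.2))))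
          * kap x p.1.1 p.1.2 * A' p x|
        ≤ |F x (levV (p.1.1.1.blk.level 0)) * Real.exp (ex x p.1.1)|
          * |q p.1.2 * β p.1.2 / (Φ x p.1.2 * (F x (levV (p.1.2.1.blk.level 0)) * Real.exp (ex x p.1.2)))|
          * T) :
    ∃ (c : CorrEnt Mb → ℝ) (phi : Fin (numCls Mb) → Fin (numCls Mb) → Fin n → ℝ)
      (err : CorrEnt Mb → Fin (numCls Mb) × Fin n → ℝ),
      (∀ p x, fm p x = β p.1.2 * (Real.exp (c p + phi (slotOf p) x.1 x.2) * (A' p x + err p x))) ∧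
      (∀ p, |c p| ≤ (Cq + 2) * L) ∧ (∀ p x, |err p x| ≤ 2 * D * |A' p x| + 3 * Te) ∧
      ∀ k x l, |phi k x l - slotRate Mb k * S x| ≤ (2 * b₀ + b₁) * L := by
  classical
  set Lk := fun x (y z : WSt (corrW Mb)) => Real.log |kap x y z| - Real.log (Φ x z)
      + Real.log (F x (levV (y.1.blk.level 0))) - Real.log (F x (levV (z.1.blk.level 0)))
  set c := fun p : CorrEnt Mb =>
    Real.log (q p.1.2) + if levVal p.1.1.1 = levVal p.1.2.1 then Real.log (M p.1.1) else 0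
  set phi := fun (k : Fin (numCls Mb)) (x1 : Fin (numCls Mb)) (x2 : Fin n) =>
    if h : ∃ p : CorrEnt Mb, entRate p = slotRate Mb k ∧ levVal p.1.1.1 ≠ levVal p.1.2.1 then
      Lk (x1, x2) h.choose.1.1 h.choose.1.2 else 0
  have hphin : ∀ (x : Fin (numCls Mb) × Fin n) (p : CorrEnt Mb), levVal p.1.1.1 ≠ levVal p.1.2.1 →
      phi (slotOf p) x.1 x.2 = Lk x p.1.1 p.1.2 := by
    intro x p hp
    have h : ∃ p' : CorrEnt Mb,
        entRate p' = slotRate Mb (slotOf p) ∧ levVal p'.1.1.1 ≠ levVal p'.1.2.1 :=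
      ⟨p, (slotRate_slotOf p).symm, hp⟩
    obtain ⟨h1, h2⟩ := h.choose_spec
    obtain ⟨e1, e2⟩ := levPair_eq (h1.trans (slotRate_slotOf p)) h2
    simp only [phi, dif_pos h]
    obtain ⟨i1, i2⟩ := hinv x h.choose.1.1 h.choose.1.2 p.1.1 p.1.2 e1 e2
    simp only [Lk, i1, i2, levV_level_eq, e1, e2]
  have hphid : ∀ (x : Fin (numCls Mb) × Fin n) (p : CorrEnt Mb), levVal p.1.1.1 = levVal p.1.2.1 →
      phi (slotOf p) x.1 x.2 = 0 := by
    intro x p hp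
    refine dif_neg ?_
    rintro ⟨p', h1, h2⟩
    obtain ⟨e1, e2⟩ := levPair_eq (h1.trans (slotRate_slotOf p)) h2
    exact h2 (e1.trans (hp.trans e2.symm))
  refine ⟨c, phi, fun p x => fm p x / (β p.1.2 * Real.exp (c p + phi (slotOf p) x.1 x.2)) - A' p x,
    fun p x => ?_, fun p => ?_, fun p x => ?_, fun k x l => ?_⟩
  · rw [add_sub_cancel, ← mul_assoc, mul_div_cancel₀ _ (mul_pos (hβ _) (Real.exp_pos _)).ne']
  · simp only [c]
    refine (abs_add_le _ _).trans ((add_le_add (hql _) (d := 2 * L) ?_).trans (le_of_eq (by ring)))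
    split_ifs
    · exact hM _
    · rw [abs_zero]; linarith
  · obtain ⟨T, hT, hfm'⟩ := hfm p x
    obtain ⟨hkn, hk, hΦ, -, hd⟩ := hkap x p.1.1 p.1.2
    refine entry_err (hβ _) (hq _) hk hkn hΦ (mul_pos (hF _ _) (Real.exp_pos _))
      (mul_pos (hF _ _) (Real.exp_pos _)) hfm' hT ?_ hD
    rw [Real.log_mul (hF _ _).ne' (Real.exp_pos _).ne', Real.log_mul (hF _ _).ne' (Real.exp_pos _).ne',
      Real.log_exp, Real.log_exp]
    have hexb := hex x p.1.1 p.1.2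
    simp only [c]
    by_cases hp : levVal p.1.1.1 = levVal p.1.2.1
    · rw [if_pos hp, hphid x p hp, add_zero]
      have hl := hd hp
      rw [levV_level_eq, levV_level_eq, hp]
      rw [abs_le] at hl hexb ⊢
      constructor <;> linarith
    · rw [if_neg hp, hphin x p hp, add_zero]
      simp only [Lk]
      rw [abs_le] at hexb ⊢
      constructor <;> linarith
  · simp only [phi]
    split_ifs with h
    · obtain ⟨h1, -⟩ := h.choose_spec
      obtain ⟨-, -, -, hkb, -⟩ := hkap (x, l) h.choose.1.1 h.choose.1.2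
      have e1 := hlogF (x, l) h.choose.1.1
      have e2 := hlogF (x, l) h.choose.1.2
      have hr : slotRate Mb k * S x = entRate h.choose * S x := congrArg (fun t => t * S x) h1.symm
      rw [hr]
      dsimp only [Lk]
      generalize h.choose = p0 at hkb e1 e2 ⊢
      simp only [entRate, classRate, ← levV_level_eq]
      dsimp only at e1 e2
      rw [abs_le] at hkb e1 e2 ⊢
      constructor <;> linarith
    · obtain ⟨p, hp⟩ := exists_entRate k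
      have hd : levVal p.1.1.1 = levVal p.1.2.1 := by
        by_contra hne
        exact h ⟨p, hp, hne⟩
      rw [← hp, entRate_diag hd, zero_mul, sub_zero, abs_zero]
      positivity

theorem sums_le {A B a b c c' e q C : ℝ} (hA : 0 ≤ A) (hB : 0 ≤ B) (hab : a * b ≤ C) (hC : 0 ≤ C)
    (hc : 0 ≤ c) (hcc : c ≤ c') (he : 0 ≤ e) (hq : 0 ≤ q) :
    A * B * a * b * (c * e * q) ≤ A * B * (C * c' * e * q) := by
  calc A * B * a * b * (c * e * q) = A * B * (a * b * (c * (e * q))) := by ring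
    _ ≤ A * B * (C * (c' * (e * q))) := by gcongr
    _ = _ := by ring

/-- The scalars of all sites on the entries. -/
theorem kap_facts {X Y : Type*} {lev : Y → ℕ × ℕ} {val : Y → ℕ} {kap : X → ℕ × ℕ → ℕ × ℕ → ℝ}
    {Φ : X → ℕ × ℕ → ℝ} {M : Y → ℝ} {κ sm ml Ce e L b Z D₁ b₁ : ℝ} {nW : ℕ}
    (hsm : 0 < sm) (hml : ml = (5 + 2 * Z) / sm) (hκ : 0 ≤ κ) (hb : 1 ≤ b) (hbL : b ≤ L)
    (he0 : 0 ≤ e) (he : e ≤ Ce * (1 / Real.sqrt b))
    (hD : 2 * (ml * (9 * Ce + 3 + 30 * nW + 2 * κ)) * (1 / Real.sqrt b) ≤ 1 ∧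
      D₁ = 2 * (ml * (9 * Ce + 3 + 30 * nW + 2 * κ)) * (1 / Real.sqrt b))
    (hneg : ∀ x y z, kap x (lev y) (lev z) ≤ 0) (hpos : ∀ x z, 0 < Φ x (lev z))
    (hdiag : ∀ x y,
      |kap x (lev y) (lev y) + sm * L / (5 + 2 * alphaLev (lev y)) * Φ x (lev y)|
        ≤ (3 * e * (3 * L) + 3 + 3 * ((nW : ℝ) * 10) + 2 * κ / Real.sqrt b * L) * Φ x (lev y))
    (hlog : ∀ x y z, 0 < |kap x (lev y) (lev z)| ∧
      |Real.log |kap x (lev y) (lev z)| - Real.log (Φ x (lev z))| ≤ b₁)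
    (hinv : ∀ x y z y' z', val y = val y' → val z = val z' →
      kap x (lev y) (lev z) = kap x (lev y') (lev z') ∧ Φ x (lev z) = Φ x (lev z'))
    (hZ : ∀ y, alphaLev (lev y) ≤ Z) (hM : ∀ y, M y = sm * L / (5 + 2 * alphaLev (lev y))) :
    ∀ x y z, kap x (lev y) (lev z) ≤ 0 ∧ 0 < |kap x (lev y) (lev z)| ∧ 0 < Φ x (lev z) ∧
      |Real.log |kap x (lev y) (lev z)| - Real.log (Φ x (lev z))| ≤ b₁ ∧
      (val y = val z →
        |Real.log |kap x (lev y) (lev z)| - Real.log (Φ x (lev z)) - Real.log (M y)| ≤ D₁) := by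
  intro x y z
  refine ⟨hneg x y z, (hlog x y z).1, hpos x z, (hlog x y z).2, fun hv => ?_⟩
  obtain ⟨e1, e2⟩ := hinv x y z y y rfl hv.symm
  rw [e1, e2, hM y, hD.2]
  have hα := alphaLev_nonneg (lev y)
  have hEM := diag_err (nW := nW) hsm hml hα (hZ y) hκ hb hbL he0 he
  exact (site_log_diag (hpos x y) (div_pos (mul_pos hsm (by linarith)) (by linarith)) (hneg x y y) (hdiag x y)
    (hEM.trans (by linarith [hD.1]))).trans ((mul_le_mul_of_nonneg_left hEM zero_le_two).trans_eq (by ring))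

/-- The response of one loop. -/
theorem resp_loop {κ : ℝ} (hκ : 0 ≤ κ) {s Mb n : ℕ}
    {g : Fin n → (Matrix (WSt (corrW Mb)) (WSt (corrW Mb)) ℝ)ˣ} {f : Fin n → ℕ} {Z c₀ : ℝ}
    (hZ0 : 0 ≤ Z) (hZz : ∀ z : WSt (corrW Mb), alphaLev (z.1.blk.level 0) ≤ Z) (hc₀ : 0 < c₀)
    (hbump : ∀ x ∈ Set.Icc (3 / 8 : ℝ) (5 / 8), c₀ ≤ bump x) {nW : ℕ}
    (hn4 : 3 * Z + 11 ≤ 4 * (nW : ℝ)) {b₀ : ℝ} (hb₀ : 0 ≤ b₀) {P0 Nf : ℕ}
    {Cc K Cq Cb K2 δ₀ Ki Kh CG Amax sm ml Ce Dd S5 C5 : ℝ} (hf : ∀ l, f l < Nf) (hCc : 0 ≤ Cc)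
    (hK : 0 ≤ K) (hK21 : 1 ≤ K2) (hKi : K2 ≤ Ki) (hKi' : insSecK (Model.modelPM s Nf).Ks Cc ≤ Ki)
    (hKh : chainK Ki (P0 + 1) ≤ Kh)
    (hrange : ∀ (H : Type) [NormedAddCommGroup H] [NormedSpace ℝ H] [CompleteSpace H], ∀ δ, 0 ≤ δ →
      δ ≤ δ₀ → ∀ (S : ℕ → Seg H) (i n : ℕ), n ≤ P0 + 1 →
        (∀ m, i ≤ m → m < i + n → SegBd K δ (S m)) →
        SegBd K2 (K2 * δ) (segRange S i n) ∧
          (0 < n → ‖(segRange S (i + 1) (n - 1)).B.comp (S i).C‖ < 1))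
    (hrc : ∀ l y z, (∑ x, |(g l : Matrix (WSt (corrW Mb)) (WSt (corrW Mb)) ℝ) y x|)
      * (∑ x, |(((g l)⁻¹ : _) : Matrix (WSt (corrW Mb)) (WSt (corrW Mb)) ℝ) x z|) ≤ CG)
    (hCG0 : 0 ≤ CG) (hA' : ∀ p l, |conjEntry s g f p l| ≤ Amax) (hsm : sm = scaleInf * P225.bumpMass)
    (hsm0 : 0 < sm) (hml : ml = (5 + 2 * Z) / sm) (hml0 : 0 ≤ ml)
    (hCe : Ce = 3 * Cc + 3 * κ * (3 + Z)) (hCe0 : 0 ≤ Ce)
    (hDd : Dd = 2 * |Cb| + 2 * (ml * (9 * Ce + 3 + 30 * nW + 2 * κ))) (hDd0 : 0 ≤ Dd)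
    (hS5 : S5 = siteC Ki K2 (P0 + 1)) (hC5 : C5 = CG * S5 / c₀)
    {W : LoopSpec} {j0 : ℕ} {t0 : ℝ} {ht : 1 ≤ t0} (hW : W.Ok P0) {i : ℕ}
    {j : ℕ} (hj : j = j0 + i) {b L sq r u : ℝ} (hbdef : b = (j : ℝ) + 1) (hLdef : L = b ^ 5)
    (hsq : sq = 1 / Real.sqrt b) (hu : u = 1 / L + r) (hb1 : 1 ≤ b) (hbL : b ≤ L) (hsq0 : 0 ≤ sq)
    (sD : Dd * sq ≤ 1) (sE : (2 * nW + 4) * Ce * sq ≤ 1) (hκb : 2 * κ / Real.sqrt b ≤ 1)
    (hL8 : 8 ≤ L) (hlc : -Real.log c₀ ≤ L) (hnL : 30 * (nW : ℝ) ≤ L) (hlsm : |Real.log sm| ≤ L)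
    (hmlL : ml ≤ L) (hr0 : 0 < r) (hr1 : r ≤ 1) (hrs : 6 * (Model.modelPM s Nf).Ks * r ≤ 1 / 2)
    (hKu : K * u ≤ δ₀) (hK2u : K2 * (K2 * (K * u)) ≤ 1 / 4)
    (hsmallP : ∀ N, N ≤ P0 + 1 → K2 * ((5 * K2 ^ 3) ^ N * Real.exp (-(4 * L)) ^ nW) ≤ 1 / 2)
    (hexpL : Real.exp (-L) ≤ sq) (hLsq : 1 / L ≤ sq)
    {v : (Fin (numCls Mb) × Fin n → ℝ) → ℕ → ℝ}
    {pos kx : Fin (numCls Mb) × Fin n → ℕ} {S : ℕ → ℝ} {F : Fin (numCls Mb) × Fin n → ℝ → ℝ}
    {ex : Fin (numCls Mb) × Fin n → WSt (corrW Mb) → ℝ} {β q : WSt (corrW Mb) → ℝ}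
    (hinj : Function.Injective pos)
    (hins : ∀ x, (W.corr (j0 + i))[pos x]? = some (Piece.ins (f x.2) (kx x)))
    (hwait : ∀ x m, pos x ≤ m + (nW + 1) → m ≤ pos x + (nW + 1) → m ≠ pos x →
      (W.corr (j0 + i))[m]? = some (Piece.wait 0 5))
    (hlo : ∀ x, nW ≤ pos x)
    (honly : ∀ m g' k, (W.corr (j0 + i))[m]? = some (Piece.ins g' k) → ∃ x, m = pos x)
    (hv : ∀ e x, v e (kx x) = -e x)
    (hother : ∀ e m (hm : m < (W.corr (j0 + i)).length), (∀ x, m ≠ pos x) →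
      ((W.corr (j0 + i))[m]).amp (v e) = ((W.corr (j0 + i))[m]).amp (v 0))
    (hg : ∀ e, ‖e‖ ≤ r →
      W.LoopGood κ Cc (Model.modelPM s Nf) j0 t0 ht (LoopSpec.oneParams i (v e)) K r i 0)
    (hβ : ∀ z, 0 < β z) (hq : ∀ z, 0 < q z) (hql : ∀ z, |Real.log (q z)| ≤ Cq * L)
    (hval : ∀ y z : WSt (corrW Mb),
      facMat ((W.corrSeg κ Cc (Model.modelPM s Nf) j0 t0 ht (LoopSpec.oneParams i (v 0)) i).comp
        (W.bufSeg κ Cc (Model.modelPM s Nf) j0 t0 ht (LoopSpec.oneParams i (v 0)) i)).Q y z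
        = if y = z then q z * β z else 0)
    (hF : ∀ x v', 0 < F x v')
    (hfac : ∀ x (y z : WSt (corrW Mb)),
      facMat (segRange (W.segs κ Cc (Model.modelPM s Nf) j0 t0 ht (LoopSpec.oneParams i (v 0)) i) 0
        (pos x)).Q y z = F x (levV (y.1.blk.level 0)) * Real.exp (ex x y)
          * (g x.2 : Matrix (WSt (corrW Mb)) (WSt (corrW Mb)) ℝ) y z)
    (hex : ∀ x y, |ex x y| ≤ Cb / Real.sqrt b)
    (hlogF : ∀ x (y : WSt (corrW Mb)), |Real.log (F x (levV (y.1.blk.level 0)))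
        + Ode.alphaFn 5 (scaleInf * levV (y.1.blk.level 0)) * S x.1| ≤ b₀ * L) :
    (∃ LQ LB LC LD, CorrFam r Kh (K * (1 / L + r))
      (fun e => W.corrSeg κ Cc (Model.modelPM s Nf) j0 t0 ht (LoopSpec.oneParams i (v e)) i)
      LQ LB LC LD) ∧
    ∃ (KW : ℝ) (LW : (Fin (numCls Mb) × Fin n → ℝ) →ₗ[ℝ] HSp →L[ℝ] HSp) (c : CorrEnt Mb → ℝ)
      (phi : Fin (numCls Mb) → Fin (numCls Mb) → Fin n → ℝ)
      (err : CorrEnt Mb → Fin (numCls Mb) × Fin n → ℝ),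
      QLin r 0 KW (fun e =>
        ((W.corrSeg κ Cc (Model.modelPM s Nf) j0 t0 ht (LoopSpec.oneParams i (v e)) i).comp
          (W.bufSeg κ Cc (Model.modelPM s Nf) j0 t0 ht (LoopSpec.oneParams i (v 0)) i)).Q) LW ∧
      (∀ p x, facMat (LW (Pi.single x 1)) p.1.1 p.1.2
        = β p.1.2 * (Real.exp (c p + phi (slotOf p) x.1 x.2) * (conjEntry s g f p x.2 + err p x))) ∧
      (∀ p, |c p| ≤ (Cq + 2) * L) ∧ (∀ p x, |err p x| ≤ (2 * Dd * Amax + 3 * C5) * sq) ∧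
      ∀ k x l, |phi k x l - slotRate Mb k * S x| ≤ (2 * b₀ + (3 * Z + 10)) * L := by
  subst hj hbdef hLdef hsq hu
  set Mo := Model.modelPM s Nf
  set b : ℝ := ((j0 + i : ℕ) : ℝ) + 1 with hbdef
  set L := b ^ 5 with hLdef
  set sq := 1 / Real.sqrt b with hsq
  set u := 1 / L + r with hu
  set j := j0 + i with hjdef
  have hu0 : 0 ≤ u := by positivity
  -- the loop
  have hb : ∀ e, ‖e‖ ≤ r → RangesBd (W.segs κ Cc Mo j0 t0 ht (LoopSpec.oneParams i (v e)) i)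
      ((W.corr (j0 + i)).length + 1) K2 (K2 * (K * u)) := fun e he l k hlk => by
    have := hW.corr_len (j0 + i)
    refine (hrange HSp (K * u) (by positivity) hKu _ l k (by omega) fun m _ h2 => ?_).1
    have h := ((hg e he).piece m (by rw [W.prog_length]; omega)).bd
    exact ⟨h.1, h.2.1, h.2.2.1, h.2.2.2⟩
  have hsite : ∀ x, W.CorrSite (j0 + i) nW (pos x) (f x.2) (kx x) := fun x =>
    ⟨hlo x,
      (List.getElem?_eq_some_iff.1 (hwait x (pos x + nW + 1) (by omega) (by omega) (by omega))).1,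
      fun hm => (List.getElem?_eq_some_iff.1 (hins x)).2,
      fun q hq h1 h2 h3 =>
        (List.getElem?_eq_some_iff.1 (hwait x q (by omega) (by omega) h3)).2⟩
  obtain ⟨hsec, KW, LW, hLW, hentry⟩ := LoopSpec.loop_response (fi := fun x => f x.2) hκ hCc hW hinj
    hsite honly hv hother hr0 hr1 hrs hK21 hKi hKi' hK2u
    (fun e he => (hg e he).piece) hb (hsmallP _ (Nat.succ_le_succ (hW.corr_len _)))
  refine ⟨(hsec.mono hKh).corrFam fun e he => (hg e he).corr_bd.C, ?_⟩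
  have hO : ∀ (l : Fin n) (g h : ℕ × ℕ) (w : LevSp 0 h) (j : Fib 0 g),
      (Mo.ins (f l)).O₁ g h w j
        = ∑ i, w i * ((j.1.blk.mu / i.1.blk.mu) ^ s * Model.ins1 (f l) i.1 j.1) := by
    intro l g h w j
    show (Model.modelIns s Nf (f l)).O₁ g h w j = _
    rw [Model.modelIns, if_pos (hf l)]
    exact (Model.nilOpW_apply (f l) s g h w j).1
  have hρ : ∀ x (y : WSt (corrW Mb)), 0 < F x (levV (y.1.blk.level 0)) * Real.exp (ex x y) :=
    fun x y => mul_pos (hF _ _) (Real.exp_pos _)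
  choose βs hβ1 hβ2 hβ3 using fun x : Fin (numCls Mb) × Fin n =>
    hentry corrW_level x (M1 := fun a b => (a.blk.mu / b.blk.mu) ^ s * Model.ins1 (f x.2) b a)
      (hO x.2) (Units.inv_mul (g x.2)) (fun y => (hρ x y).ne') (hfac x) (val := fun z => q z * β z) hval
  -- the scalars
  set τ0 := LoopSpec.oneParams i (v 0) with hτ0
  set kap := fun x (g g' : ℕ × ℕ) =>
    W.siteKap κ j0 t0 ht τ0 i nW (pos x) (βs x) g g'
  set Φ := fun x (g : ℕ × ℕ) => W.sitePhi κ j0 t0 ht τ0 i nW (pos x) g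
  set Md := fun y : WSt (corrW Mb) => sm * L / (5 + 2 * alphaLev (y.1.blk.level 0))
  set e := siteErr κ Cc j Z with hedef
  have he0 : 0 ≤ e := by rw [hedef, siteErr]; positivity
  have heq : e ≤ Ce * sq := by
    rw [hedef, siteErr, hCe, add_mul]
    refine add_le_add ?_ (le_of_eq (by rw [hsq, hbdef]; ring))
    rw [div_eq_mul_one_div]
    exact mul_le_mul_of_nonneg_left hLsq (by positivity)
  have p2 : 0 ≤ 2 * (nW : ℝ) * (Ce * sq) := by positivity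
  have p3 : 0 ≤ Ce * sq := by positivity
  have p4 := mul_le_mul_of_nonneg_left heq (by positivity : (0 : ℝ) ≤ 2 * (nW : ℝ))
  have hne : (2 * (nW : ℝ) + 1) * e ≤ 1 := by linarith
  have herr : 3 * e ≤ 1 := by linarith
  have hsc : ∀ x (y z : WSt (corrW Mb)), _ := fun x y z =>
    LoopSpec.site_scalar (Z := Z) hκ hCc hW (hsite x) (hg 0 (by simpa using hr0.le)).piece hc₀ hbump
      hL8 hκb herr (hβ2 x) (hZz y) (hZz z)
  have hlog : ∀ x (y z : WSt (corrW Mb)),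
      0 < |kap x (y.1.blk.level 0) (z.1.blk.level 0)| ∧
      |Real.log |kap x (y.1.blk.level 0) (z.1.blk.level 0)| - Real.log (Φ x (z.1.blk.level 0))|
        ≤ (3 * Z + 10) * L ∧
      ∀ E : ℝ, 0 ≤ E → E * Real.exp (-(4 * L)) ^ nW
          * W.siteQW κ j0 t0 ht τ0 i nW (pos x) (z.1.blk.level 0)
          / |kap x (y.1.blk.level 0) (z.1.blk.level 0)| ≤ E / c₀ * Real.exp (-L) := fun x y z => by
    obtain ⟨-, h1, h2, ⟨h3, h4⟩, ⟨h5, h6, h7⟩, -⟩ := hsc x y z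
    exact site_log (by linarith) hc₀ hlc hnL (hZz z) hne hn4 hZ0 h1 h2 h3 h4 h5 h6 h7
  have hinv : ∀ x (y z y' z' : WSt (corrW Mb)), levVal y.1 = levVal y'.1 → levVal z.1 = levVal z'.1 →
      kap x (y.1.blk.level 0) (z.1.blk.level 0) = kap x (y'.1.blk.level 0) (z'.1.blk.level 0) ∧
        Φ x (z.1.blk.level 0) = Φ x (z'.1.blk.level 0) := by
    intro x y z y' z' hy hz
    have hy' : levV (y.1.blk.level 0) = levV (y'.1.blk.level 0) := by
      rw [levV_level_eq, levV_level_eq, hy]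
    have hz' : levV (z.1.blk.level 0) = levV (z'.1.blk.level 0) := by
      rw [levV_level_eq, levV_level_eq, hz]
    obtain ⟨-, hΦi, hki⟩ := LoopSpec.siteInv (κ := κ) (j0 := j0) (t0 := t0) (ht := ht) (τ := τ0)
      hW (hsite x) (hβ1 x)
    exact ⟨hki _ _ _ _ hy' hz', hΦi _ _ hz'⟩
  have hd1 : 0 ≤ 2 * (ml * (9 * Ce + 3 + 30 * (nW : ℝ) + 2 * κ)) * sq := by positivity
  have hab : 0 ≤ |Cb| * sq := by positivity
  have hDsq : Dd * sq = 2 * (|Cb| * sq)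
      + 2 * (ml * (9 * Ce + 3 + 30 * (nW : ℝ) + 2 * κ)) * sq := by rw [hDd]; ring
  have hkap := kap_facts (M := Md) (D₁ := 2 * (ml * (9 * Ce + 3 + 30 * (nW : ℝ) + 2 * κ)) * sq)
    hsm0 hml hκ hb1 hbL he0 heq ⟨by linarith, rfl⟩ (fun x y z => (hsc x y z).1) (fun x z => (hsc x z z).2.2.2.2.1.1)
    (fun x y => by rw [hsm]; exact (hsc x y y).2.2.2.2.2) (fun x y z => ⟨(hlog x y z).1, (hlog x y z).2.1⟩)
    hinv hZz (fun y => rfl)
  have hKi0 : 0 ≤ Ki := (zero_le_one.trans hK21).trans hKi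
  have hS50 : 0 ≤ S5 := hS5 ▸ siteC_nonneg hKi0 (zero_le_one.trans hK21) _
  obtain ⟨c, phi, err, h1, h2, h3, h4⟩ := resp_assemble (n := n)
    (fm := fun p x => facMat (LW (Pi.single x 1)) p.1.1 p.1.2)
    (A' := fun p x => conjEntry s g f p x.2) (F := F) (ex := ex) (S := S)
    (kap := fun x y z => kap x (y.1.blk.level 0) (z.1.blk.level 0))
    (Φ := fun x z => Φ x (z.1.blk.level 0)) (M := Md) (L := L) (b₁ := 3 * Z + 10) (D := Dd * sq)
    (D₁ := 2 * (ml * (9 * Ce + 3 + 30 * (nW : ℝ) + 2 * κ)) * sq) (D₂ := 2 * |Cb| * sq)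
    (Te := C5 * sq) (by linarith) hb₀ (by positivity) (le_of_eq (by rw [hDd]; ring)) hd1 sD hβ hq hql
    (fun y => log_diag_le hsm0 hml (alphaLev_nonneg _) (hZz y) (by linarith) hlsm hmlL) hF
    (fun x y z => by
      refine (abs_sub _ _).trans ((add_le_add (hex x y) (hex x z)).trans ?_)
      rw [hsq, mul_one_div, ← add_div]
      exact div_le_div_of_nonneg_right (by linarith [le_abs_self Cb]) (Real.sqrt_nonneg _))
    hlogF hkap hinv fun p x => by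
      set y := p.1.1
      set z := p.1.2
      obtain ⟨hk0, -, hke⟩ := hlog x y z
      obtain ⟨-, -, -, ⟨hq0, -⟩, -, -⟩ := hsc x y z
      refine ⟨CG * S5 * Real.exp (-(4 * L)) ^ nW
        * W.siteQW κ j0 t0 ht τ0 i nW (pos x) (z.1.blk.level 0),
        ((hke (CG * S5) (mul_nonneg hCG0 hS50)).trans
          (mul_le_mul_of_nonneg_left hexpL (div_nonneg (mul_nonneg hCG0 hS50) hc₀.le))).trans_eq
            (by rw [hC5]),
        (hβ3 x y z).trans ?_⟩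
      refine sums_le (abs_nonneg _) (abs_nonneg _) (hrc x.2 y z) hCG0
        (siteC_nonneg hKi0 (zero_le_one.trans hK21) _)
        (hS5 ▸ siteC_mono hKi0 hK21 (Nat.succ_le_succ (hW.corr_len _))) (by positivity) hq0.le
  refine ⟨KW, (LW : (Fin (numCls Mb) × Fin n → ℝ) →ₗ[ℝ] HSp →L[ℝ] HSp), c, phi, err, hLW.qlin,
    h1, fun p => h2 p, fun p x => (h3 p x).trans ?_, h4⟩
  calc 2 * (Dd * sq) * |conjEntry s g f p x.2| + 3 * (C5 * sq)
      ≤ 2 * (Dd * sq) * Amax + 3 * (C5 * sq) := by gcongr; exact hA' p x.2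
    _ = (2 * Dd * Amax + 3 * C5) * sq := by ring


/-- **The response of the corrector.** -/
theorem responseData {κ : ℝ} (hκ : 0 ≤ κ) (s Mb : ℕ) : ResponseData κ s Mb := by
  classical
  intro n g f
  set Z : ℝ := ∑ z : WSt (corrW Mb), alphaLev (z.1.blk.level 0) with hZdef
  have hZ0 : 0 ≤ Z := Finset.sum_nonneg fun z _ => alphaLev_nonneg _
  have hZz : ∀ z : WSt (corrW Mb), alphaLev (z.1.blk.level 0) ≤ Z := fun z =>
    Finset.single_le_sum (f := fun z : WSt (corrW Mb) => alphaLev (z.1.blk.level 0))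
      (fun z _ => alphaLev_nonneg _) (Finset.mem_univ z)
  obtain ⟨c₀, hc₀, -, hbump⟩ := exists_bump_lower
  refine ⟨⌈(3 * Z + 11) / 4⌉₊, fun nW hnW b₀ hb₀ => ⟨2 * b₀ + (3 * Z + 10), by positivity, ?_⟩⟩
  have hn4 : 3 * Z + 11 ≤ 4 * (nW : ℝ) := by
    have h1 : (3 * Z + 11) / 4 ≤ (nW : ℝ) := (Nat.le_ceil _).trans (Nat.cast_le.2 hnW)
    linarith
  have hnW1 : 1 ≤ nW := by
    by_contra h
    obtain rfl : nW = 0 := by omega
    norm_num at hn4
    linarith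
  intro P0 Nf Ra Cc K ε₀ A Cq Cb hf hRa hCc hK hε₀ hA hCq
  set Mo := Model.modelPM s Nf
  obtain ⟨K2, δ₀, hK2, hδ₀, hrange⟩ := exists_segRange_bd (P0 + 1) K hK
  have hK21 : 1 ≤ K2 := hK.trans hK2
  have hKs := Mo.Ks_nonneg
  set Ki := max K2 (insSecK Mo.Ks Cc) with hKidef
  set CG := ∑ l, (∑ y, ∑ k, |(g l : Matrix (WSt (corrW Mb)) (WSt (corrW Mb)) ℝ) y k|)
    * (∑ z, ∑ k, |(((g l)⁻¹ : _) : Matrix (WSt (corrW Mb)) (WSt (corrW Mb)) ℝ) k z|) with hCG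
  set Amax := ∑ p, ∑ l, |conjEntry s g f p l| with hAmax
  set sm := scaleInf * P225.bumpMass with hsm
  have hsm0 : 0 < sm := mul_pos (lt_of_lt_of_le two_pos (Real.le_sqrt_of_sq_le (by norm_num [dMin])))
    P225.bumpMass_pos
  set ml := (5 + 2 * Z) / sm with hml
  have hml0 : 0 ≤ ml := by positivity
  set Ce := 3 * Cc + 3 * κ * (3 + Z) with hCe
  have hCe0 : 0 ≤ Ce := by positivity
  set Dd := 2 * |Cb| + 2 * (ml * (9 * Ce + 3 + 30 * nW + 2 * κ)) with hDd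
  have hDd0 : 0 ≤ Dd := by positivity
  set S5 := siteC Ki K2 (P0 + 1) with hS5
  set C5 := CG * S5 / c₀ with hC5
  set X₁ := 8 + |Real.log c₀| + 30 * (nW : ℝ) + |Real.log sm| + ml with hX₁
  set X₂ := 1 / ε₀ + 12 * Mo.Ks + 2 * K / δ₀ + 8 * K2 ^ 2 * K with hX₂
  set X₃ := 2 * K2 * (5 * K2 ^ 3) ^ (P0 + 1) with hX₃
  obtain ⟨N, hN⟩ := exists_nat_div_sqrt_le (Dd + (2 * nW + 4) * Ce + 2 * κ + X₁ + X₂ + X₃)
    one_pos
  refine ⟨Cq + 2, max K (chainK Ki (P0 + 1)), fun j => (2 * Dd * Amax + 3 * C5) / Real.sqrt ((j : ℝ) + 1),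
    N, by positivity, le_max_left _ _, ?_, ?_⟩
  · refine Tendsto.div_atTop tendsto_const_nhds (Real.tendsto_sqrt_atTop.comp ?_)
    exact tendsto_atTop_add_const_right _ _ tendsto_natCast_atTop_atTop
  intro W j0 t0 ht hW hj ht0 hgood i hi v pos kx S H F ex β q hinj hins hwait hlo honly hv hother
    hamp hβ hq hql hbuf hval hF hlocP hfac hex hlogF hgap hS r corr buf
  set j := j0 + i with hjdef
  set b : ℝ := (j : ℝ) + 1 with hbdef
  set L := b ^ 5 with hLdef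
  set sq := 1 / Real.sqrt b with hsq
  have hb1 : 1 ≤ b := le_add_of_nonneg_left (Nat.cast_nonneg _)
  have hbL : b ≤ L := le_self_pow₀ hb1 (by norm_num)
  have hsq0 : 0 ≤ sq := by positivity
  obtain ⟨⟨sD, sE, hκb⟩, ⟨hL8, hlc, hnL, hlsm, hmlL⟩, ⟨hr1, hrε, hrs, hKu, hK2u⟩, hsmallP, hexpL,
      hLsq⟩ :=
    resp_small (Ks := Mo.Ks) (P0 := P0) (K := K) (c₀ := c₀) (sm := sm) hb1 hDd0 hCe0 hκ hml0 hε₀ hKs (by linarith) hδ₀ hK21 hnW1
      (by
        have h := hN j (hj.trans (by omega))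
        rw [mul_one_div]
        exact h)
  have hr0 : 0 < r := Real.exp_pos _
  set u := 1 / L + r with hu
  have hu0 : 0 ≤ u := by positivity
  -- the loop
  obtain ⟨hfam, KW, LW, c, phi, err, hqlin, h1, h2, h3, h4⟩ := resp_loop (Kh := max K (chainK Ki (P0 + 1)))
    (S5 := S5) (C5 := C5) (Amax := Amax) hκ hZ0 hZz hc₀ hbump hn4 hb₀ hf hCc (by linarith) hK21
    (le_max_left _ _) (le_max_right K2 _) (le_max_right _ _) hrange
    (fun l y z => row_col_le g l y z) (Finset.sum_nonneg fun l _ => by positivity)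
    (fun p l => (Finset.single_le_sum (f := fun l => |conjEntry s g f p l|)
      (fun _ _ => abs_nonneg _) (Finset.mem_univ l)).trans (Finset.single_le_sum
      (f := fun p => ∑ l, |conjEntry s g f p l|) (fun _ _ => Finset.sum_nonneg fun _ _ => abs_nonneg _)
      (Finset.mem_univ p)))
    hsm hsm0 hml hml0 hCe hCe0 hDd hDd0 hS5 hC5 hW hjdef hbdef hLdef hsq hu hb1 hbL hsq0 sD sE hκb
    hL8 hlc hnL hlsm hmlL hr0 hr1 hrs hKu hK2u hsmallP hexpL hLsq hinj hins hwait hlo honly hv hother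
    (fun e he => hgood i (v e) r hr0.le hrε (hamp e he) 0 (by rw [norm_zero]; positivity))
    hβ hq hql hval hF hfac hex hlogF
  exact ⟨hfam, KW, LW, c, S, phi, err, hqlin, h1, h2,
    fun p x => (h3 p x).trans_eq (by rw [hsq, mul_one_div]), hgap,
    fun k hk => (hS k hk).trans (mul_le_mul_of_nonneg_right (by linarith) (by linarith)), h4⟩

end

end Vale.Agent.P225.Loop
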