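import Vale.Agent.P225.Loop.CorrGlue
import Vale.Agent.P225.Loop.CorrLayout
import Vale.Agent.P225.Loop.CorrResponse

/-!
P225 corrector: the corrector of the assembly from the response of its insertions.
-/

namespace Vale.Agent.P225.Loop

noncomputable section

/-- The supply of the corrector from the response, with the baseline of `CorrLayout`. -/
theorem corrSupply_of_response {κ : ℝ} (hκ : 0 ≤ κ) {s Mb : ℕ} (hMb : 1 ≤ Mb)
    (hR : ResponseData κ s Mb) : CorrSupply κ s Mb :=
  corrSupply_of (layoutData hκ s hMb) hR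

/-- The corrector of the assembly from the response. -/
theorem corrParts_of_response {κ : ℝ} (hκ : 0 ≤ κ) {s Mb : ℕ} (hMb : 1 ≤ Mb)
    (hR : ResponseData κ s Mb) : CorrParts κ s Mb :=
  corrParts_of_supply (corrSupply_of_response hκ hMb hR)

/-- The corrector of the assembly. -/
theorem corrParts {κ : ℝ} (hκ : 0 ≤ κ) (s : ℕ) {Mb : ℕ} (hMb : 1 ≤ Mb) : CorrParts κ s Mb :=
  corrParts_of_response hκ hMb (responseData hκ s Mb)

end

end Vale.Agent.P225.Loop
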