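import Vale.Agent.P225.Loop.LBd

/-!
P225 corrector, section 3: families with a linear part and a quadratic remainder in a normed
algebra.  They are closed under sums, products, Neumann inverses and tiny Lipschitz perturbations.
-/

namespace Vale.Agent.P225.Loop

open Metric

noncomputable section

variable {E A : Type*} [NormedAddCommGroup E] [NormedSpace ℝ E] [NormedRing A] [NormedAlgebra ℝ A]

/-- `f` is bounded by `K` on the ball of radius `r` and differs from the linear map `L` by a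
quadratic remainder. -/
structure QLin (r d K : ℝ) (f : E → A) (L : E →ₗ[ℝ] A) : Prop where
  bd : ∀ e, ‖e‖ ≤ r → ‖f e‖ ≤ K
  lin : ∀ v, ‖L v‖ ≤ K * ‖v‖
  rem : ∀ e e', ‖e‖ ≤ r → ‖e'‖ ≤ r →
    ‖f e - f e' - L (e - e')‖ ≤ K * (‖e‖ + ‖e'‖ + d) * ‖e - e'‖

variable {r d K M : ℝ} {f g : E → A} {L L' : E →ₗ[ℝ] A}

theorem QLin.nonneg (h : QLin r d K f L) (hr : 0 ≤ r) : 0 ≤ K :=
  (norm_nonneg _).trans (h.bd 0 (by rwa [norm_zero]))

theorem QLin.mono (h : QLin r d K f L) {d' K' : ℝ} (hr : 0 ≤ r) (hd : 0 ≤ d) (hd' : d ≤ d')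
    (hK : K ≤ K') : QLin r d' K' f L where
  bd e he := (h.bd e he).trans hK
  lin v := (h.lin v).trans (mul_le_mul_of_nonneg_right hK (norm_nonneg _))
  rem e e' he he' := (h.rem e e' he he').trans <| mul_le_mul_of_nonneg_right
    (mul_le_mul hK (by linarith) (by positivity) ((h.nonneg hr).trans hK)) (norm_nonneg _)

theorem qlin_const {a : A} (hr : 0 ≤ r) (hd : 0 ≤ d) (h : ‖a‖ ≤ K) :
    QLin (E := E) r d K (fun _ => a) 0 where
  bd _ _ := h
  lin v := by
    simpa using mul_nonneg ((norm_nonneg a).trans h) (norm_nonneg v)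
  rem e e' _ _ := by
    have := (norm_nonneg a).trans h
    simp only [sub_self, LinearMap.zero_apply, norm_zero]
    positivity

theorem QLin.add (h : QLin r d K f L) (h' : QLin r d M g L') :
    QLin r d (K + M) (fun e => f e + g e) (L + L') where
  bd e he := (norm_add_le _ _).trans (add_le_add (h.bd e he) (h'.bd e he))
  lin v := by
    rw [LinearMap.add_apply, add_mul]
    exact (norm_add_le _ _).trans (add_le_add (h.lin v) (h'.lin v))
  rem e e' he he' := by
    have e1 : f e + g e - (f e' + g e') - (L + L') (e - e')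
        = (f e - f e' - L (e - e')) + (g e - g e' - L' (e - e')) := by
      rw [LinearMap.add_apply]; abel
    rw [e1, add_mul, add_mul]
    exact (norm_add_le _ _).trans (add_le_add (h.rem e e' he he') (h'.rem e e' he he'))

/-- The Lipschitz bound of such a family. -/
theorem QLin.lip (h : QLin r d K f L) (hr : 0 ≤ r) (hr1 : r ≤ 1) (hd1 : d ≤ 1) {e e' : E}
    (he : ‖e‖ ≤ r) (he' : ‖e'‖ ≤ r) : ‖f e - f e'‖ ≤ 4 * K * ‖e - e'‖ := by
  have hK := h.nonneg hr
  calc ‖f e - f e'‖ = ‖(f e - f e' - L (e - e')) + L (e - e')‖ := by rw [sub_add_cancel]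
    _ ≤ K * (‖e‖ + ‖e'‖ + d) * ‖e - e'‖ + K * ‖e - e'‖ :=
        (norm_add_le _ _).trans (add_le_add (h.rem e e' he he') (h.lin _))
    _ ≤ K * 3 * ‖e - e'‖ + K * ‖e - e'‖ := by gcongr; linarith
    _ = 4 * K * ‖e - e'‖ := by ring

theorem QLin.mul (h : QLin r d K f L) (h' : QLin r d M g L') (hr : 0 ≤ r) (hr1 : r ≤ 1)
    (hd : 0 ≤ d) (hd1 : d ≤ 1) :
    QLin r d (22 * K * M) (fun e => f e * g e)
      ((LinearMap.mulRight ℝ (g 0)).comp L + (LinearMap.mulLeft ℝ (f 0)).comp L') := by
  have hK := h.nonneg hr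
  have hM := h'.nonneg hr
  have hKM : 0 ≤ K * M := mul_nonneg hK hM
  refine ⟨fun e he => ?_, fun v => ?_, fun e e' he he' => ?_⟩
  · refine ((norm_mul_le _ _).trans (mul_le_mul (h.bd e he) (h'.bd e he) (norm_nonneg _) hK)).trans ?_
    linarith
  · simp only [LinearMap.add_apply, LinearMap.comp_apply, LinearMap.mulRight_apply,
      LinearMap.mulLeft_apply]
    refine (norm_add_le _ _).trans ?_
    refine (add_le_add ((norm_mul_le _ _).trans (mul_le_mul (h.lin v)
      (h'.bd 0 (by rwa [norm_zero])) (norm_nonneg _) (by positivity)))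
      ((norm_mul_le _ _).trans (mul_le_mul (h.bd 0 (by rwa [norm_zero])) (h'.lin v)
      (norm_nonneg _) hK))).trans ?_
    linarith [mul_nonneg hKM (norm_nonneg v)]
  · set Δ := e - e'
    set s := ‖e‖ + ‖e'‖ + d
    have hs : 0 ≤ s := by positivity
    have hΔ := norm_nonneg Δ
    have he0 : ‖g e - g 0‖ ≤ 4 * M * s := by
      refine (h'.lip hr hr1 hd1 he (by rwa [norm_zero])).trans ?_
      rw [sub_zero]
      exact mul_le_mul_of_nonneg_left (by simp only [s]; linarith [norm_nonneg e']) (by positivity)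
    have he0' : ‖f e' - f 0‖ ≤ 4 * K * s := by
      refine (h.lip hr hr1 hd1 he' (by rwa [norm_zero])).trans ?_
      rw [sub_zero]
      exact mul_le_mul_of_nonneg_left (by simp only [s]; linarith [norm_nonneg e]) (by positivity)
    have e1 : f e * g e - f e' * g e'
        - ((LinearMap.mulRight ℝ (g 0)).comp L + (LinearMap.mulLeft ℝ (f 0)).comp L') Δ
        = (f e - f e' - L Δ) * g e + L Δ * (g e - g 0) + (f e' - f 0) * (g e - g e')
          + f 0 * (g e - g e' - L' Δ) := by
      simp only [LinearMap.add_apply, LinearMap.comp_apply, LinearMap.mulRight_apply,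
        LinearMap.mulLeft_apply, sub_mul, mul_sub]
      abel
    rw [e1]
    refine norm_add₄_le.trans ?_
    calc ‖(f e - f e' - L Δ) * g e‖ + ‖L Δ * (g e - g 0)‖ + ‖(f e' - f 0) * (g e - g e')‖
          + ‖f 0 * (g e - g e' - L' Δ)‖
        ≤ K * s * ‖Δ‖ * M + K * ‖Δ‖ * (4 * M * s) + 4 * K * s * (4 * M * ‖Δ‖)
          + K * (M * s * ‖Δ‖) := by
          gcongr ?_ + ?_ + ?_ + ?_
          · exact (norm_mul_le _ _).trans (mul_le_mul (h.rem e e' he he') (h'.bd e he)
              (norm_nonneg _) (by positivity))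
          · exact (norm_mul_le _ _).trans (mul_le_mul (h.lin Δ) he0 (norm_nonneg _) (by positivity))
          · exact (norm_mul_le _ _).trans (mul_le_mul he0' (h'.lip hr hr1 hd1 he he')
              (norm_nonneg _) (by positivity))
          · exact (norm_mul_le _ _).trans (mul_le_mul (h.bd 0 (by rwa [norm_zero]))
              (h'.rem e e' he he') (norm_nonneg _) hK)
      _ = 22 * K * M * s * ‖Δ‖ := by ring

/-- A tiny Lipschitz perturbation is absorbed by the remainder. -/
theorem QLin.add_small (h : QLin r d K f L) {G : E → A} {ε : ℝ}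
    (hG : LBd (closedBall 0 r) ε G) (hr : 0 ≤ r) (hε : ε ≤ M * d) (hd1 : d ≤ 1)
    (hM : 0 ≤ M) : QLin r d (K + M) (fun e => f e + G e) L where
  bd e he := (norm_add_le _ _).trans (add_le_add (h.bd e he)
    ((hG.1 e (by simpa using he)).trans (hε.trans (mul_le_of_le_one_right hM hd1))))
  lin v := (h.lin v).trans (mul_le_mul_of_nonneg_right (le_add_of_nonneg_right hM) (norm_nonneg _))
  rem e e' he he' := by
    have hG' := hG.2 e (by simpa using he) e' (by simpa using he')
    rw [dist_eq_norm] at hG'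
    have hε0 : 0 ≤ ε := (norm_nonneg _).trans (hG.1 0 (by simpa using hr))
    have e1 : f e + G e - (f e' + G e') - L (e - e')
        = (f e - f e' - L (e - e')) + (G e - G e') := by abel
    rw [e1, add_mul, add_mul]
    refine (norm_add_le _ _).trans (add_le_add (h.rem e e' he he') (hG'.trans ?_))
    refine mul_le_mul_of_nonneg_right (hε.trans ?_) (norm_nonneg _)
    exact mul_le_mul_of_nonneg_left (by linarith [norm_nonneg e, norm_nonneg e']) hM

theorem QLin.lbd (h : QLin r d K f L) (hr : 0 ≤ r) (hr1 : r ≤ 1) (hd1 : d ≤ 1) :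
    LBd (closedBall 0 r) (4 * K) f :=
  ⟨fun e he => (h.bd e (by simpa using he)).trans (by linarith [h.nonneg hr]), fun e he e' he' => by
    rw [dist_eq_norm]; exact h.lip hr hr1 hd1 (by simpa using he) (by simpa using he')⟩

variable [CompleteSpace A] [NormOneClass A]

theorem QLin.inv (h : QLin r d K f L) (hr : 0 ≤ r) (hr1 : r ≤ 1) (hd : 0 ≤ d) (hd1 : d ≤ 1)
    (hK : 1 ≤ K) (hsmall : ∀ e, ‖e‖ ≤ r → ‖f e‖ ≤ 1 / 4) :
    QLin r d (100 * K ^ 2) (fun e => Ring.inverse (1 - f e))
      ((LinearMap.mulLeft ℝ (Ring.inverse (1 - f 0))).comp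
        ((LinearMap.mulRight ℝ (Ring.inverse (1 - f 0))).comp L)) := by
  set N : E → A := fun e => Ring.inverse (1 - f e) with hN
  have hb : ∀ e, ‖e‖ ≤ r → ‖N e‖ ≤ 2 ∧ IsUnit (1 - f e) := fun e he => by
    obtain ⟨h1, -, h3⟩ := inv_one_sub_bound (hsmall e he)
    exact ⟨h1.trans (by norm_num), h3⟩
  have hdiff : ∀ a b, ‖a‖ ≤ r → ‖b‖ ≤ r → N a - N b = N a * (f a - f b) * N b := by
    intro a b ha hb'
    calc N a - N b = N a * ((1 - f b) * N b) - N a * (1 - f a) * N b := by
          simp only [hN]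
          rw [Ring.mul_inverse_cancel _ (hb b hb').2, Ring.inverse_mul_cancel _ (hb a ha).2,
            mul_one, one_mul]
      _ = _ := by rw [← mul_assoc, ← sub_mul, ← mul_sub]; congr 2; abel
  have h0 : ‖(0 : E)‖ ≤ r := by rwa [norm_zero]
  have hK0 : 0 ≤ K := zero_le_one.trans hK
  refine ⟨fun e he => (hb e he).1.trans (by nlinarith), fun v => ?_, fun e e' he he' => ?_⟩
  · simp only [LinearMap.comp_apply, LinearMap.mulLeft_apply, LinearMap.mulRight_apply]
    calc ‖N 0 * (L v * N 0)‖ ≤ 2 * (K * ‖v‖ * 2) :=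
          (norm_mul_le _ _).trans (mul_le_mul (hb 0 h0).1 ((norm_mul_le _ _).trans
            (mul_le_mul (h.lin v) (hb 0 h0).1 (norm_nonneg _) (by positivity))) (norm_nonneg _)
            zero_le_two)
      _ = 4 * K * ‖v‖ := by ring
      _ ≤ 100 * K ^ 2 * ‖v‖ := mul_le_mul_of_nonneg_right (by nlinarith) (norm_nonneg _)
  · set Δ := e - e'
    set s := ‖e‖ + ‖e'‖ + d
    have hs : 0 ≤ s := by positivity
    have hN0 : ∀ a, ‖a‖ ≤ r → ‖a‖ ≤ s → ‖N a - N 0‖ ≤ 16 * K * s := by
      intro a ha has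
      rw [hdiff a 0 ha h0]
      calc ‖N a * (f a - f 0) * N 0‖ ≤ 2 * (4 * K * ‖a - 0‖) * 2 :=
            (norm_mul_le _ _).trans (mul_le_mul ((norm_mul_le _ _).trans (mul_le_mul (hb a ha).1
              (h.lip hr hr1 hd1 ha h0) (norm_nonneg _) zero_le_two)) (hb 0 h0).1 (norm_nonneg _)
              (by positivity))
        _ ≤ 2 * (4 * K * s) * 2 := by rw [sub_zero]; gcongr
        _ = 16 * K * s := by ring
    have e1 : N e - N e' - N 0 * (L Δ * N 0)
        = N e * (f e - f e' - L Δ) * N e' + (N e - N 0) * L Δ * N e'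
          + N 0 * L Δ * (N e' - N 0) := by
      rw [hdiff e e' he he']
      simp only [sub_mul, mul_sub, mul_assoc]
      abel
    simp only [LinearMap.comp_apply, LinearMap.mulLeft_apply, LinearMap.mulRight_apply]
    show ‖N e - N e' - N 0 * (L Δ * N 0)‖ ≤ _
    rw [e1]
    refine norm_add₃_le.trans ?_
    calc ‖N e * (f e - f e' - L Δ) * N e'‖ + ‖(N e - N 0) * L Δ * N e'‖
          + ‖N 0 * L Δ * (N e' - N 0)‖
        ≤ 2 * (K * s * ‖Δ‖) * 2 + 16 * K * s * (K * ‖Δ‖) * 2
          + 2 * (K * ‖Δ‖) * (16 * K * s) := by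
          gcongr ?_ + ?_ + ?_
          · exact (norm_mul_le _ _).trans (mul_le_mul ((norm_mul_le _ _).trans (mul_le_mul (hb e he).1
              (h.rem e e' he he') (norm_nonneg _) zero_le_two)) (hb e' he').1 (norm_nonneg _)
              (by positivity))
          · exact (norm_mul_le _ _).trans (mul_le_mul ((norm_mul_le _ _).trans (mul_le_mul
              (hN0 e he (by simp only [s]; linarith [norm_nonneg e'])) (h.lin Δ) (norm_nonneg _)
              (by positivity))) (hb e' he').1 (norm_nonneg _) (by positivity))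
          · exact (norm_mul_le _ _).trans (mul_le_mul ((norm_mul_le _ _).trans (mul_le_mul (hb 0 h0).1
              (h.lin Δ) (norm_nonneg _) zero_le_two))
              (hN0 e' he' (by simp only [s]; linarith [norm_nonneg e])) (norm_nonneg _)
              (by positivity))
      _ = (4 * K + 64 * K ^ 2) * s * ‖Δ‖ := by ring
      _ ≤ 100 * K ^ 2 * s * ‖Δ‖ := by
          gcongr
          nlinarith

omit [CompleteSpace A] [NormOneClass A] in
/-- The linear part is unique when there is no constant term in the remainder. -/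
theorem QLin.unique (h : QLin r 0 K f L) (h' : QLin r 0 M f L') (hr : 0 < r) : L = L' := by
  refine LinearMap.ext fun v => ?_
  by_contra hne
  have hpos : 0 < ‖L v - L' v‖ := norm_pos_iff.2 (sub_ne_zero.2 hne)
  have hK := h.nonneg hr.le
  have hM := h'.nonneg hr.le
  obtain ⟨t, ht, ht'⟩ : ∃ t : ℝ, 0 < t ∧ t * (‖v‖ + 1) ≤ r ∧
      t * ((K + M) * ‖v‖ * ‖v‖ + 1) ≤ ‖L v - L' v‖ / 2 := by
    refine ⟨min (r / (‖v‖ + 1)) (‖L v - L' v‖ / 2 / ((K + M) * ‖v‖ * ‖v‖ + 1)),
      lt_min (by positivity) (by positivity), ?_, ?_⟩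
    · exact (le_div_iff₀ (by positivity)).1 (min_le_left _ _)
    · exact (le_div_iff₀ (by positivity)).1 (min_le_right _ _)
  obtain ⟨ht1, ht2⟩ := ht'
  have htv : ‖t • v‖ ≤ r := by
    rw [norm_smul, Real.norm_eq_abs, abs_of_pos ht]
    linarith
  have e1 : t • (L v - L' v) = (f (t • v) - f 0 - L' (t • v - 0))
      - (f (t • v) - f 0 - L (t • v - 0)) := by
    rw [sub_zero, map_smul, map_smul, smul_sub]; abel
  have h1 := (congrArg norm e1).le.trans (norm_sub_le _ _)
  have h2 := h1.trans (add_le_add (h'.rem _ 0 htv (by rw [norm_zero]; exact hr.le))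
    (h.rem _ 0 htv (by rw [norm_zero]; exact hr.le)))
  rw [sub_zero, norm_zero, add_zero, add_zero, norm_smul, norm_smul, Real.norm_eq_abs,
    abs_of_pos ht] at h2
  have h3 : t * ‖L v - L' v‖ ≤ t * (t * ((K + M) * ‖v‖ * ‖v‖ + 1)) := by
    linarith [mul_pos ht ht]
  have := le_of_mul_le_mul_left h3 ht
  linarith

end

end Vale.Agent.P225.Loop
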