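import Vale.Agent.P225.Loop.InsKap

/-!
P225, CorrResponse (helper2): sign and size of the scalars `kapMod`, and their exact asymptotics
on a diagonal level pair.
-/

open Set

namespace Vale.Agent.P225

noncomputable section

theorem bump_nonneg (x : ℝ) : 0 ≤ bump x :=
  mul_nonneg (Real.smoothTransition.nonneg _) (Real.smoothTransition.nonneg _)

theorem bump_continuous : Continuous bump :=
  continuous_iff_continuousAt.2 fun t => (hasDerivAt_bump t).continuousAt

theorem exists_bump_lower : ∃ c₀ : ℝ, 0 < c₀ ∧ c₀ ≤ 1 ∧ ∀ x ∈ Icc (3 / 8 : ℝ) (5 / 8), c₀ ≤ bump x := by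
  obtain ⟨x₀, hx₀, hmin⟩ := (isCompact_Icc (a := (3 / 8 : ℝ)) (b := 5 / 8)).exists_isMinOn
    (nonempty_Icc.2 (by norm_num)) bump_continuous.continuousOn
  refine ⟨bump x₀, mul_pos (Real.smoothTransition.pos_of_pos (by linarith [hx₀.1]))
    (Real.smoothTransition.pos_of_pos (by linarith [hx₀.2])),
    (le_abs_self _).trans (abs_bump_le _), fun x hx => hmin hx⟩

/-- The mass of the profile. -/
def bumpMass : ℝ := ∫ x in (0 : ℝ)..1, bump x

theorem bumpMass_pos : 0 < bumpMass :=
  intervalIntegral.integral_pos (by norm_num) bump_continuous.continuousOn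
    (fun x _ => bump_nonneg x) ⟨1 / 2, by norm_num, mul_pos
      (Real.smoothTransition.pos_of_pos (by norm_num)) (Real.smoothTransition.pos_of_pos (by norm_num))⟩

namespace InsOp

variable {c φ : ℝ → ℝ} {a b : ℝ}

theorem kerW_nonneg {w : ℝ → ℝ} (hf : ∀ r ∈ Icc a b, 0 ≤ φ r) {t : ℝ} (ht : t ∈ Icc a b) :
    0 ≤ kerW c w a (0 : ℝ) φ t := by
  simp only [kerW, zero_add, smul_eq_mul]
  exact mul_nonneg (Real.exp_pos _).le (intervalIntegral.integral_nonneg ht.1 fun r hr =>
    mul_nonneg (Real.exp_pos _).le (hf r ⟨hr.1, hr.2.trans ht.2⟩))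

theorem abs_kerW_le {w : ℝ → ℝ} (hc : Continuous c) (hw : Continuous w) (hcw : ∀ r ∈ Icc a b, 1 ≤ c r + w r)
    {F : ℝ} (hf : ∀ r ∈ Icc a b, |φ r| ≤ F) {t : ℝ} (ht : t ∈ Icc a b) :
    |kerW c w a (0 : ℝ) φ t| ≤ F := by
  rw [← Real.norm_eq_abs]
  exact (norm_kerW_zero_le hc hw one_pos ht.1 (fun r hr => hcw r ⟨hr.1, hr.2.trans ht.2⟩)
    fun r hr => hf r ⟨hr.1, hr.2.trans ht.2⟩).trans_eq (div_one F)

/-- `firstKer` as an integral from the left end. -/
theorem firstKer_eq {z : St → ℝ → ℝ} (hz : ∀ i, Continuous (z i)) (f : ℝ → ℝ) (g g' : ℕ × ℕ) :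
    firstKer z c f a b g g' = -∫ s in a..b, Real.exp (-Ode.prim (z (levRep g)) a s) *
      kerW c (z (levRep g)) a 0 (fun r => f r * Real.exp (Ode.prim (z (levRep g')) b r)) s := by
  set p := z (levRep g)
  have e : ∀ s, Ode.prim p b a - Ode.prim p b s = -Ode.prim p a s := fun s => by
    simp only [Ode.prim]
    rw [intervalIntegral.integral_interval_sub_left ((hz _).intervalIntegrable _ _)
      ((hz _).intervalIntegrable _ _), intervalIntegral.integral_symm]
  simp only [firstKer, kerY, zero_add, smul_eq_mul]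
  rw [intervalIntegral.integral_symm, mul_neg, ← intervalIntegral.integral_const_mul]
  congr 1
  refine intervalIntegral.integral_congr fun s _ => ?_
  show _ = _
  rw [← mul_assoc, ← Real.exp_add, ← sub_eq_add_neg, e]

variable {z : St → ℝ → ℝ} {f : ℝ → ℝ} {β qW : ℕ × ℕ → ℝ} {g g' : ℕ × ℕ}

theorem continuous_firstInt (hz : ∀ i, Continuous (z i)) (hc : Continuous c) (hf : Continuous f) :
    Continuous fun s => Real.exp (-Ode.prim (z (levRep g)) a s) *
      kerW c (z (levRep g)) a (0 : ℝ) (fun r => f r * Real.exp (Ode.prim (z (levRep g')) b r)) s :=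
  (Real.continuous_exp.comp (Ode.continuous_prim (hz _) a).neg).mul
    (continuous_kerW hc (hz _) a 0 (hf.mul (Real.continuous_exp.comp (Ode.continuous_prim (hz _) b))))

/-- The scalar of an insertion and waits is negative. -/
theorem kapMod_neg (hz : ∀ i, Continuous (z i)) (hab : a ≤ b)
    (hf : ∀ r ∈ Icc a b, 0 ≤ f r) (hβ : β g ≤ 0) (hq : 0 ≤ qW g')
    : kapMod z c f a b β qW g g' ≤ 0 := by
  refine mul_nonpos_of_nonpos_of_nonneg (add_nonpos ?_ ?_) hq
  · rw [firstKer_eq hz, neg_nonpos]
    exact intervalIntegral.integral_nonneg hab fun s hs => mul_nonneg (Real.exp_pos _).le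
      (kerW_nonneg (fun r hr => mul_nonneg (hf r hr) (Real.exp_pos _).le) hs)
  · exact mul_nonpos_of_nonpos_of_nonneg
      (mul_nonpos_of_nonneg_of_nonpos (Ode.coefQ_pos _ _ _).le hβ)
      (kerW_nonneg (fun r hr => mul_nonneg (hf r hr) (Real.exp_pos _).le) (right_mem_Icc.2 hab))

/-- Crude bounds of the scalar. -/
theorem kapMod_bounds (hz : ∀ i, Continuous (z i)) (hc : Continuous c) (hf : Continuous f)
    {Z c₀ L : ℝ} (hL : 8 ≤ L) (hab : b = a + L)
    (hz0 : ∀ i, ∀ t ∈ Icc a b, 0 ≤ z i t)
    (hzZ : ∀ t ∈ Icc a b, z (levRep g) t ≤ Z ∧ z (levRep g') t ≤ Z)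
    (hc1 : ∀ t ∈ Icc a b, 1 ≤ c t ∧ c t ≤ 6) (hf0 : ∀ r ∈ Icc a b, 0 ≤ f r ∧ f r ≤ 3)
    (hfc : ∀ r ∈ Icc (a + 3 * L / 8) (a + 5 * L / 8), c₀ ≤ f r) (hc₀ : 0 < c₀)
    {Bβ : ℝ} (hβ : β g ≤ 0) (hβ' : |β g| ≤ Bβ) (hq : 0 < qW g') :
    c₀ * Real.exp (-((6 + 3 * Z) * L)) * qW g' ≤ |kapMod z c f a b β qW g g'| ∧
      |kapMod z c f a b β qW g g'| ≤ (3 * L + 3 * Bβ) * qW g' := by
  have hle : a ≤ b := by linarith
  have hab' : a ∈ Icc a b := left_mem_Icc.2 hle
  have hZ : 0 ≤ Z := (hz0 _ a hab').trans (hzZ a hab').1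
  set p := z (levRep g)
  set ψ := fun r => f r * Real.exp (Ode.prim (z (levRep g')) b r) with hψ
  have hψc : Continuous ψ := hf.mul (Real.continuous_exp.comp (Ode.continuous_prim (hz _) b))
  have hψ3 : ∀ r ∈ Icc a b, 0 ≤ ψ r ∧ |ψ r| ≤ 3 := by
    intro r hr
    have h0 : 0 ≤ ψ r := mul_nonneg (hf0 r hr).1 (Real.exp_pos _).le
    refine ⟨h0, ?_⟩
    rw [abs_of_nonneg h0]
    have h1 : Real.exp (Ode.prim (z (levRep g')) b r) ≤ 1 := by
      rw [Real.exp_le_one_iff, Ode.prim, intervalIntegral.integral_symm]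
      exact neg_nonpos.2 (intervalIntegral.integral_nonneg hr.2 fun t ht =>
        hz0 _ t ⟨hr.1.trans ht.1, ht.2⟩)
    calc ψ r ≤ 3 * 1 := mul_le_mul (hf0 r hr).2 h1 (Real.exp_pos _).le (by norm_num)
      _ = 3 := mul_one 3
  have hw : ∀ s ∈ Icc a b, 0 ≤ kerW c p a (0 : ℝ) ψ s ∧ kerW c p a (0 : ℝ) ψ s ≤ 3 := fun s hs =>
    ⟨kerW_nonneg (fun r hr => (hψ3 r hr).1) hs, (le_abs_self _).trans
      (abs_kerW_le hc (hz _) (fun r hr => by linarith [(hc1 r hr).1, hz0 (levRep g) r hr])
        (fun r hr => (hψ3 r hr).2) hs)⟩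
  set u := fun s => Real.exp (-Ode.prim p a s) * kerW c p a (0 : ℝ) ψ s with hu
  have huc : Continuous u := continuous_firstInt hz hc hf
  have hprim : ∀ s ∈ Icc a b, 0 ≤ Ode.prim p a s ∧ Ode.prim p a s ≤ Z * L := by
    intro s hs
    refine ⟨intervalIntegral.integral_nonneg hs.1 fun t ht => hz0 _ t ⟨ht.1, ht.2.trans hs.2⟩, ?_⟩
    calc Ode.prim p a s ≤ ∫ _ in a..s, Z := intervalIntegral.integral_mono_on hs.1
          ((hz _).intervalIntegrable _ _) intervalIntegrable_const
          fun t ht => (hzZ t ⟨ht.1, ht.2.trans hs.2⟩).1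
      _ = Z * (s - a) := by simp [mul_comm]
      _ ≤ Z * L := mul_le_mul_of_nonneg_left (by linarith [hs.2]) hZ
  have hu3 : ∀ s ∈ Icc a b, 0 ≤ u s ∧ u s ≤ 3 := fun s hs => by
    refine ⟨mul_nonneg (Real.exp_pos _).le (hw s hs).1, ?_⟩
    calc u s ≤ 1 * 3 := mul_le_mul (Real.exp_le_one_iff.2 (neg_nonpos.2 (hprim s hs).1)) (hw s hs).2
          (hw s hs).1 zero_le_one
      _ = 3 := one_mul 3
  have hI : firstKer z c f a b g g' = -∫ s in a..b, u s := firstKer_eq hz f g g'
  have hE0 : 0 ≤ Ode.coefQ p a b * -β g * kerW c p a (0 : ℝ) ψ b :=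
    mul_nonneg (mul_nonneg (Ode.coefQ_pos _ _ _).le (by linarith)) (hw b (right_mem_Icc.2 hle)).1
  have habs : |kapMod z c f a b β qW g g'|
      = ((∫ s in a..b, u s) + Ode.coefQ p a b * -β g * kerW c p a (0 : ℝ) ψ b) * qW g' := by
    rw [abs_of_nonpos (kapMod_neg hz hle (fun r hr => (hf0 r hr).1) hβ hq.le), kapMod, hI, evKer]
    ring
  rw [habs]
  constructor
  · refine mul_le_mul_of_nonneg_right (le_trans ?_ (le_add_of_nonneg_right hE0)) hq.le
    have hlow : ∀ s ∈ Icc (a + 5 * L / 8) b, c₀ * Real.exp (-((6 + 3 * Z) * L)) ≤ u s := by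
      intro s hs
      have hsI : s ∈ Icc a b := ⟨by linarith [hs.1], hs.2⟩
      have hcp : Continuous fun r => c r + p r := hc.add (hz _)
      have key : c₀ * Real.exp (-((6 + 2 * Z) * L)) ≤ kerW c p a (0 : ℝ) ψ s := by
        simp only [kerW, zero_add, smul_eq_mul, ← intervalIntegral.integral_const_mul]
        have hcont : Continuous fun r => Real.exp (-Ode.prim (fun s => c s + p s) a s) *
            (Real.exp (Ode.prim (fun s => c s + p s) a r) * ψ r) :=
          continuous_const.mul ((Real.continuous_exp.comp (Ode.continuous_prim hcp a)).mul hψc)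
        have hpt : ∀ r ∈ Icc (a + 3 * L / 8) (a + 5 * L / 8), c₀ * Real.exp (-((6 + 2 * Z) * L))
            ≤ Real.exp (-Ode.prim (fun s => c s + p s) a s) *
              (Real.exp (Ode.prim (fun s => c s + p s) a r) * ψ r) := by
          intro r hr
          have hrI : r ∈ Icc a b := ⟨by linarith [hr.1], by linarith [hr.2]⟩
          have e1 : Ode.prim (fun s => c s + p s) a s - Ode.prim (fun s => c s + p s) a r
              ≤ (6 + Z) * L := by
            simp only [Ode.prim]
            rw [intervalIntegral.integral_interval_sub_left (hcp.intervalIntegrable _ _)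
              (hcp.intervalIntegrable _ _)]
            have hrs : r ≤ s := hr.2.trans hs.1
            calc ∫ t in r..s, c t + p t ≤ ∫ _ in r..s, (6 + Z) :=
                  intervalIntegral.integral_mono_on hrs (hcp.intervalIntegrable _ _)
                    intervalIntegrable_const fun t ht => by
                      have htI : t ∈ Icc a b := ⟨hrI.1.trans ht.1, ht.2.trans hs.2⟩
                      linarith [(hc1 t htI).2, (hzZ t htI).1]
              _ = (6 + Z) * (s - r) := by simp; ring
              _ ≤ (6 + Z) * L := mul_le_mul_of_nonneg_left (by linarith [hs.2, hrI.1]) (by linarith)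
          have e2 : -(Z * L) ≤ Ode.prim (z (levRep g')) b r := by
            rw [Ode.prim, intervalIntegral.integral_symm, neg_le_neg_iff]
            calc ∫ t in r..b, z (levRep g') t ≤ ∫ _ in r..b, Z :=
                  intervalIntegral.integral_mono_on hrI.2 ((hz _).intervalIntegrable _ _)
                    intervalIntegrable_const fun t ht => (hzZ t ⟨hrI.1.trans ht.1, ht.2⟩).2
              _ = Z * (b - r) := by simp [mul_comm]
              _ ≤ Z * L := mul_le_mul_of_nonneg_left (by linarith [hrI.1]) hZ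
          simp only [hψ]
          rw [show ∀ A B C D : ℝ, A * (B * (C * D)) = C * (A * B * D) from fun A B C D => by ring,
            ← Real.exp_add, ← Real.exp_add]
          exact mul_le_mul (hfc r hr) (Real.exp_le_exp.2 (by linarith)) (Real.exp_pos _).le
            (hf0 r hrI).1
        calc c₀ * Real.exp (-((6 + 2 * Z) * L))
            ≤ L / 4 * (c₀ * Real.exp (-((6 + 2 * Z) * L))) :=
              le_mul_of_one_le_left (by positivity) (by linarith)
          _ = ∫ _ in (a + 3 * L / 8)..(a + 5 * L / 8), c₀ * Real.exp (-((6 + 2 * Z) * L)) := by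
              simp; ring
          _ ≤ _ := intervalIntegral.integral_mono_on (by linarith) intervalIntegrable_const
              (hcont.intervalIntegrable _ _) hpt
          _ ≤ _ := intervalIntegral.integral_mono_interval (by linarith) (by linarith)
              (by linarith [hs.1])
              ((MeasureTheory.ae_restrict_iff' measurableSet_Ioc).2 (Filter.Eventually.of_forall
                fun r hr => mul_nonneg (Real.exp_pos _).le (mul_nonneg (Real.exp_pos _).le
                  (hψ3 r ⟨hr.1.le, hr.2.trans hsI.2⟩).1)))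
              (hcont.intervalIntegrable _ _)
      calc c₀ * Real.exp (-((6 + 3 * Z) * L))
          = Real.exp (-(Z * L)) * (c₀ * Real.exp (-((6 + 2 * Z) * L))) := by
            rw [mul_left_comm, ← Real.exp_add]; congr 2; ring
        _ ≤ u s := mul_le_mul (Real.exp_le_exp.2 (neg_le_neg (hprim s hsI).2)) key (by positivity)
            (Real.exp_pos _).le
    calc c₀ * Real.exp (-((6 + 3 * Z) * L))
        ≤ 3 * L / 8 * (c₀ * Real.exp (-((6 + 3 * Z) * L))) :=
          le_mul_of_one_le_left (by positivity) (by linarith)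
      _ = ∫ _ in (a + 5 * L / 8)..b, c₀ * Real.exp (-((6 + 3 * Z) * L)) := by simp [hab]; ring
      _ ≤ ∫ s in (a + 5 * L / 8)..b, u s := intervalIntegral.integral_mono_on (by linarith)
          intervalIntegrable_const (huc.intervalIntegrable _ _) hlow
      _ ≤ _ := intervalIntegral.integral_mono_interval (by linarith) (by linarith) le_rfl
          ((MeasureTheory.ae_restrict_iff' measurableSet_Ioc).2 (Filter.Eventually.of_forall
            fun r hr => (hu3 r ⟨hr.1.le, hr.2⟩).1))
          (huc.intervalIntegrable _ _)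
  · refine mul_le_mul_of_nonneg_right (add_le_add ?_ ?_) hq.le
    · calc ∫ s in a..b, u s ≤ ∫ _ in a..b, (3 : ℝ) := intervalIntegral.integral_mono_on hle
            (huc.intervalIntegrable _ _) intervalIntegrable_const fun s hs => (hu3 s hs).2
        _ = 3 * L := by simp [hab]; ring
    · have h1 : Ode.coefQ p a b ≤ 1 := by
        simpa using Ode.coefQ_le (k := 0) (hz _) hle fun t ht => hz0 _ t ht
      have h2 : -β g ≤ Bβ := (neg_le_abs _).trans hβ'
      calc Ode.coefQ p a b * -β g * kerW c p a (0 : ℝ) ψ b ≤ 1 * Bβ * 3 :=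
            mul_le_mul (mul_le_mul h1 h2 (by linarith) zero_le_one) (hw b (right_mem_Icc.2 hle)).2
              (hw b (right_mem_Icc.2 hle)).1 (by linarith [(abs_nonneg _).trans hβ'])
        _ = 3 * Bβ := by ring

theorem evKer_diag (hz : ∀ i, Continuous (z i)) (hc : Continuous c) (g : ℕ × ℕ) (s : ℝ) :
    kerW c (z (levRep g)) a 0 (fun r => f r * Real.exp (Ode.prim (z (levRep g)) b r)) s
      = Real.exp (Ode.prim (z (levRep g)) b s) *
        kerW (fun t => c t + z (levRep g) t) (z (levRep g)) a (0 : ℝ) f s := by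
  set p := z (levRep g)
  have hp : Continuous p := hz _
  have hcp : Continuous fun t => c t + p t := hc.add hp
  have e : ∀ t, Ode.prim (fun s => c s + p s + p s) a t
      = Ode.prim (fun s => c s + p s) a t + Ode.prim p a t := fun t =>
    intervalIntegral.integral_add (hcp.intervalIntegrable _ _) (hp.intervalIntegrable _ _)
  have e2 : ∀ t, Ode.prim p b t = Ode.prim p b a + Ode.prim p a t := fun t =>
    (intervalIntegral.integral_add_adjacent_intervals (hp.intervalIntegrable _ _)
      (hp.intervalIntegrable _ _)).symm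
  simp only [kerW, zero_add, smul_eq_mul, e]
  rw [← mul_assoc, ← Real.exp_add, e2 s,
    show Ode.prim p b a + Ode.prim p a s + -(Ode.prim (fun s => c s + p s) a s + Ode.prim p a s)
      = -Ode.prim (fun s => c s + p s) a s + Ode.prim p b a by ring,
    Real.exp_add, mul_assoc]
  congr 1
  rw [← intervalIntegral.integral_const_mul]
  refine intervalIntegral.integral_congr fun r _ => ?_
  show _ = _
  rw [e2 r]
  simp only [Real.exp_add]
  ring

/-- On a diagonal pair the scalar is the mass of the profile over `θ = c + 2 z`, times the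
unperturbed factor. -/
theorem kapMod_diag (hz : ∀ i, Continuous (z i)) (hc : Continuous c) (hf : Continuous f) (hab : a ≤ b)
    {θ η Bβ : ℝ} (hθ : 2 ≤ θ) (hη : η ≤ 1)
    (hz0 : ∀ t ∈ Icc a b, 0 ≤ z (levRep g) t)
    (hnear : ∀ t ∈ Icc a b, |c t + 2 * z (levRep g) t - θ| ≤ η)
    (hf3 : ∀ r ∈ Icc a b, 0 ≤ f r ∧ f r ≤ 3) (hβ' : |β g| ≤ Bβ) :
    |kapMod z c f a b β qW g g + (∫ r in a..b, f r) / θ * (Ode.coefQ (z (levRep g)) a b * qW g)|
      ≤ (η * (3 * (b - a)) + 3 + 3 * Bβ) * |Ode.coefQ (z (levRep g)) a b * qW g| := by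
  set p := z (levRep g)
  have hp : Continuous p := hz _
  have hcp : Continuous fun t => c t + p t := hc.add hp
  set W := fun s => kerW (fun t => c t + p t) p a (0 : ℝ) f s
  have hWc : Continuous W := continuous_kerW hcp hp a 0 hf
  have hW : ∀ s ∈ Icc a b, 0 ≤ W s ∧ W s ≤ 3 := fun s hs =>
    ⟨kerW_nonneg (fun r hr => (hf3 r hr).1) hs, (le_abs_self _).trans (abs_kerW_le hcp hp
      (fun r hr => by linarith [(abs_le.1 (hnear r hr)).1])
      (fun r hr => by rw [abs_of_nonneg (hf3 r hr).1]; exact (hf3 r hr).2) hs)⟩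
  have hbm : b ∈ Icc a b := right_mem_Icc.2 hab
  -- the balance of the forward equation
  have hbal : (∫ r in a..b, f r) - W b = ∫ s in a..b, (c s + p s + p s) * W s := by
    have hd : ∀ s, HasDerivAt W (-(c s + p s + p s) * W s + f s) s := fun s =>
      hasDerivAt_kerW hcp hp a 0 hf s
    have hi := (((hcp.add hp).neg.mul hWc).add hf).intervalIntegrable (μ := MeasureTheory.volume) a b
    have h := intervalIntegral.integral_eq_sub_of_hasDerivAt (fun s _ => hd s) hi
    have h0 : W a = 0 := by simp [W, kerW]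
    rw [h0, sub_zero] at h
    rw [← h, intervalIntegral.integral_add (f := fun y => -(c y + p y + p y) * W y) (g := f)
      (((hcp.add hp).neg.mul hWc).intervalIntegrable _ _) (hf.intervalIntegrable _ _)]
    simp only [neg_mul, intervalIntegral.integral_neg]
    ring
  have hfirst : firstKer z c f a b g g = -(Ode.coefQ p a b * ∫ s in a..b, W s) := by
    rw [firstKer_eq hz, ← intervalIntegral.integral_const_mul]
    congr 1
    refine intervalIntegral.integral_congr fun s _ => ?_
    show _ = _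
    rw [evKer_diag hz hc, ← mul_assoc, ← Real.exp_add]
    congr 1
    rw [Ode.coefQ]
    congr 1
    have := intervalIntegral.integral_add_adjacent_intervals
      (hp.intervalIntegrable (μ := MeasureTheory.volume) b a) (hp.intervalIntegrable a s)
    have h2 := intervalIntegral.integral_symm (μ := MeasureTheory.volume) (f := p) a b
    simp only [Ode.prim]
    linarith
  have hev : evKer z c f a b g g = W b := by
    rw [evKer, evKer_diag hz hc, Ode.prim_self, Real.exp_zero, one_mul]
  rw [kapMod, hfirst, hev, show ∀ q I F w β' Q : ℝ,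
    (-(q * I) + q * β' * w) * Q + F / θ * (q * Q) = (F / θ - I + β' * w) * (q * Q) from
      fun q I F w β' Q => by ring, abs_mul]
  refine mul_le_mul_of_nonneg_right ?_ (abs_nonneg _)
  obtain ⟨w0, w3⟩ := hW b hbm
  have hI : |θ * (∫ s in a..b, W s) - ((∫ r in a..b, f r) - W b)| ≤ η * (3 * (b - a)) := by
    rw [hbal, ← intervalIntegral.integral_const_mul, ← intervalIntegral.integral_sub
      (f := fun s => θ * W s) (g := fun s => (c s + p s + p s) * W s)
      ((continuous_const.mul hWc).intervalIntegrable _ _) (((hcp.add hp).mul hWc).intervalIntegrable _ _),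
      ← Real.norm_eq_abs]
    refine (intervalIntegral.norm_integral_le_of_norm_le_const (C := η * 3) fun s hs => ?_).trans_eq ?_
    · rw [uIoc_of_le hab] at hs
      have hsI : s ∈ Icc a b := ⟨hs.1.le, hs.2⟩
      rw [Real.norm_eq_abs, ← sub_mul, abs_mul, abs_of_nonneg (hW s hsI).1]
      refine mul_le_mul ?_ (hW s hsI).2 (hW s hsI).1 ((abs_nonneg _).trans (hnear s hsI))
      rw [abs_sub_comm]
      exact le_of_eq_of_le (by ring_nf) (hnear s hsI)
    · rw [abs_of_nonneg (by linarith)]; ring
  have hη3 : 0 ≤ η * (3 * (b - a)) := (abs_nonneg _).trans hI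
  have hdiv : |(∫ r in a..b, f r) / θ - ∫ s in a..b, W s| ≤ η * (3 * (b - a)) + 3 := by
    rw [show (∫ r in a..b, f r) / θ - ∫ s in a..b, W s
      = -(θ * (∫ s in a..b, W s) - ((∫ r in a..b, f r) - W b) - W b) / θ by field_simp; ring,
      abs_div, abs_neg, abs_of_pos (by linarith : (0 : ℝ) < θ), div_le_iff₀ (by linarith)]
    refine (abs_sub _ _).trans ?_
    rw [abs_of_nonneg w0]
    nlinarith
  refine (abs_add_le _ _).trans (add_le_add hdiv ?_)
  rw [abs_mul, abs_of_nonneg w0, mul_comm]
  exact mul_le_mul w3 hβ' (abs_nonneg _) (by norm_num)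

end InsOp

/-- The integral of the linear profile. -/
theorem integral_insF₁ {κ L a sI η : ℝ} (hL : 0 < L) (ha : 0 < a)
    (hs : ∀ t ∈ Icc a (a + L), |scaleFun κ t - sI| ≤ η) :
    |(∫ r in a..(a + L), insF₁ κ 1 L a r) - sI * bumpMass * L| ≤ η * L := by
  have hb : Continuous fun r => bump ((r - a) / L) := bump_continuous.comp (by fun_prop)
  have e : sI * bumpMass * L = ∫ r in a..(a + L), sI * bump ((r - a) / L) := by
    rw [intervalIntegral.integral_const_mul, intervalIntegral.integral_comp_sub_right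
      (fun r => bump (r / L)) a, intervalIntegral.integral_comp_div bump hL.ne', bumpMass,
      sub_self, add_sub_cancel_left, zero_div, div_self hL.ne', smul_eq_mul]
    ring
  rw [e, ← intervalIntegral.integral_sub (f := insF₁ κ 1 L a)
    (g := fun r => sI * bump ((r - a) / L)) ((continuous_insF κ 1 L ha).1.intervalIntegrable _ _)
    ((continuous_const.mul hb).intervalIntegrable _ _), ← Real.norm_eq_abs]
  refine (intervalIntegral.norm_integral_le_of_norm_le_const (C := η) fun r hr => ?_).trans_eq ?_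
  · rw [uIoc_of_le (by linarith)] at hr
    rw [Real.norm_eq_abs, insF₁, insAmp, one_mul, (clampT_of_ge ha hr.1.le).1, ← sub_mul, abs_mul]
    exact (mul_le_of_le_one_right (abs_nonneg _) (abs_bump_le _)).trans (hs r ⟨hr.1.le, hr.2⟩)
  · rw [add_sub_cancel_left, abs_of_pos hL]

end

end Vale.Agent.P225
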