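import Vale.Agent.P225.Loop.CorrWaits
import Vale.Agent.P225.Loop.KapBounds

/-!
P225, CorrResponse (helper2): an insertion of the corrector with waits on both sides, and the bounds
of its scalar.
-/

open Set Finset

namespace Vale.Agent.P225

open Loop (levV)

noncomputable section

namespace LoopSpec

/-- An insertion with waits on both sides. -/
structure CorrSite (W : LoopSpec) (j nW m f k : ℕ) : Prop where
  lo : nW ≤ m
  hi : m + nW + 1 < (W.corr j).length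
  ins : ∀ h : m < (W.corr j).length, (W.corr j)[m] = Piece.ins f k
  waits : ∀ q (h : q < (W.corr j).length), m ≤ q + nW → q ≤ m + nW + 1 → q ≠ m →
    (W.corr j)[q] = Piece.wait 0 5

variable {W : LoopSpec} {P0 : ℕ} {κ C K ε : ℝ} {Mo : PieceModel} {j0 : ℕ} {t0 : ℝ} {ht : 1 ≤ t0}
  {τ : Params} {i nW m f k : ℕ}

theorem CorrSite.lt_prog {j : ℕ} (h : W.CorrSite j nW m f k) : m + nW + 1 < (W.prog j).length := by
  have := h.hi
  rw [W.prog_length]
  omega

theorem CorrSite.prog_ins {j : ℕ} (h : W.CorrSite j nW m f k) (hm : m < (W.prog j).length) :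
    (W.prog j)[m] = Piece.ins f k := by
  have hhi := h.hi
  rcases W.prog_getElem j m hm with ⟨h', e⟩ | ⟨h', -⟩ | ⟨h', -⟩ | ⟨-, h', -⟩ | ⟨h', -⟩ | ⟨h', -⟩
  · rw [e, h.ins h']
  all_goals omega

theorem CorrSite.restarts {j : ℕ} (h : W.CorrSite j nW m f k) {q : ℕ}
    (h1 : m ≤ q + nW) (h2 : q ≤ m + nW + 1) (hq : q < (W.prog j).length) :
    ((W.prog j)[q]).restarts = false := by
  have hhi := h.hi
  rcases W.prog_getElem j q hq with ⟨h', e⟩ | ⟨h', -⟩ | ⟨h', -⟩ | ⟨-, h', -⟩ | ⟨h', -⟩ | ⟨h', -⟩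
  · rw [e]
    by_cases hqm : q = m
    · subst hqm
      rw [h.ins h']
      rfl
    · rw [h.waits q h' h1 h2 hqm]
      rfl
  all_goals omega

variable (W κ j0 t0 ht τ i nW m) in
/-- The value of the waits after an insertion. -/
def siteQW (g : ℕ × ℕ) : ℝ :=
  ∏ l ∈ range nW, Ode.coefQ ((W.sched j0 t0 ht).slope κ τ i (m + 1 + l) (levRep g))
    ((W.sched j0 t0 ht).pieceStart i (m + 1 + l))
    ((W.sched j0 t0 ht).pieceStart i (m + 1 + l) + (((j0 + i : ℕ) : ℝ) + 1) ^ 5)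

variable (W κ j0 t0 ht τ i nW m) in
/-- The value of an insertion of amplitude zero and the waits after it. -/
def sitePhi (g : ℕ × ℕ) : ℝ :=
  Ode.coefQ ((W.sched j0 t0 ht).slope κ τ i m (levRep g)) ((W.sched j0 t0 ht).pieceStart i m)
      ((W.sched j0 t0 ht).pieceStart i m + (((j0 + i : ℕ) : ℝ) + 1) ^ 5)
    * W.siteQW κ j0 t0 ht τ i nW m g

variable (W κ j0 t0 ht τ i nW m) in
/-- The scalar of an insertion and the waits after it. -/
def siteKap (β : ℕ × ℕ → ℝ) (g g' : ℕ × ℕ) : ℝ :=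
  InsOp.kapMod ((W.sched j0 t0 ht).slope κ τ i m) (cPiece κ ((W.sched j0 t0 ht).pieceStart i m))
    (insF₁ κ 1 ((((j0 + i : ℕ) : ℝ) + 1) ^ 5) ((W.sched j0 t0 ht).pieceStart i m))
    ((W.sched j0 t0 ht).pieceStart i m)
    ((W.sched j0 t0 ht).pieceStart i m + (((j0 + i : ℕ) : ℝ) + 1) ^ 5) β
    (W.siteQW κ j0 t0 ht τ i nW m) g g'

/-- The waits around an insertion. -/
theorem exists_site_waits (hW : W.Ok P0) (hsite : W.CorrSite (j0 + i) nW m f k)
    (hg : ∀ q (hq : q < (W.prog (j0 + i)).length),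
      (W.sched j0 t0 ht).SegGood κ C K ε Mo τ (W.corr (j0 + i)).length i q ((W.prog (j0 + i))[q])) :
    (∃ β, LevDiagSeg (segRange (W.segs κ C Mo j0 t0 ht τ i) (m + 1) nW)
      (W.siteQW κ j0 t0 ht τ i nW m) β (Real.exp (-(4 * (((j0 + i : ℕ) : ℝ) + 1) ^ 5)) ^ nW)
      (nW * 10)) ∧
    (segRange (W.segs κ C Mo j0 t0 ht τ i) (m - nW) nW).C = 0 ∧
    ‖(segRange (W.segs κ C Mo j0 t0 ht τ i) (m - nW) nW).D‖
      ≤ Real.exp (-(4 * (((j0 + i : ℕ) : ℝ) + 1) ^ 5)) ^ nW := by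
  have hhi := hsite.hi
  have hlo := hsite.lo
  have hlp := hsite.lt_prog
  have he : Real.exp (-(4 * (((j0 + i : ℕ) : ℝ) + 1) ^ 5)) ≤ 1 :=
    Real.exp_le_one_iff.2 (neg_nonpos.2 (by positivity))
  have hq : ∀ q, m ≤ q + nW → q ≤ m + nW → q ≠ m → ∃ β, LevDiagSeg
      (W.segs κ C Mo j0 t0 ht τ i q)
      (fun g => Ode.coefQ ((W.sched j0 t0 ht).slope κ τ i q (levRep g))
        ((W.sched j0 t0 ht).pieceStart i q)
        ((W.sched j0 t0 ht).pieceStart i q + (((j0 + i : ℕ) : ℝ) + 1) ^ 5))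
      β (Real.exp (-(4 * (((j0 + i : ℕ) : ℝ) + 1) ^ 5))) 10 := fun q h1 h2 h3 =>
    wait_levDiag hW (show q < (W.corr (j0 + i)).length by omega)
      (hsite.waits q (by omega) h1 (by omega) h3) (show q + 1 < (W.prog (j0 + i)).length by omega)
      (hsite.restarts (by omega) (by omega) _) (hg q (by omega))
  obtain ⟨β, hβ⟩ := segRange_levDiag he nW (m + 1) fun q h1 h2 => hq q (by omega) (by omega) (by omega)
  obtain ⟨β', hβ'⟩ := segRange_levDiag he nW (m - nW) fun q h1 h2 => hq q (by omega) (by omega) (by omega)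
  exact ⟨⟨β, hβ⟩, hβ'.C, hβ'.norm_D⟩

theorem siteInv (hW : W.Ok P0) (hsite : W.CorrSite (j0 + i) nW m f k) {β : ℕ × ℕ → ℝ}
    (hβ : LevInv β) :
    LevInv (W.siteQW κ j0 t0 ht τ i nW m) ∧ LevInv (W.sitePhi κ j0 t0 ht τ i nW m) ∧
      ∀ g₁ g₂ h₁ h₂, levV g₁ = levV g₂ → levV h₁ = levV h₂ →
        W.siteKap κ j0 t0 ht τ i nW m β g₁ h₁ = W.siteKap κ j0 t0 ht τ i nW m β g₂ h₂ := by
  have hhi := hsite.hi
  have hlo := hsite.lo
  have hs : ∀ q, m ≤ q + nW → q ≤ m + nW → ∀ g g' : ℕ × ℕ, levV g = levV g' →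
      (W.sched j0 t0 ht).slope κ τ i q (levRep g) = (W.sched j0 t0 ht).slope κ τ i q (levRep g') := by
    intro q h1 h2 g g' h
    refine W.slope_valFun hW j0 t0 ht κ τ (i := i) (show q ≤ (W.corr (j0 + i)).length by omega)
      (fun hq => ?_) (by rw [levRep_level, levRep_level]; exact h)
    have := hsite.restarts h1 (by omega) hq
    simp only [Piece.restarts, Bool.or_eq_false_iff] at this
    exact this.1
  have hQW : LevInv (W.siteQW κ j0 t0 ht τ i nW m) := fun g g' h =>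
    Finset.prod_congr rfl fun l hl => by
      rw [hs (m + 1 + l) (by omega) (by have := Finset.mem_range.1 hl; omega) g g' h]
  refine ⟨hQW, fun g g' h => ?_, fun g₁ g₂ h₁ h₂ hg hh => ?_⟩
  · simp only [sitePhi, hs m (by omega) (by omega) g g' h, hQW g g' h]
  · simp only [siteKap, InsOp.kapMod, InsOp.firstKer, evKer, hs m (by omega) (by omega) g₁ g₂ hg,
      hs m (by omega) (by omega) h₁ h₂ hh, hQW h₁ h₂ hh, hβ g₁ g₂ hg]

variable (κ C) in
/-- The distance of the slopes of loop `i` to their limit on levels of rate at most `Z`. -/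
def siteErr (j : ℕ) (Z : ℝ) : ℝ :=
  3 * C / ((j : ℝ) + 1) ^ 5 + 3 * (κ / Real.sqrt ((j : ℝ) + 1)) * (3 + Z)

/-- The bounds of the scalars of an insertion. -/
theorem site_scalar (hκ : 0 ≤ κ) (hC : 0 ≤ C) (hW : W.Ok P0)
    (hsite : W.CorrSite (j0 + i) nW m f k)
    (hg : ∀ q (hq : q < (W.prog (j0 + i)).length),
      (W.sched j0 t0 ht).SegGood κ C K ε Mo τ (W.corr (j0 + i)).length i q ((W.prog (j0 + i))[q]))
    {c₀ : ℝ} (hc₀ : 0 < c₀) (hbump : ∀ x ∈ Icc (3 / 8 : ℝ) (5 / 8), c₀ ≤ bump x)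
    {Z : ℝ} (hb8 : 8 ≤ (((j0 + i : ℕ) : ℝ) + 1) ^ 5)
    (hbκ : 2 * κ / Real.sqrt (((j0 + i : ℕ) : ℝ) + 1) ≤ 1)
    (herr : 3 * siteErr κ C (j0 + i) Z ≤ 1)
    {β : ℕ × ℕ → ℝ} {Bβ : ℝ} (hβ : ∀ g, -Bβ ≤ β g ∧ β g ≤ 0)
    {g g' : ℕ × ℕ} (hgZ : alphaLev g ≤ Z) (hgZ' : alphaLev g' ≤ Z) :
    W.siteKap κ j0 t0 ht τ i nW m β g g' ≤ 0 ∧
    c₀ * Real.exp (-((6 + 3 * (Z + 1)) * (((j0 + i : ℕ) : ℝ) + 1) ^ 5))
        * W.siteQW κ j0 t0 ht τ i nW m g' ≤ |W.siteKap κ j0 t0 ht τ i nW m β g g'| ∧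
    |W.siteKap κ j0 t0 ht τ i nW m β g g'|
      ≤ (3 * (((j0 + i : ℕ) : ℝ) + 1) ^ 5 + 3 * Bβ) * W.siteQW κ j0 t0 ht τ i nW m g' ∧
    (0 < W.siteQW κ j0 t0 ht τ i nW m g' ∧ |Real.log (W.siteQW κ j0 t0 ht τ i nW m g')
        + nW * ((((j0 + i : ℕ) : ℝ) + 1) ^ 5 * alphaLev g')|
      ≤ nW * ((((j0 + i : ℕ) : ℝ) + 1) ^ 5 * siteErr κ C (j0 + i) Z)) ∧
    (0 < W.sitePhi κ j0 t0 ht τ i nW m g' ∧ W.sitePhi κ j0 t0 ht τ i nW m g'
        ≤ W.siteQW κ j0 t0 ht τ i nW m g' ∧ |Real.log (W.sitePhi κ j0 t0 ht τ i nW m g')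
        + (nW + 1) * ((((j0 + i : ℕ) : ℝ) + 1) ^ 5 * alphaLev g')|
      ≤ (nW + 1) * ((((j0 + i : ℕ) : ℝ) + 1) ^ 5 * siteErr κ C (j0 + i) Z)) ∧
    |W.siteKap κ j0 t0 ht τ i nW m β g g
        + scaleInf * bumpMass * (((j0 + i : ℕ) : ℝ) + 1) ^ 5 / (5 + 2 * alphaLev g)
          * W.sitePhi κ j0 t0 ht τ i nW m g|
      ≤ ((3 * siteErr κ C (j0 + i) Z) * (3 * (((j0 + i : ℕ) : ℝ) + 1) ^ 5) + 3 + 3 * Bβ
          + 2 * κ / Real.sqrt (((j0 + i : ℕ) : ℝ) + 1) * (((j0 + i : ℕ) : ℝ) + 1) ^ 5)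
        * W.sitePhi κ j0 t0 ht τ i nW m g := by
  set S := W.sched j0 t0 ht
  set b := ((j0 + i : ℕ) : ℝ) + 1 with hbdef
  set L := b ^ 5 with hLdef
  set a := S.pieceStart i m with hadef
  set e := siteErr κ C (j0 + i) Z
  have hhi := hsite.hi
  have hlp := hsite.lt_prog
  have hm : m < (W.prog (j0 + i)).length := by omega
  have hP := hsite.prog_ins hm
  have gm := (hg m hm).good
  have hlen : ((W.prog (j0 + i))[m]).len (S.j0 + i) = L := by rw [hP]; rfl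
  have hfam := gm.fam
  rw [hlen] at hfam
  have hb1 : 1 ≤ b := le_add_of_nonneg_left (Nat.cast_nonneg _)
  have hge : 2 * L ≤ a := gm.start_ge
  have ha : 0 < a := by linarith
  have hκb : κ / Real.sqrt b ≤ 1 := by
    have : 0 ≤ κ / Real.sqrt b := by positivity
    have e2 : 2 * κ / Real.sqrt b = 2 * (κ / Real.sqrt b) := by ring
    linarith
  have hZ0 : 0 ≤ Z := (alphaLev_nonneg g).trans hgZ
  have he0 : 0 ≤ e := by
    show 0 ≤ 3 * C / b ^ 5 + 3 * (κ / Real.sqrt b) * (3 + Z)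
    positivity
  have hκe : κ / Real.sqrt b ≤ e := by
    have h1 : 0 ≤ 3 * C / b ^ 5 := by positivity
    have h2 : κ / Real.sqrt b * 1 ≤ κ / Real.sqrt b * (3 * (3 + Z)) :=
      mul_le_mul_of_nonneg_left (by linarith) (by positivity)
    show _ ≤ 3 * C / b ^ 5 + 3 * (κ / Real.sqrt b) * (3 + Z)
    linarith
  -- slopes near the limit on small levels
  have hnear : ∀ q, m ≤ q + nW → q ≤ m + nW → ∀ gl : ℕ × ℕ, alphaLev gl ≤ Z →
      ∀ t ∈ Icc (S.pieceStart i q) (S.pieceStart i q + L),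
        |S.slope κ τ i q (levRep gl) t - alphaLev gl| ≤ e := by
    intro q h1 h2 gl hgl t htt
    have hq : q < (W.prog (j0 + i)).length := by omega
    have hr := hsite.restarts h1 (by omega) hq
    simp only [Piece.restarts, Bool.or_eq_false_iff, decide_eq_false_iff_not] at hr
    have hlq : ((W.prog (j0 + i))[q]).len (j0 + i) = L := by
      have h5 := (LoopSpec.power_mem hW hq).2
      show (((j0 + i : ℕ) : ℝ) + 1) ^ ((W.prog (j0 + i))[q]).power = L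
      rw [show ((W.prog (j0 + i))[q]).power = 5 by omega]
    have h := slope_near_alphaLev hκ hW hq (by omega) hr.1 (hg q hq).good hκb (levRep gl) t
      (by rw [hlq]; exact htt)
    rw [levRep_level] at h
    refine h.trans ?_
    show _ ≤ 3 * C / b ^ 5 + 3 * (κ / Real.sqrt b) * (3 + Z)
    gcongr
  have hlogq : ∀ q, m ≤ q + nW → q ≤ m + nW → ∀ gl : ℕ × ℕ, alphaLev gl ≤ Z →
      |Real.log (Ode.coefQ (S.slope κ τ i q (levRep gl)) (S.pieceStart i q) (S.pieceStart i q + L))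
        + L * alphaLev gl| ≤ L * e := fun q h1 h2 gl hgl =>
    abs_log_coefQ_add ((hg q (by omega)).good.fam.cont_z _) (by linarith) (hnear q h1 h2 gl hgl)
  have hc : ∀ t ∈ Icc a (a + L), 1 ≤ cPiece κ a t ∧ cPiece κ a t ≤ 6 := fun t _ =>
    ⟨by linarith [(gm.drift t).1], (gm.drift t).2⟩
  have hcnear : ∀ t ∈ Icc a (a + L), |cPiece κ a t - 5| ≤ κ / Real.sqrt b := fun t htt => by
    rw [cPiece_of_ge κ ha htt.1]
    have h5 : 1 ≤ L := one_le_pow₀ hb1
    refine le_trans ?_ ((abs_vFun_le (t := t) hκ h5 (by linarith [htt.1])).1.trans ?_)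
    · simp [cDrift]
    · gcongr
      calc Real.sqrt b ≤ Real.sqrt (L * L) := Real.sqrt_le_sqrt (by
            calc b ≤ b ^ 5 := le_self_pow₀ hb1 (by norm_num)
              _ ≤ L * L := le_mul_of_one_le_left (by positivity) h5)
        _ = L := Real.sqrt_mul_self (by positivity)
  have hscale : ∀ t ∈ Icc a (a + L), |scaleFun κ t - scaleInf| ≤ 2 * κ / Real.sqrt b := fun t htt =>
    abs_scaleFun_sub hκ hb1 (by linarith [htt.1])
  have hI : 2 ≤ scaleInf := Real.le_sqrt_of_sq_le (by norm_num [dMin])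
  have hf : ∀ r ∈ Icc a (a + L), 0 ≤ insF₁ κ 1 L a r ∧ insF₁ κ 1 L a r ≤ 3 := fun r _ =>
    ⟨mul_nonneg (Real.sqrt_nonneg _) (mul_nonneg zero_le_one (bump_nonneg _)), (le_abs_self _).trans
      (by simpa using (abs_insF_le hκ (ε := 1) (L := L) (by simp) ha r).1)⟩
  have hfc : ∀ r ∈ Icc (a + 3 * L / 8) (a + 5 * L / 8), c₀ ≤ insF₁ κ 1 L a r := by
    intro r hr
    have hr' : r ∈ Icc a (a + L) := ⟨by linarith [hr.1], by linarith [hr.2]⟩
    have h1 := abs_le.1 (hscale r hr')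
    have h2 := hbump ((r - a) / L)
      ⟨by rw [le_div_iff₀ (by linarith)]; linarith [hr.1],
        by rw [div_le_iff₀ (by linarith)]; linarith [hr.2]⟩
    rw [insF₁, insAmp, (clampT_of_ge ha hr'.1).1, one_mul]
    calc c₀ = 1 * c₀ := (one_mul _).symm
      _ ≤ scaleFun κ r * bump ((r - a) / L) :=
          mul_le_mul (by linarith) h2 hc₀.le (Real.sqrt_nonneg _)
  have hqpos : ∀ gl, 0 < W.siteQW κ j0 t0 ht τ i nW m gl := fun gl =>
    Finset.prod_pos fun l _ => Ode.coefQ_pos _ _ _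
  have hQlog : |Real.log (W.siteQW κ j0 t0 ht τ i nW m g') + nW * (L * alphaLev g')| ≤ nW * (L * e) := by
    rw [siteQW, Real.log_prod fun l _ => (Ode.coefQ_pos _ _ _).ne',
      show (nW : ℝ) * (L * alphaLev g') = ∑ _l ∈ range nW, L * alphaLev g' by simp,
      ← Finset.sum_add_distrib, show (nW : ℝ) * (L * e) = ∑ _l ∈ range nW, L * e by simp]
    exact (Finset.abs_sum_le_sum_abs _ _).trans (Finset.sum_le_sum fun l hl =>
      hlogq (m + 1 + l) (by omega) (by have := Finset.mem_range.1 hl; omega) g' hgZ')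
  have hc1 : ∀ gl : ℕ × ℕ, Ode.coefQ (S.slope κ τ i m (levRep gl)) a (a + L) ≤ 1 := fun gl => by
    simpa using Ode.coefQ_le (k := 0) (hfam.cont_z (levRep gl)) hfam.le (hfam.z_nonneg (levRep gl))
  have hkb := InsOp.kapMod_bounds (β := β) (Bβ := Bβ) (qW := W.siteQW κ j0 t0 ht τ i nW m) hfam.cont_z hfam.cont_c
    (continuous_insF κ 1 L ha).1 (Z := Z + 1) (c₀ := c₀) (L := L) (g := g) (g' := g') hb8 rfl
    hfam.z_nonneg (fun t htt => ⟨by
        linarith [(abs_le.1 (hnear m (by omega) (by omega) g hgZ t htt)).2], by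
        linarith [(abs_le.1 (hnear m (by omega) (by omega) g' hgZ' t htt)).2]⟩)
    hc hf hfc hc₀ (hβ g).2 (by rw [abs_of_nonpos (hβ g).2]; linarith [(hβ g).1]) (hqpos g')
  refine ⟨InsOp.kapMod_neg hfam.cont_z hfam.le (fun r hr => (hf r hr).1) (hβ g).2 (hqpos g').le,
    hkb.1, hkb.2, ⟨hqpos g', hQlog⟩, ⟨mul_pos (Ode.coefQ_pos _ _ _) (hqpos g'),
      mul_le_of_le_one_left (hqpos g').le (hc1 g'), ?_⟩, ?_⟩
  · have h0 := hlogq m (by omega) (by omega) g' hgZ'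
    rw [sitePhi, Real.log_mul (Ode.coefQ_pos _ _ _).ne' (hqpos g').ne']
    rw [abs_le] at h0 hQlog ⊢
    constructor <;> linarith
  · have hθ : ∀ t ∈ Icc a (a + L), |cPiece κ a t + 2 * S.slope κ τ i m (levRep g) t
        - (5 + 2 * alphaLev g)| ≤ 3 * e := fun t htt => by
      have h1 := abs_le.1 (hcnear t htt)
      have h2 := abs_le.1 (hnear m (by omega) (by omega) g hgZ t htt)
      rw [abs_le]
      constructor <;> linarith
    have hd := InsOp.kapMod_diag (qW := W.siteQW κ j0 t0 ht τ i nW m) (β := β) (g := g)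
      (θ := 5 + 2 * alphaLev g) (η := 3 * e) (Bβ := Bβ) hfam.cont_z hfam.cont_c
      (continuous_insF κ 1 L ha).1 hfam.le (by linarith [alphaLev_nonneg g]) herr
      (hfam.z_nonneg _) hθ hf (by rw [abs_of_nonpos (hβ g).2]; linarith [(hβ g).1])
    have hint := integral_insF₁ (κ := κ) (show 0 < L by linarith) ha hscale
    have hθ0 : 1 ≤ 5 + 2 * alphaLev g := by linarith [alphaLev_nonneg g]
    set I := ∫ r in a..(a + L), insF₁ κ 1 L a r
    set Φ := W.sitePhi κ j0 t0 ht τ i nW m g with hΦ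
    have hΦ0 : 0 < Φ := mul_pos (Ode.coefQ_pos _ _ _) (hqpos g)
    rw [add_sub_cancel_left, show Ode.coefQ (S.slope κ τ i m (levRep g)) a (a + L)
      * W.siteQW κ j0 t0 ht τ i nW m g = Φ from rfl, abs_of_pos hΦ0] at hd
    have h3 : |scaleInf * bumpMass * L / (5 + 2 * alphaLev g) - I / (5 + 2 * alphaLev g)|
        ≤ 2 * κ / Real.sqrt b * L := by
      rw [← sub_div, abs_div, abs_of_pos (by linarith : (0 : ℝ) < 5 + 2 * alphaLev g), abs_sub_comm]
      exact (div_le_self (abs_nonneg _) hθ0).trans hint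
    calc |W.siteKap κ j0 t0 ht τ i nW m β g g + scaleInf * bumpMass * L / (5 + 2 * alphaLev g) * Φ|
        = |(W.siteKap κ j0 t0 ht τ i nW m β g g + I / (5 + 2 * alphaLev g) * Φ)
          + (scaleInf * bumpMass * L / (5 + 2 * alphaLev g) - I / (5 + 2 * alphaLev g)) * Φ| := by
          congr 1; ring
      _ ≤ (3 * e * (3 * L) + 3 + 3 * Bβ) * Φ + 2 * κ / Real.sqrt b * L * Φ := by
          refine (abs_add_le _ _).trans (add_le_add hd ?_)
          rw [abs_mul, abs_of_pos hΦ0]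
          exact mul_le_mul_of_nonneg_right h3 hΦ0.le
      _ = _ := by ring

end LoopSpec

end

end Vale.Agent.P225
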