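import Mathlib

/-!
P225 corrector, section 5: the block matrix of the slots.  If the response of the entry `p` to the
parameter `(r, l)` is `exp (phi (cls p) r l) * (A p l + small)` with
`phi k r l = d k * S r + O(B)`, then diagonal scalings make it block diagonal up to a small error,
so it has a right inverse of size `exp (O(D U + B))`.
-/

namespace Vale.Agent.P225.Loop

open Finset

noncomputable section

/-- The linear map of a finite matrix. -/
def slotMap {P X : Type*} [Fintype X] (M : P → X → ℝ) : (X → ℝ) →L[ℝ] P → ℝ :=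
  ContinuousLinearMap.pi fun p => ∑ x, M p x • ContinuousLinearMap.proj (R := ℝ) x

theorem slotMap_apply {P X : Type*} [Fintype X] (M : P → X → ℝ) (u : X → ℝ) (p : P) :
    slotMap M u p = ∑ x, M p x * u x := by
  simp [slotMap, ContinuousLinearMap.pi_apply]

/-- The convex scaling of the classes. -/
def slotScale (d S : ℕ → ℝ) (k : ℕ) : ℝ :=
  ∑ m ∈ range k, (d (m + 1) - d m) * ((S m + S (m + 1)) / 2)

variable {d S : ℕ → ℝ} {R : ℕ} {δ H : ℝ}

theorem slotScale_gap (hδ : 0 ≤ δ) (hH : 0 ≤ H)
    (hd : ∀ i j, i < j → j < R → δ ≤ d j - d i) (hS : ∀ i j, i < j → j < R → H ≤ S j - S i)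
    {r k : ℕ} (hr : r < R) (hk : k < R) (hne : k ≠ r) :
    (d k - d r) * S r - (slotScale d S k - slotScale d S r) ≤ -(δ * H / 2) := by
  have hmono : ∀ i j, i ≤ j → j < R → S i ≤ S j := by
    intro i j hij hj
    rcases hij.lt_or_eq with h | rfl
    · linarith [hS i j h hj]
    · exact le_rfl
  rcases lt_or_gt_of_ne hne with h | h
  · have e1 : slotScale d S r - slotScale d S k
        = ∑ m ∈ Ico k r, (d (m + 1) - d m) * ((S m + S (m + 1)) / 2) := by
      rw [slotScale, slotScale, Finset.sum_Ico_eq_sub _ h.le]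
    have e2 : (d r - d k) * S r = ∑ m ∈ Ico k r, (d (m + 1) - d m) * S r := by
      rw [← sum_mul]
      congr 1
      rw [Finset.sum_Ico_eq_sub _ h.le, Finset.sum_range_sub, Finset.sum_range_sub]
      ring
    have e3 : δ * H / 2 ≤
        ∑ m ∈ Ico k r, (d (m + 1) - d m) * (S r - (S m + S (m + 1)) / 2) := by
      have hterm : ∀ m ∈ Ico k r,
          δ * H / 2 ≤ (d (m + 1) - d m) * (S r - (S m + S (m + 1)) / 2) := by
        intro m hm
        rw [mem_Ico] at hm
        have h1 := hd m (m + 1) (by omega) (by omega)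
        have h2 := hS m r hm.2 hr
        have h3 := hmono (m + 1) r (by omega) hr
        rw [mul_div_assoc]
        exact mul_le_mul h1 (by linarith) (by linarith) (hδ.trans h1)
      refine le_trans (hterm k (left_mem_Ico.2 h)) (Finset.single_le_sum (f := fun m =>
        (d (m + 1) - d m) * (S r - (S m + S (m + 1)) / 2)) (fun m hm => ?_) (left_mem_Ico.2 h))
      exact le_trans (by positivity) (hterm m hm)
    simp only [mul_sub, sum_sub_distrib] at e3
    linarith
  · have e1 : slotScale d S k - slotScale d S r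
        = ∑ m ∈ Ico r k, (d (m + 1) - d m) * ((S m + S (m + 1)) / 2) := by
      rw [slotScale, slotScale, Finset.sum_Ico_eq_sub _ h.le]
    have e2 : (d k - d r) * S r = ∑ m ∈ Ico r k, (d (m + 1) - d m) * S r := by
      rw [← sum_mul]
      congr 1
      rw [Finset.sum_Ico_eq_sub _ h.le, Finset.sum_range_sub, Finset.sum_range_sub]
      ring
    have e3 : δ * H / 2 ≤
        ∑ m ∈ Ico r k, (d (m + 1) - d m) * ((S m + S (m + 1)) / 2 - S r) := by
      have hterm : ∀ m ∈ Ico r k,
          δ * H / 2 ≤ (d (m + 1) - d m) * ((S m + S (m + 1)) / 2 - S r) := by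
        intro m hm
        rw [mem_Ico] at hm
        have h1 := hd m (m + 1) (by omega) (by omega)
        have h2 := hS r (m + 1) (by omega) (by omega)
        have h3 := hmono r m hm.1 (by omega)
        rw [mul_div_assoc]
        exact mul_le_mul h1 (by linarith) (by linarith) (hδ.trans h1)
      refine le_trans (hterm r (left_mem_Ico.2 h)) (Finset.single_le_sum (f := fun m =>
        (d (m + 1) - d m) * ((S m + S (m + 1)) / 2 - S r)) (fun m hm => ?_) (left_mem_Ico.2 h))
      exact le_trans (by positivity) (hterm m hm)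
    simp only [mul_sub, sum_sub_distrib] at e3
    linarith

theorem abs_slotScale_le {D U : ℝ} (hD : ∀ k, k < R → |d k| ≤ D) (hU : ∀ k, k < R → |S k| ≤ U)
    {k : ℕ} (hk : k < R) : |slotScale d S k| ≤ 2 * R * (D * U) := by
  have hD0 : 0 ≤ D := (abs_nonneg _).trans (hD k hk)
  have hU0 : 0 ≤ U := (abs_nonneg _).trans (hU k hk)
  refine (abs_sum_le_sum_abs _ _).trans ?_
  refine (Finset.sum_le_sum fun m hm => ?_).trans
    (b := ∑ _m ∈ range k, 2 * (D * U)) ?_
  · rw [mem_range] at hm
    have a1 := abs_le.1 (hD m (by omega))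
    have a2 := abs_le.1 (hD (m + 1) (by omega))
    have b1 := abs_le.1 (hU m (by omega))
    have b2 := abs_le.1 (hU (m + 1) (by omega))
    rw [abs_mul, ← mul_assoc]
    refine mul_le_mul (abs_le.2 ⟨by linarith, by linarith⟩) (abs_le.2 ⟨by linarith, by linarith⟩)
      (abs_nonneg _) (by positivity)
  · rw [sum_const, card_range, nsmul_eq_mul]
    have : (k : ℝ) ≤ R := by exact_mod_cast hk.le
    nlinarith [mul_nonneg hD0 hU0]

variable {P ι : Type*} [Fintype P] [Fintype ι]

/-- The slot matrix has a right inverse of exponential size. -/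
theorem exists_slotInverse (cls : P → Fin R) (A : P → ι → ℝ)
    (hA : ∀ T : P → ℝ, ∃ c : Fin R → ι → ℝ, ∀ p, ∑ l, A p l * c (cls p) l = T p) :
    ∃ g η₀ : ℝ, 0 < g ∧ 0 < η₀ ∧ ∀ (d S : ℕ → ℝ) (δ H B D U η : ℝ)
      (phi : Fin R → Fin R → ι → ℝ) (err : P → Fin R × ι → ℝ), 0 ≤ δ → 0 ≤ H →
      (∀ i j, i < j → j < R → δ ≤ d j - d i) → (∀ i j, i < j → j < R → H ≤ S j - S i) →
      (∀ k, k < R → |d k| ≤ D) → (∀ k, k < R → |S k| ≤ U) →
      (∀ k r l, |phi k r l - d k * S r| ≤ B) → (∀ p x, |err p x| ≤ η) → η ≤ η₀ →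
      Real.exp (2 * B - δ * H / 2) ≤ η₀ →
      ∃ G : (P → ℝ) → Fin R × ι → ℝ,
        (∀ y, ‖G y‖ ≤ g * Real.exp ((4 * R + 1) * |D * U| + B) * ‖y‖) ∧
        ∀ y, slotMap (fun p x => Real.exp (phi (cls p) x.1 x.2) * (A p x.2 + err p x)) (G y) = y := by
  classical
  let M0 : P → Fin R × ι → ℝ := fun p x => if x.1 = cls p then A p x.2 else 0
  have hsurj : Function.Surjective (slotMap M0) := by
    intro T
    obtain ⟨c, hc⟩ := hA T
    refine ⟨fun x => c x.1 x.2, funext fun p => ?_⟩
    rw [slotMap_apply, Fintype.sum_prod_type, Finset.sum_eq_single (cls p)]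
    · simpa [M0] using hc p
    · intro r _ hr
      simp [M0, hr]
    · simp
  obtain ⟨G0, hG0⟩ := (slotMap M0).exists_right_inverse_of_surjective
    (LinearMap.range_eq_top.2 hsurj)
  have hG0' : ∀ y, slotMap M0 (G0 y) = y := fun y => congrArg (fun T : (P → ℝ) →L[ℝ] P → ℝ => T y) hG0
  set Amax : ℝ := ∑ p, ∑ l, |A p l| with hAmax
  have hA0 : 0 ≤ Amax := sum_nonneg fun p _ => sum_nonneg fun l _ => abs_nonneg _
  set N : ℝ := (Fintype.card (Fin R × ι) : ℝ) with hN
  set g0 : ℝ := ‖G0‖ + 1 with hg0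
  have hg0' : 0 < g0 := by positivity
  set η₀ : ℝ := min 1 (1 / (2 * g0 * (N + 1) * (Amax + 2))) with hη₀
  refine ⟨2 * g0, η₀, by positivity, lt_min one_pos (by positivity),
    fun d S δ H B D U η phi err hδ hH hd hS hD hU hphi herr hη hexp => ?_⟩
  set a : Fin R → ℝ := fun k => slotScale d S k with ha
  set b : Fin R × ι → ℝ := fun x => Real.exp (a x.1 - phi x.1 x.1 x.2) with hb
  set M : P → Fin R × ι → ℝ := fun p x => Real.exp (phi (cls p) x.1 x.2) * (A p x.2 + err p x)
  set E : P → Fin R × ι → ℝ := fun p x => Real.exp (-a (cls p)) * M p x * b x - M0 p x with hE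
  have hentry : ∀ p x, |E p x| ≤ η₀ * (Amax + 1) := by
    intro p x
    obtain ⟨r, l⟩ := x
    have hAl : |A p l| ≤ Amax :=
      le_trans (single_le_sum (f := fun l => |A p l|) (fun i _ => abs_nonneg _) (mem_univ l))
        (single_le_sum (f := fun p => ∑ l, |A p l|) (fun i _ => sum_nonneg fun l _ => abs_nonneg _)
          (mem_univ p))
    have he : |err p (r, l)| ≤ η₀ := (herr _ _).trans hη
    have hη1 : η₀ ≤ 1 := min_le_left _ _
    have hη0 : 0 ≤ η₀ := (abs_nonneg _).trans he
    have hform : Real.exp (-a (cls p)) * M p (r, l) * b (r, l)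
        = Real.exp (phi (cls p) r l - phi r r l - (a (cls p) - a r)) * (A p l + err p (r, l)) := by
      simp only [M, hb, Real.exp_sub, Real.exp_neg]
      field_simp
    simp only [hE, hform, M0]
    by_cases h : r = cls p
    · rw [if_pos h, h, sub_self, sub_self, sub_zero, Real.exp_zero, one_mul, add_sub_cancel_left]
      exact le_trans (by rwa [h] at he) (le_mul_of_one_le_right hη0 (by linarith))
    · rw [if_neg h, sub_zero, abs_mul, Real.abs_exp]
      have hgap := slotScale_gap hδ hH hd hS r.2 (cls p).2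
        (fun e => h (Fin.ext e.symm))
      have h1 := abs_le.1 (hphi (cls p) r l)
      have h2 := abs_le.1 (hphi r r l)
      refine mul_le_mul ((Real.exp_le_exp.2 ?_).trans hexp) ((abs_add_le _ _).trans (by linarith))
        (abs_nonneg _) hη0
      simp only [ha]
      linarith
  set T : (P → ℝ) →L[ℝ] P → ℝ := (slotMap E).comp G0 with hT
  have hTnorm : ‖T‖ ≤ 1 / 2 := by
    refine (ContinuousLinearMap.opNorm_comp_le _ _).trans ?_
    have hEn : ‖slotMap E‖ ≤ N * (η₀ * (Amax + 1)) := by
      have h00 : 0 ≤ N * (η₀ * (Amax + 1)) := by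
        have : 0 < η₀ := lt_min one_pos (by positivity)
        positivity
      refine ContinuousLinearMap.opNorm_le_bound _ h00 fun u => ?_
      refine (pi_norm_le_iff_of_nonneg (by positivity)).2 fun p => ?_
      rw [slotMap_apply, Real.norm_eq_abs]
      refine (abs_sum_le_sum_abs _ _).trans ?_
      refine (sum_le_sum fun x _ => ?_).trans (b := ∑ _x : Fin R × ι, η₀ * (Amax + 1) * ‖u‖) ?_
      · rw [abs_mul]
        exact mul_le_mul (hentry p x) (norm_le_pi_norm u x) (abs_nonneg _)
          ((abs_nonneg _).trans (hentry p x))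
      · rw [sum_const, card_univ, nsmul_eq_mul, hN]
        exact le_of_eq (by ring)
    have hη₀le : η₀ * (2 * g0 * (N + 1) * (Amax + 2)) ≤ 1 :=
      (le_div_iff₀ (by positivity)).1 (min_le_right _ _)
    calc ‖slotMap E‖ * ‖G0‖ ≤ (N * (η₀ * (Amax + 1))) * g0 :=
          mul_le_mul hEn (by rw [hg0]; linarith) (norm_nonneg _) ((norm_nonneg _).trans hEn)
      _ ≤ 1 / 2 := by
          have : 0 ≤ η₀ := le_min zero_le_one (by positivity)
          nlinarith [mul_nonneg (mul_nonneg hg0'.le this) hA0, mul_nonneg hg0'.le this,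
            mul_nonneg (mul_nonneg hg0'.le this) (Nat.cast_nonneg (α := ℝ) (Fintype.card (Fin R × ι)))]
  have hlt : ‖-T‖ < 1 := by rw [norm_neg]; linarith
  set u : ((P → ℝ) →L[ℝ] P → ℝ)ˣ := Units.oneSub (-T) hlt with hu
  set Ti : (P → ℝ) →L[ℝ] P → ℝ := ((u⁻¹ : _ˣ) : (P → ℝ) →L[ℝ] P → ℝ)
  have hTi : ∀ y, Ti y + T (Ti y) = y := by
    intro y
    have := congrArg (fun L : (P → ℝ) →L[ℝ] P → ℝ => L y) u.mul_inv
    simpa [hu, Ti] using this
  have hTib : ∀ y, ‖Ti y‖ ≤ 2 * ‖y‖ := by
    intro y
    have h1 : ‖Ti y‖ ≤ ‖y‖ + ‖T (Ti y)‖ := by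
      conv_lhs => rw [eq_sub_of_add_eq (hTi y)]
      exact norm_sub_le _ _
    have h2 := T.le_opNorm (Ti y)
    nlinarith [norm_nonneg (Ti y)]
  refine ⟨fun y x => b x * G0 (Ti fun p => Real.exp (-a (cls p)) * y p) x, fun y => ?_, fun y => ?_⟩
  · set W := (4 * (R : ℝ) + 1) * |D * U| + B
    refine (pi_norm_le_iff_of_nonneg (by positivity)).2 fun x => ?_
    have haW : ∀ k : Fin R, |a k| ≤ 2 * R * |D * U| := fun k =>
      (abs_slotScale_le hD hU k.2).trans
        (mul_le_mul_of_nonneg_left (le_abs_self _) (by positivity))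
    have hphW : |phi x.1 x.1 x.2| ≤ |D * U| + B := by
      have h1 := abs_sub_abs_le_abs_sub (phi x.1 x.1 x.2) (d x.1 * S x.1)
      have h2 := hphi x.1 x.1 x.2
      have h3 : |d x.1 * S x.1| ≤ |D * U| := by
        rw [abs_mul, abs_mul]
        exact mul_le_mul ((hD _ x.1.2).trans (le_abs_self _)) ((hU _ x.1.2).trans (le_abs_self _))
          (abs_nonneg _) (abs_nonneg _)
      linarith
    have hy : ‖fun p => Real.exp (-a (cls p)) * y p‖ ≤ Real.exp (2 * R * |D * U|) * ‖y‖ := by
      refine (pi_norm_le_iff_of_nonneg (by positivity)).2 fun p => ?_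
      rw [norm_mul, Real.norm_eq_abs, Real.abs_exp]
      exact mul_le_mul (Real.exp_le_exp.2 ((neg_le_abs _).trans (haW _))) (norm_le_pi_norm y p)
        (norm_nonneg _) (Real.exp_pos _).le
    rw [norm_mul, hb, Real.norm_eq_abs (Real.exp _), Real.abs_exp]
    calc Real.exp (a x.1 - phi x.1 x.1 x.2) * ‖G0 (Ti fun p => Real.exp (-a (cls p)) * y p) x‖
        ≤ Real.exp (2 * R * |D * U| + (|D * U| + B)) * (g0 * (2 * (Real.exp (2 * R * |D * U|) * ‖y‖))) := by
          refine mul_le_mul (Real.exp_le_exp.2 ?_) ?_ (norm_nonneg _) (Real.exp_pos _).le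
          · linarith [(abs_le.1 (haW x.1)).2, (abs_le.1 hphW).1]
          · refine (norm_le_pi_norm _ x).trans ((G0.le_opNorm _).trans ?_)
            refine mul_le_mul (by rw [hg0]; linarith) ((hTib _).trans ?_) (norm_nonneg _) hg0'.le
            exact mul_le_mul_of_nonneg_left hy zero_le_two
      _ = 2 * g0 * Real.exp ((4 * R + 1) * |D * U| + B) * ‖y‖ := by
          rw [show (4 * (R : ℝ) + 1) * |D * U| + B
            = 2 * R * |D * U| + (|D * U| + B) + 2 * R * |D * U| by ring]
          simp only [Real.exp_add]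
          ring
  · set y' : P → ℝ := fun p => Real.exp (-a (cls p)) * y p with hy'
    set w := G0 (Ti y')
    funext p
    have h1 : slotMap (fun p x => Real.exp (-a (cls p)) * M p x * b x) w p = y' p := by
      have h2 := congrFun (hG0' (Ti y')) p
      have h3 := congrFun (hTi y') p
      rw [Pi.add_apply] at h3
      have h4 : T (Ti y') p = slotMap E w p := rfl
      rw [h4, slotMap_apply] at h3
      rw [slotMap_apply] at h2
      simp only [hE, sub_mul, sum_sub_distrib] at h3
      rw [slotMap_apply]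
      linarith
    rw [slotMap_apply] at h1 ⊢
    refine mul_left_cancel₀ (Real.exp_pos (-a (cls p))).ne' ?_
    rw [mul_sum]
    refine Eq.trans (sum_congr rfl fun x _ => ?_) h1
    ring

end

end Vale.Agent.P225.Loop
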