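import Vale.Agent.P225.Assembly.Parts
import Vale.Agent.P225.Loop.CorrLoop
import Vale.Agent.P225.Loop.SegAmp
import Vale.Agent.P225.Model.GenInst
import Vale.Agent.P225.Model.ZeroCol

/-!
P225 corrector: what layout, baseline and response supply for the list of the corrector, and the
corrector of the assembly from it.
-/

namespace Vale.Agent.P225.Loop

open Filter Topology
open scoped Matrix.Norms.L2Operator

noncomputable section

/-- The matrix of the first order of the insertion `f` conjugated by `g`, on constrained entries. -/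
def conjEntry (s : ℕ) {Mb n : ℕ} (g : Fin n → (Matrix (WSt (corrW Mb)) (WSt (corrW Mb)) ℝ)ˣ)
    (f : Fin n → ℕ) (p : CorrEnt Mb) (l : Fin n) : ℝ :=
  ((g l : Matrix (WSt (corrW Mb)) (WSt (corrW Mb)) ℝ)
    * Matrix.of (fun y z : WSt (corrW Mb) =>
        (y.1.blk.mu / z.1.blk.mu) ^ s * Model.ins1 (f l) z.1 y.1)
    * (((g l)⁻¹ : _) : Matrix (WSt (corrW Mb)) (WSt (corrW Mb)) ℝ)) p.1.1 p.1.2

/-- For every list of targets and insertions: a spacing bound `b` independent of the spacing, and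
for every large spacing a program of the corrector with amplitude indices below `off`, together with
amplitudes (`v e`: baseline, insertions moved by `e`) with the data `CorrHyp`. -/
def CorrSupply (κ : ℝ) (s Mb : ℕ) : Prop :=
  ∀ (n : ℕ) (g : Fin n → (Matrix (WSt (corrW Mb)) (WSt (corrW Mb)) ℝ)ˣ) (f : Fin n → ℕ),
    (∀ l, ((g l : _) : Matrix _ _ ℝ) ∈ Alg.expMonoid (corrGens Mb s) ∧
      (((g l)⁻¹ : _) : Matrix _ _ ℝ) ∈ Alg.expMonoid (corrGens Mb s)) →
    ∃ b : ℝ, 0 ≤ b ∧ ∀ h₀ : ℝ, ∃ (h : ℝ) (Nf off P2 : ℕ) (R2 : ℝ) (list : List Piece),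
      h₀ ≤ h ∧ 0 ≤ h ∧ 0 ≤ R2 ∧
      list.head? = some (Piece.wait 0 5) ∧ list.length ≤ P2 ∧ (∀ P ∈ list, P.IsCorr) ∧
      (∀ f k, Piece.ins f k ∈ list → f < Nf ∧ k < off) ∧
      (∀ J g k, Piece.exc J g k ∈ list → k < off) ∧
      ∀ (P0 : ℕ) (Ra Cc K ε₀ A : ℝ), R2 ≤ Ra → 0 ≤ Cc → 1 ≤ K → 0 < ε₀ → 1 ≤ A →
        ∃ (C Kh : ℝ) (η : ℕ → ℝ) (N : ℕ), 0 ≤ C ∧ K ≤ Kh ∧ Tendsto η atTop (𝓝 0) ∧
          ∀ (W : LoopSpec) (j0 : ℕ) (t0 : ℝ) (ht : 1 ≤ t0),
          W.Ok P0 → N ≤ j0 → t0 = ((j0 : ℝ) + 1) ^ 8 →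
          W.LoopsGood κ Cc (Model.modelPM s Nf) j0 t0 ht Ra K ε₀ A →
          ∀ i, 1 ≤ i → W.corr (j0 + i) = list →
            (∀ J g k, Piece.exc J g k ∈ W.ctrl (j0 + i) → off ≤ k) →
            ∀ σ : ℕ → ℝ, (∀ k, |σ k| ≤ Ra) →
              ∃ (v : (Fin (numCls Mb) × Fin n → ℝ) → ℕ → ℝ) (β q : WSt (corrW Mb) → ℝ),
                (∀ e k, off ≤ k → v e k = σ k) ∧
                (∀ e ε, (∀ x, |e x| ≤ ε) → ∀ P ∈ list, P.AmpOk (v e) R2 ε) ∧
                CorrHyp Mb (conjEntry s g f) C (h * (((j0 + i : ℕ) : ℝ) + 1) ^ 5)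
                  (b * (((j0 + i : ℕ) : ℝ) + 1) ^ 5) (η (j0 + i)) ((((j0 + i : ℕ) : ℝ) + 1) ^ 5)
                  (Real.exp (-3 * (((j0 + i : ℕ) : ℝ) + 1) ^ 6)) Kh
                  (K * (1 / (((j0 + i : ℕ) : ℝ) + 1) ^ 5
                    + Real.exp (-3 * (((j0 + i : ℕ) : ℝ) + 1) ^ 6)))
                  (fun e => W.corrSeg κ Cc (Model.modelPM s Nf) j0 t0 ht
                    (LoopSpec.oneParams i (v e)) i)
                  (W.bufSeg κ Cc (Model.modelPM s Nf) j0 t0 ht (LoopSpec.oneParams i (v 0)) i) β q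

theorem exp_neg_le_inv {x : ℝ} (hx : 0 < x) : Real.exp (-x) ≤ 1 / x := by
  rw [Real.exp_neg, one_div]
  exact inv_anti₀ hx (by linarith [Real.add_one_le_exp x])

/-- The corrector of the assembly from what layout, baseline and response supply. -/
theorem corrParts_of_supply {κ : ℝ} {s Mb : ℕ} (hsup : CorrSupply κ s Mb) : CorrParts κ s Mb := by
  obtain ⟨n, g, f, A, hg, hA, hmain⟩ :=
    exists_loop_corrector Mb s (corrGens Mb s) (corr_hgens Mb s)
  obtain rfl : A = conjEntry s g f := funext fun p => funext fun l => hA p l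
  obtain ⟨b, hb, hb'⟩ := hsup n g f hg
  obtain ⟨h₀, hh₀⟩ := hmain b hb
  obtain ⟨h, Nf, off, P2, R2, list, hh, hh0, hR2, hhead, hlen, hcorr, hins, hexc, hrest⟩ := hb' h₀
  refine ⟨Nf, off, P2, R2, list, hR2, hhead, hlen, hcorr, hins, hexc,
    fun P0 Ra Cc K ε₀ A' hRa hCc hK hε₀ hA' => ?_⟩
  obtain ⟨C, Kh, η, N₁, hC, hKh, hη, hdata⟩ := hrest P0 Ra Cc K ε₀ A' hRa hCc hK hε₀ hA'
  obtain ⟨N₂, δ₀, hδ₀, hcor⟩ := hh₀ h C Kh hh hh0 hC (hK.trans hKh) η hη
  obtain ⟨N₃, hN₃⟩ := exists_nat_ge (max (1 / ε₀) (2 * K / δ₀))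
  refine ⟨C + 3, 1, max N₁ (max N₂ N₃), by linarith, zero_le_one,
    fun W j0 t0 ht hW hj ht0 hgood i hi hlist hctrl σ hσ R hR kR => ?_⟩
  simp only [max_le_iff] at hj
  obtain ⟨v, β, q, hvσ, hvA, hhyp⟩ := hdata W j0 t0 ht hW hj.1 ht0 hgood i hi hlist hctrl σ hσ
  set b1 : ℝ := ((j0 + i : ℕ) : ℝ) + 1 with hb1
  have hbge : (1 : ℝ) ≤ b1 := le_add_of_nonneg_left (Nat.cast_nonneg _)
  have e6 : (W.sched j0 t0 ht).T6 i = b1 ^ 6 := by
    simp only [Sched.T6, Sched.base, LoopSpec.sched, hb1]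
  have e5 : (W.sched j0 t0 ht).base i ^ 5 = b1 ^ 5 := by
    simp only [Sched.base, LoopSpec.sched, hb1]
  rw [e6] at hR
  set r := Real.exp (-3 * b1 ^ 6) with hr
  have hr0 : 0 ≤ r := Real.exp_nonneg _
  have hN3 : max (1 / ε₀) (2 * K / δ₀) ≤ b1 := hN₃.trans (by
    rw [hb1]
    exact le_add_of_le_of_nonneg (Nat.cast_le.2 (hj.2.2.trans (by omega))) zero_le_one)
  simp only [max_le_iff] at hN3
  have hpow : ∀ p : ℕ, p ≠ 0 → 1 / b1 ^ p ≤ 1 / b1 := fun p hp =>
    one_div_le_one_div_of_le (by linarith) (le_self_pow₀ hbge hp)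
  have hrb : r ≤ 1 / b1 := by
    rw [hr, neg_mul]
    exact (exp_neg_le_inv (by positivity)).trans ((one_div_le_one_div_of_le (by positivity)
      (by linarith [pow_nonneg (by linarith : (0 : ℝ) ≤ b1) 6])).trans (hpow 6 (by norm_num)))
  have hε : r ≤ ε₀ := hrb.trans (by
    rw [div_le_iff₀ (by linarith)]
    have := (div_le_iff₀ hε₀).1 hN3.1
    linarith)
  have hδ : K * (1 / b1 ^ 5 + r) ≤ δ₀ := by
    have h1 : 2 * K ≤ δ₀ * b1 := by linarith [(div_le_iff₀ hδ₀).1 hN3.2]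
    calc K * (1 / b1 ^ 5 + r) ≤ K * (1 / b1 + 1 / b1) :=
          mul_le_mul_of_nonneg_left (add_le_add (hpow 5 (by norm_num)) hrb) (by linarith)
      _ = 2 * K / b1 := by ring
      _ ≤ δ₀ := (div_le_iff₀ (by linarith)).2 h1
  have hamp : W.AmpAt j0 i (v 0) Ra r := by
    intro P hP
    rw [LoopSpec.prog, loopProg] at hP
    simp only [List.mem_append, List.mem_singleton, hlist] at hP
    rcases hP with ((((hP | rfl) | rfl) | hP) | rfl) | rfl
    · have := hvA 0 r (fun x => by simpa using hr0) P hP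
      revert this
      cases P <;> intro hP' <;> first | exact hP' | exact le_trans hP' hRa
    · trivial
    · trivial
    · have hok := hW.ctrl_ok (j0 + i) P hP
      cases P with
      | exc J g' k =>
        show |v 0 k| ≤ Ra
        rw [hvσ 0 k (hctrl J g' k hP)]
        exact hσ k
      | wait J q' => trivial
      | ins f' k => exact hok.elim
      | out J => exact hok.elim
      | back J => exact hok.elim
    · trivial
    · trivial
  have hcongr : ∀ e, ∀ P ∈ W.ctrl (j0 + i), P.amp (LoopSpec.oneParams i (v e) i)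
      = P.amp (LoopSpec.oneParams i (v 0) i) := by
    intro e P hP
    have hok := hW.ctrl_ok (j0 + i) P hP
    simp only [LoopSpec.oneParams_self]
    cases P with
    | exc J g' k =>
      show v e k = v 0 k
      rw [hvσ e k (hctrl J g' k hP), hvσ 0 k (hctrl J g' k hP)]
    | wait J q' => rfl
    | ins f' k => exact hok.elim
    | out J => exact hok.elim
    | back J => exact hok.elim
  obtain ⟨e, he, hcr, hn⟩ := hcor.loop (τ := fun e => LoopSpec.oneParams i (v e))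
    (Model.zeroCol_modelPM s Nf) kR (hR.trans_eq (by rw [hb1]))
    (hj.2.1.trans (by omega)) (hgood i (v 0) r hr0 hε hamp R (by
      refine hR.trans (le_trans ?_ (le_mul_of_one_le_left (by positivity) hA'))
      refine le_trans (Real.exp_le_exp.2 ?_) (le_add_of_nonneg_left (by positivity))
      linarith [pow_nonneg (by linarith : (0 : ℝ) ≤ b1) 6]))
    hKh hδ (fun e => W.bufSeg_congr _ _ _ _ _ _ _ _ _)
    (fun e => W.restSeg_congr _ _ _ _ _ _ (hcongr e)) hhyp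
  refine ⟨v e, fun k hk => hvσ e k hk, ?_, fun τ hτ => ?_⟩
  · rw [e6]
    exact hvA e _ fun x => (Real.norm_eq_abs _ ▸ norm_le_pi_norm e x).trans he
  · have hs : W.segs κ Cc (Model.modelPM s Nf) j0 t0 ht τ i
        = W.segs κ Cc (Model.modelPM s Nf) j0 t0 ht (LoopSpec.oneParams i (v e)) i :=
      LoopSpec.segs_eq_of_amps (by rw [hτ, LoopSpec.oneParams_self])
    simp only [LoopSpec.corrSeg, LoopSpec.bufSeg, LoopSpec.restSeg, hs, e5, e6, one_mul]
    simp only [LoopSpec.corrSeg, LoopSpec.bufSeg, LoopSpec.restSeg] at hcr hn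
    exact ⟨hcr, hn⟩

end

end Vale.Agent.P225.Loop
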