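import Vale.Agent.P225.Loop.InsKap

/-!
P225, CorrResponse (helper2): an insertion of amplitude zero is diagonal.
-/

open Set

namespace Vale.Agent.P225

noncomputable section

namespace InsOp

variable (O : InsOp) {a b k δ m : ℝ} {c : ℝ → ℝ} {z : St → ℝ → ℝ} {ρ : St → ℝ}
  (h : SlopeFam a b c z ρ k δ) (hm : 0 < m)
  (hz : ∀ g : ℕ × ℕ, g ≠ 0 → ∀ t ∈ Icc a b, m * muL g ≤ z (levRep g) t)

theorem segH_zero_QC (f₁ f₂ : ℝ → ℝ) (hf₁ : Continuous f₁) (hf₂ : Continuous f₂) (A : ℝ) (hA : 0 ≤ A)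
    (hA0 : A = 0) (hb : ∀ t ∈ Icc a b, |f₁ t| ≤ A ∧ |f₂ t| ≤ A) :
    (∀ x i, (O.segH h hm hz f₁ f₂ hf₁ hf₂ A hA hb).Q x i
      = Ode.coefQ (z (levRep (i.blk.level 0))) a b * x i) ∧
    ∀ x i, (O.segH h hm hz f₁ f₂ hf₁ hf₂ A hA hb).C x i
      = (z (levRep (i.blk.level 0)) b - ρ (levRep (i.blk.level 0))) / i.blk.mu * x i := by
  set P := O.pert h hm hz f₁ f₂ hf₁ hf₂ A hA hb
  have hθ : P.θ = 0 := by
    show A * _ = 0
    rw [hA0, zero_mul]
  have hs : P.step = 0 := norm_le_zero_iff.1 (hθ ▸ P.norm_step_le)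
  have hw : P.evW = 0 := norm_le_zero_iff.1 (hθ ▸ P.norm_evW_le)
  have hN : neumann P.step = 1 := by rw [hs]; simp [neumann]
  refine ⟨fun x i => ?_, fun x i => ?_⟩
  · show ofLev 0 ((h.levBase hm hz).evA (neumann P.step ((h.levBase hm hz).baseU (toLev 0 x)))) i = _
    rw [hN, one_apply_eq_self, ofLev_apply, PicardBase.evA_apply, PicardBase.baseU_apply,
      PicardBase.profU_eq]
    show (Real.exp (Ode.prim (z (levRep (i.blk.level 0))) b a) • _ : LevSp 0 _) ⟨i, rfl⟩ = _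
    rw [PiLp.smul_apply, toLev_apply, smul_eq_mul, Ode.coefQ]
    congr 2
    simp only [Ode.prim]
    exact intervalIntegral.integral_symm _ _
  · show muRatioInv (ofLev 0 (P.seg.C (toLev 0 x))) i = _
    have e : P.seg.C = (h.levBase hm hz).baseC := by
      show (h.levBase hm hz).baseC + P.evW.comp _ = _
      rw [hw, ContinuousLinearMap.zero_comp, add_zero]
    rw [e, muRatioInv, diagOp_apply, ofLev_apply]
    show muL (i.blk.level 0) / i.blk.mu
      * (((z (levRep (i.blk.level 0)) b - ρ (levRep (i.blk.level 0))) / muL (i.blk.level 0))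
        • toLev 0 x (i.blk.level 0)) ⟨i, rfl⟩ = _
    rw [PiLp.smul_apply, toLev_apply, smul_eq_mul]
    have h1 : i.blk.mu ≠ 0 := (lt_of_lt_of_le one_pos (Blk.one_le_mu _)).ne'
    have h2 := (muL_pos (i.blk.level 0)).ne'
    field_simp

end InsOp

end

end Vale.Agent.P225
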