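import Vale.Agent.P225.Loop.PieceSegs
import Vale.Agent.P225.Loop.ExcBase
import Vale.Agent.P225.Loop.IdealLoopTools

/-!
P225 corrector (helper8): at `J3` the references and slopes of the corrector and its buffer depend
only on the value `cas a + cas b` of the level, and an insertion with zero forcing is a diagonal
segment.
-/

namespace Vale.Agent.P225

open Set
open Loop (levV)

noncomputable section

/-- Along a piece which is constant at `J3` the eigenvalue is a function of the level value. -/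
theorem pieceLam_valFun {P : Piece} (h : P.isExc = false) (hs : P.src = 0) (hd : P.dst = 0) (κ : ℝ)
    (j : ℕ) (τ : ℕ → ℝ) (a t : ℝ) {i i' : St}
    (hi : levV (i.blk.level 0) = levV (i'.blk.level 0)) :
    pieceLam κ P j τ a i t = pieceLam κ P j τ a i' t := by
  have hraw : P.raw j τ (t - a) = rotW 0 (rawExc 0) := by
    have r0 : rotW 0 (rawExc 0) = rawExc 0 := by funext i; simp [rotW]
    cases P with
    | wait J q =>
        obtain rfl : J = 0 := hs
        rfl
    | exc J g k => simp [Piece.isExc] at h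
    | out J =>
        obtain rfl : J = 0 := hd
        simp [Piece.raw, r0]
    | back J =>
        obtain rfl : J = 0 := hs
        simp [Piece.raw, r0]
    | ins f k => simp [Piece.raw, r0]
  show Blk.lam (wNorm (dFun κ t) (P.raw j τ (t - a))) i.blk
    = Blk.lam (wNorm (dFun κ t) (P.raw j τ (t - a))) i'.blk
  rw [hraw, lam_wNorm, lam_wNorm, show Blk.lam (rotW 0 (rawExc 0)) i.blk = levV (i.blk.level 0) from
    Loop.excP_zero _, show Blk.lam (rotW 0 (rawExc 0)) i'.blk = levV (i'.blk.level 0) from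
    Loop.excP_zero _, hi]

namespace LoopSpec

variable (W : LoopSpec) {P0 : ℕ} (hW : W.Ok P0) (j0 : ℕ) (t0 : ℝ) (ht : 1 ≤ t0) (κ : ℝ)

/-- A function of the level value. -/
def LevValFun (y : St → ℝ) : Prop :=
  ∀ k k' : St, levV (k.blk.level 0) = levV (k'.blk.level 0) → y k = y k'

theorem levValFun_refSlope (t : ℝ) : LevValFun (refSlope κ 0 t) := fun _ _ h =>
  Loop.refSlope_levV κ t h

include hW

theorem src_corr {i m : ℕ} (hm : m ≤ (W.corr (j0 + i)).length + 1)
    (hm' : m < (W.prog (j0 + i)).length) :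
    ((W.prog (j0 + i))[m]).src = 0 ∧
      (m ≤ (W.corr (j0 + i)).length → ((W.prog (j0 + i))[m]).dst = 0) := by
  rcases W.prog_getElem (j0 + i) m hm' with
    ⟨h, e⟩ | ⟨-, e⟩ | ⟨h, e⟩ | ⟨-, h, -⟩ | ⟨h, -⟩ | ⟨h, -⟩
  · rw [e]
    have := (hW.corr_ok _ _ (List.getElem_mem h)).facts
    exact ⟨this.1, fun _ => this.2.1⟩
  · rw [e]; exact ⟨rfl, fun _ => rfl⟩
  · rw [e]; exact ⟨rfl, fun h2 => by omega⟩
  all_goals omega

theorem entryRef_valFun {i m : ℕ} (hm : m ≤ (W.corr (j0 + i)).length + 1) {y : St → ℝ}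
    (hy : LevValFun y) : LevValFun ((W.sched j0 t0 ht).entryRef κ i m y) := by
  unfold Sched.entryRef
  split_ifs with h h2
  · rw [show ((W.sched j0 t0 ht).prog ((W.sched j0 t0 ht).j0 + i))[m].src = 0 from
      (W.src_corr hW j0 hm h).1]
    exact levValFun_refSlope κ _
  · exact hy
  · exact hy

theorem stepRef_valFun {i m : ℕ} (hm : m ≤ (W.corr (j0 + i)).length) {y : St → ℝ}
    (hy : LevValFun y) : LevValFun ((W.sched j0 t0 ht).stepRef κ i m y) := by
  unfold Sched.stepRef
  split_ifs with h h2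
  · rw [show ((W.sched j0 t0 ht).prog ((W.sched j0 t0 ht).j0 + i))[m].dst = 0 from
      (W.src_corr hW j0 (by omega) h).2 hm]
    exact levValFun_refSlope κ _
  · intro k k' hk
    have hl : m < (W.prog (j0 + i)).length := h
    have h2' : ((W.prog (j0 + i))[m]).isExc = false := (Bool.not_eq_true _).mp h2
    obtain ⟨hs, hd⟩ := W.src_corr hW j0 (i := i) (m := m) (by omega) hl
    have e1 := W.entryRef_valFun hW j0 t0 ht κ (i := i) (m := m) (by omega) hy k k' hk
    show pieceSlope κ _ _ _ _ _ k _ = pieceSlope κ _ _ _ _ _ k' _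
    rw [e1]
    exact congrFun (pieceSlope_congr fun t =>
      pieceLam_valFun h2' hs (hd hm) κ _ _ _ t hk) _
  · exact hy

theorem carry_valFun {i : ℕ} {y : St → ℝ} (hy : LevValFun y) :
    ∀ m ≤ (W.corr (j0 + i)).length + 1, LevValFun ((W.sched j0 t0 ht).carry κ i y m)
  | 0, _ => hy
  | m + 1, hm => W.stepRef_valFun hW j0 t0 ht κ (by omega) (carry_valFun hy m (by omega))

theorem loopIn_valFun (i : ℕ) : LevValFun ((W.sched j0 t0 ht).loopIn κ i) := by
  cases i with
  | zero => exact levValFun_refSlope κ _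
  | succ i =>
    have hl := W.prog_length (j0 + i)
    set y := (W.sched j0 t0 ht).loopIn κ i
    show LevValFun ((W.sched j0 t0 ht).carry κ i y (W.prog (j0 + i)).length)
    obtain ⟨m, hm⟩ : ∃ m, (W.prog (j0 + i)).length = m + 1 := ⟨_, hl⟩
    rw [hm]
    have hlt : m < (W.prog (j0 + i)).length := by omega
    have hlast : (W.prog (j0 + i))[m] = Piece.wait 0 7 := by
      rcases W.prog_getElem (j0 + i) m hlt with
        ⟨h, -⟩ | ⟨h, -⟩ | ⟨h, -⟩ | ⟨h, -, -⟩ | ⟨h, -⟩ | ⟨-, e⟩
      all_goals first | exact e | omega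
    intro k k' hk
    show (W.sched j0 t0 ht).stepRef κ i m _ k = (W.sched j0 t0 ht).stepRef κ i m _ k'
    have hlt' : m < ((W.sched j0 t0 ht).prog ((W.sched j0 t0 ht).j0 + i)).length := hlt
    have hlast' : ((W.sched j0 t0 ht).prog ((W.sched j0 t0 ht).j0 + i))[m] = Piece.wait 0 7 := hlast
    simp only [Sched.stepRef, Sched.entryRef, dif_pos hlt', hlast', Piece.isExc, Piece.restarts,
      Piece.power, Bool.false_eq_true, if_false, Bool.false_or]
    rw [if_pos (by decide), pieceSlope_congr fun t => pieceLam_valFun (P := Piece.wait 0 7) rfl rfl rfl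
      κ _ _ _ t hk, show (Piece.wait 0 7).src = 0 from rfl, levValFun_refSlope κ _ k k' hk]

theorem startRef_valFun {i m : ℕ} (hm : m ≤ (W.corr (j0 + i)).length + 1) :
    LevValFun ((W.sched j0 t0 ht).startRef κ i m) :=
  W.entryRef_valFun hW j0 t0 ht κ hm (W.carry_valFun hW j0 t0 ht κ (W.loopIn_valFun hW j0 t0 ht κ i) m hm)

theorem endRef_valFun {i m : ℕ} (hm : m ≤ (W.corr (j0 + i)).length) :
    LevValFun ((W.sched j0 t0 ht).endRef κ i m) := by
  rw [(W.sched j0 t0 ht).startRef_succ κ (by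
    have := W.prog_length (j0 + i)
    show m + 1 < (W.prog (j0 + i)).length
    omega)]
  exact W.startRef_valFun hW j0 t0 ht κ (by omega)

theorem slope_valFun (τ : Params) {i m : ℕ} (hm : m ≤ (W.corr (j0 + i)).length)
    (he : ∀ h : m < (W.prog (j0 + i)).length, ((W.prog (j0 + i))[m]).isExc = false) {k k' : St}
    (hk : levV (k.blk.level 0) = levV (k'.blk.level 0)) :
    (W.sched j0 t0 ht).slope κ τ i m k = (W.sched j0 t0 ht).slope κ τ i m k' := by
  have hl : m < (W.prog (j0 + i)).length := by rw [W.prog_length]; omega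
  obtain ⟨hs, hd⟩ := W.src_corr hW j0 (by omega) hl
  have hl' : m < ((W.sched j0 t0 ht).prog ((W.sched j0 t0 ht).j0 + i)).length := hl
  simp only [Sched.slope, dif_pos hl', W.startRef_valFun hW j0 t0 ht κ (i := i) (m := m) (by omega) k k' hk]
  show pieceSlope κ (W.prog (j0 + i))[m] _ _ _ _ k = pieceSlope κ (W.prog (j0 + i))[m] _ _ _ _ k'
  exact pieceSlope_congr fun t => pieceLam_valFun (he hl) hs (hd hm) κ _ _ _ t hk

end LoopSpec

namespace InsOp

/-- An insertion without forcing is the diagonal segment of its slopes. -/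
theorem segH_zero (O : InsOp) {a b k δ m A : ℝ} {c : ℝ → ℝ} {z : St → ℝ → ℝ} {ρ : St → ℝ}
    (h : SlopeFam a b c z ρ k δ) (hm : 0 < m)
    (hz : ∀ g : ℕ × ℕ, g ≠ 0 → ∀ t ∈ Icc a b, m * muL g ≤ z (levRep g) t) {f₁ f₂ : ℝ → ℝ}
    (hf₁ : Continuous f₁) (hf₂ : Continuous f₂) (hA : 0 ≤ A)
    (hb : ∀ t ∈ Icc a b, |f₁ t| ≤ A ∧ |f₂ t| ≤ A) (h0 : ∀ t, f₁ t = 0 ∧ f₂ t = 0)
    (hzl : ∀ i : St, z i = z (levRep (i.blk.level 0)))
    (hρ : ∀ i : St, ρ i = ρ (levRep (i.blk.level 0))) :
    O.segH h hm hz f₁ f₂ hf₁ hf₂ A hA hb = h.coef.seg := by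
  set P := O.pert h hm hz f₁ f₂ hf₁ hf₂ A hA hb with hP
  have hforce : ∀ x g t, P.force x g t = 0 := fun x g t => Finset.sum_eq_zero fun g' _ => by
    show (f₁ t • O.O₁ g g' + f₂ t • O.O₂ g g') _ = 0
    simp [(h0 t).1, (h0 t).2]
  have hdev : ∀ x g t, P.devPert x g t = 0 := fun x g t => by
    simp [PicardPert.devPert, kerW, hforce]
  have hstep : P.step = 0 := by
    refine ContinuousLinearMap.ext fun x => ?_
    ext g t : 3
    show kerY _ _ (0 : LevSp 0 g) (P.devPert x g) t = _
    simp [kerY, hdev]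
  have hN : neumann P.step = 1 := by rw [hstep]; simp [neumann]
  have hW : P.evW = 0 := by
    ext x g
    simp [PicardPert.evW_apply, hdev]
  have hμ : ∀ i : St, 0 < i.blk.mu := fun i => zero_lt_one.trans_le (Blk.one_le_mu _)
  have hzs : ∀ i : St, (h.levBase hm hz).z (i.blk.level 0) = z i := fun i => (hzl i).symm
  have hρs : ∀ i : St, (h.levBase hm hz).ρ (i.blk.level 0) = ρ i := fun i => (hρ i).symm
  ext x i
  all_goals
    have h1 := (muL_pos (i.blk.level 0)).ne'
    have h2 := (hμ i).ne'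
    simp only [segH, Seg.conj, Seg.ofLevels, ContinuousLinearMap.comp_apply, one_apply_eq_self,
      muRatioInv, muRatio, diagOp_apply, ofLev_apply, DiagCoef.seg_Q, DiagCoef.seg_B,
      DiagCoef.seg_C, DiagCoef.seg_D, ← hP, PicardPert.seg, hN, hW, ContinuousLinearMap.zero_comp, add_zero,
      PicardBase.evA_apply, PicardBase.baseU_apply, PicardBase.baseV_apply, PicardBase.baseC,
      PicardBase.baseD, scalarOp_apply, PiLp.smul_apply, toLev_apply, smul_eq_mul]
  · have e : (h.levBase hm hz).profU (i.blk.level 0) a = h.coef.q i := by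
      rw [PicardBase.profU, show (h.levBase hm hz).a = a from rfl, show (h.levBase hm hz).b = b from rfl,
        hzs, Ode.uSol_left (h.cont_z i)]
      simp [SlopeFam.coef, SlopeFam.levBase]
    exact congrArg (· * x i) e
  · have e : (h.levBase hm hz).profV (i.blk.level 0) a
        = Ode.coefB c (z i) a b * muL (i.blk.level 0) := by
      rw [PicardBase.profV, show (h.levBase hm hz).a = a from rfl, show (h.levBase hm hz).b = b from rfl,
        hzs, Ode.uSol_left (h.cont_z i)]
      simp [SlopeFam.levBase]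
    show (h.levBase hm hz).profV (i.blk.level 0) a * (i.blk.mu / muL (i.blk.level 0) * x i) = _
    rw [e]
    simp only [SlopeFam.coef]
    field_simp
  · simp only [PicardBase.coefC, hzs, hρs]
    simp only [SlopeFam.coef, SlopeFam.levBase]
    field_simp
  · simp only [hzs]
    simp only [SlopeFam.coef, SlopeFam.levBase]
    field_simp

end InsOp

end

end Vale.Agent.P225
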