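import Vale.Agent.P225.Seg.DiagChain
import Vale.Agent.P225.Loop.InsZero
import Vale.Agent.P225.Loop.HoldExp
import Vale.Agent.P225.Loop.SlopeLev

/-!
P225, CorrResponse (helper2): the exact waits and the insertions of amplitude zero of a corrector,
and their slopes near the limit.
-/

open Set

namespace Vale.Agent.P225

open Loop (levV)

noncomputable section

/-- The limit of the slope on a level. -/
def alphaLev (g : ℕ × ℕ) : ℝ := Ode.alphaFn 5 (scaleInf * levV g)

theorem Ode.coefB_nonpos (c z : ℝ → ℝ) {a b : ℝ} (hab : a ≤ b) : Ode.coefB c z a b ≤ 0 :=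
  neg_nonpos.2 (intervalIntegral.integral_nonneg hab fun _ _ =>
    mul_nonneg (Real.exp_pos _).le (Real.exp_pos _).le)

theorem levV_nonneg (g : ℕ × ℕ) : 0 ≤ levV g := add_nonneg (cas_nonneg _) (cas_nonneg _)

theorem alphaLev_nonneg (g : ℕ × ℕ) : 0 ≤ alphaLev g :=
  Ode.alphaFn_nonneg (mul_nonneg (Real.sqrt_nonneg _) (levV_nonneg g))

/-- On a piece constant at `J3` the eigenvalue is the scale times the value of the level. -/
theorem pieceLam_scale_levV {P : Piece} (h : P.isExc = false) (hs : P.src = 0) (hd : P.dst = 0)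
    (κ : ℝ) (j : ℕ) (τ : ℕ → ℝ) (a t : ℝ) (i : St) :
    pieceLam κ P j τ a i t = scaleFun κ t * levV (i.blk.level 0) := by
  have hraw : P.raw j τ (t - a) = rotW 0 (rawExc 0) := by
    have r0 : rotW 0 (rawExc 0) = rawExc 0 := by funext i; simp [rotW]
    cases P with
    | wait J q =>
        obtain rfl : J = 0 := hs
        rfl
    | exc J g k => simp [Piece.isExc] at h
    | out J =>
        obtain rfl : J = 0 := hd
        simp [Piece.raw, r0]
    | back J =>
        obtain rfl : J = 0 := hs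
        simp [Piece.raw, r0]
    | ins f k => simp [Piece.raw, r0]
  show Blk.lam (wNorm (dFun κ t) (P.raw j τ (t - a))) i.blk = _
  rw [hraw, lam_wNorm,
    show Blk.lam (rotW 0 (rawExc 0)) i.blk = levV (i.blk.level 0) from Loop.excP_zero _]
  simp [scaleFun, wdet, rotW, rawExc]

/-- The logarithm of an integrated slope near a constant. -/
theorem abs_log_coefQ_add {z : ℝ → ℝ} (hz : Continuous z) {a L α e : ℝ} (hL : 0 ≤ L)
    (h : ∀ t ∈ Icc a (a + L), |z t - α| ≤ e) :
    |Real.log (Ode.coefQ z a (a + L)) + L * α| ≤ L * e := by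
  have h1 : |Ode.prim z a (a + L) - L * α| ≤ L * e := by
    rw [show L * α = ∫ _ in a..(a + L), α by simp, Ode.prim, ← intervalIntegral.integral_sub
      (hz.intervalIntegrable _ _) (intervalIntegrable_const (μ := MeasureTheory.volume)),
      ← Real.norm_eq_abs]
    refine (intervalIntegral.norm_integral_le_of_norm_le_const (C := e) fun t ht => ?_).trans_eq ?_
    · rw [uIoc_of_le (by linarith)] at ht
      exact h t ⟨ht.1.le, ht.2⟩
    · rw [add_sub_cancel_left, abs_of_nonneg hL]; ring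
  rw [Ode.coefQ, Real.log_exp, show -Ode.prim z a (a + L) + L * α = -(Ode.prim z a (a + L) - L * α) by
    ring, abs_neg]
  exact h1

namespace LoopSpec

variable {W : LoopSpec} {P0 : ℕ} {κ C K ε : ℝ} {Mo : PieceModel} {j0 : ℕ} {t0 : ℝ} {ht : 1 ≤ t0}
  {τ : Params} {i m : ℕ}

/-- The slopes of the constant pieces of a corrector are near their limit. -/
theorem slope_near_alphaLev (hκ : 0 ≤ κ) (hW : W.Ok P0)
    (hm : m < (W.prog (j0 + i)).length) (hc : m ≤ (W.corr (j0 + i)).length)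
    (he : ((W.prog (j0 + i))[m]).isExc = false)
    (g : (W.sched j0 t0 ht).PieceGood κ C τ (W.corr (j0 + i)).length i m ((W.prog (j0 + i))[m]))
    (hb : κ / Real.sqrt (((j0 + i : ℕ) : ℝ) + 1) ≤ 1) (k : St) :
    ∀ t ∈ Icc ((W.sched j0 t0 ht).pieceStart i m)
        ((W.sched j0 t0 ht).pieceStart i m + ((W.prog (j0 + i))[m]).len (j0 + i)),
      |(W.sched j0 t0 ht).slope κ τ i m k t - alphaLev (k.blk.level 0)|
        ≤ 3 * C / (((j0 + i : ℕ) : ℝ) + 1) ^ 5
          + 3 * (κ / Real.sqrt (((j0 + i : ℕ) : ℝ) + 1)) * (3 + alphaLev (k.blk.level 0)) := by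
  intro t htt
  obtain ⟨hs, hd⟩ := W.src_corr hW j0 (i := i) (m := m) (by omega) hm
  set b := ((j0 + i : ℕ) : ℝ) + 1
  have hb1 : 1 ≤ b := le_add_of_nonneg_left (Nat.cast_nonneg _)
  have hb5 : 1 ≤ b ^ 5 := one_le_pow₀ hb1
  have hge : 2 * b ^ 5 ≤ (W.sched j0 t0 ht).pieceStart i m := g.start_ge
  have ht5 : b ^ 5 ≤ t := by linarith [htt.1]
  have hn := g.near k t htt
  rw [pieceLam_scale_levV he hs (hd hc)] at hn
  have hsc := abs_scaleFun_sub (t := t) hκ hb1 ht5
  have hv : |vFun κ t| ≤ κ / Real.sqrt b := by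
    refine (abs_vFun_le hκ hb5 ht5).1.trans ?_
    gcongr
    calc Real.sqrt b ≤ Real.sqrt (b ^ 5 * b ^ 5) := Real.sqrt_le_sqrt (by
          calc b ≤ b ^ 5 := le_self_pow₀ hb1 (by norm_num)
            _ ≤ b ^ 5 * b ^ 5 := le_mul_of_one_le_left (by positivity) hb5)
      _ = b ^ 5 := Real.sqrt_mul_self (by positivity)
  have hI : 2 ≤ scaleInf := Real.le_sqrt_of_sq_le (by norm_num [dMin])
  have h2 := abs_alphaFn_sub (c := cDrift κ t) (s := scaleFun κ t) (I := scaleInf)
    (l := levV (k.blk.level 0)) (η := κ / Real.sqrt b) (v := κ / Real.sqrt b)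
    (by linarith) (levV_nonneg _) (by simpa [cDrift] using hv) hb
    (hsc.trans (by
      rw [show 2 * κ / Real.sqrt b = 2 * (κ / Real.sqrt b) by ring, mul_comm]
      exact mul_le_mul_of_nonneg_left hI (by positivity)))
    (Real.sqrt_nonneg _) (by positivity)
  rw [show κ / Real.sqrt b + 2 * (κ / Real.sqrt b) = 3 * (κ / Real.sqrt b) by ring] at h2
  exact (abs_sub_le _ _ _).trans (add_le_add hn h2)

/-- A wait followed by a piece which does not restart. -/
theorem wait_levDiag (hW : W.Ok P0) (hc : m < (W.corr (j0 + i)).length)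
    (hp : (W.corr (j0 + i))[m] = Piece.wait 0 5) (hm : m + 1 < (W.prog (j0 + i)).length)
    (hnext : ((W.prog (j0 + i))[m + 1]).restarts = false)
    (g : (W.sched j0 t0 ht).SegGood κ C K ε Mo τ (W.corr (j0 + i)).length i m ((W.prog (j0 + i))[m])) :
    ∃ β, LevDiagSeg (W.segs κ C Mo j0 t0 ht τ i m)
      (fun gl => Ode.coefQ ((W.sched j0 t0 ht).slope κ τ i m (levRep gl))
        ((W.sched j0 t0 ht).pieceStart i m)
        ((W.sched j0 t0 ht).pieceStart i m + (((j0 + i : ℕ) : ℝ) + 1) ^ 5))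
      β (Real.exp (-(4 * (((j0 + i : ℕ) : ℝ) + 1) ^ 5))) 10 := by
  set S := W.sched j0 t0 ht
  have hm' : m < (W.prog (j0 + i)).length := by omega
  have hP : (W.prog (j0 + i))[m] = Piece.wait 0 5 := by
    rcases W.prog_getElem (j0 + i) m hm' with
      ⟨h, e⟩ | ⟨h, -⟩ | ⟨h, -⟩ | ⟨-, h, -⟩ | ⟨h, -⟩ | ⟨h, -⟩
    · rw [e, hp]
    all_goals omega
  have he : ((W.prog (j0 + i))[m]).isExc = false := by rw [hP]; rfl
  have hseg := g.diag he (by rw [hP]; simp)
  have hlen : ((W.prog (j0 + i))[m]).len (S.j0 + i) = (((j0 + i : ℕ) : ℝ) + 1) ^ 5 := by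
    rw [hP]; rfl
  have hexact := g.good.exact_end he (fun _ => hnext) (fun _ h => by
    have : m + 1 = (W.prog (j0 + i)).length := h
    omega) hm'
  have hz : ∀ k : St, S.slope κ τ i m k = S.slope κ τ i m (levRep (k.blk.level 0)) := fun k =>
    W.slope_valFun hW j0 t0 ht κ τ (i := i) hc.le (fun _ => he) (by rw [levRep_level])
  have hinv : ∀ g g' : ℕ × ℕ, levV g = levV g' →
      S.slope κ τ i m (levRep g) = S.slope κ τ i m (levRep g') := fun g g' h =>
    W.slope_valFun hW j0 t0 ht κ τ (i := i) hc.le (fun _ => he) (by rw [levRep_level, levRep_level]; exact h)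
  have hfam := g.good.fam
  rw [← hlen]
  set a := S.pieceStart i m
  set e' := a + ((W.prog (j0 + i))[m]).len (S.j0 + i) with he'
  have hae : a ≤ e' := g.good.fam.le
  have hab : ∀ gl, 0 ≤ S.slope κ τ i m (levRep gl) (a) := fun gl =>
    hfam.z_nonneg _ _ (left_mem_Icc.2 hae)
  refine ⟨fun gl => Ode.coefB (cPiece κ a) (S.slope κ τ i m (levRep gl)) a e', fun x k => ?_,
    fun x k => ?_, ?_, ⟨fun gl => Ode.coefD (cPiece κ a) (S.slope κ τ i m (levRep gl)) a e',
      fun gl => ⟨(Ode.coefD_pos _ _ _ _).le, ?_⟩, fun g g' h => by simp only [hinv g g' h],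
      fun x k => ?_⟩, ⟨fun g g' h => by simp only [hinv g g' h],
      fun g g' h => by simp only [hinv g g' h]⟩, fun gl => ⟨Ode.coefQ_pos _ _ _, ?_⟩,
    fun gl => ⟨?_, Ode.coefB_nonpos _ _ hae⟩⟩
  · show (S.seg κ C Mo τ i m).Q x k = _
    rw [hseg, DiagCoef.seg_Q, SlopeFam.coef_q, hz k]
  · show (S.seg κ C Mo τ i m).B x k = _
    rw [hseg, DiagCoef.seg_B]
    show k.blk.mu * Ode.coefB _ _ _ _ * x k = _
    rw [hz k]
  · show (S.seg κ C Mo τ i m).C = 0
    rw [hseg]
    exact g.good.fam.C_eq_zero hexact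
  · have h := Ode.coefD_le (k := 4) hfam.cont_c (hfam.cont_z (levRep gl)) hae fun t htt => by
      linarith [(g.good.drift t).1, hfam.z_nonneg (levRep gl) t htt]
    rw [show ((W.prog (j0 + i))[m]).len (S.j0 + i) = e' - a by rw [he']; ring]
    exact h
  · show (S.seg κ C Mo τ i m).D x k = _
    rw [hseg, DiagCoef.seg_D, SlopeFam.coef_d, hz k]
  · simpa using Ode.coefQ_le (k := 0) (hfam.cont_z (levRep gl)) hae (hfam.z_nonneg (levRep gl))
  · have h := (abs_le.1 (hfam.coef.b_le (levRep gl))).1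
    have h1 : -(1 / (1 / 10 : ℝ)) ≤ (levRep gl).blk.mu * Ode.coefB (cPiece κ a) (S.slope κ τ i m (levRep gl)) a e' := h
    have h2 := mul_le_mul_of_nonpos_right (Blk.one_le_mu (levRep gl).blk)
      (Ode.coefB_nonpos (cPiece κ a) (S.slope κ τ i m (levRep gl)) hae)
    norm_num at h1
    linarith

/-- An insertion of amplitude zero followed by a piece which does not restart. -/
theorem ins_zero (hW : W.Ok P0) {f k' : ℕ} (hc : m < (W.corr (j0 + i)).length)
    (hp : (W.corr (j0 + i))[m] = Piece.ins f k') (hm : m + 1 < (W.prog (j0 + i)).length)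
    (hnext : ((W.prog (j0 + i))[m + 1]).restarts = false) (h0 : τ i k' = 0)
    (g : (W.sched j0 t0 ht).SegGood κ C K ε Mo τ (W.corr (j0 + i)).length i m ((W.prog (j0 + i))[m])) :
    SegLocal 0 (W.segs κ C Mo j0 t0 ht τ i m) ∧
    (∀ x k, (W.segs κ C Mo j0 t0 ht τ i m).Q x k
      = Ode.coefQ ((W.sched j0 t0 ht).slope κ τ i m (levRep (k.blk.level 0)))
          ((W.sched j0 t0 ht).pieceStart i m)
          ((W.sched j0 t0 ht).pieceStart i m + (((j0 + i : ℕ) : ℝ) + 1) ^ 5) * x k) ∧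
    (W.segs κ C Mo j0 t0 ht τ i m).C = 0 := by
  set S := W.sched j0 t0 ht
  have hm' : m < (W.prog (j0 + i)).length := by omega
  have hP : (W.prog (j0 + i))[m] = Piece.ins f k' := by
    rcases W.prog_getElem (j0 + i) m hm' with
      ⟨h, e⟩ | ⟨h, -⟩ | ⟨h, -⟩ | ⟨-, h, -⟩ | ⟨h, -⟩ | ⟨h, -⟩
    · rw [e, hp]
    all_goals omega
  have he : ((W.prog (j0 + i))[m]).isExc = false := by rw [hP]; rfl
  obtain ⟨hr, hseg, -⟩ := g.ins f k' hP
  have hexact := g.good.exact_end he (fun _ => hnext) (fun _ h => by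
    have : m + 1 = (W.prog (j0 + i)).length := h
    omega) hm'
  have hz : ∀ k : St, S.slope κ τ i m k = S.slope κ τ i m (levRep (k.blk.level 0)) := fun k =>
    W.slope_valFun hW j0 t0 ht κ τ (i := i) hc.le (fun _ => he) (by rw [levRep_level])
  have e0 : W.segs κ C Mo j0 t0 ht τ i m = hr.fam.coef.seg := by
    show S.seg κ C Mo τ i m = _
    rw [hseg, insSegOf_eq _ hr]
    refine InsOp.segH_zero _ hr.fam _ hr.low hr.cont.1 hr.cont.2 _ hr.bd (fun t => ?_) hz
      fun k => W.endRef_valFun hW j0 t0 ht κ (i := i) hc.le _ _ (by rw [levRep_level])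
    obtain ⟨h1, h2⟩ := insF_scale κ (τ i k') ((((W.prog (j0 + i))[m])).len (S.j0 + i)) (S.pieceStart i m) t
    rw [h1, h2, h0]
    simp
  have hlen : ((W.prog (j0 + i))[m]).len (S.j0 + i) = (((j0 + i : ℕ) : ℝ) + 1) ^ 5 := by
    rw [hP]; rfl
  rw [e0]
  refine ⟨DiagCoef.segLocal _ _, fun x k => ?_, hr.fam.C_eq_zero hexact⟩
  rw [DiagCoef.seg_Q, SlopeFam.coef_q, hz k, hlen]

end LoopSpec

end

end Vale.Agent.P225
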