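import Mathlib

/-!
P225 seat D, part 1 (helper29): Green operators of the finite block.

* `sum_mul_le_of_suffix`: Abel summation against monotone weights.
* `ScalarChain`: one scalar chain `z_j = a_j z_{j+1} + f_j` solved forwards (slow) or backwards (fast).
* `perturb`: a Green operator survives `A ↦ (1 + E) A` when `gain * ‖E‖` is small.
-/

namespace Vale.Agent.P225

open Finset Filter
open scoped BoundedContinuousFunction Topology

noncomputable section

/-- Abel summation: suffix sums of `x` at most `A` give the weighted sum at most `A * T j`. -/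
theorem sum_mul_le_of_suffix {x T : ℕ → ℝ} {A : ℝ} {m j : ℕ} (hA : 0 ≤ A) (hmj : m ≤ j)
    (hT : Monotone T) (hT0 : 0 ≤ T m) (hS : ∀ l, m ≤ l → l ≤ j → ∑ i ∈ Ico l j, x i ≤ A) :
    ∑ i ∈ Ico m j, x i * T i ≤ A * T j := by
  have key : ∀ d l, j - l = d → m ≤ l → l ≤ j →
      ∑ i ∈ Ico l j, x i * T i ≤ A * (T j - T l) + T l * ∑ i ∈ Ico l j, x i := by
    intro d
    induction d with
    | zero =>
        intro l hd hml hlj
        obtain rfl : l = j := by omega
        simp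
    | succ d ih =>
        intro l hd hml hlj
        have hlt : l < j := by omega
        have h := ih (l + 1) (by omega) (by omega) hlt
        have hs := hS (l + 1) (by omega) hlt
        have hd' : 0 ≤ T (l + 1) - T l := sub_nonneg.2 (hT (Nat.le_succ l))
        rw [sum_eq_sum_Ico_succ_bot hlt, sum_eq_sum_Ico_succ_bot hlt]
        nlinarith [mul_le_mul_of_nonneg_left hs hd']
  have h := key (j - m) m rfl le_rfl hmj
  have h2 : T m * ∑ i ∈ Ico m j, x i ≤ T m * A :=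
    mul_le_mul_of_nonneg_left (hS m le_rfl hmj) hT0
  nlinarith

/-- Interval sums of a periodic sequence with nonpositive period sum. -/
theorem sum_Ico_le_of_periodic {x : ℕ → ℝ} {L : ℕ} {M : ℝ} (hL : 0 < L)
    (hper : ∀ i, x (i + L) = x i) (hM : ∀ i, x i ≤ M) (hM0 : 0 ≤ M)
    (hsum : ∀ i, ∑ l ∈ Ico i (i + L), x l ≤ 0) (m j : ℕ) :
    ∑ l ∈ Ico m j, x l ≤ L * M := by
  induction' hd : j - m using Nat.strong_induction_on with d ih generalizing m
  rcases le_or_gt j m with h | h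
  · simp [Ico_eq_empty_of_le h]
    positivity
  · rcases lt_or_ge (j - m) L with hlt | hge
    · calc ∑ l ∈ Ico m j, x l ≤ ∑ _l ∈ Ico m j, M := sum_le_sum fun i _ => hM i
        _ = (j - m : ℕ) * M := by simp
        _ ≤ L * M := by gcongr
    · rw [← sum_Ico_consecutive _ (Nat.le_add_right m L) (by omega)]
      have := ih (j - (m + L)) (by omega) (m + L) rfl
      have := hsum m
      linarith

/-- Data of one scalar chain: `P (j+1) / P j` is the backward factor, `ω` the weight. -/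
structure ScalarChain where
  P : ℕ → ℝ
  P_pos : ∀ j, 0 < P j

namespace ScalarChain

variable (c : ScalarChain) {ω γ : ℕ → ℝ}

/-- Backward factor. -/
def a (j : ℕ) : ℝ := c.P (j + 1) / c.P j

/-- Forward solution with initial value `z0`. -/
def slow (z0 : ℝ) (f : ℕ → ℝ) (j : ℕ) : ℝ :=
  (c.P 0 * z0 - ∑ l ∈ range j, c.P l * f l) / c.P j

/-- Backward solution. -/
def fast (f : ℕ → ℝ) (j : ℕ) : ℝ := (∑' l, c.P (j + l) * f (j + l)) / c.P j

theorem slow_rec (z0 : ℝ) (f : ℕ → ℝ) (j : ℕ) :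
    c.slow z0 f j = c.a j * c.slow z0 f (j + 1) + f j := by
  have h1 := (c.P_pos j).ne'
  have h2 := (c.P_pos (j + 1)).ne'
  simp only [slow, a, sum_range_succ]
  field_simp
  ring

theorem slow_zero (z0 : ℝ) (f : ℕ → ℝ) : c.slow z0 f 0 = z0 := by
  have := (c.P_pos 0).ne'
  simp [slow]; field_simp

theorem abs_slow_le {z0 B : ℝ} {f : ℕ → ℝ} {j : ℕ} (hω : ∀ l, 0 ≤ ω l) (hB : |z0| ≤ B)
    (hf : ∀ l, |f l| ≤ B * ω l) (h : c.P 0 + ∑ l ∈ range j, c.P l * ω l ≤ γ j * ω j * c.P j) :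
    |c.slow z0 f j| ≤ γ j * ω j * B := by
  have hB0 : 0 ≤ B := (abs_nonneg _).trans hB
  rw [slow, abs_div, abs_of_pos (c.P_pos j), div_le_iff₀ (c.P_pos j)]
  calc |c.P 0 * z0 - ∑ l ∈ range j, c.P l * f l|
      ≤ |c.P 0 * z0| + |∑ l ∈ range j, c.P l * f l| := abs_sub _ _
    _ ≤ c.P 0 * B + ∑ l ∈ range j, c.P l * (B * ω l) := by
        refine add_le_add ?_ ((abs_sum_le_sum_abs _ _).trans (sum_le_sum fun l _ => ?_))
        · rw [abs_mul, abs_of_pos (c.P_pos 0)]
          exact mul_le_mul_of_nonneg_left hB (c.P_pos 0).le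
        · rw [abs_mul, abs_of_pos (c.P_pos l)]
          exact mul_le_mul_of_nonneg_left (hf l) (c.P_pos l).le
    _ = B * (c.P 0 + ∑ l ∈ range j, c.P l * ω l) := by
        rw [mul_add, mul_sum]
        congr 1
        · ring
        · exact sum_congr rfl fun l _ => by ring
    _ ≤ B * (γ j * ω j * c.P j) := by gcongr
    _ = γ j * ω j * B * c.P j := by ring

theorem summable_fast {B : ℝ} {f : ℕ → ℝ} {j : ℕ} (hf : ∀ l, |f l| ≤ B * ω l)
    (hs : Summable fun l => c.P (j + l) * ω (j + l)) :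
    Summable fun l => c.P (j + l) * f (j + l) := by
  refine (hs.mul_left B).of_norm_bounded fun l => ?_
  rw [Real.norm_eq_abs, abs_mul, abs_of_pos (c.P_pos _)]
  nlinarith [hf (j + l), c.P_pos (j + l)]

theorem fast_rec {B : ℝ} {f : ℕ → ℝ} {j : ℕ} (hf : ∀ l, |f l| ≤ B * ω l)
    (hs : Summable fun l => c.P (j + l) * ω (j + l)) :
    c.fast f j = c.a j * c.fast f (j + 1) + f j := by
  have h1 := (c.P_pos j).ne'
  have h2 := (c.P_pos (j + 1)).ne'
  have e : ∑' l, c.P (j + l) * f (j + l)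
      = c.P j * f j + ∑' l, c.P (j + 1 + l) * f (j + 1 + l) := by
    rw [(c.summable_fast hf hs).tsum_eq_zero_add]
    simp only [add_zero, add_assoc, add_comm 1]
  simp only [fast, a, e]
  field_simp
  ring

theorem abs_fast_le {B : ℝ} {f : ℕ → ℝ} {j : ℕ} (hB : 0 ≤ B) (hf : ∀ l, |f l| ≤ B * ω l)
    (hs : Summable fun l => c.P (j + l) * ω (j + l))
    (h : ∑' l, c.P (j + l) * ω (j + l) ≤ γ j * ω j * c.P j) :
    |c.fast f j| ≤ γ j * ω j * B := by
  rw [fast, abs_div, abs_of_pos (c.P_pos j), div_le_iff₀ (c.P_pos j)]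
  have h1 : |∑' l, c.P (j + l) * f (j + l)| ≤ ∑' l, B * (c.P (j + l) * ω (j + l)) := by
    rw [← Real.norm_eq_abs]
    refine tsum_of_norm_bounded (hs.mul_left B).hasSum fun l => ?_
    rw [Real.norm_eq_abs, abs_mul, abs_of_pos (c.P_pos _)]
    nlinarith [hf (j + l), c.P_pos (j + l)]
  refine h1.trans ?_
  rw [tsum_mul_left]
  calc B * ∑' l, c.P (j + l) * ω (j + l) ≤ B * (γ j * ω j * c.P j) := by gcongr
    _ = γ j * ω j * B * c.P j := by ring

theorem fast_add {B B' : ℝ} {f f' : ℕ → ℝ} {j : ℕ} (hf : ∀ l, |f l| ≤ B * ω l)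
    (hf' : ∀ l, |f' l| ≤ B' * ω l) (hs : Summable fun l => c.P (j + l) * ω (j + l)) :
    c.fast (f + f') j = c.fast f j + c.fast f' j := by
  simp only [fast, Pi.add_apply, mul_add]
  rw [(c.summable_fast hf hs).tsum_add (c.summable_fast hf' hs), add_div]

theorem fast_smul (r : ℝ) (f : ℕ → ℝ) (j : ℕ) : c.fast (r • f) j = r * c.fast f j := by
  simp only [fast, Pi.smul_apply, smul_eq_mul, mul_left_comm _ r]
  rw [tsum_mul_left, mul_div_assoc]

theorem slow_add (z0 z0' : ℝ) (f f' : ℕ → ℝ) (j : ℕ) :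
    c.slow (z0 + z0') (f + f') j = c.slow z0 f j + c.slow z0' f' j := by
  simp only [slow, Pi.add_apply, mul_add, sum_add_distrib]
  ring

theorem slow_smul (r z0 : ℝ) (f : ℕ → ℝ) (j : ℕ) :
    c.slow (r * z0) (r • f) j = r * c.slow z0 f j := by
  simp only [slow, Pi.smul_apply, smul_eq_mul, mul_left_comm _ r, ← mul_sum]
  ring

end ScalarChain

/-! ### Chains to a Green operator on a finite block -/

section Chains

variable {ι : Type*} [Fintype ι] [DecidableEq ι]

/-- A finite block whose backward map is monomial: `(A_j w) (π_j i) = c_j i * w i`, written through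
the chains `σ_j`. -/
structure ChainBlock (ι : Type*) [Fintype ι] where
  σ : ℕ → Equiv.Perm ι
  chain : ι → ScalarChain
  isSlow : ι → Bool
  ω : ℕ → ℝ
  γ : ℕ → ℝ
  ω_pos : ∀ j, 0 < ω j
  γ_pos : ∀ j, 0 < γ j
  slow_le : ∀ q, isSlow q = true → ∀ j,
    (chain q).P 0 + ∑ l ∈ range j, (chain q).P l * ω l ≤ γ j * ω j * (chain q).P j
  fast_summable : ∀ q, isSlow q = false → ∀ j,
    Summable fun l => (chain q).P (j + l) * ω (j + l)
  fast_le : ∀ q, isSlow q = false → ∀ j,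
    ∑' l, (chain q).P (j + l) * ω (j + l) ≤ γ j * ω j * (chain q).P j

namespace ChainBlock

variable (K : ChainBlock ι)

/-- The backward map. -/
def A (j : ℕ) : (ι → ℝ) →L[ℝ] ι → ℝ :=
  ContinuousLinearMap.pi fun i =>
    (K.chain ((K.σ j).symm i)).a j •
      ContinuousLinearMap.proj (R := ℝ) (φ := fun _ : ι => ℝ)
        (K.σ (j + 1) ((K.σ j).symm i))

/-- Forcing seen by a chain. -/
def force (φ : ℕ →ᵇ (ι → ℝ)) (q : ι) (l : ℕ) : ℝ := K.ω l * φ l (K.σ l q)

theorem abs_force_le (φ : ℕ →ᵇ (ι → ℝ)) (q : ι) (l : ℕ) : |K.force φ q l| ≤ ‖φ‖ * K.ω l := by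
  rw [force, abs_mul, abs_of_pos (K.ω_pos l), mul_comm]
  gcongr
  · exact (K.ω_pos l).le
  exact (norm_le_pi_norm (φ l) _).trans (φ.norm_coe_le_norm l)

/-- Value of a chain: `z0` is used only on slow chains. -/
def chainVal (z0 : ℝ) (f : ℕ → ℝ) (q : ι) (j : ℕ) : ℝ :=
  if K.isSlow q = true then (K.chain q).slow z0 f j else (K.chain q).fast f j

/-- Homogeneous solutions with given slow data. -/
def G0 : ({q : ι // K.isSlow q = true} → ℝ) →ₗ[ℝ] ℕ → ι → ℝ where
  toFun e j i := if h : K.isSlow ((K.σ j).symm i) = true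
    then (K.chain ((K.σ j).symm i)).slow (e ⟨_, h⟩) 0 j else 0
  map_add' e e' := by
    funext j i
    simp only [Pi.add_apply]
    split_ifs with h
    · simpa using (K.chain ((K.σ j).symm i)).slow_add (e ⟨_, h⟩) (e' ⟨_, h⟩) 0 0 j
    · simp
  map_smul' r e := by
    funext j i
    simp only [Pi.smul_apply, RingHom.id_apply, smul_eq_mul]
    split_ifs with h
    · simpa using (K.chain ((K.σ j).symm i)).slow_smul r (e ⟨_, h⟩) 0 j
    · simp

/-- Forced solutions with zero slow data. -/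
def G1 : (ℕ →ᵇ (ι → ℝ)) →ₗ[ℝ] ℕ → ι → ℝ where
  toFun φ j i := K.chainVal 0 (K.force φ ((K.σ j).symm i)) ((K.σ j).symm i) j
  map_add' φ φ' := by
    funext j i
    set q := (K.σ j).symm i
    have e : K.force (φ + φ') q = K.force φ q + K.force φ' q := by
      funext l; simp [force, mul_add]
    simp only [Pi.add_apply, chainVal, e]
    split_ifs with h
    · simpa using (K.chain q).slow_add 0 0 (K.force φ q) (K.force φ' q) j
    · exact (K.chain q).fast_add (K.abs_force_le φ q) (K.abs_force_le φ' q)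
        (K.fast_summable q (by simpa using h) j)
  map_smul' r φ := by
    funext j i
    set q := (K.σ j).symm i
    have e : K.force (r • φ) q = r • K.force φ q := by
      funext l; simp [force, mul_left_comm]
    simp only [Pi.smul_apply, RingHom.id_apply, smul_eq_mul, chainVal, e]
    split_ifs with h
    · simpa using (K.chain q).slow_smul r 0 (K.force φ q) j
    · exact (K.chain q).fast_smul r (K.force φ q) j

theorem A_apply (j : ℕ) (w : ι → ℝ) (i : ι) :
    K.A j w i = (K.chain ((K.σ j).symm i)).a j * w (K.σ (j + 1) ((K.σ j).symm i)) := by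
  simp [A]

theorem G0_rec (e : {q : ι // K.isSlow q = true} → ℝ) (j : ℕ) :
    K.G0 e j = K.A j (K.G0 e (j + 1)) := by
  funext i
  rw [K.A_apply]
  set q := (K.σ j).symm i with hq
  show (if h : K.isSlow q = true then _ else _) = _
  simp only [G0, LinearMap.coe_mk, AddHom.coe_mk, Equiv.symm_apply_apply]
  split_ifs with h
  · simpa using (K.chain q).slow_rec (e ⟨q, h⟩) 0 j
  · simp

theorem G1_rec (φ : ℕ →ᵇ (ι → ℝ)) (j : ℕ) :
    K.G1 φ j = K.A j (K.G1 φ (j + 1)) + K.ω j • φ j := by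
  funext i
  rw [Pi.add_apply, K.A_apply]
  set q := (K.σ j).symm i with hq
  have hi : K.σ j q = i := by simp [hq]
  have hf : K.ω j • φ j i = K.force φ q j := by simp [force, hi]
  simp only [G1, LinearMap.coe_mk, AddHom.coe_mk, Equiv.symm_apply_apply, Pi.smul_apply, hf,
    ← hq, chainVal]
  split_ifs with h
  · exact (K.chain q).slow_rec 0 (K.force φ q) j
  · exact (K.chain q).fast_rec (K.abs_force_le φ q) (K.fast_summable q (by simpa using h) j)

theorem G0_bound (e : {q : ι // K.isSlow q = true} → ℝ) (j : ℕ) :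
    ‖K.G0 e j‖ ≤ K.γ j * K.ω j * ‖e‖ := by
  have h0 : 0 ≤ K.γ j * K.ω j * ‖e‖ :=
    mul_nonneg (mul_pos (K.γ_pos j) (K.ω_pos j)).le (norm_nonneg _)
  refine (pi_norm_le_iff_of_nonneg h0).2 fun i => ?_
  simp only [G0, LinearMap.coe_mk, AddHom.coe_mk, Real.norm_eq_abs]
  split_ifs with h
  · exact (K.chain _).abs_slow_le (fun l => (K.ω_pos l).le) (norm_le_pi_norm e ⟨_, h⟩)
      (fun l => by simpa using mul_nonneg (norm_nonneg e) (K.ω_pos l).le) (K.slow_le _ h j)
  · simpa using h0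

theorem G1_bound (φ : ℕ →ᵇ (ι → ℝ)) (j : ℕ) : ‖K.G1 φ j‖ ≤ K.γ j * K.ω j * ‖φ‖ := by
  have h0 : 0 ≤ K.γ j * K.ω j * ‖φ‖ :=
    mul_nonneg (mul_pos (K.γ_pos j) (K.ω_pos j)).le (norm_nonneg _)
  refine (pi_norm_le_iff_of_nonneg h0).2 fun i => ?_
  simp only [G1, LinearMap.coe_mk, AddHom.coe_mk, Real.norm_eq_abs, chainVal]
  split_ifs with h
  · exact (K.chain _).abs_slow_le (fun l => (K.ω_pos l).le) (by simp) (K.abs_force_le φ _)
      (K.slow_le _ h j)
  · exact (K.chain _).abs_fast_le (norm_nonneg _) (K.abs_force_le φ _)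
      (K.fast_summable _ (by simpa using h) j) (K.fast_le _ (by simpa using h) j)

/-- Slow data read at loop `0`. -/
def proj : (ι → ℝ) →ₗ[ℝ] {q : ι // K.isSlow q = true} → ℝ where
  toFun w q := w (K.σ 0 q.1)
  map_add' _ _ := rfl
  map_smul' _ _ := rfl

theorem proj_G0 (e : {q : ι // K.isSlow q = true} → ℝ) : K.proj (K.G0 e 0) = e := by
  funext q
  simp [proj, G0, q.2, ScalarChain.slow_zero]

theorem proj_G1 (φ : ℕ →ᵇ (ι → ℝ)) : K.proj (K.G1 φ 0) = 0 := by
  funext q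
  simp [proj, G1, chainVal, q.2, ScalarChain.slow_zero]

end ChainBlock

end Chains

/-! ### Perturbation `A ↦ (1 + E) A` -/

section Perturb

variable {S W : Type*} [NormedAddCommGroup S] [NormedSpace ℝ S] [NormedAddCommGroup W]
  [NormedSpace ℝ W] [CompleteSpace W]

/-- Green operators survive a perturbation with `γ j * ‖E j‖ ≤ 1/8`. -/
theorem green_perturb (A E : ℕ → W →L[ℝ] W) (ω γ : ℕ → ℝ) (hω : ∀ j, 0 < ω j)
    (hγ : ∀ j, 1 ≤ γ j) (proj : W →ₗ[ℝ] S) (G0 : S →ₗ[ℝ] ℕ → W)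
    (G1 : (ℕ →ᵇ W) →ₗ[ℝ] ℕ → W)
    (h0r : ∀ e j, G0 e j = A j (G0 e (j + 1)))
    (h1r : ∀ φ j, G1 φ j = A j (G1 φ (j + 1)) + ω j • φ j)
    (h0b : ∀ e j, ‖G0 e j‖ ≤ γ j * ω j * ‖e‖) (h1b : ∀ φ j, ‖G1 φ j‖ ≤ γ j * ω j * ‖φ‖)
    (hp0 : ∀ e, proj (G0 e 0) = e) (hp1 : ∀ φ, proj (G1 φ 0) = 0)
    (hE : ∀ j, γ j * ‖E j‖ ≤ 1 / 8) :
    ∃ (H0 : S →ₗ[ℝ] ℕ → W) (H1 : (ℕ →ᵇ W) →ₗ[ℝ] ℕ → W),
      (∀ e j, H0 e j = (1 + E j) (A j (H0 e (j + 1)))) ∧
      (∀ φ j, H1 φ j = (1 + E j) (A j (H1 φ (j + 1))) + ω j • φ j) ∧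
      (∀ e j, ‖H0 e j‖ ≤ 3 * γ j * ω j * ‖e‖) ∧ (∀ φ j, ‖H1 φ j‖ ≤ 3 * γ j * ω j * ‖φ‖) ∧
      (∀ e, proj (H0 e 0) = e) ∧ (∀ φ, proj (H1 φ 0) = 0) := by
  -- unknown `χ`: `w = G0 e + G1 (φ + χ)`, `ω χ = E (w - ω (φ + χ))`
  let T : (ℕ → W) →ₗ[ℝ] ℕ → W :=
    { toFun := fun u j => (ω j)⁻¹ • E j (u j)
      map_add' := fun a b => by funext j; simp
      map_smul' := fun r a => by funext j; simp [smul_comm r] }
  have hT : ∀ (u : ℕ → W) (c : ℝ), 0 ≤ c → (∀ j, ‖u j‖ ≤ γ j * ω j * c) →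
      ∀ j, ‖T u j‖ ≤ 1 / 8 * c := by
    intro u c hc hu j
    have hw := hω j
    show ‖(ω j)⁻¹ • E j (u j)‖ ≤ _
    rw [norm_smul, Real.norm_eq_abs, abs_of_pos (inv_pos.2 hw)]
    calc (ω j)⁻¹ * ‖E j (u j)‖ ≤ (ω j)⁻¹ * (‖E j‖ * (γ j * ω j * c)) := by
          gcongr; exact ((E j).le_opNorm _).trans (by gcongr; exact hu j)
      _ = (γ j * ‖E j‖) * c := by field_simp
      _ ≤ 1 / 8 * c := by gcongr; exact hE j
  have hzero : ∀ (φ : ℕ →ᵇ W) j, ‖ω j • φ j‖ ≤ γ j * ω j * ‖φ‖ := by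
    intro φ j
    have hw := hω j
    rw [norm_smul, Real.norm_eq_abs, abs_of_pos hw]
    nlinarith [φ.norm_coe_le_norm j, hγ j, norm_nonneg φ, norm_nonneg (φ j),
      mul_nonneg hw.le (norm_nonneg φ)]
  let M : (ℕ →ᵇ W) →ₗ[ℝ] ℕ → W :=
    G1 - { toFun := fun φ j => ω j • φ j
           map_add' := fun a b => by funext j; simp
           map_smul' := fun r a => by funext j; simp [smul_comm r] }
  have hM : ∀ φ j, ‖M φ j‖ ≤ γ j * ω j * (2 * ‖φ‖) := fun φ j =>
    show ‖G1 φ j - ω j • φ j‖ ≤ _ from (norm_sub_le _ _).trans (by linarith [h1b φ j, hzero φ j])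
  let K : (ℕ →ᵇ W) →L[ℝ] ℕ →ᵇ W := LinearMap.mkContinuous
    { toFun := fun χ => BoundedContinuousFunction.ofNormedAddCommGroup (T (M χ))
        continuous_of_discreteTopology (1 / 8 * (2 * ‖χ‖)) (hT _ _ (by positivity) (hM χ))
      map_add' := fun a b => by ext j; simp
      map_smul' := fun r a => by ext j; simp }
    (1 / 4) fun χ => by
      refine (BoundedContinuousFunction.norm_le (by positivity)).2 fun j => ?_
      exact (hT _ _ (by positivity) (hM χ) j).trans (le_of_eq (by ring))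
  have hK : ‖K‖ ≤ 1 / 4 := LinearMap.mkContinuous_norm_le _ (by norm_num) _
  have hU : IsUnit (1 - K) := ⟨Units.oneSub K (lt_of_le_of_lt hK (by norm_num)), rfl⟩
  let R : (ℕ →ᵇ W) →L[ℝ] ℕ →ᵇ W := Ring.inverse (1 - K)
  have hR : ∀ b, R b = K (R b) + b := by
    intro b
    have := congrArg (fun L : (ℕ →ᵇ W) →L[ℝ] ℕ →ᵇ W => L b) (Ring.mul_inverse_cancel _ hU)
    change R b - K (R b) = b at this
    linear_combination (norm := abel) this
  have hRn : ∀ b, ‖R b‖ ≤ 2 * ‖b‖ := by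
    intro b
    have h1 := congrArg norm (hR b)
    have h2 := norm_add_le (K (R b)) b
    have h3 : ‖K (R b)‖ ≤ 1 / 4 * ‖R b‖ := (K.le_opNorm _).trans (by gcongr)
    linarith [norm_nonneg b]
  let b0 : S →ₗ[ℝ] ℕ →ᵇ W :=
    { toFun := fun e => BoundedContinuousFunction.ofNormedAddCommGroup (T (G0 e))
        continuous_of_discreteTopology (1 / 8 * ‖e‖) (hT _ _ (norm_nonneg e) (h0b e))
      map_add' := fun a b => by ext j; simp
      map_smul' := fun r a => by ext j; simp }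
  let b1 : (ℕ →ᵇ W) →ₗ[ℝ] ℕ →ᵇ W :=
    { toFun := fun φ => BoundedContinuousFunction.ofNormedAddCommGroup (T (M φ))
        continuous_of_discreteTopology (1 / 8 * (2 * ‖φ‖)) (hT _ _ (by positivity) (hM φ))
      map_add' := fun a b => by ext j; simp
      map_smul' := fun r a => by ext j; simp }
  -- the algebra turning the fixed point into the perturbed recursion
  have alg : ∀ (w : ℕ → W) (ψ : ℕ → W), (∀ j, w j = A j (w (j + 1)) + ω j • ψ j) →
      ∀ (φ : ℕ → W), (∀ j, ψ j = φ j + (ω j)⁻¹ • E j (w j - ω j • ψ j)) →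
        ∀ j, w j = (1 + E j) (A j (w (j + 1))) + ω j • φ j := by
    intro w ψ hw φ hψ j
    have h1 : w j - ω j • ψ j = A j (w (j + 1)) := by rw [hw j]; abel
    have h2 : ω j • ψ j = ω j • φ j + E j (A j (w (j + 1))) := by
      conv_lhs => rw [hψ j, h1, smul_add, smul_smul, mul_inv_cancel₀ (hω j).ne', one_smul]
    rw [hw j, h2]
    simp only [add_apply, one_apply_eq_self]
    abel
  refine ⟨G0 + G1.comp (R.toLinearMap.comp b0), G1 + G1.comp (R.toLinearMap.comp b1),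
    fun e j => ?_, fun φ j => ?_, fun e j => ?_, fun φ j => ?_, fun e => ?_, fun φ => ?_⟩
  · have h := alg (fun j => G0 e j + G1 (R (b0 e)) j) (fun j => R (b0 e) j)
      (fun j => by rw [h0r e j, h1r _ j, (A j).map_add]; abel) 0 (fun j => ?_) j
    · simpa using h
    · have h := congrArg (fun F : ℕ →ᵇ W => F j) (hR (b0 e))
      simp only [BoundedContinuousFunction.coe_add, Pi.add_apply] at h
      refine h.trans ?_
      show T (M (R (b0 e))) j + T (G0 e) j = _
      simp only [M, T, LinearMap.coe_mk, AddHom.coe_mk, LinearMap.sub_apply, Pi.sub_apply,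
        Pi.zero_apply, zero_add, ← smul_add, ← (E j).map_add]
      congr 2; abel
  · have h := alg (fun j => G1 φ j + G1 (R (b1 φ)) j) (fun j => φ j + R (b1 φ) j)
      (fun j => by rw [h1r φ j, h1r _ j, (A j).map_add, smul_add]; abel) (fun j => φ j)
      (fun j => ?_) j
    · simpa using h
    · have h := congrArg (fun F : ℕ →ᵇ W => F j) (hR (b1 φ))
      simp only [BoundedContinuousFunction.coe_add, Pi.add_apply] at h
      refine congrArg (φ j + ·) (h.trans ?_)
      show T (M (R (b1 φ))) j + T (M φ) j = _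
      simp only [M, T, LinearMap.coe_mk, AddHom.coe_mk, LinearMap.sub_apply, Pi.sub_apply,
        ← smul_add, ← (E j).map_add]
      congr 2; simp only [smul_add]; abel
  · show ‖G0 e j + G1 (R (b0 e)) j‖ ≤ _
    have hb : ‖b0 e‖ ≤ 1 / 8 * ‖e‖ := (BoundedContinuousFunction.norm_le (by positivity)).2
      (hT _ _ (norm_nonneg e) (h0b e))
    have hpos : 0 ≤ γ j * ω j := mul_nonneg (zero_le_one.trans (hγ j)) (hω j).le
    calc ‖G0 e j + G1 (R (b0 e)) j‖ ≤ ‖G0 e j‖ + ‖G1 (R (b0 e)) j‖ := norm_add_le _ _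
      _ ≤ γ j * ω j * ‖e‖ + γ j * ω j * (2 * ‖e‖) := by
          refine add_le_add (h0b e j) ((h1b _ j).trans (mul_le_mul_of_nonneg_left ?_ hpos))
          linarith [hRn (b0 e), norm_nonneg e]
      _ = 3 * γ j * ω j * ‖e‖ := by ring
  · show ‖G1 φ j + G1 (R (b1 φ)) j‖ ≤ _
    have hb : ‖b1 φ‖ ≤ 1 / 4 * ‖φ‖ :=
      (BoundedContinuousFunction.norm_le (by positivity)).2
        fun i => (hT _ _ (by positivity) (hM φ) i).trans (le_of_eq (by ring))
    have hpos : 0 ≤ γ j * ω j := mul_nonneg (zero_le_one.trans (hγ j)) (hω j).le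
    calc ‖G1 φ j + G1 (R (b1 φ)) j‖ ≤ ‖G1 φ j‖ + ‖G1 (R (b1 φ)) j‖ := norm_add_le _ _
      _ ≤ γ j * ω j * ‖φ‖ + γ j * ω j * (2 * ‖φ‖) := by
          refine add_le_add (h1b φ j) ((h1b _ j).trans (mul_le_mul_of_nonneg_left ?_ hpos))
          linarith [hRn (b1 φ), norm_nonneg φ]
      _ = 3 * γ j * ω j * ‖φ‖ := by ring
  · show proj (G0 e 0 + G1 (R (b0 e)) 0) = e
    rw [map_add, hp0, hp1, add_zero]
  · show proj (G1 φ 0 + G1 (R (b1 φ)) 0) = 0
    rw [map_add, hp1, hp1, add_zero]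

end Perturb

end

end Vale.Agent.P225
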