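import Vale.Agent.P225.Alg.Reach
import Vale.Agent.P225.Loop.LBd

/-!
P225, module 10 (helper8): the ideal control.  In a finite dimensional algebra let excursion
generators and central elements generate everything as a Lie algebra.  Then there is one fixed word
of excursions such that every family of segments close to it, flanked by two fixed segments, hits
any given element of the generated monoid exactly, up to a central exponential.
-/

namespace Vale.Agent.P225.Loop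

open NormedSpace Alg Metric Set
open scoped Topology

noncomputable section

/-- A map whose difference to a map submersive at `0` is small in value and in Lipschitz norm
covers a fixed ball around the value. -/
theorem exists_ball_hit {X Y : Type*} [NormedAddCommGroup X] [NormedSpace ℝ X]
    [FiniteDimensional ℝ X] [NormedAddCommGroup Y] [NormedSpace ℝ Y] [FiniteDimensional ℝ Y]
    {Φ : X → Y} {L : X →L[ℝ] Y} (hΦ : HasStrictFDerivAt Φ L 0) (hL : Function.Surjective L) :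
    ∃ r > 0, r ≤ 1 ∧ ∃ η > 0, ∃ Cb ≥ 0, ∀ F : X → Y,
      (∀ p ∈ closedBall 0 r, ∀ q ∈ closedBall 0 r,
        ‖(F p - Φ p) - (F q - Φ q)‖ ≤ η * dist p q) →
      ∀ y, ‖F 0 - y‖ ≤ η → ∃ p ∈ closedBall (0 : X) r, ‖p‖ ≤ Cb * ‖F 0 - y‖ ∧ F p = y := by
  have : CompleteSpace X := FiniteDimensional.complete ℝ X
  have : CompleteSpace Y := FiniteDimensional.complete ℝ Y
  let fs := L.nonlinearRightInverseOfSurjective (LinearMap.range_eq_top.2 hL)
  have hN : 0 < fs.nnnorm := L.nonlinearRightInverseOfSurjective_nnnorm_pos _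
  set c : NNReal := fs.nnnorm⁻¹ / 4 with hc
  obtain ⟨s, hs, happ⟩ := hΦ.approximates_deriv_on_nhds (c := c) (Or.inr (by positivity))
  obtain ⟨r', hr', hball⟩ := nhds_basis_closedBall.mem_iff.1 hs
  set r := min r' 1 with hr
  have hr0 : 0 < r := lt_min hr' one_pos
  have hc0 : (0 : ℝ) < c := by rw [hc]; positivity
  have hNc : ((fs.nnnorm : ℝ)⁻¹ - (c + c : NNReal)) = 2 * c := by
    simp only [hc, NNReal.coe_add, NNReal.coe_div, NNReal.coe_inv, NNReal.coe_ofNat]
    ring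
  refine ⟨r, hr0, min_le_right _ _, c * r,
    mul_pos hc0 hr0, 1 / (2 * c), by positivity, fun F hF y hy => ?_⟩
  have hηc : (c : ℝ) * r ≤ c := mul_le_of_le_one_right hc0.le (min_le_right _ _)
  have hsub : closedBall (0 : X) r ⊆ s :=
    (closedBall_subset_closedBall (min_le_left _ _)).trans hball
  have hFapp : ApproximatesLinearOn F L (closedBall 0 r) (c + c) := by
    intro p hp q hq
    have h1 := hF p hp q hq
    have h2 := happ p (hsub hp) q (hsub hq)
    rw [dist_eq_norm] at h1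
    calc ‖F p - F q - L (p - q)‖
        = ‖((F p - Φ p) - (F q - Φ q)) + (Φ p - Φ q - L (p - q))‖ := by congr 1; abel
      _ ≤ _ := (norm_add_le _ _).trans (by
          rw [NNReal.coe_add]
          nlinarith [norm_nonneg (p - q)])
  set ρ := 1 / (2 * c) * ‖F 0 - y‖ with hρ
  have hρr : ρ ≤ r := by
    rw [hρ, one_div, inv_mul_le_iff₀ (by positivity)]
    nlinarith
  have hρ0 : 0 ≤ ρ := by positivity
  obtain ⟨p, hp, hpy⟩ := (hFapp.mono_set (closedBall_subset_closedBall hρr)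
    ).surjOn_closedBall_of_nonlinearRightInverse fs hρ0 Subset.rfl
    (show y ∈ closedBall (F 0) (((fs.nnnorm : ℝ)⁻¹ - (c + c : NNReal)) * ρ) by
      rw [mem_closedBall', dist_eq_norm, hNc, hρ]
      exact le_of_eq (by field_simp))
  exact ⟨p, closedBall_subset_closedBall hρr hp, by simpa using hp, hpy⟩

variable {A : Type*} [NormedRing A] [NormedAlgebra ℝ A] [FiniteDimensional ℝ A]

/-- One-parameter groups are bounded and Lipschitz on bounded intervals. -/
theorem exists_LBd_exp (x : A) (R : ℝ) :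
    ∃ K : ℝ, 0 ≤ K ∧ LBd (Icc (-R) R) K fun θ : ℝ => exp (θ • x) := by
  have : CompleteSpace A := FiniteDimensional.complete ℝ A
  have hd : ∀ θ : ℝ, HasDerivAt (fun θ => exp (θ • x)) (exp (θ • x) * x) θ :=
    fun θ => hasDerivAt_exp_smul_const x θ
  have hc : Continuous fun θ : ℝ => exp (θ • x) :=
    continuous_iff_continuousAt.2 fun θ => (hd θ).continuousAt
  obtain ⟨K₁, h₁⟩ := (isCompact_Icc (a := -R) (b := R)).exists_bound_of_continuousOn hc.continuousOn
  refine ⟨|K₁| + |K₁| * ‖x‖, by positivity, fun θ hθ => ?_, fun p hp q hq => ?_⟩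
  · exact (h₁ θ hθ).trans (le_add_of_le_of_nonneg (le_abs_self _) (by positivity))
  · rw [dist_eq_norm]
    refine Convex.norm_image_sub_le_of_norm_hasDerivWithin_le
      (fun θ _ => (hd θ).hasDerivWithinAt) (fun θ hθ => ?_) (convex_Icc _ _) hq hp
    refine (norm_mul_le _ _).trans ((mul_le_mul_of_nonneg_right
      ((h₁ θ hθ).trans (le_abs_self _)) (norm_nonneg x)).trans ?_)
    exact le_add_of_nonneg_left (abs_nonneg _)

variable {Zs : Set A}

/-- Exponentials of central elements are central. -/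
theorem central_of_mem (hZ : ∀ z ∈ Zs, ∀ x : A, Commute z x) {σ : A}
    (h : σ ∈ expMonoid Zs) : ∀ x : A, Commute σ x := by
  induction h using Submonoid.closure_induction with
  | mem g hg =>
    obtain ⟨z, hz, t, rfl⟩ := hg
    exact fun x => ((hZ z hz x).smul_left t).exp_left
  | one => exact fun x => Commute.one_left x
  | mul a b _ _ ha hb => exact fun x => (ha x).mul_left (hb x)

variable {E : Type*} {d : ℕ}

/-- A map which is a central exponential times a word of excursion exponentials in `1`-Lipschitz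
parameters. -/
def IsWord (X : E → A) (Zs : Set A) (Φ : (Fin d → ℝ) → A) : Prop :=
  ∃ (l : List (E × ((Fin d → ℝ) → ℝ))) (σ : (Fin d → ℝ) → A),
    (∀ a ∈ l, ∀ p q, |a.2 p - a.2 q| ≤ dist p q) ∧ (∀ p, σ p ∈ expMonoid Zs) ∧
    (∀ r : ℝ, ∃ K, 0 ≤ K ∧ LBd (closedBall 0 r) K σ) ∧ σ 0 = 1 ∧
    ∀ p, Φ p = σ p * (l.map fun a => exp (a.2 p • X a.1)).prod

variable {X : E → A}

theorem isWord_one : IsWord (d := d) X Zs fun _ => 1 :=
  ⟨[], fun _ => 1, by simp, fun _ => one_mem _,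
    fun _ => ⟨‖(1 : A)‖, norm_nonneg _, LBd.const le_rfl⟩, rfl, by simp⟩

theorem IsWord.mul (hZ : ∀ z ∈ Zs, ∀ x : A, Commute z x) {Φ Ψ : (Fin d → ℝ) → A}
    (h : IsWord X Zs Φ) (h' : IsWord X Zs Ψ) : IsWord X Zs fun p => Φ p * Ψ p := by
  obtain ⟨l, σ, hl, hσ, hσb, h1, e⟩ := h
  obtain ⟨l', σ', hl', hσ', hσb', h1', e'⟩ := h'
  refine ⟨l ++ l', fun p => σ p * σ' p, fun a ha => ?_, fun p => mul_mem (hσ p) (hσ' p),
    fun r => ?_, by simp only [h1, h1', mul_one], fun p => ?_⟩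
  · rcases List.mem_append.1 ha with h | h
    exacts [hl a h, hl' a h]
  · obtain ⟨K, hK, hb⟩ := hσb r
    obtain ⟨K', hK', hb'⟩ := hσb' r
    exact ⟨_, by positivity, hb.mul hb'⟩
  · simp only [e, e', List.map_append, List.prod_append]
    simp only [mul_assoc]
    rw [← mul_assoc _ (σ' p), ← (central_of_mem hZ (hσ' p) _).eq, mul_assoc]

/-- One exponential of a generator. -/
theorem isWord_exp {Y : A} (hY : Y ∈ range X ∪ Zs) (f : (Fin d → ℝ) → ℝ)
    (hf : ∀ p q, |f p - f q| ≤ dist p q) (hf0 : Y ∈ range X ∨ f 0 = 0) :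
    IsWord X Zs fun p => exp (f p • Y) := by
  by_cases hYX : Y ∈ range X
  · obtain ⟨e, rfl⟩ := hYX
    exact ⟨[(e, f)], fun _ => 1, by simpa using hf, fun _ => one_mem _,
      fun _ => ⟨‖(1 : A)‖, norm_nonneg _, LBd.const le_rfl⟩, rfl, by simp⟩
  · replace hY := hY.resolve_left hYX
    refine ⟨[], fun p => exp (f p • Y), by simp, fun p => exp_mem_expMonoid hY _,
      fun r => ?_, by simp [hf0.resolve_left hYX], by simp⟩
    obtain ⟨K, hK, hb⟩ := exists_LBd_exp Y (|f 0| + r)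
    refine ⟨K, hK, hb.comp hK (fun p hp => ?_) fun p _ q _ => ?_⟩
    · rw [mem_Icc, ← abs_le]
      rw [mem_closedBall] at hp
      linarith [hf p 0, abs_sub_abs_le_abs_sub (f p) (f 0)]
    · rw [Real.dist_eq]; exact hf p q

/-- Constant elements of the monoid of the excursions are words. -/
theorem isWord_const (hZ : ∀ z ∈ Zs, ∀ x : A, Commute z x) {g : A}
    (h : g ∈ expMonoid (range X)) : IsWord (d := d) X Zs fun _ => g := by
  induction h using Submonoid.closure_induction with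
  | mem g hg =>
    obtain ⟨Y, hY, t, rfl⟩ := hg
    exact isWord_exp (Or.inl hY) (fun _ => t) (by simp [dist_nonneg]) (Or.inl hY)
  | one => exact isWord_one
  | mul a b _ _ ha hb => exact ha.mul hZ hb

/-- An element of the generated monoid is a central exponential times a unit of the monoid of the
excursions, whose inverse lies there too. -/
theorem exists_split (hZ : ∀ z ∈ Zs, ∀ x : A, Commute z x) {g : A}
    (h : g ∈ expMonoid (range X ∪ Zs)) :
    ∃ σ ∈ expMonoid Zs, ∃ b : Aˣ, (b : A) ∈ expMonoid (range X) ∧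
      ((b⁻¹ : Aˣ) : A) ∈ expMonoid (range X) ∧ g = σ * b := by
  induction h using Submonoid.closure_induction with
  | mem g hg =>
    obtain ⟨Y, hY, t, rfl⟩ := hg
    rcases hY with hY | hY
    · exact ⟨1, one_mem _, expUnit Y t, exp_mem_expMonoid hY t, exp_mem_expMonoid hY (-t),
        (one_mul _).symm⟩
    · exact ⟨_, exp_mem_expMonoid hY t, 1, one_mem _, by rw [inv_one]; exact one_mem _,
        (mul_one _).symm⟩
  | one => exact ⟨1, one_mem _, 1, one_mem _, by rw [inv_one]; exact one_mem _, (mul_one _).symm⟩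
  | mul a b _ _ ha hb =>
    obtain ⟨σ, hσ, u, hu, hu', rfl⟩ := ha
    obtain ⟨σ', hσ', u', hv, hv', rfl⟩ := hb
    refine ⟨σ * σ', mul_mem hσ hσ', u * u', mul_mem hu hv, ?_, ?_⟩
    · rw [mul_inv_rev]; exact mul_mem hv' hu'
    · simp only [Units.val_mul, mul_assoc]
      rw [← mul_assoc (u : A) σ', ← (central_of_mem hZ hσ' _).eq, mul_assoc]

/-- The monoid of the excursions is closed under inverses. -/
theorem exists_unit_of_mem {g : A} (h : g ∈ expMonoid (range X)) :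
    ∃ b : Aˣ, (b : A) = g ∧ ((b⁻¹ : Aˣ) : A) ∈ expMonoid (range X) := by
  obtain ⟨σ, hσ, b, hb, hb', e⟩ := exists_split (Zs := (∅ : Set A)) (by simp)
    (show g ∈ expMonoid (range X ∪ ∅) by rwa [union_empty])
  have h1 : σ = 1 := by
    have : expMonoid (∅ : Set A) = ⊥ := by simp [expMonoid]
    rwa [this, Submonoid.mem_bot] at hσ
  exact ⟨b, by rw [e, h1, one_mul], hb'⟩

theorem isWord_prod (hZ : ∀ z ∈ Zs, ∀ x : A, Commute z x) :
    ∀ {m : ℕ} (Φ : Fin m → (Fin d → ℝ) → A), (∀ i, IsWord X Zs (Φ i)) →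
      IsWord X Zs fun p => (List.ofFn fun i => Φ i p).prod
  | 0, _, _ => by simpa using isWord_one
  | m + 1, Φ, h => by
    simpa only [List.ofFn_succ, List.prod_cons] using
      (h 0).mul hZ (isWord_prod hZ (fun i => Φ i.succ) fun i => h i.succ)

/-- The submersive words of `Alg.Reach` are words in this sense. -/
theorem isWord_reach (hZ : ∀ z ∈ Zs, ∀ x : A, Commute z x) {g : A}
    (hg : g ∈ expMonoid (range X)) (c : Fin d → Conj (range X ∪ Zs)) :
    IsWord X Zs fun p : Fin d → ℝ => g * (List.ofFn fun i => exp (p i • (c i).val)).prod := by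
  have : CompleteSpace A := FiniteDimensional.complete ℝ A
  let : NormedAlgebra ℚ A := NormedAlgebra.restrictScalars ℚ ℝ A
  refine (isWord_const hZ hg).mul hZ (isWord_prod hZ _ fun i => ?_)
  obtain ⟨σ, hσ, b, hb, hb', hcg⟩ := exists_split hZ (c i).mem
  have hval : (c i).val = b * (c i).X * ((b⁻¹ : Aˣ) : A) := by
    set s : Aˣ := (c i).g * b⁻¹ with hs
    have hsv : (s : A) = σ := by rw [hs, Units.val_mul, hcg, mul_assoc, Units.mul_inv, mul_one]
    have hgs : (c i).g = s * b := by rw [hs]; group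
    calc (c i).val = (s : A) * ((b : A) * (c i).X * ((b⁻¹ : Aˣ) : A)) * ((s⁻¹ : Aˣ) : A) := by
          simp only [Conj.val, hgs, mul_inv_rev, Units.val_mul, mul_assoc]
      _ = _ := by
          rw [hsv, (central_of_mem hZ hσ _).eq, ← hsv, mul_assoc, Units.mul_inv, mul_one]
  have e : ∀ p : Fin d → ℝ, exp (p i • (c i).val)
      = b * exp (p i • (c i).X) * ((b⁻¹ : Aˣ) : A) := fun p => by
    rw [← exp_units_conj, hval]
    simp
  simp only [e]
  exact ((isWord_const hZ hb).mul hZ (isWord_exp (c i).gen (fun p => p i)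
    (fun p q => by simpa [Real.dist_eq] using dist_le_pi_dist p q i) (Or.inr rfl))).mul hZ
      (isWord_const hZ hb')

/-- The ideal control: one word of excursions, such that close families of segments between two
fixed segments `O`, `Z` hit `g` exactly up to a central exponential and the product of the central
normalisations. -/
theorem ideal_control_near [NormOneClass A] (hZ : ∀ z ∈ Zs, ∀ x : A, Commute z x)
    (hgen : ∀ P : Submodule ℝ A, range X ∪ Zs ⊆ P →
      (∀ Y ∈ range X ∪ Zs, ∀ Z ∈ P, Y * Z - Z * Y ∈ P) → P = ⊤)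
    (g : Aˣ) (hg : (g : A) ∈ expMonoid (range X)) :
    ∃ (m : ℕ) (e : Fin m → E) (R : ℝ), 0 < R ∧ ∀ K : ℝ, 1 ≤ K →
      ∃ B δ₀ : ℝ, 0 ≤ B ∧ 0 < δ₀ ∧ ∀ δ, 0 ≤ δ → δ ≤ δ₀ → ∀ (S : Fin m → ℝ → RSeg A) (c : Fin m → A)
        (O Z : RSeg A),
        (∀ k, Good (Icc (-R) R) K δ (S k) (c k) fun θ => exp (θ • X (e k))) →
        ‖O.C‖ ≤ δ → ‖Z.B‖ ≤ K → ∀ y : A, ‖y - g‖ ≤ δ₀ →
        ∃ θ : Fin m → ℝ, (∀ k, θ k ∈ Icc (-R) R) ∧ ∃ σ ∈ expMonoid Zs, ∃ ν : A,
          ‖σ‖ ≤ B ∧ ‖ν‖ ≤ B ∧ ‖σ - 1‖ ≤ B * (δ + ‖y - g‖) ∧ σ * ν = y ∧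
          (O.comp ((chain fun k => S k (θ k)).comp Z)).Q
            = O.Q * ((List.ofFn c).prod * ν) * Z.Q := by
  have : CompleteSpace A := FiniteDimensional.complete ℝ A
  obtain ⟨d, cj, L, hL, hder, -⟩ := exists_submersive_word_at _ hgen g
    (Submonoid.closure_mono (fun a ha => by
      obtain ⟨Y, hY, ht⟩ := ha; exact ⟨Y, Or.inl hY, ht⟩) hg)
  obtain ⟨r, hr, hr1, η, hη, Cb, hCb, hit⟩ := exists_ball_hit hder hL
  obtain ⟨l, σ, hl, hσ, hσb, hσ1, hword⟩ := isWord_reach hZ hg cj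
  obtain ⟨Kσ, hKσ, hσK⟩ := hσb r
  set R : ℝ := (∑ k : Fin l.length, |(l.get k).2 0|) + 1 with hR
  have hR0 : 0 < R := by rw [hR]; positivity
  refine ⟨l.length, fun k => (l.get k).1, R, hR0, fun K hK => ?_⟩
  obtain ⟨K', hK', δ₁, hδ₁, hchain⟩ :=
    exists_good_chain (X := Fin d → ℝ) (A := A) (s := closedBall 0 r) l.length K hK
  set M : ℝ := 5000 * (Kσ + 1) * K * K' ^ 3 with hM
  have hM0 : 0 < M := by positivity
  refine ⟨Kσ + 8 * K' + Kσ * (Cb * (M + 1)), min (min δ₁ (η / 2)) (min η 1 / 2 / M),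
    by positivity, lt_min (lt_min hδ₁ (by positivity)) (by positivity),
    fun δ hδ hδ' S c O Z hS hO hZB y hy => ?_⟩
  obtain ⟨⟨hd1, hy1⟩, hd4⟩ : (δ ≤ δ₁ ∧ ‖y - g‖ ≤ η / 2) ∧ M * δ ≤ min η 1 / 2 := by
    simp only [le_min_iff] at hδ' hy
    exact ⟨⟨hδ'.1.1, hy.1.2⟩, (le_div_iff₀' hM0).1 hδ'.2⟩
  have hd3 : M * δ ≤ min η 1 := hd4.trans (by linarith [lt_min hη one_pos])
  let θ : (Fin d → ℝ) → Fin l.length → ℝ := fun p k => (l.get k).2 p
  have hθ : ∀ k, ∀ p ∈ closedBall (0 : Fin d → ℝ) r, θ p k ∈ Icc (-R) R := by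
    intro k p hp
    rw [mem_Icc, ← abs_le]
    rw [mem_closedBall] at hp
    have h1 := hl _ (l.get_mem k) p 0
    have h2 : |(l.get k).2 0| ≤ R - 1 := by
      rw [hR, add_sub_cancel_right]
      exact Finset.single_le_sum (f := fun k : Fin l.length => |(l.get k).2 0|)
        (fun i _ => abs_nonneg _) (Finset.mem_univ k)
    have h3 := abs_sub_abs_le_abs_sub ((l.get k).2 p) ((l.get k).2 0)
    show |(l.get k).2 p| ≤ R
    linarith
  have hθl : ∀ k, ∀ p ∈ closedBall (0 : Fin d → ℝ) r, ∀ q ∈ closedBall (0 : Fin d → ℝ) r,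
      dist (θ p k) (θ q k) ≤ dist p q := fun k p _ q _ => by
    rw [Real.dist_eq]; exact hl _ (l.get_mem k) p q
  have hG := hchain δ hδ hd1 (fun k p => S k (θ p k)) c
    (fun k p => exp (θ p k • X (l.get k).1)) fun k => by
    obtain ⟨q, hq, hqn⟩ := (hS k).near
    have hK0 : 0 ≤ K := zero_le_one.trans hK
    exact ⟨(hS k).hQ.comp hK0 (hθ k) (hθl k), (hS k).hB.comp hK0 (hθ k) (hθl k),
      (hS k).hC.comp hδ (hθ k) (hθl k), (hS k).hD.comp hK0 (hθ k) (hθl k),
      (hS k).hw.comp hK0 (hθ k) (hθl k), (hS k).central, fun p => q (θ p k),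
      fun p hp => hq _ (hθ k p hp), hqn.comp hδ (hθ k) (hθl k)⟩
  obtain ⟨q, hq, hqn⟩ := hG.near
  set C := (List.ofFn c).prod
  set w : (Fin d → ℝ) → A := fun p => (List.ofFn fun k => exp (θ p k • X (l.get k).1)).prod
  let Mc : (Fin d → ℝ) → RSeg A := fun p => chain fun k => S k (θ p k)
  let N₂ : (Fin d → ℝ) → A := fun p => Ring.inverse (1 - Z.B * (Mc p).C)
  let N₁ : (Fin d → ℝ) → A := fun p => Ring.inverse (1 - ((Mc p).comp Z).B * O.C)
  have hKK : 1 ≤ K * K' ^ 2 := one_le_mul_of_one_le_of_one_le hK (one_le_pow₀ hK')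
  have h23 : K * K' ^ 2 ≤ K * K' ^ 3 :=
    mul_le_mul_of_nonneg_left (pow_le_pow_right₀ hK' (by norm_num)) (zero_le_one.trans hK)
  have hK0 : 0 ≤ K := zero_le_one.trans hK
  have hMδ : 5000 * (K * K' ^ 3) * δ ≤ 1 := by
    refine le_trans ?_ (hd3.trans (min_le_right _ _))
    rw [hM]
    nlinarith [mul_nonneg (mul_nonneg hKσ hδ) (zero_le_one.trans (hKK.trans h23))]
  have hK'3 : K' ≤ K' ^ 3 := le_self_pow₀ hK' (by norm_num)
  have hT₂ : LBd (closedBall 0 r) (2 * K * (K' * δ)) fun p => Z.B * (Mc p).C :=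
    (LBd.const hZB).mul hG.hC
  have h2small : 2 * K * (K' * δ) ≤ 1 / 4 := by
    nlinarith [mul_nonneg hδ (mul_nonneg hK0 (sub_nonneg.2 hK'3))]
  have hN₂₁ := hT₂.inv_sub_one h2small
  have hN₂ := hT₂.inv h2small
  have hMB : LBd (closedBall 0 r) (17 * (K * K' ^ 2)) fun p => ((Mc p).comp Z).B :=
    (hG.hB.add (hG.hQ.mul (hN₂.mul ((LBd.const hZB).mul hG.hD)))).mono
      (by nlinarith [mul_le_mul hK hK' zero_le_one hK0])
  have hT₁ : LBd (closedBall 0 r) (2 * (17 * (K * K' ^ 2)) * δ)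
      fun p => ((Mc p).comp Z).B * O.C :=
    hMB.mul (LBd.const hO)
  have h1small : 2 * (17 * (K * K' ^ 2)) * δ ≤ 1 / 4 := by
    nlinarith [mul_nonneg hδ (sub_nonneg.2 h23)]
  have hN₁₁ := hT₁.inv_sub_one h1small
  have hq1 : LBd (closedBall 0 r) (2 * K') q :=
    ((hqn.add hG.hw).congr fun p _ => sub_add_cancel (q p) _).mono (by nlinarith)
  let F : (Fin d → ℝ) → A := fun p => σ p * (N₁ p * (q p * N₂ p))
  have hFM : LBd (closedBall 0 r) (M * δ)
      fun p => σ p * (N₁ p * (q p * N₂ p)) - σ p * w p := by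
    refine ((hσK.mul (((hN₁₁.mul (hq1.mul hN₂)).add (hqn.mul hN₂)).add
      (hG.hw.mul hN₂₁))).congr fun p _ => ?_).mono ?_
    · simp only [N₁, N₂, w, Mc, mul_sub, sub_mul, one_mul, mul_one, mul_add]
      abel
    · rw [hM]
      have h13 : K' ≤ K * K' ^ 3 :=
        hK'3.trans (le_mul_of_one_le_left (by positivity) hK)
      have hA := mul_nonneg (mul_nonneg hKσ hδ) (sub_nonneg.2 h13)
      have hB := mul_nonneg (mul_nonneg hKσ hδ) (sub_nonneg.2 h23)
      have hC := mul_nonneg hδ (mul_nonneg hK0 (pow_nonneg (zero_le_one.trans hK') 3))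
      have hD := mul_nonneg hKσ hC
      nlinarith
  have hΦ : ∀ p, (g : A) * (List.ofFn fun i => exp (p i • (cj i).val)).prod = σ p * w p := by
    intro p
    refine (hword p).trans ?_
    congr 1
    simp only [w, θ]
    rw [← List.ofFn_getElem_eq_map]
    rfl
  have hF : LBd (closedBall 0 r) η
      fun p => σ p * (N₁ p * (q p * N₂ p)) - σ p * w p :=
    hFM.mono (hd3.trans (min_le_left _ _))
  have h0 : ‖F 0 - y‖ ≤ M * δ + ‖y - g‖ := by
    have h1 : ‖F 0 - σ 0 * w 0‖ ≤ M * δ := hFM.1 0 (mem_closedBall_self hr.le)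
    rw [← hΦ 0] at h1
    simp only [Pi.zero_apply, zero_smul, exp_zero, List.ofFn_const, List.prod_replicate, one_pow,
      mul_one] at h1
    rw [norm_sub_rev y]
    exact (norm_sub_le_norm_sub_add_norm_sub _ (g : A) _).trans (add_le_add h1 le_rfl)
  obtain ⟨p, hp, hpn, hpg⟩ := hit F
    (fun a ha b hb => by
      rw [hΦ, hΦ]; exact hF.2 a ha b hb) y (h0.trans (by
        linarith [min_le_left η 1, hd4]))
  have hσp : ‖σ p - 1‖ ≤ (Kσ + 8 * K' + Kσ * (Cb * (M + 1))) * (δ + ‖y - g‖) := by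
    have h1 := hσK.2 p hp 0 (mem_closedBall_self hr.le)
    rw [hσ1, dist_zero_right] at h1
    have hs : 0 ≤ δ + ‖y - g‖ := by positivity
    have h3 : M * δ + ‖y - g‖ ≤ (M + 1) * (δ + ‖y - g‖) := by
      nlinarith [mul_nonneg hM0.le (norm_nonneg (y - g)), norm_nonneg (y - g)]
    calc ‖σ p - 1‖ ≤ Kσ * (Cb * ((M + 1) * (δ + ‖y - g‖))) :=
          h1.trans (mul_le_mul_of_nonneg_left (hpn.trans
            (mul_le_mul_of_nonneg_left (h0.trans h3) hCb)) hKσ)
      _ = Kσ * (Cb * (M + 1)) * (δ + ‖y - g‖) := by ring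
      _ ≤ _ := mul_le_mul_of_nonneg_right (by linarith) hs
  have hN₁ := hT₁.inv h1small
  refine ⟨θ p, fun k => hθ k p hp, σ p, hσ p, N₁ p * (q p * N₂ p),
    (hσK.1 p hp).trans (le_add_of_le_of_nonneg (by linarith) (by positivity)), ?_, hσp, hpg, ?_⟩
  · calc ‖N₁ p * (q p * N₂ p)‖ ≤ ‖N₁ p‖ * (‖q p‖ * ‖N₂ p‖) :=
          (norm_mul_le _ _).trans (mul_le_mul_of_nonneg_left (norm_mul_le _ _) (norm_nonneg _))
      _ ≤ 2 * (2 * K' * 2) := mul_le_mul (hN₁.1 p hp)
          (mul_le_mul (hq1.1 p hp) (hN₂.1 p hp) (norm_nonneg _) (by positivity)) (by positivity)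
          zero_le_two
      _ ≤ Kσ + 8 * K' + Kσ * (Cb * (M + 1)) := le_add_of_le_of_nonneg (by linarith) (by positivity)
  · show O.Q * (N₁ p * ((Mc p).Q * (N₂ p * Z.Q))) = _
    rw [show (Mc p).Q = C * q p from hq p hp, ← mul_assoc (N₁ p), ← mul_assoc (N₁ p),
      ← (hG.central (N₁ p)).eq]
    simp only [mul_assoc]

/-- The ideal control: one word of excursions, such that close families of segments between two
fixed segments `O`, `Z` hit `g` exactly up to a central exponential and the product of the central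
normalisations. -/
theorem ideal_control [NormOneClass A] (hZ : ∀ z ∈ Zs, ∀ x : A, Commute z x)
    (hgen : ∀ P : Submodule ℝ A, range X ∪ Zs ⊆ P →
      (∀ Y ∈ range X ∪ Zs, ∀ Z ∈ P, Y * Z - Z * Y ∈ P) → P = ⊤)
    (g : Aˣ) (hg : (g : A) ∈ expMonoid (range X ∪ Zs)) :
    ∃ (m : ℕ) (e : Fin m → E) (R : ℝ), 0 < R ∧ ∀ K : ℝ, 1 ≤ K →
      ∃ B δ₀ : ℝ, 0 ≤ B ∧ 0 < δ₀ ∧ ∀ δ, 0 ≤ δ → δ ≤ δ₀ → ∀ (S : Fin m → ℝ → RSeg A) (c : Fin m → A)
        (O Z : RSeg A),
        (∀ k, Good (Icc (-R) R) K δ (S k) (c k) fun θ => exp (θ • X (e k))) →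
        ‖O.C‖ ≤ δ → ‖Z.B‖ ≤ K →
        ∃ θ : Fin m → ℝ, (∀ k, θ k ∈ Icc (-R) R) ∧ ∃ σ ∈ expMonoid Zs, ∃ ν : A,
          ‖σ‖ ≤ B ∧ ‖ν‖ ≤ B ∧ σ * ν = g ∧
          (O.comp ((chain fun k => S k (θ k)).comp Z)).Q
            = O.Q * ((List.ofFn c).prod * ν) * Z.Q := by
  obtain ⟨σ₀, hσ₀, b, hb, -, e₀⟩ := exists_split hZ hg
  obtain ⟨m, e, R, hR, h⟩ := ideal_control_near hZ hgen b hb
  refine ⟨m, e, R, hR, fun K hK => ?_⟩
  obtain ⟨B, δ₀, hB, hδ₀, h'⟩ := h K hK
  refine ⟨B + ‖σ₀‖ * B, δ₀, by positivity, hδ₀, fun δ hδ hδ' S c O Z hS hO hZB => ?_⟩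
  obtain ⟨θ, hθ, σ, hσ, ν, hσB, hνB, -, hσν, hQ⟩ :=
    h' δ hδ hδ' S c O Z hS hO hZB b (by rw [sub_self, norm_zero]; exact hδ₀.le)
  exact ⟨θ, hθ, σ₀ * σ, mul_mem hσ₀ hσ, ν,
    (norm_mul_le _ _).trans ((mul_le_mul_of_nonneg_left hσB (norm_nonneg _)).trans
      (le_add_of_nonneg_left hB)),
    hνB.trans (le_add_of_nonneg_right (by positivity)), by rw [mul_assoc, hσν, e₀], hQ⟩

end

end Vale.Agent.P225.Loop
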