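import Vale.Agent.P225.Loop.IdealLoopTools
import Vale.Agent.P225.Loop.Corrector
import Vale.Agent.P225.Loop.HoldExp
import Vale.Agent.P225.Model.PieceModelInst
import Vale.Agent.P225.Assembly.Parts
import Vale.Agent.P225.Loop.SegAmp

/-!
P225, module B (helper26): the ideal map of a loop.

Buffer, transit out, control word, transit back and hold of a loop, taken with slope zero, realise on
the states of the corrector the transposition of the loop times scalars with exponent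
`alphaInf * T7` up to `E * T6`, and contract the far states.  The amplitudes of the word are chosen
independently of the corrector and of the incoming slope.
-/

open Set

namespace Vale.Agent.P225

noncomputable section

attribute [local irreducible] Count.sStates Count.theWord

open scoped lp ENNReal
open Loop (bv)

/-- The levels at `J` of the states of the corrector with both labels nonzero. -/
def loopLv (Mb : ℕ) (J : Fin 3) : Finset (ℕ × ℕ) :=
  ((Loop.corrW Mb).image fun z => z.blk.level J).filter fun L => L.1 ≠ 0 ∧ L.2 ≠ 0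

/-- The other levels at `J` of the states of the corrector. -/
def loopAx (Mb : ℕ) (J : Fin 3) : Finset (ℕ × ℕ) :=
  ((Loop.corrW Mb).image fun z => z.blk.level J).filter fun L => L.1 = 0 ∨ L.2 = 0

/-- What the ideal map of a loop does: monomial on the finite block, contracting outside. -/
structure IdealMap (Mb : ℕ) (π : Equiv.Perm St) (E T6 T7 : ℝ) (P : HSp →L[ℝ] HSp) : Prop where
  block : Loop.IdealBlock Mb π E T6 T7 P
  far : ‖P.comp (farP (wMono Mb) (wAxis Mb))‖ ≤ Real.exp (-(Mb : ℝ) * T7 + E * T6)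
  bound : ‖P‖ ≤ Real.exp (E * T6)

theorem IdealMap.mono {Mb : ℕ} {π : Equiv.Perm St} {E E' T6 T7 : ℝ} {P : HSp →L[ℝ] HSp}
    (h : IdealMap Mb π E T6 T7 P) (hE : E ≤ E') (hT : 0 ≤ T6) : IdealMap Mb π E' T6 T7 P := by
  have hle : E * T6 ≤ E' * T6 := mul_le_mul_of_nonneg_right hE hT
  refine ⟨⟨h.block.mem, h.block.fix, h.block.inv, fun z hz => ?_⟩,
    h.far.trans (Real.exp_le_exp.2 (by linarith)), h.bound.trans (Real.exp_le_exp.2 hle)⟩
  obtain ⟨c, h1, h2, h3, h4⟩ := h.block.mono z hz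
  exact ⟨c, h1, h2, h3, h4.trans hle⟩

theorem alphaInf_nonneg (i : St) : 0 ≤ alphaInf i := by
  have h0 : 0 ≤ 4 * sInf * (Count.lev i.blk.la i.blk.lb : ℝ) :=
    mul_nonneg (mul_nonneg (by norm_num) sInf_nonneg) (Nat.cast_nonneg _)
  have h5 : (5 : ℝ) ≤ Real.sqrt (25 + 4 * sInf * Count.lev i.blk.la i.blk.lb) :=
    Real.le_sqrt_of_sq_le (by linarith)
  show 0 ≤ (Real.sqrt _ - 5) / 2
  linarith

/-- The endgame of one step, on abstract segments. -/
theorem idealMap_of {Mb : ℕ} {x y : St} (hx : x ∈ wMono Mb) (hy : y ∈ wMono Mb)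
    (Pb Po Pk Ph : DiagCoef) {E₀ Wc B A K₂ b : ℝ} {Q : HSp →L[ℝ] HSp}
    (hb1 : 1 ≤ b) (hbE : E₀ ≤ b) (hE₀ : 0 ≤ E₀) (hWc : 0 ≤ Wc) (hB : 0 ≤ B) (hA0 : 0 ≤ A)
    (hK₂ : 1 ≤ K₂) (hqb : ∀ r, 0 < Pb.q r) (hqk : ∀ r, 0 < Pk.q r) (hqh : ∀ r, 0 < Ph.q r)
    (u : St → ℝ) (hu : ∀ r, 0 < u r) (hul : ∀ r, |Real.log (u r)| ≤ 1)
    (hlog : ∀ z ∈ Loop.corrW Mb, |Real.log (Pb.q z)| ≤ Wc * b ^ 6 ∧
      |Real.log (Po.q z)| ≤ Wc * b ^ 5 ∧ |Real.log (Pk.q z)| ≤ Wc * b ^ 5)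
    (hhold : ∀ k, |Real.log (Ph.q k) + alphaInf k * b ^ 7| ≤ E₀ * (1 + alphaInf k) * b ^ 6)
    (hαA : ∀ z ∈ Loop.corrW Mb, alphaInf z ≤ A)
    (hraw : ∀ z ∈ Loop.corrW Mb, ∃ cc : ℝ, cc ≠ 0 ∧ (z ≠ x → z ≠ y → 0 < cc) ∧
      Q (bv z) = cc • bv (Equiv.swap x y z) ∧
      |Real.log (|cc|) - (Real.log (Po.q (Equiv.swap x y z))
        + Real.log (Pk.q z * u z * Ph.q z))| ≤ B * b ^ 5)
    (hPh : ‖Ph.seg.Q‖ ≤ 1)
    (hbound : ∀ T : HSp →L[ℝ] HSp, ∀ r : ℝ, ‖Ph.seg.Q.comp T‖ ≤ r →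
      ‖(Pb.seg.Q.comp Q).comp T‖ ≤ 8 * K₂ * r) :
    IdealMap Mb (Equiv.swap x y)
      (3 * Wc + B + 1 + E₀ * (1 + A) + E₀ * (1 + Mb) + 8 * K₂) (b ^ 6) (b ^ 7)
      (Pb.seg.Q.comp Q) := by
  have hWm : ∀ {z}, z ∈ wMono Mb → z ∈ Loop.corrW Mb := fun h => Finset.mem_union_left _ h
  set L := b ^ 5 with hLdef
  set E := 3 * Wc + B + 1 + E₀ * (1 + A) + E₀ * (1 + Mb) + 8 * K₂ with hEdef
  have hEa : 0 ≤ E₀ * (1 + A) := by positivity
  have hEm : 0 ≤ E₀ * (1 + Mb) := by positivity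
  have hL6 : L ≤ b ^ 6 := pow_le_pow_right₀ hb1 (by norm_num)
  have hswap : ∀ z, z ∈ Loop.corrW Mb → Equiv.swap x y z ∈ Loop.corrW Mb := fun z hz => by
    rw [Equiv.swap_apply_def]
    split_ifs
    exacts [hWm hy, hWm hx, hz]
  have hnax : ∀ z ∈ wAxis Mb, z ≠ x ∧ z ≠ y := fun z hz =>
    ⟨fun e => Finset.disjoint_left.1 (disjoint_wMono_wAxis Mb) (e ▸ hx) hz,
      fun e => Finset.disjoint_left.1 (disjoint_wMono_wAxis Mb) (e ▸ hy) hz⟩
  have hblock : Loop.IdealBlock Mb (Equiv.swap x y) E (b ^ 6) (b ^ 7) (Pb.seg.Q.comp Q) := by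
    refine ⟨hswap, fun z hz => Equiv.swap_apply_of_ne_of_ne (hnax z hz).1 (hnax z hz).2,
      Equiv.swap_apply_self x y, fun z hz => ?_⟩
    obtain ⟨cc, hc0, hcp, hcQ, hcl⟩ := hraw z hz
    refine ⟨cc * Pb.q (Equiv.swap x y z), mul_ne_zero hc0 (hqb _).ne',
      fun h => mul_pos (hcp (hnax z h).1 (hnax z h).2) (hqb _), ?_, ?_⟩
    · show Pb.seg.Q (Q (bv z))
        = (cc * Pb.q (Equiv.swap x y z)) • bv (Equiv.swap x y z)
      rw [hcQ, map_smul, show Pb.seg.Q (bv (Equiv.swap x y z))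
        = Pb.q (Equiv.swap x y z) • bv (Equiv.swap x y z) from
          Loop.diagOp_bv Pb.q Pb.Kq Pb.Kq_nonneg Pb.q_le _, smul_smul]
    · have hα : alphaInf z ≤ A := hαA z hz
      obtain ⟨hb', ho', -⟩ := hlog _ (hswap z hz)
      obtain ⟨-, -, hk'⟩ := hlog z hz
      have hb6 : 1 ≤ b ^ 6 := one_le_pow₀ hb1
      have hl1 : Wc * L ≤ Wc * b ^ 6 := mul_le_mul_of_nonneg_left hL6 hWc
      have hl2 : B * L ≤ B * b ^ 6 := mul_le_mul_of_nonneg_left hL6 hB
      have hl3 : E₀ * (1 + alphaInf z) * b ^ 6 ≤ E₀ * (1 + A) * b ^ 6 := by gcongr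
      have hl4 : 0 ≤ (E₀ * (1 + Mb) + 8 * K₂) * b ^ 6 :=
        mul_nonneg (by linarith) (by linarith)
      rw [abs_mul, abs_of_pos (hqb _), Real.log_mul (abs_pos.2 hc0).ne' (hqb _).ne']
      rw [Real.log_mul (mul_pos (hqk z) (hu z)).ne' (hqh z).ne',
        Real.log_mul (hqk z).ne' (hu z).ne'] at hcl
      have h5 := hhold z
      have h6 := hul z
      rw [abs_le] at hb' ho' hk' h5 h6 hcl ⊢
      constructor <;> linarith
  have h8 : 8 * K₂ ≤ Real.exp (8 * K₂ * b ^ 6) := by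
    refine le_trans ?_ (Real.add_one_le_exp _)
    have : 8 * K₂ * 1 ≤ 8 * K₂ * b ^ 6 :=
      mul_le_mul_of_nonneg_left (one_le_pow₀ hb1) (by linarith)
    linarith
  have hb6 : 0 ≤ b ^ 6 := by positivity
  refine ⟨hblock, ?_, ?_⟩
  · set r := Real.exp (-(Mb : ℝ) * b ^ 7 + E₀ * (1 + Mb) * b ^ 6) with hrdef
    have hfar : ‖Ph.seg.Q.comp (farP (wMono Mb) (wAxis Mb))‖ ≤ r := by
      have hb' : ∀ k : St, |if k ∈ wMono Mb ∪ wAxis Mb then 0 else Ph.q k| ≤ r := by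
        intro k
        split_ifs with hk
        · rw [abs_zero]; exact (Real.exp_pos _).le
        rw [abs_of_pos (hqh k), ← Real.exp_log (hqh k)]
        refine Real.exp_le_exp.2 ?_
        have hα : (Mb : ℝ) ≤ alphaInf k :=
          le_alphaInf_of_far fun h => hk (mem_wMono_or_wAxis.2 h)
        have h1 := (abs_le.1 (hhold k)).2
        have h67 : b ^ 7 = b * b ^ 6 := by ring
        have h2 : 0 ≤ (alphaInf k - Mb) * ((b - E₀) * b ^ 6) :=
          mul_nonneg (by linarith) (mul_nonneg (by linarith) hb6)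
        rw [h67] at h1 ⊢
        linarith
      have e' : Ph.seg.Q.comp (farP (wMono Mb) (wAxis Mb))
          = diagOp (fun k => if k ∈ wMono Mb ∪ wAxis Mb then 0 else Ph.q k) r
              (Real.exp_pos _).le hb' := by
        ext v k
        rw [ContinuousLinearMap.comp_apply, DiagCoef.seg_Q, farP_apply, diagOp_apply]
        split_ifs <;> simp
      rw [e']
      exact norm_diagOp_le _ _ _ _
    refine (hbound _ r hfar).trans ((mul_le_mul_of_nonneg_right h8 (Real.exp_pos _).le).trans ?_)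
    rw [← Real.exp_add]
    refine Real.exp_le_exp.2 ?_
    show _ ≤ -(Mb : ℝ) * b ^ 7 + E * b ^ 6
    have : 0 ≤ (3 * Wc + B + 1 + E₀ * (1 + A)) * b ^ 6 := mul_nonneg (by linarith) hb6
    linarith
  · have h := hbound (1 : HSp →L[ℝ] HSp) 1
      ((ContinuousLinearMap.opNorm_comp_le _ _).trans (by
        refine (mul_le_mul hPh ContinuousLinearMap.norm_id_le (norm_nonneg _) zero_le_one).trans ?_
        norm_num))
    rw [ContinuousLinearMap.one_def, ContinuousLinearMap.comp_id, mul_one] at h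
    refine h.trans (h8.trans (Real.exp_le_exp.2 ?_))
    show _ ≤ E * b ^ 6
    refine mul_le_mul_of_nonneg_right ?_ hb6
    linarith

/-- One step: a word at junction `J`, with parameter indices from `off` on, for the transposition of
`x` and `y`. -/
theorem exists_idealStep (κ : ℝ) (hκ : 0 ≤ κ) (Mb s off : ℕ) (J : Fin 3) (x y : St)
    (hxy : Count.ShareAt J x y) (hx : x ∈ wMono Mb) (hy : y ∈ wMono Mb) :
    ∃ (word : List Piece) (R : ℝ), 0 < R ∧
      (∀ P ∈ word, P.IsCtrl J ∧ ∀ J' g k, P = Piece.exc J' g k → off ≤ k) ∧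
      ∀ C : ℝ, 0 ≤ C → ∃ (E : ℝ) (N : ℕ), 0 ≤ E ∧ ∀ (Nf : ℕ) (W : LoopSpec) (j0 : ℕ) (t0 : ℝ)
        (ht : 1 ≤ t0) (i : ℕ), N ≤ j0 → ((j0 : ℝ) + 1) ^ 8 ≤ t0 →
        W.junc (j0 + i) = J → W.ctrl (j0 + i) = word →
        (∀ f k, Piece.ins f k ∈ W.corr (j0 + i) → k < off) →
        ∀ R' ε K : ℝ, R ≤ R' → 0 ≤ ε →
        (∀ v, W.AmpAt j0 i v R' ε →
          ∃ R₀, W.LoopGood κ C (Model.modelPM s Nf) j0 t0 ht (LoopSpec.oneParams i v) K ε i R₀) →
        ∃ θ : ℕ → ℝ, (∀ k, |θ k| ≤ R) ∧ ∀ τ : Params, (∀ k, off ≤ k → τ i k = θ k) →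
          IdealMap Mb (Equiv.swap x y) E ((W.sched j0 t0 ht).T6 i) ((W.sched j0 t0 ht).T7 i)
            (W.idealMap κ C (Model.modelPM s Nf) j0 t0 ht τ i) := by
  classical
  set Lv := loopLv Mb J with hLvdef
  set Ax := loopAx Mb J with hAxdef
  have hWm : ∀ {z}, z ∈ wMono Mb → z ∈ Loop.corrW Mb := fun h => Finset.mem_union_left _ h
  have hlev1 : y.blk.level J = x.blk.level J := hxy.1.symm
  have hxL : x.blk.level J ∈ Lv :=
    Finset.mem_filter.2 ⟨Finset.mem_image_of_mem _ (hWm hx), hxy.2⟩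
  have hne : ∀ L : Lv, Nonempty (Fib J L.1) := fun L => by
    obtain ⟨z, -, hz⟩ := Finset.mem_image.1 (Finset.mem_filter.1 L.2).1
    exact ⟨⟨z, hz⟩⟩
  have hLv : ∀ L ∈ Lv, 1 ≤ L.1 ∧ 1 ≤ L.2 := fun L hL => by
    obtain ⟨h1, h2⟩ := (Finset.mem_filter.1 hL).2
    omega
  set F : Alg.IsoIdx → Loop.Frame J Lv ((2 : ℝ) ^ (s + 1)) :=
    fun e => (Model.modelFrame s J (Model.isoNum e)).toFrame Lv
    with hFdef
  have hF : ∀ e, (F e).Uu = Sphere.Pullback.wOp (Alg.isoJ_moves J e) (s : ℤ) := fun e => by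
    show Sphere.Pullback.wOp (Alg.isoJ_moves J (Model.isoIdx (Model.isoNum e))) (s : ℤ) = _
    rw [Model.isoIdx_isoNum]
  have hsI : 0 < scaleInf := Real.sqrt_pos.2 (by norm_num [dMin])
  have hAx : ∀ i k : St, i.blk.level J ∈ Ax → k.blk.level J = i.blk.level J → k.blk = i.blk :=
    fun i k hi hk => Loop.blk_eq_of_zero_level (Finset.mem_filter.1 hi).2 hk
  obtain ⟨m, e, R, hR, hprog⟩ := Loop.ideal_program hκ (one_le_pow₀ one_le_two) F hne
    (fun P h1 h2 => Alg.excGen_generates hLv hsI (s : ℤ) F hF P h1 h2) Ax hAx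
    (fun e r hr => Loop.frameAt_of_blk _ Lv fun k hk => hAx r k hr hk) hxL hlev1
  refine ⟨List.ofFn fun k : Fin m => Piece.exc J (Model.isoNum (e k)) (off + k), R, hR,
    fun P hP => ?_, fun C hC => ?_⟩
  · obtain ⟨k, rfl⟩ := List.mem_ofFn.1 hP
    refine ⟨rfl, fun J' g k' he => ?_⟩
    cases he
    exact Nat.le_add_right _ _
  -- constants
  set M : ℝ := (2 : ℝ) ^ (s + 1) with hMdef
  have hM1 : 1 ≤ M := one_le_pow₀ one_le_two
  set K₁ := M * M * (10 + 4 * C) with hK₁def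
  have hK₁ : 1 ≤ K₁ :=
    le_trans (by linarith : (1 : ℝ) ≤ 10 + 4 * C)
      (le_mul_of_one_le_left (by linarith) (one_le_mul_of_one_le_of_one_le hM1 hM1))
  obtain ⟨K₂, hK₂, δ₀, hδ₀, hchain⟩ := Loop.exists_segChain (J := J) (Lv := Lv) m K₁ hK₁
  set K₀ := 2220 + 804 * C with hK₀def
  obtain ⟨Kp, B, N₁, hKp, hB, hprog⟩ := hprog K₀ (by linarith)
  set K₃ := K₂ + K₀ + 2 * K₂ * K₀ * (1 + K₂) with hK₃def
  have hK₃ : 0 ≤ K₃ := by positivity
  set Wc := 3 * C + ∑ z ∈ Loop.corrW Mb, slopeCap z with hWcdef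
  have hWc : 0 ≤ Wc := add_nonneg (by linarith)
    (Finset.sum_nonneg fun z _ => zero_le_one.trans (one_le_slopeCap z))
  have hcap : ∀ z ∈ Loop.corrW Mb, 3 * C + slopeCap z ≤ Wc := fun z hz =>
    add_le_add le_rfl (Finset.single_le_sum (f := slopeCap)
      (fun z _ => zero_le_one.trans (one_le_slopeCap z)) hz)
  set A := ∑ z ∈ Loop.corrW Mb, alphaInf z with hAdef
  have hA0 : 0 ≤ A := Finset.sum_nonneg fun z _ => alphaInf_nonneg z
  set E₀ := 3 * C + 15 * κ + 1 with hE₀def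
  have hE₀ : 0 ≤ E₀ := by positivity
  set E := 3 * Wc + B + 1 + E₀ * (1 + A) + E₀ * (1 + Mb) + 8 * K₂ with hEdef
  have hEa : 0 ≤ E₀ * (1 + A) := by positivity
  have hEm : 0 ≤ E₀ * (1 + Mb) := by positivity
  obtain ⟨N₂, hN₂⟩ :=
    exists_nat_ge (80 * C + K₁ / δ₀ + 2 * K₀ * K₂ * K₁ + 8 * K₃ * C + E₀ + κ)
  refine ⟨E, max N₁ N₂, by linarith, fun Nf W j0 t0 ht i hj ht8 hJ hW hins R' ε K hRR' hε hgood => ?_⟩
  set Mo := Model.modelPM s Nf
  set S := W.sched j0 t0 ht with hSdef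
  set b := ((j0 + i : ℕ) : ℝ) + 1 with hbdef
  set c := (W.corr (j0 + i)).length with hcdef
  have hm : (W.ctrl (j0 + i)).length = m := by rw [hW, List.length_ofFn]
  have hlen : (W.prog (j0 + i)).length = c + m + 4 := by rw [W.prog_length, hm]
  -- largeness
  have hjN : (N₂ : ℝ) ≤ j0 := Nat.cast_le.2 ((le_max_right _ _).trans hj)
  have hp1 : 0 ≤ K₁ / δ₀ := div_nonneg (by linarith) hδ₀.le
  have hp2 : 0 ≤ 2 * K₀ * K₂ * K₁ := by positivity
  have hp3 : 0 ≤ 8 * K₃ * C := by positivity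
  have hκj : κ ≤ j0 := by linarith
  have hb1 : 1 ≤ b := le_add_of_nonneg_left (Nat.cast_nonneg _)
  have hbN : 80 * C + K₁ / δ₀ + 2 * K₀ * K₂ * K₁ + 8 * K₃ * C + E₀ + κ ≤ b := by
    have : (j0 : ℝ) ≤ ((j0 + i : ℕ) : ℝ) := Nat.cast_le.2 (by omega)
    linarith
  set L := b ^ 5 with hLdef
  have hL1 : 1 ≤ L := one_le_pow₀ hb1
  have hbL : b ≤ L := le_self_pow₀ hb1 (by norm_num)
  have hL6 : L ≤ b ^ 6 := pow_le_pow_right₀ hb1 (by norm_num)
  have hsqrt : 1 / L ≤ 1 / Real.sqrt b := Loop.inv_pow_five_le_inv_sqrt (j0 + i)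
  -- the pieces
  obtain ⟨hi0, hi1, hi2, hi3, hP0, hP1, hP2, hP3, hPe'⟩ := W.prog_at hcdef.symm hm
  rw [hJ] at hP1 hP2
  have hPe : ∀ (k : Fin m) (h : c + 2 + (k : ℕ) < (W.prog (j0 + i)).length),
      (W.prog (j0 + i))[c + 2 + (k : ℕ)] = Piece.exc J (Model.isoNum (e k)) (off + k) := fun k h => by
    rw [hPe' k k.2 h]
    simp only [hW, List.getElem_ofFn]
  -- the segments which do not see the amplitudes
  set τ₀ : Params := LoopSpec.oneParams i (fun _ => 0) with hτ₀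
  obtain ⟨R₀, hg₀⟩ := hgood (fun _ => 0) fun P _ => by
    cases P <;> simp only [Piece.AmpOk, abs_zero] <;> linarith
  have hq0 := hg₀.piece c hi0
  rw [hP0] at hq0
  obtain ⟨g0, hd0, -, -, -, -, -⟩ := hq0
  have hs0 := hd0 rfl (by simp)
  have hq1 := hg₀.piece (c + 1) hi1
  rw [hP1] at hq1
  obtain ⟨g1, hd1, -, -, -, -, -⟩ := hq1
  have hs1 := hd1 rfl (by simp)
  have hq2 := hg₀.piece (c + m + 2) hi2
  rw [hP2] at hq2
  obtain ⟨g2, hd2, -, -, -, -, -⟩ := hq2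
  have hs2 := hd2 rfl (by simp)
  have hq3 := hg₀.piece (c + m + 3) hi3
  rw [hP3] at hq3
  obtain ⟨g3, hd3, -, -, -, -, -⟩ := hq3
  have hs3 := hd3 rfl (by simp)
  set Pb := g0.fam.coef with hPb
  set Po := g1.fam.coef with hPo
  set Pk := g2.fam.coef with hPk
  set Ph := g3.fam.coef with hPh
  have hbo : Loop.SegBd 10 (4 * C / L) Po.seg := Loop.segBd_diag g1.fam
  have hbk : Loop.SegBd 10 (4 * C / L) Pk.seg := Loop.segBd_diag g2.fam
  have hbh : Loop.SegBd 10 (4 * C / L) Ph.seg := Loop.segBd_diag g3.fam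
  have hs10 : 10 * (4 * C / L) ≤ 1 / 2 := by
    rw [mul_div_assoc', div_le_iff₀ (by linarith)]; linarith
  obtain ⟨hZbd, hZn⟩ := hbk.comp hbh hs10
  set Z := Pk.seg.comp Ph.seg with hZdef
  have hZbd' : Loop.SegBd K₀ (804 * C / L) Z := by
    refine ⟨hZbd.Q.trans ?_, hZbd.B.trans ?_, hZbd.C.trans (le_of_eq ?_), hZbd.D.trans ?_⟩
    · linarith
    · linarith
    · ring
    · linarith
  have hC804 : 804 * C / L ≤ K₀ / Real.sqrt b := by
    rw [div_eq_mul_one_div, div_eq_mul_one_div K₀]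
    exact mul_le_mul (by linarith) hsqrt (by positivity) (by linarith)
  have hC4 : 4 * C / L ≤ K₀ / Real.sqrt b := by
    rw [div_eq_mul_one_div, div_eq_mul_one_div K₀]
    exact mul_le_mul (by linarith) hsqrt (by positivity) (by linarith)
  have hPZ : ‖Ph.seg.B‖ * ‖Pk.seg.C‖ ≤ 1 / 2 :=
    (mul_le_mul hbh.B hbk.C (norm_nonneg _) (by norm_num)).trans hs10
  choose u hu hul huQ using fun r => Loop.diag_comp_Q Pk Ph r hPZ
  set qZ : St → ℝ := fun r => Pk.q r * u r * Ph.q r with hqZ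
  have hqpos : (∀ r, 0 < Pb.q r) ∧ (∀ r, 0 < Po.q r) ∧ (∀ r, 0 < Pk.q r) ∧ ∀ r, 0 < Ph.q r :=
    ⟨fun r => Ode.coefQ_pos _ _ _, fun r => Ode.coefQ_pos _ _ _, fun r => Ode.coefQ_pos _ _ _,
      fun r => Ode.coefQ_pos _ _ _⟩
  obtain ⟨hqb, hqo, hqk, hqh⟩ := hqpos
  -- logarithms
  have hlog : ∀ z ∈ Loop.corrW Mb, |Real.log (Pb.q z)| ≤ Wc * b ^ 6 ∧
      |Real.log (Po.q z)| ≤ Wc * L ∧ |Real.log (Pk.q z)| ≤ Wc * L := fun z hz => by
    refine ⟨(g0.abs_log_coefQ hκ hC z).trans ?_, (g1.abs_log_coefQ hκ hC z).trans ?_,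
      (g2.abs_log_coefQ hκ hC z).trans ?_⟩
    all_goals exact mul_le_mul_of_nonneg_right (hcap z hz) (Piece.len_pos _ _).le
  -- the hold
  obtain ⟨qh, hqhQ, -, hqh'⟩ := W.restQ_hold hκ hC hκj ht8 hg₀
  rw [hm] at hqhQ
  have hqh_eq : ∀ k, Ph.q k = qh k := fun k => by
    have h := hqhQ (bv k) k
    rw [show W.segs κ C Mo j0 t0 ht τ₀ i (c + m + 3) = Ph.seg from hs3, DiagCoef.seg_Q,
      Loop.bv_self, mul_one, mul_one] at h
    exact h
  have hhold : ∀ k, |Real.log (Ph.q k) + alphaInf k * b ^ 7| ≤ E₀ * (1 + alphaInf k) * b ^ 6 :=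
    fun k => by rw [hqh_eq k]; exact (hqh' k).2.2.1
  -- the program
  set a := S.pieceStart i (c + 2) with hadef
  have hstart : ∀ k : Fin m, S.pieceStart i (c + 2 + k) = a + ((k : ℕ) : ℝ) * L := fun k =>
    S.pieceStart_add L k fun l hl => by
      have h : c + 2 + l < (W.prog (j0 + i)).length := by have := k.2; omega
      refine ⟨h, ?_⟩
      show ((W.prog (j0 + i))[c + 2 + l]).len (j0 + i) = L
      rw [hPe ⟨l, hl.trans k.2⟩ h]
      rfl
  have ha : 2 * L ≤ a := by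
    have h1 : 2 * L ≤ S.pieceStart i (c + 1) := g1.start_ge
    linarith [show S.pieceStart i (c + 1) ≤ a from S.pieceStart_mono i (by omega)]
  have hOcongr : ∀ r : St, r.blk.level J ∈ Ax → Loop.ScalarAt J Po.seg r (Po.q r) ∧
      Loop.ScalarAt J Z r (qZ r) := by
    intro r hr
    have hblk : ∀ k : St, k.blk.level J = r.blk.level J → k.blk = r.blk := fun k hk => hAx r k hr hk
    exact ⟨g1.scalarAt hblk,
      (g2.scalarAt hblk).eq_of_comp (g3.scalarAt hblk) (hqk r) (hqh r) hPZ (huQ r)⟩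
  obtain ⟨θ, Sx, hSx, -, -, hLvP, hAxP⟩ := hprog (j0 + i) a ((le_max_left _ _).trans (hj.trans (by omega)))
    ha Po.seg Z Po.q qZ (DiagCoef.segLocal _ J)
    ((DiagCoef.segLocal _ J).comp (DiagCoef.segLocal _ J) hZn)
    ⟨hbo.Q.trans (by linarith), hbo.B.trans (by linarith), hbo.C.trans hC4,
      hbo.D.trans (by linarith)⟩
    ⟨hZbd'.Q, hZbd'.B, hZbd'.C.trans hC804, hZbd'.D⟩
    (Loop.levMat_eq_levDiag fun r => Loop.diagOp_bv Po.q Po.Kq Po.Kq_nonneg Po.q_le r)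
    (Loop.levMat_eq_levDiag huQ) hqo (fun r => mul_pos (mul_pos (hqk r) (hu r)) (hqh r))
  set θ' : ℕ → ℝ := fun k => if h : k - off < m then θ ⟨k - off, h⟩ else 0 with hθ'def
  have hθ' : ∀ k, |θ' k| ≤ R := fun k => by
    simp only [θ']
    split_ifs with h
    · exact abs_le.2 (hSx ⟨k - off, h⟩).1
    · simp [hR.le]
  refine ⟨θ', hθ', fun τ' hτ' => ?_⟩
  set v : ℕ → ℝ := fun k => if k < off then 0 else θ' k with hv
  have hv' : ∀ k, |v k| ≤ R' := fun k => by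
    simp only [v]
    split_ifs
    · simp; linarith
    · exact (hθ' k).trans hRR'
  set τ := LoopSpec.oneParams i v with hτdef
  have hτ : ∀ k : Fin m, τ i (off + (k : ℕ)) = θ k := fun k => by
    rw [hτdef, LoopSpec.oneParams_self]
    simp [v, θ']
  obtain ⟨R₁, hg⟩ := hgood v fun P hP => by
    cases P with
    | exc J' g k => exact hv' k
    | ins f k =>
      have hk : k < off := by
        simp only [LoopSpec.prog, loopProg, List.mem_append, List.mem_singleton] at hP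
        rcases hP with ((((h | h) | h) | h) | h) | h
        all_goals first | exact hins f k h | exact absurd h (by simp) | skip
        rw [hW] at h
        obtain ⟨k', hk'⟩ := List.mem_ofFn.1 h
        simp at hk'
      show |v k| ≤ ε
      simp [v, hk, hε]
    | wait J' q => trivial
    | out J' => trivial
    | back J' => trivial
  have hctrl : ∀ P ∈ W.ctrl (j0 + i), P.amp (τ' i) = P.amp (τ i) := fun P hP => by
    rw [hW] at hP
    obtain ⟨k, rfl⟩ := List.mem_ofFn.1 hP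
    show τ' i (off + k) = τ i (off + k)
    rw [hτ' _ (Nat.le_add_right _ _), hτ k]
    simp [θ']
  rw [LoopSpec.idealMap, W.bufSeg_congr κ C Mo j0 t0 ht τ' τ i,
    W.restSeg_congr κ C Mo j0 t0 ht hctrl]
  -- the excursions
  have hexc : ∀ k : Fin m, W.segs κ C Mo j0 t0 ht τ i (c + 2 + k) = Sx k ∧
      Loop.SegBd K₁ (K₁ / L) (Sx k) := by
    intro k
    have hk' : c + 2 + (k : ℕ) < (W.prog (j0 + i)).length := by
      have := k.2
      omega
    have hq := hg.piece (c + 2 + k) hk'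
    rw [hPe k hk'] at hq
    obtain ⟨g, -, hx', -, -, -, -⟩ := hq
    have hsg := hx' J (Model.isoNum (e k)) (off + k) rfl
    have hS := (hSx k).2.1
    rw [← hLdef, ← hstart k, show θ k = τ i (off + k) from (hτ k).symm] at hS
    have hS' := g.excSeg_eq (Model.modelFrame s J (Model.isoNum (e k))) hS
    refine ⟨hsg.trans hS', ?_⟩
    rw [← hS']
    exact Loop.segBd_conj _ hM1 hC (pow_pos (zero_lt_one.trans_le hb1) 5) g.fam
  obtain ⟨hMid, -, -⟩ := hchain (K₁ / L) (by positivity) (by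
      rw [div_le_iff₀ (by linarith)]
      have := (div_le_iff₀ hδ₀).1 (by linarith : K₁ / δ₀ ≤ L)
      linarith) Sx fun k => ⟨(hexc k).2, (hSx k).2.2⟩
  set Mid := Loop.segChain Sx with hMiddef
  have hsMZ : K₀ * (K₂ * (K₁ / L)) ≤ 1 / 2 := by
    rw [mul_div_assoc', mul_div_assoc', div_le_iff₀ (by linarith)]
    linarith
  obtain ⟨hMZ, -⟩ := hMid.comp hZbd' hsMZ
  -- the rest
  have hrest : W.restSeg κ C Mo j0 t0 ht τ i = Po.seg.comp (Mid.comp Z) := by
    have e1 : W.segs κ C Mo j0 t0 ht τ i (c + 1) = Po.seg :=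
      (S.seg_congr_params κ C Mo τ τ₀ hi1 hP1 rfl (by simp)).trans hs1
    have e2 : W.segs κ C Mo j0 t0 ht τ i (c + m + 2) = Pk.seg :=
      (S.seg_congr_params κ C Mo τ τ₀ hi2 hP2 rfl (by simp)).trans hs2
    have e3 : W.segs κ C Mo j0 t0 ht τ i (c + m + 3) = Ph.seg :=
      (S.seg_congr_params κ C Mo τ τ₀ hi3 hP3 rfl (by simp)).trans hs3
    rw [LoopSpec.restSeg, hm, ← hcdef, segRange_eq_segChain, e1,
      show segRange (W.segs κ C Mo j0 t0 ht τ i) (c + m + 2) 2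
        = (W.segs κ C Mo j0 t0 ht τ i (c + m + 2)).comp
            ((W.segs κ C Mo j0 t0 ht τ i (c + m + 3)).comp Loop.segOne) from rfl,
      Seg.comp_segOne, e2, e3]
    congr 2
    exact congrArg Loop.segChain (funext fun k => (hexc k).1)
  have hbuf : W.bufSeg κ C Mo j0 t0 ht τ i = Pb.seg :=
    (S.seg_congr_params κ C Mo τ τ₀ hi0 hP0 rfl (by simp)).trans hs0
  rw [hrest, hbuf]
  have hsMZ' : ‖Z.B‖ * ‖Mid.C‖ ≤ 1 / 2 :=
    (mul_le_mul hZbd'.B hMid.C (norm_nonneg _) (by linarith)).trans hsMZ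
  have hn3 : ‖(Mid.comp Z).B‖ * ‖Po.seg.C‖ ≤ 1 / 2 := by
    refine (mul_le_mul hMZ.B hbo.C (norm_nonneg _) hK₃).trans ?_
    rw [mul_div_assoc', div_le_iff₀ (by linarith)]
    linarith
  refine idealMap_of hx hy Pb Po Pk Ph hb1 (le_trans (by linarith) hbN) hE₀ hWc hB hA0 hK₂ hqb hqk hqh u hu hul
    hlog hhold (fun z hz => Finset.single_le_sum (f := alphaInf) (fun z _ => alphaInf_nonneg z) hz)
    (fun z hz => ?_) Ph.norm_Q (fun T r hr => Loop.norm_idealQ_le Pb.norm_Q Po.norm_Q Pk.norm_Q hMid.Q hPZ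
      hsMZ' hn3 T hr)
  by_cases hzL : z.blk.level J ∈ Lv
  · exact hLvP z hzL
  · have hzA : z.blk.level J ∈ Ax := by
      refine Finset.mem_filter.2 ⟨Finset.mem_image_of_mem _ hz, ?_⟩
      by_contra hcon
      exact hzL (Finset.mem_filter.2 ⟨Finset.mem_image_of_mem _ hz, not_or.1 hcon⟩)
    obtain ⟨cc, hcc, ⟨_, _, _, hsc⟩, hcl⟩ := hAxP z hzA (hOcongr z hzA).1 (hOcongr z hzA).2
    have hfix : Equiv.swap x y z = z := Equiv.swap_apply_of_ne_of_ne
      (fun e' => hzL (by rw [e']; exact hxL)) fun e' => hzL (by rw [e', hlev1]; exact hxL)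
    refine ⟨cc, hcc.ne', fun _ _ => hcc, ?_, ?_⟩
    · rw [hfix]; exact (hsc z rfl).1
    · rw [hfix, abs_of_pos hcc]; exact hcl

/-- **The ideal map of every loop.** The controls: a word for every step, with amplitudes chosen
before the corrector, makes buffer and rest of every late loop monomial on the finite block and
contracting on the far states. -/
theorem idealParts (κ : ℝ) (hκ : 0 ≤ κ) (s Mb : ℕ) (hMb : 10 ≤ Mb) : IdealParts κ s Mb := by
  classical
  intro off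
  have hmod : ∀ n, Count.step (n % Count.wlen) = Count.step n := fun n => by simp [Count.step]
  have hstep : ∀ r : Fin Count.wlen, ∃ (word : List Piece) (R : ℝ), 0 < R ∧
      (∀ P ∈ word, P.IsCtrl (Count.step r).1 ∧ ∀ J' g k, P = Piece.exc J' g k → off ≤ k) ∧ _ :=
    fun r => by
      obtain ⟨hs, p, hx, hy⟩ := Count.theWord_spec.1 _ (Count.step_mem (r : ℕ))
      exact exists_idealStep κ hκ Mb s off (Count.step r).1 (Count.step r).2.1 (Count.step r).2.2 hs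
        (sStates_subset_wMono hMb p hx) (sStates_subset_wMono hMb p hy)
  choose word R hR hword hconcl using hstep
  let res : ℕ → Fin Count.wlen := fun n => ⟨n % Count.wlen, Nat.mod_lt _ Count.wlen_pos⟩
  refine ⟨∑ r, (word r).length, ∑ r, R r, fun n => (Count.step n).1, fun n => word (res n),
    Finset.sum_nonneg fun r _ => (hR r).le,
    fun n => ⟨Finset.single_le_sum (f := fun r => (word r).length) (fun _ _ => Nat.zero_le _)
      (Finset.mem_univ _), fun P hP => ?_, fun J g k hk => (hword _ _ hk).2 J g k rfl⟩,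
    fun P0 Nf Ra C K ε₀ A hRa hC _ hε₀ hA => ?_⟩
  · have h := (hword (res n) P hP).1
    rwa [show Count.step (res n : ℕ) = Count.step n from hmod n] at h
  choose E N hE hmain using fun r => hconcl r C hC
  refine ⟨∑ r, E r, ∑ r, N r, Finset.sum_nonneg fun r _ => hE r,
    fun W j0 t0 ht _ hj ht0 hgood i n hJ hW hins => ?_⟩
  have hRle : R (res n) ≤ ∑ r, R r :=
    Finset.single_le_sum (f := R) (fun r _ => (hR r).le) (Finset.mem_univ _)
  obtain ⟨θ, hθ, hmap⟩ := hmain (res n) Nf W j0 t0 ht i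
    ((Finset.single_le_sum (f := N) (fun _ _ => Nat.zero_le _) (Finset.mem_univ _)).trans hj) ht0.ge
    (by rw [hJ, show Count.step (res n : ℕ) = Count.step n from hmod n]) hW hins Ra 0 K
    (hRle.trans hRa) le_rfl fun v hv => ⟨0, hgood i v 0 le_rfl hε₀.le hv 0 (by
      rw [norm_zero]
      have : 0 ≤ A := zero_le_one.trans hA
      positivity)⟩
  refine ⟨θ, fun k => (hθ k).trans hRle, fun τ hτ => ?_⟩
  have h := (hmap τ hτ).mono (Finset.single_le_sum (f := E) (fun r _ => hE r) (Finset.mem_univ _))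
    (Sched.T6_nonneg _ i)
  rw [show Count.step (res n : ℕ) = Count.step n from hmod n] at h
  exact ⟨h.block, h.bound, h.far⟩

end

end Vale.Agent.P225
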