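import Vale.Agent.P225.Seg.SecOrder
import Vale.Agent.P225.Loop.PieceIns

/-!
P225, CorrResponse (helper2): the segment of an insertion as a function of its amplitude, with its
first order and a quadratic remainder.
-/

open Set

namespace Vale.Agent.P225

noncomputable section

namespace PicardPert

variable {G : Type*} {E : G → Type*} [∀ g, NormedAddCommGroup (E g)] [∀ g, NormedSpace ℝ (E g)]
  [∀ g, CompleteSpace (E g)] {S : PicardBase G}

/-- The Picard operator and the deviation at the right end are linear in the perturbation. -/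
theorem step_lin (P P₁ P₂ : PicardPert S E) (x y : ℝ) (hnb : ∀ g, P₁.nb g = P.nb g ∧ P₂.nb g = P.nb g)
    (hP : ∀ t g h, P.P t g h = x • P₁.P t g h + y • P₂.P t g h) :
    P.step = x • P₁.step + y • P₂.step ∧ P.evW = x • P₁.evW + y • P₂.evW := by
  have hd : ∀ u g, P.devPert u g
      = fun t => x • P₁.devPert u g t + y • P₂.devPert u g t := by
    intro u g
    have hf : P.force u g = fun s => x • P₁.force u g s + y • P₂.force u g s := by
      funext s
      simp only [force, (hnb g).1, (hnb g).2, hP, add_apply, smul_apply, Finset.smul_sum,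
        Finset.sum_add_distrib]
    funext t
    have h2 := kerW_add_smul (a := S.a) (W := (0 : E g)) (W' := 0) S.cont_c (S.cont_z g) y
      (P₂.continuous_force u g) (continuous_const (y := (0 : E g))) t
    have h1 := kerW_add_smul (a := S.a) (W := (0 : E g)) (W' := 0) S.cont_c (S.cont_z g) x
      (P₁.continuous_force u g) ((P₂.continuous_force u g).const_smul y) t
    have h0 : kerW S.c (S.z g) S.a (0 : E g) (fun _ => 0) t = 0 := by simp [kerW]
    simp only [smul_zero, add_zero, h0, Pi.smul_apply] at h1 h2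
    show kerW S.c (S.z g) S.a 0 (P.force u g) t = _
    rw [hf, h1]
    exact congrArg _ h2
  constructor
  · refine ContinuousLinearMap.ext fun u => ?_
    ext g t
    have h2 := kerY_add_smul (b := S.b) (U := (0 : E g)) (U' := 0) (S.cont_z g) y
      (P₂.continuous_devPert u g) (continuous_const (y := (0 : E g))) t
    have h1 := kerY_add_smul (b := S.b) (U := (0 : E g)) (U' := 0) (S.cont_z g) x
      (P₁.continuous_devPert u g) ((P₂.continuous_devPert u g).const_smul y) t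
    have h0 : kerY (S.z g) S.b (0 : E g) (fun _ => 0) t = 0 := by simp [kerY]
    simp only [smul_zero, add_zero, h0, Pi.smul_apply] at h1 h2
    show P.step u g t = x • P₁.step u g t + y • P₂.step u g t
    simp only [step_apply, hd, h1]
    exact congrArg _ h2
  · refine ContinuousLinearMap.ext fun u => ?_
    ext g
    show P.evW u g = x • P₁.evW u g + y • P₂.evW u g
    simp only [evW_apply, hd]
    module

variable {X : Type*} [NormedAddCommGroup X] [NormedSpace ℝ X]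

set_option synthInstance.maxHeartbeats 200000 in
/-- A family `φ P₁ + φ² P₂` of perturbations gives segments to second order; the first order of
`Q` is one Picard step. -/
theorem seg_secOrd (Pf : X → PicardPert S E) (P₁ P₂ : PicardPert S E) (φ : X →L[ℝ] ℝ) (hφ : ‖φ‖ ≤ 1)
    (hnb : ∀ p g, P₁.nb g = (Pf p).nb g ∧ P₂.nb g = (Pf p).nb g)
    (hP : ∀ p t g h, (Pf p).P t g h = φ p • P₁.P t g h + φ p ^ 2 • P₂.P t g h) {r θ : ℝ}
    (hr : r ≤ 1) (hr0 : 0 ≤ r) (h1 : P₁.θ ≤ θ) (h2 : P₂.θ ≤ θ) (hs : 2 * θ * r ≤ 1 / 2) :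
    ∃ LB LD, SecOrd r (8 * θ + 200 * θ ^ 2 + 2) (fun p => (Pf p).seg.Q)
        (φ.smulRight (S.evA.comp (P₁.step.comp S.baseU))) ∧
      SecOrd r ((8 * θ + 200 * θ ^ 2 + 2) * S.K) (fun p => (Pf p).seg.B) LB ∧
      SecOrd r (S.δ + 14 * (2 * θ) * (8 * θ + 200 * θ ^ 2 + 2)) (fun p => (Pf p).seg.C)
        (φ.smulRight (P₁.evW.comp S.baseU)) ∧
      SecOrd r (1 + 14 * (2 * θ) * ((8 * θ + 200 * θ ^ 2 + 2) * S.K)) (fun p => (Pf p).seg.D) LD := by
  have hθ : 0 ≤ θ := P₁.θ_nonneg.trans h1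
  have hn1 : ‖P₁.step‖ ≤ θ := P₁.norm_step_le.trans h1
  have hn2 : ‖P₂.step‖ ≤ θ := P₂.norm_step_le.trans h2
  have hstep : SecOrd r (θ + θ) (fun p => (Pf p).step) (φ.smulRight P₁.step) :=
    (secOrd_sq hr hr0 hφ hn1 hn2).congr fun p _ =>
      ((step_lin (Pf p) P₁ P₂ _ _ (hnb p) (hP p)).1).symm
  have hW : SecOrd r (θ + θ) (fun p => (Pf p).evW) (φ.smulRight P₁.evW) :=
    (secOrd_sq hr hr0 hφ (P₁.norm_evW_le.trans h1) (P₂.norm_evW_le.trans h2)).congr fun p _ =>
      ((step_lin (Pf p) P₁ P₂ _ _ (hnb p) (hP p)).2).symm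
  have hsmall : ∀ p, ‖p‖ ≤ r → ‖(Pf p).step‖ ≤ 1 / 2 := by
    intro p hp
    rw [(step_lin (Pf p) P₁ P₂ _ _ (hnb p) (hP p)).1]
    have hp1 : |φ p| ≤ r := by
      have := φ.le_of_opNorm_le hφ p
      rw [one_mul, Real.norm_eq_abs] at this
      linarith
    have e : ∀ A : PX S E →L[ℝ] PX S E, ‖A‖ ≤ θ → ∀ x : ℝ, |x| ≤ r → ‖x • A‖ ≤ r * θ :=
      fun A hA x hx => by
        rw [norm_smul, Real.norm_eq_abs]
        exact mul_le_mul hx hA (norm_nonneg _) hr0
    refine (norm_add_le _ _).trans ((add_le_add (e _ hn1 _ hp1) (e _ hn2 _ ?_)).trans (by linarith))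
    rw [abs_pow]
    calc |φ p| ^ 2 ≤ |φ p| * 1 := by
          rw [sq]; exact mul_le_mul_of_nonneg_left (hp1.trans hr) (abs_nonneg _)
      _ ≤ r := by rw [mul_one]; exact hp1
  have hN := (hstep.neumann hsmall).mono (K' := 8 * θ + 200 * θ ^ 2 + 2) (by nlinarith)
  have h0 : ∀ p, φ p = 0 → (Pf p).step = 0 := fun p hp => by
    rw [(step_lin (Pf p) P₁ P₂ _ _ (hnb p) (hP p)).1, hp]; simp
  have hA : ‖(S.evA : PX S E →L[ℝ] lp E 2)‖ ≤ 1 := S.norm_evA_le
  have hU : ‖(S.baseU : lp E 2 →L[ℝ] PX S E)‖ ≤ 1 := S.norm_baseU_le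
  have hV : ‖(S.baseV : lp E 2 →L[ℝ] PX S E)‖ ≤ S.K := S.norm_baseV_le
  have hQ := hN.sandwich S.evA S.baseU hA hU
  have hB := hN.sandwich S.evA S.baseV hA hV
  have hid : ‖ContinuousLinearMap.id ℝ (PX S E)‖ ≤ 1 := ContinuousLinearMap.norm_id_le
  have hC := hW.comp (hN.sandwich (ContinuousLinearMap.id ℝ (PX S E)) S.baseU hid hU)
  have hD := hW.comp (hN.sandwich (ContinuousLinearMap.id ℝ (PX S E)) S.baseV hid hV)
  have hC' := (secOrd_const (X := X) hr hr0 (v := (S.baseC : lp E 2 →L[ℝ] lp E 2))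
    (norm_scalarOp_le _ _ _ _)).add hC
  have hD' := (secOrd_const (X := X) hr hr0 (v := (S.baseD : lp E 2 →L[ℝ] lp E 2))
    (norm_scalarOp_le _ _ _ _)).add hD
  have e1 : Vale.Agent.P225.neumann ((Pf 0).step) = 1 := by
    rw [h0 0 (map_zero φ)]; simp [Vale.Agent.P225.neumann]
  have e2 : (Pf 0).evW = 0 := by
    rw [(step_lin (Pf 0) P₁ P₂ _ _ (hnb 0) (hP 0)).2]; simp
  refine ⟨_, _, ?_, (hB.congr fun p _ => rfl).mono (by ring_nf; exact le_rfl), ?_,
    (hD'.congr fun p _ => rfl).mono (le_of_eq (by ring))⟩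
  · convert (hQ.congr (g := fun p => (Pf p).seg.Q) fun p _ => rfl).mono
      (K' := 8 * θ + 200 * θ ^ 2 + 2) (le_of_eq (by ring)) using 1
    refine ContinuousLinearMap.ext fun p => ContinuousLinearMap.ext fun v => ?_
    simp only [ContinuousLinearMap.comp_apply, ContinuousLinearMap.compL_apply,
      ContinuousLinearMap.flip_apply, linComp_apply, ContinuousLinearMap.smulRight_apply, e1,
      add_apply, zero_apply, one_apply_eq_self, zero_add, add_zero, map_zero, smul_apply, map_smul]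
  · convert (hC'.congr (g := fun p => (Pf p).seg.C) fun p _ => rfl).mono
      (K' := S.δ + 14 * (2 * θ) * (8 * θ + 200 * θ ^ 2 + 2)) (le_of_eq (by ring)) using 1
    refine ContinuousLinearMap.ext fun p => ContinuousLinearMap.ext fun v => ?_
    simp only [ContinuousLinearMap.comp_apply, ContinuousLinearMap.compL_apply,
      ContinuousLinearMap.flip_apply, linComp_apply, ContinuousLinearMap.smulRight_apply, e1, e2,
      add_apply, zero_apply, one_apply_eq_self, zero_add, add_zero, map_zero, smul_apply, map_smul,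
      ContinuousLinearMap.coe_id', id_eq, smul_zero, add_zero]

end PicardPert

/-- An insertion amplitude enters the profiles as a scalar and its square. -/
theorem insF_scale (κ ε L a t : ℝ) :
    insF₁ κ ε L a t = ε * insF₁ κ 1 L a t ∧ insF₂ κ ε L a t = ε ^ 2 * insF₂ κ 1 L a t := by
  constructor <;> simp only [insF₁, insF₂, insAmp] <;> ring

/-- The first order of `Q` of an insertion segment per unit amplitude. -/
def insLin (O : InsOp) {κ L a b k δ m : ℝ} {c : ℝ → ℝ} {z : St → ℝ → ℝ} {ρ : St → ℝ}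
    (h : SlopeFam a b c z ρ k δ) (hm : 0 < m)
    (hz : ∀ g : ℕ × ℕ, g ≠ 0 → ∀ t ∈ Icc a b, m * muL g ≤ z (levRep g) t)
    (hκ : 0 ≤ κ) (ha : 0 < a) : HSp →L[ℝ] HSp :=
  (ofLev 0).comp (((h.levBase hm hz).evA.comp
    ((O.pert h hm hz (insF₁ κ 1 L a) (fun _ => 0) (continuous_insF κ 1 L ha).1 continuous_const 3
      (by norm_num) fun t _ =>
        ⟨by simpa using (abs_insF_le hκ (ε := 1) (L := L) (by simp) ha t).1,
          by simp⟩).step.comp (h.levBase hm hz).baseU)).comp (toLev 0))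

/-- The first order of `C` of an insertion segment per unit amplitude. -/
def insLinC (O : InsOp) {κ L a b k δ m : ℝ} {c : ℝ → ℝ} {z : St → ℝ → ℝ} {ρ : St → ℝ}
    (h : SlopeFam a b c z ρ k δ) (hm : 0 < m)
    (hz : ∀ g : ℕ × ℕ, g ≠ 0 → ∀ t ∈ Icc a b, m * muL g ≤ z (levRep g) t)
    (hκ : 0 ≤ κ) (ha : 0 < a) : HSp →L[ℝ] HSp :=
  InsOp.muRatioInv.comp
    ((ofLev 0).comp (((O.pert h hm hz (insF₁ κ 1 L a) (fun _ => 0) (continuous_insF κ 1 L ha).1
      continuous_const 3 (by norm_num) fun t _ =>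
        ⟨by simpa using (abs_insF_le hκ (ε := 1) (L := L) (by simp) ha t).1,
          by simp⟩).evW.comp (h.levBase hm hz).baseU).comp (toLev 0)))

namespace InsOp

variable (O : InsOp) {a b k δ m : ℝ} {c : ℝ → ℝ} {z : St → ℝ → ℝ} {ρ : St → ℝ}
  (h : SlopeFam a b c z ρ k δ) (hm : 0 < m)
  (hz : ∀ g : ℕ × ℕ, g ≠ 0 → ∀ t ∈ Icc a b, m * muL g ≤ z (levRep g) t)

/-- Bounds on the profiles of every amplitude. -/
theorem abs_insF_le_sq {κ ε L a : ℝ} (hκ : 0 ≤ κ) (ha : 0 < a) (t : ℝ) :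
    |insF₁ κ ε L a t| ≤ 3 * (|ε| + ε ^ 2) ∧ |insF₂ κ ε L a t| ≤ 3 * (|ε| + ε ^ 2) := by
  obtain ⟨h1, h2⟩ := abs_insF_le hκ (ε := 1) (L := L) (by simp) ha t
  rw [abs_one, mul_one] at h1 h2
  obtain ⟨e1, e2⟩ := insF_scale κ ε L a t
  rw [e1, e2, abs_mul, abs_mul, abs_of_nonneg (sq_nonneg ε)]
  constructor <;> nlinarith [mul_le_mul_of_nonneg_left h1 (abs_nonneg ε),
    mul_le_mul_of_nonneg_left h2 (sq_nonneg ε), abs_nonneg ε, sq_nonneg ε]

/-- The segment does not depend on the bound used to define it. -/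
theorem segH_bound (f₁ f₂ : ℝ → ℝ) (hf₁ : Continuous f₁) (hf₂ : Continuous f₂) (A A' : ℝ)
    (hA : 0 ≤ A) (hA' : 0 ≤ A') (hb : ∀ t ∈ Icc a b, |f₁ t| ≤ A ∧ |f₂ t| ≤ A)
    (hb' : ∀ t ∈ Icc a b, |f₁ t| ≤ A' ∧ |f₂ t| ≤ A') :
    O.segH h hm hz f₁ f₂ hf₁ hf₂ A hA hb = O.segH h hm hz f₁ f₂ hf₁ hf₂ A' hA' hb' := by
  set P := O.pert h hm hz f₁ f₂ hf₁ hf₂ A hA hb
  set P' := O.pert h hm hz f₁ f₂ hf₁ hf₂ A' hA' hb'
  obtain ⟨e1, e2⟩ := PicardPert.step_lin P P' P' 1 0 (fun g => ⟨rfl, rfl⟩) fun t g g' => by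
    show f₁ t • O.O₁ g g' + f₂ t • O.O₂ g g' = (1 : ℝ) • (f₁ t • O.O₁ g g' + f₂ t • O.O₂ g g')
      + (0 : ℝ) • (f₁ t • O.O₁ g g' + f₂ t • O.O₂ g g')
    module
  simp only [one_smul, zero_smul, add_zero] at e1 e2
  have es : P.seg = P'.seg := by simp only [PicardPert.seg, e1, e2]
  show P.seg.ofLevels.conj _ _ _ _ = P'.seg.ofLevels.conj _ _ _ _
  rw [es]

/-- **The insertion segment to second order in its amplitude.** -/
theorem segH_secOrd {X : Type*} [NormedAddCommGroup X] [NormedSpace ℝ X] {κ L r Ks : ℝ}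
    (hκ : 0 ≤ κ) (ha : 0 < a) (hKs : O.size k m ≤ Ks) (φ : X →L[ℝ] ℝ) (hφ : ‖φ‖ ≤ 1) (hr : r ≤ 1)
    (hr0 : 0 ≤ r) (hs : 6 * Ks * r ≤ 1 / 2) :
    let S := fun p => O.segH h hm hz (insF₁ κ (φ p) L a) (insF₂ κ (φ p) L a)
      (continuous_insF κ (φ p) L ha).1 (continuous_insF κ (φ p) L ha).2
      (3 * (|φ p| + φ p ^ 2)) (by positivity) (fun t _ => abs_insF_le_sq hκ ha t)
    let K := 8 * (3 * Ks) + 200 * (3 * Ks) ^ 2 + 2
    ∃ LB LD, SecOrd r K (fun p => (S p).Q) (φ.smulRight (insLin O h hm hz (L := L) hκ ha)) ∧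
      SecOrd r (2 * (K * (1 / k))) (fun p => (S p).B) LB ∧
      SecOrd r (2 * δ + 14 * (2 * (3 * Ks)) * K) (fun p => (S p).C)
        (φ.smulRight (insLinC O h hm hz (L := L) hκ ha)) ∧
      SecOrd r (2 * (1 + 14 * (2 * (3 * Ks)) * (K * (1 / k)))) (fun p => (S p).D) LD := by
  intro S K
  have h3 : ∀ t ∈ Icc a b, |insF₁ κ 1 L a t| ≤ 3 ∧ |insF₂ κ 1 L a t| ≤ 3 := fun t _ => by
    simpa using abs_insF_le hκ (ε := 1) (L := L) (by simp) ha t
  set P₁ := O.pert h hm hz (insF₁ κ 1 L a) (fun _ => 0) (continuous_insF κ 1 L ha).1 continuous_const 3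
    (by norm_num) fun t ht => ⟨(h3 t ht).1, by simp⟩
  set P₂ := O.pert h hm hz (fun _ => 0) (insF₂ κ 1 L a) continuous_const (continuous_insF κ 1 L ha).2 3
    (by norm_num) fun t ht => ⟨by simp, (h3 t ht).2⟩
  have hθ : 3 * O.size k m ≤ 3 * Ks := by linarith
  obtain ⟨LB, LD, hQ, hB, hC, hD⟩ := PicardPert.seg_secOrd
    (fun p => O.pert h hm hz (insF₁ κ (φ p) L a) (insF₂ κ (φ p) L a)
      (continuous_insF κ (φ p) L ha).1 (continuous_insF κ (φ p) L ha).2 (3 * (|φ p| + φ p ^ 2))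
      (by positivity) (fun t _ => abs_insF_le_sq hκ ha t)) P₁ P₂ φ hφ (fun p g => ⟨rfl, rfl⟩)
    (fun p t g g' => by
      show insF₁ κ (φ p) L a t • O.O₁ g g' + insF₂ κ (φ p) L a t • O.O₂ g g'
        = φ p • (insF₁ κ 1 L a t • O.O₁ g g' + (0 : ℝ) • O.O₂ g g')
          + φ p ^ 2 • ((0 : ℝ) • O.O₁ g g' + insF₂ κ 1 L a t • O.O₂ g g')
      rw [(insF_scale κ (φ p) L a t).1, (insF_scale κ (φ p) L a t).2]
      module)
    hr hr0 hθ hθ (by linarith)
  have hk := h.k_pos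
  have hR : ‖muRatio‖ ≤ 2 := norm_diagOp_le _ _ _ _
  have hRi : ‖muRatioInv‖ ≤ 1 := norm_diagOp_le _ _ _ _
  have ho : ‖ofLev 0‖ ≤ 1 := LinearMap.mkContinuous_norm_le _ zero_le_one _
  have ht : ‖toLev 0‖ ≤ 1 := LinearMap.mkContinuous_norm_le _ zero_le_one _
  have h1 : ‖(1 : HSp →L[ℝ] HSp)‖ ≤ 1 := ContinuousLinearMap.norm_id_le
  have hQ' := ((hQ.sandwich (ofLev 0) (toLev 0) ho ht).sandwich 1 1 h1 h1)
  have hB' := ((hB.sandwich (ofLev 0) (toLev 0) ho ht).sandwich 1 muRatio h1 hR)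
  have hC' := ((hC.sandwich (ofLev 0) (toLev 0) ho ht).sandwich muRatioInv 1 hRi h1)
  have hD' := ((hD.sandwich (ofLev 0) (toLev 0) ho ht).sandwich muRatioInv muRatio hRi hR)
  refine ⟨_, _, ?_, (hB'.congr fun p _ => rfl).mono ?_, ?_, (hD'.congr fun p _ => rfl).mono ?_⟩
  rotate_left
  · refine le_of_eq ?_
    show _ = _
    simp only [SlopeFam.levBase, K]
    ring
  · convert (hC'.congr (g := fun p => (S p).C) fun p _ => rfl).mono
      (K' := 2 * δ + 14 * (2 * (3 * Ks)) * K) (le_of_eq (by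
        show _ = _
        simp only [SlopeFam.levBase, K]
        ring)) using 1
    refine ContinuousLinearMap.ext fun p => ContinuousLinearMap.ext fun v => ?_
    simp only [ContinuousLinearMap.comp_apply, ContinuousLinearMap.compL_apply,
      ContinuousLinearMap.flip_apply, ContinuousLinearMap.smulRight_apply, insLinC, smul_apply,
      map_smul, one_apply_eq_self, P₁]
  · refine le_of_eq ?_
    show _ = _
    simp only [SlopeFam.levBase, K]
    ring
  · convert (hQ'.congr (g := fun p => (S p).Q) fun p _ => rfl).mono (K' := K)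
      (le_of_eq (by simp only [K]; ring)) using 1
    refine ContinuousLinearMap.ext fun p => ContinuousLinearMap.ext fun v => ?_
    simp only [ContinuousLinearMap.comp_apply, ContinuousLinearMap.compL_apply,
      ContinuousLinearMap.flip_apply, ContinuousLinearMap.smulRight_apply, insLin, smul_apply,
      map_smul, one_apply_eq_self, P₁]

end InsOp

end

end Vale.Agent.P225
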