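import Vale.Agent.P225.Loop.Program
import Vale.Agent.P225.Loop.PieceIns
import Vale.Agent.P225.Loop.IdealProgram

/-!
P225, module B (helper2): the slope of a piece and the references between pieces.

Slope rule (CORRECTOR sec. 1): an excursion starts and ends at `refSlope`, a long wait starts at
`refSlope`; every other piece continues the exact slope of the piece before it, also across loops.
So a piece which is followed neither by an excursion nor by a long wait has `C = 0`.
-/

open Set

namespace Vale.Agent.P225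

noncomputable section

theorem pieceLam_amp (κ : ℝ) (P : Piece) (j : ℕ) (τ : ℕ → ℝ) (a : ℝ) :
    pieceLam κ P j (fun _ => P.amp τ) a = pieceLam κ P j τ a := by cases P <;> rfl

theorem continuous_clampLam {κ a : ℝ} {P : Piece} {j : ℕ} {τ : ℕ → ℝ} (ha : 0 < a)
    (hw : ∀ s, Wide (P.raw j τ s)) (i : St) :
    Continuous fun t => pieceLam κ P j τ a i (clampT a t) :=
  continuous_iff_continuousAt.2 fun t =>
    ((hasDerivAt_pieceLam κ P j τ a i
      ((by linarith : 0 < a / 2).trans_le (half_le_clampT ha t)) (hw _)).continuousAt).comp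
      (continuous_clampT a).continuousAt

theorem continuous_cPiece {κ a : ℝ} (ha : 0 < a) : Continuous (cPiece κ a) :=
  continuous_const.add (continuous_iff_continuousAt.2 fun t =>
    ((hasDerivAt_vFun κ ((by linarith : 0 < a / 2).trans_le (half_le_clampT ha t))).continuousAt).comp
      (continuous_clampT a).continuousAt)

/-- A slope of state `i` on the window of a piece with value `y` at the start. -/
structure IsPieceSlope (κ : ℝ) (P : Piece) (j : ℕ) (τ : ℕ → ℝ) (a y : ℝ) (i : St) (z : ℝ → ℝ) :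
    Prop where
  cont : Continuous z
  start : z a = y
  nonneg : ∀ t ∈ Icc a (a + P.len j), 0 ≤ z t
  ode : ∀ t ∈ Icc a (a + P.len j), ∃ z', HasDerivAt z z' t ∧
    z' + z t ^ 2 + cPiece κ a t * z t = pieceLam κ P j τ a i t

/-- The slope of state `i` on the window of a piece. -/
def pieceSlope (κ : ℝ) (P : Piece) (j : ℕ) (τ : ℕ → ℝ) (a y : ℝ) (i : St) : ℝ → ℝ :=
  open Classical in
  if h : ∃ z, IsPieceSlope κ P j τ a y i z then Classical.choose h else fun _ => 0

theorem isPieceSlope_pieceSlope {κ a y : ℝ} {P : Piece} {j : ℕ} {τ : ℕ → ℝ} {i : St} {z : ℝ → ℝ}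
    (h : IsPieceSlope κ P j τ a y i z) :
    IsPieceSlope κ P j τ a y i (pieceSlope κ P j τ a y i) := by
  have he : ∃ z, IsPieceSlope κ P j τ a y i z := ⟨z, h⟩
  rw [pieceSlope, dif_pos he]
  exact Classical.choose_spec he

/-- Slopes are unique on the window. -/
theorem IsPieceSlope.unique {κ a y : ℝ} {P : Piece} {j : ℕ} {τ τ' : ℕ → ℝ} {i i' : St}
    {z z' : ℝ → ℝ} (ha : 0 < a) (hw : ∀ s, Wide (P.raw j τ s))
    (hc : ∀ t ∈ Icc a (a + P.len j), 1 ≤ cPiece κ a t)
    (hl : ∀ t, pieceLam κ P j τ' a i' t = pieceLam κ P j τ a i t)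
    (h : IsPieceSlope κ P j τ a y i z) (h' : IsPieceSlope κ P j τ' a y i' z') :
    EqOn z z' (Icc a (a + P.len j)) :=
  slope_eq_of_eq (continuous_cPiece ha) (continuous_clampLam ha hw i) h.cont h'.cont hc h.nonneg
    h'.nonneg (fun t ht => by rw [(clampT_of_ge ha ht.1).1]; exact h.ode t ht)
    (fun t ht => by rw [(clampT_of_ge ha ht.1).1, ← hl]; exact h'.ode t ht) (h.start.trans h'.start.symm)

theorem SlopeFam.congr {a b k δ : ℝ} {c : ℝ → ℝ} {z z' : St → ℝ → ℝ} {ρ : St → ℝ}
    (h : SlopeFam a b c z ρ k δ) (hc : ∀ i, Continuous (z' i))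
    (he : ∀ i, EqOn (z' i) (z i) (Icc a b)) : SlopeFam a b c z' ρ k δ where
  le := h.le
  k_pos := h.k_pos
  δ_nonneg := h.δ_nonneg
  cont_c := h.cont_c
  cont_z := hc
  z_nonneg i t ht := by rw [he i ht]; exact h.z_nonneg i t ht
  c_nonneg := h.c_nonneg
  gain i t ht := by rw [he i ht]; exact h.gain i t ht
  close i := by rw [he i (right_mem_Icc.2 h.le)]; exact h.close i

theorem pieceLam_not_exc {P : Piece} (h : P.isExc = false) (κ : ℝ) (j : ℕ) (τ τ' : ℕ → ℝ) (a : ℝ) :
    pieceLam κ P j τ a = pieceLam κ P j τ' a := by cases P <;> first | rfl | exact absurd h (by simp [Piece.isExc])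

theorem raw_amp (P : Piece) (j : ℕ) (σ : ℕ → ℝ) (s : ℝ) :
    P.raw j (fun _ => P.amp σ) s = P.raw j σ s := by cases P <;> rfl

/-- Along a piece which is constant at `J3` the eigenvalue is a function of the level. -/
theorem pieceLam_level {P : Piece} (h : P.isExc = false) (hs : P.src = 0) (hd : P.dst = 0) (κ : ℝ)
    (j : ℕ) (τ : ℕ → ℝ) (a t : ℝ) {i i' : St} (hi : i.blk.level 0 = i'.blk.level 0) :
    pieceLam κ P j τ a i t = pieceLam κ P j τ a i' t := by
  have hraw : P.raw j τ (t - a) = rotW 0 (rawExc 0) := by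
    have r0 : rotW 0 (rawExc 0) = rawExc 0 := by funext i; simp [rotW]
    cases P with
    | wait J q =>
        obtain rfl : J = 0 := hs
        rfl
    | exc J g k => simp [Piece.isExc] at h
    | out J =>
        obtain rfl : J = 0 := hd
        simp [Piece.raw, r0]
    | back J =>
        obtain rfl : J = 0 := hs
        simp [Piece.raw, r0]
    | ins f k => simp [Piece.raw, r0]
  show Blk.lam (wNorm (dFun κ t) (P.raw j τ (t - a))) i.blk
    = Blk.lam (wNorm (dFun κ t) (P.raw j τ (t - a))) i'.blk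
  rw [hraw, lam_wNorm, lam_wNorm]
  simp only [Blk.level, Prod.mk.injEq, Matrix.cons_val_zero] at hi
  simp [Blk.lam, rotW, rawExc, hi.1, hi.2]

namespace Sched

variable (S : Sched)

/-- Value handed to piece `m` turned into its start value. -/
def entryRef (κ : ℝ) (i m : ℕ) (y : St → ℝ) : St → ℝ :=
  if h : m < (S.prog (S.j0 + i)).length then
    if ((S.prog (S.j0 + i))[m]).restarts then
      refSlope κ ((S.prog (S.j0 + i))[m]).src (S.pieceStart i m)
    else y
  else y

/-- Value handed by piece `m` to the next one. -/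
def stepRef (κ : ℝ) (i m : ℕ) (y : St → ℝ) : St → ℝ :=
  if h : m < (S.prog (S.j0 + i)).length then
    if ((S.prog (S.j0 + i))[m]).isExc then
      refSlope κ ((S.prog (S.j0 + i))[m]).dst
        (S.pieceStart i m + ((S.prog (S.j0 + i))[m]).len (S.j0 + i))
    else fun k => pieceSlope κ ((S.prog (S.j0 + i))[m]) (S.j0 + i) (fun _ => 0) (S.pieceStart i m)
      (S.entryRef κ i m y k) k (S.pieceStart i m + ((S.prog (S.j0 + i))[m]).len (S.j0 + i))
  else y

/-- Values handed along the pieces of loop `i`. -/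
def carry (κ : ℝ) (i : ℕ) (y : St → ℝ) : ℕ → St → ℝ
  | 0 => y
  | m + 1 => S.stepRef κ i m (carry κ i y m)

/-- Value handed to loop `i`. -/
def loopIn (κ : ℝ) : ℕ → St → ℝ
  | 0 => refSlope κ 0 (S.start 0)
  | i + 1 => S.carry κ i (loopIn κ i) (S.prog (S.j0 + i)).length

/-- The reference at the left end of piece `m` of loop `i`. -/
def startRef (κ : ℝ) (i m : ℕ) : St → ℝ := S.entryRef κ i m (S.carry κ i (S.loopIn κ i) m)

/-- The reference at the right end of piece `m` of loop `i`: the left reference of the next one. -/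
def endRef (κ : ℝ) (i m : ℕ) : St → ℝ :=
  if m + 1 < (S.prog (S.j0 + i)).length then S.startRef κ i (m + 1) else S.startRef κ (i + 1) 0

theorem startRef_succ (κ : ℝ) {i m : ℕ} (h : m + 1 < (S.prog (S.j0 + i)).length) :
    S.endRef κ i m = S.startRef κ i (m + 1) := if_pos h

theorem startRef_loop (κ : ℝ) {i m : ℕ} (h : m + 1 = (S.prog (S.j0 + i)).length) :
    S.endRef κ i m = S.startRef κ (i + 1) 0 := if_neg (by omega)

/-- The slopes of piece `m` of loop `i`. -/
def slope (κ : ℝ) (τ : Params) (i m : ℕ) (k : St) : ℝ → ℝ :=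
  if h : m < (S.prog (S.j0 + i)).length then
    pieceSlope κ ((S.prog (S.j0 + i))[m]) (S.j0 + i) (τ i) (S.pieceStart i m) (S.startRef κ i m k) k
  else fun _ => 0

/-- What is known on the slopes of piece `m` of loop `i`; `c` is the length of the corrector. -/
structure PieceGood (κ C : ℝ) (τ : Params) (c i m : ℕ) (P : Piece) : Prop where
  wide : ∀ s, Wide (P.raw (S.j0 + i) (τ i) s)
  drift : ∀ t, 4 ≤ cPiece κ (S.pieceStart i m) t ∧ cPiece κ (S.pieceStart i m) t ≤ 6
  start_ge : 2 * (((S.j0 + i : ℕ) : ℝ) + 1) ^ 5 ≤ S.pieceStart i m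
  start_zero : ∀ k : St, k.blk.mu = 1 → S.startRef κ i m k = 0
  start_near : ∀ k, |S.startRef κ i m k - refSlope κ P.src (S.pieceStart i m) k|
    ≤ C / (((S.j0 + i : ℕ) : ℝ) + 1) ^ 5
  end_near : ∀ k, |S.endRef κ i m k - refSlope κ P.dst (S.pieceStart i m + P.len (S.j0 + i)) k|
    ≤ C / (((S.j0 + i : ℕ) : ℝ) + 1) ^ 5
  start_level : m ≤ c + 1 ∨ 6 ≤ P.power →
    ∀ k k' : St, k.blk.level 0 = k'.blk.level 0 → S.startRef κ i m k = S.startRef κ i m k'
  end_level : m ≤ c ∨ 6 ≤ P.power →
    ∀ k k' : St, k.blk.level 0 = k'.blk.level 0 → S.endRef κ i m k = S.endRef κ i m k'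
  exc_ref : P.isExc = true → S.startRef κ i m = refSlope κ P.src (S.pieceStart i m) ∧
    S.endRef κ i m = refSlope κ P.dst (S.pieceStart i m + P.len (S.j0 + i))
  long_start : 6 ≤ P.power → S.startRef κ i m = refSlope κ 0 (S.pieceStart i m)
  is_slope : ∀ k, IsPieceSlope κ P (S.j0 + i) (τ i) (S.pieceStart i m) (S.startRef κ i m k) k
    (S.slope κ τ i m k)
  near : ∀ k, ∀ t ∈ Icc (S.pieceStart i m) (S.pieceStart i m + P.len (S.j0 + i)),
    |S.slope κ τ i m k t
      - Ode.alphaFn (cDrift κ t) (pieceLam κ P (S.j0 + i) (τ i) (S.pieceStart i m) k t)|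
      ≤ 3 * C / (((S.j0 + i : ℕ) : ℝ) + 1) ^ 5
  fam : SlopeFam (S.pieceStart i m) (S.pieceStart i m + P.len (S.j0 + i))
    (cPiece κ (S.pieceStart i m)) (S.slope κ τ i m) (S.endRef κ i m) (1 / 10)
    (4 * C / (((S.j0 + i : ℕ) : ℝ) + 1) ^ 5)
  exact_end : P.isExc = false →
    (∀ h : m + 1 < (S.prog (S.j0 + i)).length, ((S.prog (S.j0 + i))[m + 1]).restarts = false) →
    (∀ h : 0 < (S.prog (S.j0 + (i + 1))).length, m + 1 = (S.prog (S.j0 + i)).length →
      ((S.prog (S.j0 + (i + 1)))[0]).restarts = false) →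
    m < (S.prog (S.j0 + i)).length →
    ∀ k, S.slope κ τ i m k (S.pieceStart i m + P.len (S.j0 + i)) = S.endRef κ i m k

end Sched

/-- Late pieces of every schedule of loop programs have good slopes. -/
theorem LoopSpec.exists_good (κ R : ℝ) (hκ : 0 ≤ κ) :
    ∃ (N : ℕ) (C : ℝ), 0 ≤ C ∧ ∀ (W : LoopSpec) (P0 : ℕ), W.Ok P0 → ∀ (j0 : ℕ) (t0 : ℝ)
      (ht : 1 ≤ t0), N ≤ j0 → 2 * ((j0 : ℝ) + 1) ^ 5 ≤ t0 → ∀ (τ : Params) (ε : ℝ),
      (W.sched j0 t0 ht).AmpOk τ R ε → ε ≤ 1 →
      ∀ i m (hm : m < (W.prog (j0 + i)).length),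
        (W.sched j0 t0 ht).PieceGood κ C τ (W.corr (j0 + i)).length i m ((W.prog (j0 + i))[m]) := by
  set Rp := max R 1
  obtain ⟨N₁, C₁, hC₁, h₁⟩ := Piece.exists_slopes κ Rp 0 hκ
  obtain ⟨N₂, C₂, hC₂, h₂⟩ := Piece.exists_slopes κ Rp (192 * C₁) hκ
  obtain ⟨N₃, hc⟩ := exists_cPiece_bounds κ hκ
  obtain ⟨N₄, hN₄⟩ := exists_nat_ge (20 * Rp)
  refine ⟨max (max N₁ N₂) (max (max N₃ N₄) 3), C₂, le_trans (by positivity) hC₂,
    fun W P0 hW j0 t0 ht hj ht0 τ ε hamp hε => ?_⟩
  simp only [max_le_iff] at hj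
  obtain ⟨⟨hj1, hj2⟩, ⟨hj3, hj4⟩, hj5⟩ := hj
  set S := W.sched j0 t0 ht
  have hwin : ∀ i m, 2 * (((j0 + i : ℕ) : ℝ) + 1) ^ 5 ≤ S.pieceStart i m := fun i m =>
    W.two_pow_le_pieceStart ht hj5 ht0 i m
  have hpos : ∀ i m, 0 < S.pieceStart i m := fun i m =>
    lt_of_lt_of_le (by positivity) (hwin i m)
  have hdrift : ∀ i m t, 4 ≤ cPiece κ (S.pieceStart i m) t ∧ cPiece κ (S.pieceStart i m) t ≤ 6 :=
    fun i m => hc (j0 + i) _ (by omega) (hwin i m)
  have hcD : ∀ i m, ∀ t, S.pieceStart i m ≤ t → 0 ≤ cDrift κ t := fun i m t htm => by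
    rw [← cPiece_of_ge κ (hpos i m) htm]; linarith [(hdrift i m t).1]
  have hRL : ∀ i : ℕ, 20 * Rp ≤ (((j0 + i : ℕ) : ℝ) + 1) ^ 5 := fun i => by
    refine hN₄.trans (le_trans ?_ (le_self_pow₀ (le_add_of_nonneg_left (Nat.cast_nonneg _))
      (by norm_num)))
    have : (N₄ : ℝ) ≤ ((j0 + i : ℕ) : ℝ) := Nat.cast_le.2 (by omega)
    linarith
  have hL16 : ∀ i : ℕ, 16 ≤ (((j0 + i : ℕ) : ℝ) + 1) ^ 5 := fun i => by
    have h3 : ((3 : ℕ) : ℝ) ≤ ((j0 + i : ℕ) : ℝ) := Nat.cast_le.2 (by omega)
    push_cast at h3 ⊢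
    exact le_trans (by norm_num) (pow_le_pow_left₀ (by norm_num) (by linarith :
      (4 : ℝ) ≤ (j0 : ℝ) + i + 1) 5)
  have hampc : ∀ i m (hm : m < (W.prog (j0 + i)).length),
      |((W.prog (j0 + i))[m]).amp (τ i)| ≤ Rp := by
    intro i m hm
    have h := hamp i m hm
    change ((W.prog (j0 + i))[m]).AmpOk (τ i) R ε at h
    revert h
    cases (W.prog (j0 + i))[m] <;> intro h <;> simp only [Piece.amp, Piece.AmpOk] at h ⊢
    · simp [Rp]
    · exact h.trans (le_max_left _ _)
    · simp [Rp]
    · simp [Rp]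
    · exact h.trans (hε.trans (le_max_right _ _))
  -- restarting pieces
  have hlong : ∀ i m (hm : m < (W.prog (j0 + i)).length),
      6 ≤ ((W.prog (j0 + i))[m]).power →
        ∃ q, (W.prog (j0 + i))[m] = Piece.wait 0 q := by
    intro i m hm h6
    cases m with
    | zero => rw [LoopSpec.first_short hW hm] at h6; omega
    | succ n => exact (LoopSpec.long_prev hW hm h6).2
  -- the invariant of a handed value
  let Inv : ℕ → ℕ → Fin 3 → Prop → (St → ℝ) → Prop := fun i m J lev y =>
    (∀ k, |y k - refSlope κ J (S.pieceStart i m) k| ≤ 192 * C₁ / (((j0 + i : ℕ) : ℝ) + 1) ^ 5) ∧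
    (∀ k : St, k.blk.mu = 1 → y k = 0) ∧
    (lev → ∀ k k' : St, k.blk.level 0 = k'.blk.level 0 → y k = y k')
  have hentry : ∀ i m (hm : m < (W.prog (j0 + i)).length) (lev : Prop) (y : St → ℝ),
      Inv i m ((W.prog (j0 + i))[m]).src lev y →
      Inv i m ((W.prog (j0 + i))[m]).src (lev ∨ 6 ≤ ((W.prog (j0 + i))[m]).power)
          (S.entryRef κ i m y) ∨
        (lev ∧ ((W.prog (j0 + i))[m]).isExc = true) := by
    intro i m hm lev y hy
    have hdef : S.entryRef κ i m y = if ((W.prog (j0 + i))[m]).restarts then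
        refSlope κ ((W.prog (j0 + i))[m]).src (S.pieceStart i m) else y := by
      rw [Sched.entryRef, dif_pos (show m < (S.prog (S.j0 + i)).length from hm)]
      rfl
    cases hr : ((W.prog (j0 + i))[m]).restarts
    · left
      rw [hdef, hr]
      refine ⟨hy.1, hy.2.1, fun hl => ?_⟩
      rcases hl with hl | hl
      · exact hy.2.2 hl
      · simp [Piece.restarts, hl] at hr
    · rw [hdef, hr, if_pos rfl]
      by_cases h6 : 6 ≤ ((W.prog (j0 + i))[m]).power
      · obtain ⟨q, hq⟩ := hlong i m hm h6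
        refine Or.inl ⟨fun k => by rw [sub_self, abs_zero]; positivity,
          fun k hk => Loop.refSlope_zero (hcD i m _ le_rfl) hk, fun _ k k' h => ?_⟩
        rw [hq]
        exact refSlope_level κ _ _ h
      · have he : ((W.prog (j0 + i))[m]).isExc = true := by simpa [Piece.restarts, h6] using hr
        by_cases hl : lev
        · exact Or.inr ⟨hl, he⟩
        · exact Or.inl ⟨fun k => by rw [sub_self, abs_zero]; positivity,
            fun k hk => Loop.refSlope_zero (hcD i m _ le_rfl) hk,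
            fun h => absurd h (by simp [hl, h6])⟩
  have hwide : ∀ i m (hm : m < (W.prog (j0 + i)).length) (σ : ℕ → ℝ),
      |((W.prog (j0 + i))[m]).amp σ| ≤ Rp → ∀ s, Wide (((W.prog (j0 + i))[m]).raw (j0 + i) σ s) :=
    fun i m hm σ hσ s => by
      rw [← raw_amp]
      exact Piece.wide _ (j0 + i) (R := Rp) (fun _ => hσ) (hRL i) s
  -- one piece
  have hstep : ∀ i m (hm : m < (W.prog (j0 + i)).length) (J : Fin 3), J = ((W.prog (j0 + i))[m]).src →
      ∀ (y : St → ℝ) (σ : ℕ → ℝ), |((W.prog (j0 + i))[m]).amp σ| ≤ Rp →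
      (∀ k, |y k - refSlope κ J (S.pieceStart i m) k| ≤ 192 * C₁ / (((j0 + i : ℕ) : ℝ) + 1) ^ 5) →
      (∀ k : St, k.blk.mu = 1 → y k = 0) →
      ∀ k, IsPieceSlope κ ((W.prog (j0 + i))[m]) (j0 + i) σ (S.pieceStart i m) (y k) k
            (pieceSlope κ ((W.prog (j0 + i))[m]) (j0 + i) σ (S.pieceStart i m) (y k) k) ∧
        (∀ t ∈ Icc (S.pieceStart i m) (S.pieceStart i m + ((W.prog (j0 + i))[m]).len (j0 + i)),
          |pieceSlope κ ((W.prog (j0 + i))[m]) (j0 + i) σ (S.pieceStart i m) (y k) k t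
            - Ode.alphaFn (cDrift κ t) (pieceLam κ ((W.prog (j0 + i))[m]) (j0 + i) σ (S.pieceStart i m) k t)|
            ≤ 3 * C₂ / (((j0 + i : ℕ) : ℝ) + 1) ^ 5) ∧
        |pieceSlope κ ((W.prog (j0 + i))[m]) (j0 + i) σ (S.pieceStart i m) (y k) k
              (S.pieceStart i m + ((W.prog (j0 + i))[m]).len (j0 + i))
            - refSlope κ ((W.prog (j0 + i))[m]).dst
              (S.pieceStart i m + ((W.prog (j0 + i))[m]).len (j0 + i)) k|
          ≤ 6 * C₁ / (((j0 + i : ℕ) : ℝ) + 1) ^ 5 := by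
    intro i m hm J hJ y σ hσ hy hy0 k
    subst hJ
    set P := (W.prog (j0 + i))[m]
    set a := S.pieceStart i m
    set b := a + P.len (j0 + i) with hbdef
    set L := (((j0 + i : ℕ) : ℝ) + 1) ^ 5 with hLdef
    have hL : 0 < L := by positivity
    have hab : a ≤ b := by linarith [P.len_pos (j0 + i)]
    have hlenL : L ≤ P.len (j0 + i) := by
      rw [hLdef, Piece.len]
      exact pow_le_pow_right₀ (le_add_of_nonneg_left (Nat.cast_nonneg _))
        (LoopSpec.power_mem hW hm).2
    have hmk : ∀ (y₀ ρ : St → ℝ) {N : ℕ} {C : ℝ} {z : St → ℝ → ℝ}, N ≤ j0 + i →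
        (∀ k, z k a = y₀ k) →
        (∀ k, ∀ t ∈ Icc a b, ∃ z', HasDerivAt (z k) z' t ∧
          z' + z k t ^ 2 + cDrift κ t * z k t
            = pieceLam κ P (j0 + i) (fun _ => P.amp σ) a k t) →
        SlopeFam a b (cPiece κ a) z ρ (1 / 10) C →
        ∀ k, IsPieceSlope κ P (j0 + i) σ a (y₀ k) k (z k) :=
      fun y₀ ρ _ _ z _ z0 zo zf k => ⟨zf.cont_z k, z0 k, zf.z_nonneg k, fun t ht => by
        rw [cPiece_of_ge κ (hpos i m) ht.1, ← pieceLam_amp κ P (j0 + i) σ]; exact zo k t ht⟩
    obtain ⟨z, z0, zn, zo, zf⟩ := h₂ P (j0 + i) (fun _ => P.amp σ) a (by omega) (fun _ => hσ)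
      (hwin i m) y (refSlope κ P.dst b) hy0
      (fun k => (hy k).trans (div_le_div_of_nonneg_right hC₂ hL.le))
      (fun k => by rw [← hbdef, sub_self, abs_zero]; exact div_nonneg (le_trans (by positivity) hC₂) hL.le)
    have hzs := hmk y _ (N := N₂) (by omega) z0 zo zf
    have hsl := isPieceSlope_pieceSlope (hzs k)
    have huniq : ∀ {y' : ℝ} {w w' : ℝ → ℝ}, IsPieceSlope κ P (j0 + i) σ a y' k w →
        IsPieceSlope κ P (j0 + i) σ a y' k w' → EqOn w w' (Icc a b) := fun h h' =>
      h.unique (hpos i m) (hwide i m hm σ hσ) (fun t _ => by linarith [(hdrift i m t).1])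
        (fun _ => rfl) h'
    have he := huniq hsl (hzs k)
    refine ⟨hsl, fun t htt => ?_, ?_⟩
    · rw [he htt, ← pieceLam_amp κ P (j0 + i) σ]; exact zn k t htt
    obtain ⟨w, w0, wn, wo, wf⟩ := h₁ P (j0 + i) (fun _ => P.amp σ) a (by omega) (fun _ => hσ)
      (hwin i m) (refSlope κ P.src a) (refSlope κ P.dst b)
      (fun k hk => Loop.refSlope_zero (hcD i m _ le_rfl) hk)
      (fun k => by rw [sub_self, abs_zero]; exact div_nonneg hC₁ hL.le)
      (fun k => by rw [← hbdef, sub_self, abs_zero]; exact div_nonneg hC₁ hL.le)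
    have hws := hmk (refSlope κ P.src a) _ (N := N₁) (by omega) w0 wo wf k
    have hb : b ∈ Icc a b := right_mem_Icc.2 hab
    have hclamp : ∀ t ∈ Icc a b, clampT a t = t := fun t htt => (clampT_of_ge (hpos i m) htt.1).1
    have hd := Ode.abs_slope_sub_le (k := 4) (E := 0) (continuous_cPiece (hpos i m)) hsl.cont hws.cont
      (continuous_clampLam (κ := κ) (hpos i m) (hwide i m hm σ hσ) k)
      (continuous_clampLam (κ := κ) (hpos i m) (hwide i m hm σ hσ) k) (by norm_num)
      (fun t htt => by linarith [(hdrift i m t).1, hsl.nonneg t htt, hws.nonneg t htt]) (by simp)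
      (fun t htt => by rw [hclamp t htt]; exact hsl.ode t htt)
      (fun t htt => by rw [hclamp t htt]; exact hws.ode t htt) b hb
    rw [hsl.start, hws.start, zero_div, add_zero] at hd
    have hexp : Real.exp (-(4 * (b - a))) ≤ 1 / 64 := by
      have h1 := hL16 i
      have h2 : 64 ≤ Real.exp (4 * (b - a)) :=
        le_trans (by rw [hbdef]; linarith [hlenL]) (Real.add_one_le_exp _)
      rw [Real.exp_neg, one_div]
      exact inv_anti₀ (by norm_num) h2
    have h3 : |y k - refSlope κ P.src a k| * Real.exp (-(4 * (b - a))) ≤ 192 * C₁ / L * (1 / 64) :=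
      mul_le_mul (hy k) hexp (Real.exp_pos _).le (div_nonneg (by positivity) hL.le)
    have h4 := wn k b hb
    rw [pieceLam_end] at h4
    calc _ ≤ |pieceSlope κ P (j0 + i) σ a (y k) k b - w k b| + |w k b - refSlope κ P.dst b k| :=
          abs_sub_le _ _ _
      _ ≤ 192 * C₁ / L * (1 / 64) + 3 * C₁ / L := add_le_add (hd.trans h3) h4
      _ = 6 * C₁ / L := by ring
  -- along one loop
  have hch := LoopSpec.chained hW j0 t0 ht
  have hsrc0 : ∀ i (h : 0 < (W.prog (j0 + i)).length), ((W.prog (j0 + i))[0]).src = 0 := by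
    intro i h
    obtain ⟨P, l, hl⟩ := List.exists_cons_of_ne_nil (W.prog_ne (j0 + i))
    have := (hch (j0 + i)).1
    simp only [show (W.sched j0 t0 ht).prog (j0 + i) = W.prog (j0 + i) from rfl, hl,
      List.head?_cons, Option.map_some, Option.getD_some] at this
    simp [hl, this]
  have hout : ∀ i m (hm : m < (W.prog (j0 + i)).length) (y : St → ℝ),
      Inv i m ((W.prog (j0 + i))[m]).src (m ≤ (W.corr (j0 + i)).length + 1) y →
      (∀ k, |S.stepRef κ i m y k - refSlope κ ((W.prog (j0 + i))[m]).dst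
          (S.pieceStart i m + ((W.prog (j0 + i))[m]).len (j0 + i)) k|
            ≤ 6 * C₁ / (((j0 + i : ℕ) : ℝ) + 1) ^ 5) ∧
      (∀ k : St, k.blk.mu = 1 → S.stepRef κ i m y k = 0) ∧
      (m ≤ (W.corr (j0 + i)).length ∨ 6 ≤ ((W.prog (j0 + i))[m]).power →
        ∀ k k' : St, k.blk.level 0 = k'.blk.level 0 → S.stepRef κ i m y k = S.stepRef κ i m y k') := by
    intro i m hm y hy
    have hL : 0 < (((j0 + i : ℕ) : ℝ) + 1) ^ 5 := by positivity
    have hreg := W.prog_getElem (j0 + i) m hm
    have hdst : m ≤ (W.corr (j0 + i)).length ∨ 6 ≤ ((W.prog (j0 + i))[m]).power →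
        ((W.prog (j0 + i))[m]).src = 0 ∧ ((W.prog (j0 + i))[m]).dst = 0 := by
      intro hor
      rcases hreg with ⟨h, e⟩ | ⟨h, e⟩ | ⟨h, e⟩ | ⟨h, h', e⟩ | ⟨h, e⟩ | ⟨h, e⟩ <;> rw [e] at hor ⊢
      · exact ⟨(hW.corr_ok _ _ (List.getElem_mem h)).facts.1,
          (hW.corr_ok _ _ (List.getElem_mem h)).facts.2.1⟩
      · exact ⟨rfl, rfl⟩
      · exfalso; simp [Piece.power] at hor; omega
      · exfalso
        rw [(hW.ctrl_ok _ _ (List.getElem_mem h)).facts.2.2] at hor
        omega
      · exfalso; simp [Piece.power] at hor; omega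
      · exact ⟨rfl, rfl⟩
    cases he : ((W.prog (j0 + i))[m]).isExc
    · have hdef : S.stepRef κ i m y = fun k => pieceSlope κ ((W.prog (j0 + i))[m]) (j0 + i)
          (fun _ => 0) (S.pieceStart i m) (S.entryRef κ i m y k) k
          (S.pieceStart i m + ((W.prog (j0 + i))[m]).len (j0 + i)) := by
        rw [Sched.stepRef, dif_pos (show m < (S.prog (S.j0 + i)).length from hm),
          if_neg (show ¬ ((S.prog (S.j0 + i))[m]).isExc = true by
            show ¬ ((W.prog (j0 + i))[m]).isExc = true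
            simp [he])]
        rfl
      have hin : Inv i m ((W.prog (j0 + i))[m]).src
          (m ≤ (W.corr (j0 + i)).length + 1 ∨ 6 ≤ ((W.prog (j0 + i))[m]).power)
          (S.entryRef κ i m y) := by
        rcases hentry i m hm _ y hy with h | ⟨-, h⟩
        · exact h
        · rw [he] at h; exact absurd h (by simp)
      have hamp0 : |((W.prog (j0 + i))[m]).amp fun _ => 0| ≤ Rp := by
        have : ((W.prog (j0 + i))[m]).amp (fun _ => 0) = 0 := by
          cases (W.prog (j0 + i))[m] <;> rfl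
        rw [this, abs_zero]
        exact le_max_of_le_right zero_le_one
      have hs := hstep i m hm _ rfl (S.entryRef κ i m y) (fun _ => 0) hamp0 hin.1 hin.2.1
      have hb : S.pieceStart i m + ((W.prog (j0 + i))[m]).len (j0 + i) ∈ Icc (S.pieceStart i m)
          (S.pieceStart i m + ((W.prog (j0 + i))[m]).len (j0 + i)) :=
        right_mem_Icc.2 (by linarith [((W.prog (j0 + i))[m]).len_pos (j0 + i)])
      rw [hdef]
      refine ⟨fun k => (hs k).2.2, fun k hk => ?_, fun hor k k' hkk => ?_⟩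
      · have s1 := (hs k).1
        obtain ⟨c1, c2, c3⟩ := cas_eq_zero_of_mu_eq_one hk
        have s2 : IsPieceSlope κ ((W.prog (j0 + i))[m]) (j0 + i) (fun _ => 0) (S.pieceStart i m) 0 k
            (fun _ => 0) :=
          ⟨continuous_const, rfl, fun _ _ => le_rfl, fun t _ => ⟨0, hasDerivAt_const t 0, by
            simp [pieceLam, Blk.lam, c1, c2, c3]⟩⟩
        rw [hin.2.1 k hk] at s1
        show pieceSlope κ _ _ _ _ (S.entryRef κ i m y k) k _ = 0
        rw [hin.2.1 k hk]
        exact s1.unique (hpos i m) (hwide i m hm _ hamp0)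
          (fun t _ => by linarith [(hdrift i m t).1]) (fun _ => rfl) s2 hb
      · have hlev := hin.2.2 (hor.imp (fun h => by omega) id) k k' hkk
        show pieceSlope κ _ _ _ _ _ k _ = pieceSlope κ _ _ _ _ _ k' _
        have s1 := (hs k).1
        have s2 := (hs k').1
        rw [hlev] at s1 ⊢
        exact s1.unique (hpos i m) (hwide i m hm _ hamp0) (fun t _ => by linarith [(hdrift i m t).1])
          (fun t => (pieceLam_level he (hdst hor).1 (hdst hor).2 κ (j0 + i) _ _ t hkk).symm) s2 hb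
    · have hdef : S.stepRef κ i m y = refSlope κ ((W.prog (j0 + i))[m]).dst
          (S.pieceStart i m + ((W.prog (j0 + i))[m]).len (j0 + i)) := by
        rw [Sched.stepRef, dif_pos (show m < (S.prog (S.j0 + i)).length from hm),
          if_pos (show ((S.prog (S.j0 + i))[m]).isExc = true from he)]
        rfl
      rw [hdef]
      refine ⟨fun k => by rw [sub_self, abs_zero]; positivity,
        fun k hk => Loop.refSlope_zero (hcD i m _
          (by linarith [((W.prog (j0 + i))[m]).len_pos (j0 + i)])) hk,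
        fun hor k k' hkk => ?_⟩
      rw [(hdst hor).2]
      exact refSlope_level κ 0 _ hkk
  have hloop : ∀ i, (∀ m (hm : m < (W.prog (j0 + i)).length),
      Inv i m ((W.prog (j0 + i))[m]).src (m ≤ (W.corr (j0 + i)).length + 1)
        (S.carry κ i (S.loopIn κ i) m)) ∧
      Inv (i + 1) 0 0 True (S.loopIn κ (i + 1)) := by
    have hone : ∀ i, Inv i 0 0 True (S.loopIn κ i) → (∀ m (hm : m < (W.prog (j0 + i)).length),
        Inv i m ((W.prog (j0 + i))[m]).src (m ≤ (W.corr (j0 + i)).length + 1)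
          (S.carry κ i (S.loopIn κ i) m)) ∧ Inv (i + 1) 0 0 True (S.loopIn κ (i + 1)) := by
      intro i h0
      have hall : ∀ m (hm : m < (W.prog (j0 + i)).length),
          Inv i m ((W.prog (j0 + i))[m]).src (m ≤ (W.corr (j0 + i)).length + 1)
            (S.carry κ i (S.loopIn κ i) m) := by
        intro m
        induction m with
        | zero =>
          intro hm
          rw [hsrc0 i hm]
          exact ⟨h0.1, h0.2.1, fun _ => h0.2.2 trivial⟩
        | succ n ih =>
          intro hm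
          obtain ⟨o1, o2, o3⟩ := hout i n (by omega) _ (ih (by omega))
          rw [show ((W.prog (j0 + i))[n + 1]).src = ((W.prog (j0 + i))[n]).dst from
            ((hch (j0 + i)).2.2 n hm).symm]
          refine ⟨fun k => ?_, o2, fun h => o3 (Or.inl (by omega))⟩
          have := o1 k
          rw [show S.pieceStart i n + ((W.prog (j0 + i))[n]).len (j0 + i) = S.pieceStart i (n + 1)
            from (S.pieceStart_succ i n (show n < (S.prog (S.j0 + i)).length from
              show n < (W.prog (j0 + i)).length by omega)).symm] at this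
          exact this.trans (div_le_div_of_nonneg_right (by linarith [hC₁] : 6 * C₁ ≤ 192 * C₁)
            (by positivity))
      refine ⟨hall, ?_⟩
      have hl := W.prog_length (j0 + i)
      obtain ⟨n, hn⟩ : ∃ n, (W.prog (j0 + i)).length = n + 1 := ⟨_, (by omega :
        (W.prog (j0 + i)).length = (W.prog (j0 + i)).length - 1 + 1)⟩
      obtain ⟨o1, o2, o3⟩ := hout i n (by omega) _ (hall n (by omega))
      have hlast : (W.prog (j0 + i))[n]'(by omega) = Piece.wait 0 7 := by
        rw [← W.last_hold (j0 + i), List.getLast_eq_getElem]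
        simp [hn]
      have hin : S.loopIn κ (i + 1) = S.stepRef κ i n (S.carry κ i (S.loopIn κ i) n) := by
        show S.carry κ i (S.loopIn κ i) (W.prog (j0 + i)).length = _
        rw [hn]
        rfl
      rw [hin]
      refine ⟨fun k => ?_, o2, fun _ => o3 (Or.inr (by rw [hlast]; decide))⟩
      have := o1 k
      rw [show S.pieceStart i n + ((W.prog (j0 + i))[n]'(by omega)).len (j0 + i)
          = S.pieceStart (i + 1) 0 by
        rw [S.pieceStart_zero, ← S.pieceStart_length i]
        show _ = S.pieceStart i (W.prog (j0 + i)).length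
        conv_rhs => rw [hn]
        exact (S.pieceStart_succ i n (show n < (S.prog (S.j0 + i)).length from
          show n < (W.prog (j0 + i)).length by omega)).symm, hlast] at this
      refine this.trans ?_
      rw [div_le_div_iff₀ (by positivity) (by positivity)]
      have h2 : ((j0 + (i + 1) : ℕ) : ℝ) + 1 ≤ 2 * (((j0 + i : ℕ) : ℝ) + 1) := by
        push_cast
        linarith [(Nat.cast_nonneg j0 : (0 : ℝ) ≤ j0), (Nat.cast_nonneg i : (0 : ℝ) ≤ i)]
      calc 6 * C₁ * (((j0 + (i + 1) : ℕ) : ℝ) + 1) ^ 5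
          ≤ 6 * C₁ * (2 * (((j0 + i : ℕ) : ℝ) + 1)) ^ 5 := by gcongr
        _ = 192 * C₁ * (((j0 + i : ℕ) : ℝ) + 1) ^ 5 := by ring
    intro i
    induction i with
    | zero =>
      refine hone 0 ⟨fun k => ?_, fun k hk => ?_, fun _ k k' h => refSlope_level κ 0 _ h⟩
      · show |refSlope κ 0 (S.start 0) k - _| ≤ _
        rw [S.pieceStart_zero, sub_self, abs_zero]
        positivity
      · show refSlope κ 0 (S.start 0) k = 0
        rw [← S.pieceStart_zero]
        exact Loop.refSlope_zero (hcD 0 0 _ le_rfl) hk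
    | succ i ih => exact hone (i + 1) ih.2
  -- start references
  have hstart : ∀ i m (hm : m < (W.prog (j0 + i)).length),
      Inv i m ((W.prog (j0 + i))[m]).src
        (m ≤ (W.corr (j0 + i)).length + 1 ∨ 6 ≤ ((W.prog (j0 + i))[m]).power) (S.startRef κ i m) := by
    intro i m hm
    rcases hentry i m hm _ _ ((hloop i).1 m hm) with h | ⟨hl, he⟩
    · exact h
    · have hdef : S.startRef κ i m = refSlope κ ((W.prog (j0 + i))[m]).src (S.pieceStart i m) := by
        rw [Sched.startRef, Sched.entryRef, dif_pos (show m < (S.prog (S.j0 + i)).length from hm),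
          if_pos (show ((S.prog (S.j0 + i))[m]).restarts = true from by
            show ((W.prog (j0 + i))[m]).restarts = true
            simp [Piece.restarts, he])]
        rfl
      rw [hdef]
      refine ⟨fun k => by rw [sub_self, abs_zero]; positivity,
        fun k hk => Loop.refSlope_zero (hcD i m _ le_rfl) hk, fun _ k k' h => ?_⟩
      rcases W.prog_getElem (j0 + i) m hm with
        ⟨h', e⟩ | ⟨h', e⟩ | ⟨h', e⟩ | ⟨-, h', -⟩ | ⟨h', -⟩ | ⟨h', -⟩
      · rw [e, (hW.corr_ok _ _ (List.getElem_mem h')).facts.1]; exact refSlope_level κ 0 _ h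
      · rw [e]; exact refSlope_level κ 0 _ h
      · rw [e] at he; exact absurd he (by simp [Piece.isExc])
      all_goals omega
  intro i m hm
  set P := (W.prog (j0 + i))[m] with hP
  have hL : 0 < (((j0 + i : ℕ) : ℝ) + 1) ^ 5 := by positivity
  obtain ⟨s1, s2, s3⟩ := hstart i m hm
  have hl := W.prog_length (j0 + i)
  -- the next piece
  have hend : (∀ k, |S.endRef κ i m k - refSlope κ P.dst (S.pieceStart i m + P.len (j0 + i)) k|
      ≤ C₂ / (((j0 + i : ℕ) : ℝ) + 1) ^ 5) ∧
      (m ≤ (W.corr (j0 + i)).length ∨ 6 ≤ P.power →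
        ∀ k k' : St, k.blk.level 0 = k'.blk.level 0 → S.endRef κ i m k = S.endRef κ i m k') := by
    by_cases hm1 : m + 1 < (W.prog (j0 + i)).length
    · rw [S.startRef_succ κ (show m + 1 < (S.prog (S.j0 + i)).length from hm1)]
      obtain ⟨n1, -, n3⟩ := hstart i (m + 1) hm1
      refine ⟨fun k => ?_, fun hor => ?_⟩
      · have := n1 k
        rw [show ((W.prog (j0 + i))[m + 1]).src = P.dst from ((hch (j0 + i)).2.2 m hm1).symm,
          show S.pieceStart i (m + 1) = S.pieceStart i m + P.len (j0 + i) from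
            S.pieceStart_succ i m (show m < (S.prog (S.j0 + i)).length from hm)] at this
        exact this.trans (div_le_div_of_nonneg_right hC₂ hL.le)
      · rcases hor with h | h
        · exact n3 (Or.inl (by omega))
        · refine n3 (Or.inl ?_)
          rcases W.prog_getElem (j0 + i) m hm with
            ⟨h', e⟩ | ⟨h', e⟩ | ⟨h', e⟩ | ⟨h', -, e⟩ | ⟨h', e⟩ | ⟨h', e⟩
          · omega
          · omega
          · rw [hP, e] at h; simp [Piece.power] at h
          · rw [hP, e, (hW.ctrl_ok _ _ (List.getElem_mem h')).facts.2.2] at h; omega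
          · rw [hP, e] at h; simp [Piece.power] at h
          · omega
    · have hlen : m + 1 = (W.prog (j0 + i)).length := by omega
      rw [S.startRef_loop κ (show m + 1 = (S.prog (S.j0 + i)).length from hlen)]
      have h0 : 0 < (W.prog (j0 + (i + 1))).length := by rw [W.prog_length]; omega
      obtain ⟨n1, -, n3⟩ := hstart (i + 1) 0 h0
      refine ⟨fun k => ?_, fun _ => n3 (Or.inl (Nat.zero_le _))⟩
      have := n1 k
      have hlast : P = Piece.wait 0 7 := by
        rw [hP, ← W.last_hold (j0 + i), List.getLast_eq_getElem]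
        congr 1
        omega
      rw [hsrc0 (i + 1) h0, show S.pieceStart (i + 1) 0 = S.pieceStart i m + P.len (j0 + i) by
        rw [S.pieceStart_zero, ← S.pieceStart_length i]
        show S.pieceStart i (W.prog (j0 + i)).length = _
        rw [← hlen]
        exact S.pieceStart_succ i m (show m < (S.prog (S.j0 + i)).length from hm)] at this
      rw [show P.dst = 0 by rw [hlast]; rfl]
      refine this.trans ?_
      have h1 : (((j0 + i : ℕ) : ℝ) + 1) ^ 5 ≤ (((j0 + (i + 1) : ℕ) : ℝ) + 1) ^ 5 :=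
        pow_le_pow_left₀ (by positivity) (by push_cast; linarith) 5
      exact (div_le_div_of_nonneg_left (by positivity) hL h1).trans
        (div_le_div_of_nonneg_right hC₂ hL.le)
  have hsc : ∀ k, S.slope κ τ i m k
      = pieceSlope κ P (j0 + i) (τ i) (S.pieceStart i m) (S.startRef κ i m k) k := fun k => by
    rw [Sched.slope, dif_pos (show m < (S.prog (S.j0 + i)).length from hm)]
    rfl
  have hst := hstep i m hm _ rfl (S.startRef κ i m) (τ i) (hampc i m hm) s1 s2
  obtain ⟨z, z0, zn, zo, zf⟩ := h₂ P (j0 + i) (fun _ => P.amp (τ i)) (S.pieceStart i m) (by omega)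
    (fun _ => hampc i m hm) (hwin i m) (S.startRef κ i m) (S.endRef κ i m) s2
    (fun k => (s1 k).trans (div_le_div_of_nonneg_right hC₂ hL.le)) hend.1
  have hzs : ∀ k, IsPieceSlope κ P (j0 + i) (τ i) (S.pieceStart i m) (S.startRef κ i m k) k (z k) :=
    fun k => ⟨zf.cont_z k, z0 k, zf.z_nonneg k, fun t ht => by
      rw [cPiece_of_ge κ (hpos i m) ht.1, ← pieceLam_amp κ P (j0 + i) (τ i)]; exact zo k t ht⟩
  have hsl : ∀ k, IsPieceSlope κ P (j0 + i) (τ i) (S.pieceStart i m) (S.startRef κ i m k) k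
      (S.slope κ τ i m k) := fun k => by rw [hsc]; exact (hst k).1
  have heq : ∀ k, EqOn (S.slope κ τ i m k) (z k)
      (Icc (S.pieceStart i m) (S.pieceStart i m + P.len (j0 + i))) := fun k =>
    (hsl k).unique (hpos i m) (hwide i m hm _ (hampc i m hm))
      (fun t _ => by linarith [(hdrift i m t).1]) (fun _ => rfl) (hzs k)
  refine ⟨hwide i m hm _ (hampc i m hm), hdrift i m, hwin i m, s2,
    fun k => (s1 k).trans (div_le_div_of_nonneg_right hC₂ hL.le), hend.1, s3, hend.2,
    fun he => ⟨?_, ?_⟩, fun h6 => ?_, hsl, fun k t htt => by rw [hsc]; exact (hst k).2.1 t htt,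
    zf.congr (fun k => (hsl k).cont) heq, fun he hn hn' _ k => ?_⟩
  · rw [Sched.startRef, Sched.entryRef, dif_pos (show m < (S.prog (S.j0 + i)).length from hm),
      if_pos (show ((S.prog (S.j0 + i))[m]).restarts = true from by
        show ((W.prog (j0 + i))[m]).restarts = true
        simp [Piece.restarts, show ((W.prog (j0 + i))[m]).isExc = true from he])]
    rfl
  · have hpass : ∀ y, S.stepRef κ i m y = refSlope κ P.dst (S.pieceStart i m + P.len (j0 + i)) :=
      fun y => by
        rw [Sched.stepRef, dif_pos (show m < (S.prog (S.j0 + i)).length from hm),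
          if_pos (show ((S.prog (S.j0 + i))[m]).isExc = true from he)]
        rfl
    have hm1 : m + 1 < (W.prog (j0 + i)).length := by
      rcases W.prog_getElem (j0 + i) m hm with
        ⟨h', -⟩ | ⟨h', -⟩ | ⟨h', -⟩ | ⟨h', -, -⟩ | ⟨h', -⟩ | ⟨h', e⟩
      all_goals first | omega | (rw [hP, e] at he; simp [Piece.isExc] at he)
    rw [S.startRef_succ κ (show m + 1 < (S.prog (S.j0 + i)).length from hm1), Sched.startRef,
      Sched.entryRef, dif_pos (show m + 1 < (S.prog (S.j0 + i)).length from hm1)]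
    split_ifs
    · show refSlope κ ((W.prog (j0 + i))[m + 1]).src (S.pieceStart i (m + 1)) = _
      rw [show ((W.prog (j0 + i))[m + 1]).src = P.dst from ((hch (j0 + i)).2.2 m hm1).symm,
        show S.pieceStart i (m + 1) = S.pieceStart i m + P.len (j0 + i) from
          S.pieceStart_succ i m (show m < (S.prog (S.j0 + i)).length from hm)]
      rfl
    · exact hpass _
  · rw [Sched.startRef, Sched.entryRef, dif_pos (show m < (S.prog (S.j0 + i)).length from hm),
      if_pos (show ((S.prog (S.j0 + i))[m]).restarts = true from by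
        show ((W.prog (j0 + i))[m]).restarts = true
        simp [Piece.restarts, show 6 ≤ ((W.prog (j0 + i))[m]).power from h6])]
    obtain ⟨q, hq⟩ := hlong i m hm h6
    show refSlope κ ((W.prog (j0 + i))[m]).src (S.pieceStart i m) = _
    rw [hq]
    rfl
  · have hamp0 : |P.amp fun _ => 0| ≤ Rp := by
      have : P.amp (fun _ => 0) = 0 := by cases P <;> rfl
      rw [this, abs_zero]
      exact le_max_of_le_right zero_le_one
    have h0 := (hstep i m hm _ rfl (S.startRef κ i m) (fun _ => 0) hamp0 s1 s2 k).1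
    have hb : S.pieceStart i m + P.len (j0 + i) ∈
        Icc (S.pieceStart i m) (S.pieceStart i m + P.len (j0 + i)) :=
      right_mem_Icc.2 (by linarith [P.len_pos (j0 + i)])
    have e1 : S.slope κ τ i m k (S.pieceStart i m + P.len (j0 + i))
        = S.stepRef κ i m (S.carry κ i (S.loopIn κ i) m) k := by
      rw [(hsl k).unique (hpos i m) (hwide i m hm _ (hampc i m hm))
        (fun t _ => by linarith [(hdrift i m t).1])
        (fun t => by rw [pieceLam_not_exc he κ (j0 + i) (fun _ => 0) (τ i)]) h0 hb]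
      rw [Sched.stepRef, dif_pos (show m < (S.prog (S.j0 + i)).length from hm),
        if_neg (show ¬ ((S.prog (S.j0 + i))[m]).isExc = true by
          show ¬ P.isExc = true
          simp [he])]
      rfl
    show S.slope κ τ i m k (S.pieceStart i m + P.len (j0 + i)) = _
    rw [e1]
    by_cases hm1 : m + 1 < (W.prog (j0 + i)).length
    · rw [S.startRef_succ κ (show m + 1 < (S.prog (S.j0 + i)).length from hm1), Sched.startRef,
        Sched.entryRef, dif_pos (show m + 1 < (S.prog (S.j0 + i)).length from hm1),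
        show ((S.prog (S.j0 + i))[m + 1]).restarts = false from hn hm1]
      rfl
    · have hlen : m + 1 = (W.prog (j0 + i)).length := by omega
      have h0' : 0 < (W.prog (j0 + (i + 1))).length := by rw [W.prog_length]; omega
      rw [S.startRef_loop κ (show m + 1 = (S.prog (S.j0 + i)).length from hlen), Sched.startRef,
        Sched.entryRef, dif_pos (show 0 < (S.prog (S.j0 + (i + 1))).length from h0'),
        show ((S.prog (S.j0 + (i + 1)))[0]).restarts = false from hn' h0' hlen]
      show _ = S.carry κ i (S.loopIn κ i) (W.prog (j0 + i)).length k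
      rw [← hlen]
      rfl

end

end Vale.Agent.P225
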