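import Vale.Agent.P225.Loop.Exponents
import Vale.Agent.P225.Space

/-!
P225 (helper29): from `block_perron` to sequences of full states.  The loop maps on the state space
are split into a finite part (monomial chains on `W₁`, perturbed diagonal on `W₂`) and the far rest.
-/

namespace Vale.Agent.P225

open scoped lp ENNReal
open Finset

noncomputable section

/-- Coordinates on a finite set of states. -/
def pickW (W : Finset St) : HSp →L[ℝ] ({q : St // q ∈ W} → ℝ) :=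
  ContinuousLinearMap.pi fun q => lp.evalCLM ℝ (fun _ : St => ℝ) 2 q.1

theorem pickW_apply (W : Finset St) (x : HSp) (q : {q : St // q ∈ W}) : pickW W x q = x q.1 := rfl

/-- Vectors supported on a finite set of states. -/
def putW (W : Finset St) : ({q : St // q ∈ W} → ℝ) →L[ℝ] HSp :=
  ∑ q : {q : St // q ∈ W}, (lp.singleContinuousLinearMap ℝ (fun _ : St => ℝ) 2 q.1).comp
    (ContinuousLinearMap.proj (R := ℝ) (φ := fun _ : {q : St // q ∈ W} => ℝ) q)

theorem putW_apply (W : Finset St) (w : {q : St // q ∈ W} → ℝ) (i : St) :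
    putW W w i = if h : i ∈ W then w ⟨i, h⟩ else 0 := by
  classical
  simp only [putW, _root_.sum_apply, ContinuousLinearMap.comp_apply,
    ContinuousLinearMap.proj_apply]
  rw [lp.coeFn_sum, Finset.sum_apply]
  split_ifs with h
  · rw [Finset.sum_eq_single (⟨i, h⟩ : {q : St // q ∈ W})]
    · exact lp.single_apply_self 2 i _
    · intro q _ hq
      exact lp.single_apply_ne 2 q.1 _ fun e => hq (Subtype.ext e.symm)
    · simp
  · exact Finset.sum_eq_zero fun q _ => lp.single_apply_ne 2 q.1 _ fun e => h (e ▸ q.2)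

theorem norm_putW_le (W : Finset St) (w : {q : St // q ∈ W} → ℝ) :
    ‖putW W w‖ ≤ W.card * ‖w‖ := by
  simp only [putW, _root_.sum_apply, ContinuousLinearMap.comp_apply,
    ContinuousLinearMap.proj_apply]
  have h : ∀ q ∈ (Finset.univ : Finset {q : St // q ∈ W}),
      ‖lp.singleContinuousLinearMap ℝ (fun _ : St => ℝ) 2 q.1 (w q)‖ ≤ ‖w‖ := fun q _ => by
    rw [show lp.singleContinuousLinearMap ℝ (fun _ : St => ℝ) 2 q.1 (w q)
      = lp.single 2 q.1 (w q) from rfl, lp.norm_single (by norm_num)]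
    exact norm_le_pi_norm w q
  refine (norm_sum_le_of_le _ h).trans ?_
  rw [Finset.sum_const, Finset.card_univ, Fintype.card_coe, nsmul_eq_mul]

/-- Projection away from two finite sets. -/
def farP (W₁ W₂ : Finset St) : HSp →L[ℝ] HSp :=
  diagOp (fun i => if i ∈ W₁ ∪ W₂ then 0 else 1) 1 zero_le_one fun i => by split_ifs <;> simp

theorem norm_farP_le (W₁ W₂ : Finset St) : ‖farP W₁ W₂‖ ≤ 1 := norm_diagOp_le _ _ _ _

theorem farP_apply (W₁ W₂ : Finset St) (x : HSp) (i : St) :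
    farP W₁ W₂ x i = if i ∈ W₁ ∪ W₂ then 0 else x i := by
  rw [farP, diagOp_apply]
  split_ifs <;> simp

theorem split_eq {W₁ W₂ : Finset St} (h : Disjoint W₁ W₂) (x : HSp) :
    putW W₁ (pickW W₁ x) + putW W₂ (pickW W₂ x) + farP W₁ W₂ x = x := by
  ext i
  simp only [lp.coeFn_add, Pi.add_apply, putW_apply, pickW_apply, farP_apply, mem_union]
  by_cases h1 : i ∈ W₁
  · have h2 : i ∉ W₂ := disjoint_left.1 h h1
    simp [h1, h2]
  · by_cases h2 : i ∈ W₂ <;> simp [h1, h2]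

/-- **Sequences of states.** Loop maps whose finite block is monomial on `W₁` and perturbed diagonal
on `W₂`, with contracting far part, have solutions parametrised by the slow data of `W₁`. -/
theorem exists_sequences (S : Sched) {k' ε E : ℝ} {L : ℕ} {A : ℝ}
    (hk : 0 ≤ k') (hε : 0 < ε) (hε1 : ε ≤ 1) (hA : 0 ≤ A) (hE : 0 ≤ E)
    (hj0 : Sched.threshold k' ε E ≤ S.j0) (hlen : S.LenNear E)
    {W₁ W₂ : Finset St} (hW : Disjoint W₁ W₂)
    (σ : ℕ → Equiv.Perm {q : St // q ∈ W₁}) (c₁ : {q : St // q ∈ W₁} → ScalarChain)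
    (a₁ : {q : St // q ∈ W₁} → ℕ → ℝ) (slow₁ : {q : St // q ∈ W₁} → Bool)
    (hc₁ : ∀ q, S.ExpNear (c₁ q) (a₁ q) E)
    (hs₁ : ∀ q, slow₁ q = true → SlowPeriodic (a₁ q) L A k' ε)
    (hf₁ : ∀ q, slow₁ q = false → ∀ i, k' + ε ≤ a₁ q i)
    (c₂ : {q : St // q ∈ W₂} → ScalarChain) (a₂ : {q : St // q ∈ W₂} → ℕ → ℝ)
    (hc₂ : ∀ q, S.ExpNear (c₂ q) (a₂ q) E)
    (h₂ : ∀ q, (∀ i, a₂ q i ≤ k' - ε) ∨ ∀ i, k' + ε ≤ a₂ q i)
    (Eax : ℕ → ({q : St // q ∈ W₂} → ℝ) →L[ℝ] ({q : St // q ∈ W₂} → ℝ))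
    (hEax : ∀ i, ‖Eax i‖ ≤ Real.exp (-(S.T6 i) / 4))
    (Q : ℕ → HSp →L[ℝ] HSp)
    (hQ₁ : ∀ i u v, pickW W₁ (Q i (putW W₁ u + putW W₂ v)) = chainMap σ c₁ i u)
    (hQ₂ : ∀ i u v, pickW W₂ (Q i (putW W₁ u + putW W₂ v))
      = (1 + Eax i) (chainMap (fun _ => 1) c₂ i v))
    {M : ℝ} (hM : decayM0 L A k' ≤ M)
    (hB₁ : ∀ i, ‖(pickW W₁).comp ((Q i).comp (farP W₁ W₂))‖ ≤ Real.exp (-M * S.T7 i))
    (hB₂ : ∀ i, ‖(pickW W₂).comp ((Q i).comp (farP W₁ W₂))‖ ≤ Real.exp (-M * S.T7 i))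
    (hC : ∀ i, (W₁.card + W₂.card : ℝ) * ‖Q i‖ ≤ Real.exp (S.T7 i))
    (hD : ∀ i, ‖(farP W₁ W₂).comp ((Q i).comp (farP W₁ W₂))‖ ≤ Real.exp (-M * S.T7 i)) :
    ∃ sol : ({q : {q : St // q ∈ W₁} // slow₁ q = true} → ℝ) →ₗ[ℝ] ℕ → HSp,
      (∀ e i, sol e i = Q i (sol e (i + 1))) ∧
      (∀ e i, ‖sol e i‖ ≤ 2 * (W₁.card + W₂.card + 1) * ‖e‖
        * Real.exp (k' * S.start i + gainH L A k' * S.T7 i)) ∧
      (∀ e q, sol e 0 (σ 0 q.1).1 = e q) ∧ Function.Injective sol := by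
  classical
  let put2 : ({q : St // q ∈ W₁} → ℝ) × ({q : St // q ∈ W₂} → ℝ) →L[ℝ] HSp :=
    (putW W₁).coprod (putW W₂)
  have hput : ∀ w, ‖put2 w‖ ≤ (W₁.card + W₂.card : ℝ) * ‖w‖ := fun w => by
    refine (norm_add_le _ _).trans ?_
    have h1 := (norm_putW_le W₁ w.1).trans
      (mul_le_mul_of_nonneg_left (norm_fst_le w) (Nat.cast_nonneg _))
    have h2 := (norm_putW_le W₂ w.2).trans
      (mul_le_mul_of_nonneg_left (norm_snd_le w) (Nat.cast_nonneg _))
    rw [add_mul]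
    exact add_le_add h1 h2
  obtain ⟨sol, hr1, hr2, hr3, hb1, hb2, hproj, -⟩ :=
    block_perron S hk hε hε1 hA hE hj0 hlen σ c₁ a₁ slow₁ hc₁ hs₁ hf₁ c₂ a₂ hc₂ h₂ Eax hEax
      (fun i => ((pickW W₁).comp ((Q i).comp (farP W₁ W₂))).prod
        ((pickW W₂).comp ((Q i).comp (farP W₁ W₂))))
      (fun i => (farP W₁ W₂).comp ((Q i).comp put2))
      (fun i => (farP W₁ W₂).comp ((Q i).comp (farP W₁ W₂))) hM
      (fun i => ContinuousLinearMap.opNorm_le_bound _ (Real.exp_pos _).le fun x =>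
        max_le (((pickW W₁).comp ((Q i).comp (farP W₁ W₂))).le_of_opNorm_le (hB₁ i) x)
          (((pickW W₂).comp ((Q i).comp (farP W₁ W₂))).le_of_opNorm_le (hB₂ i) x))
      (fun i => by
        refine le_trans (ContinuousLinearMap.opNorm_le_bound _
          (mul_nonneg (add_nonneg (Nat.cast_nonneg _) (Nat.cast_nonneg _)) (norm_nonneg _))
          fun w => ?_) (hC i)
        calc ‖farP W₁ W₂ (Q i (put2 w))‖ ≤ 1 * ‖Q i (put2 w)‖ :=
              (farP W₁ W₂).le_of_opNorm_le (norm_farP_le W₁ W₂) _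
          _ ≤ ‖Q i‖ * ((W₁.card + W₂.card : ℝ) * ‖w‖) := by
              rw [one_mul]
              exact ((Q i).le_opNorm _).trans (mul_le_mul_of_nonneg_left (hput w) (norm_nonneg _))
          _ = (W₁.card + W₂.card : ℝ) * ‖Q i‖ * ‖w‖ := by ring)
      hD
  have hfar : ∀ e i, farP W₁ W₂ ((sol e).2 i) = (sol e).2 i := fun e i => by
    have hidem : ∀ x, farP W₁ W₂ (farP W₁ W₂ x) = farP W₁ W₂ x := fun x => by
      ext k
      simp only [farP_apply]
      split_ifs <;> rfl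
    rw [hr3 e i]
    simp only [ContinuousLinearMap.comp_apply, map_add, hidem]
  let full : ({q : {q : St // q ∈ W₁} // slow₁ q = true} → ℝ) →ₗ[ℝ] ℕ → HSp :=
    { toFun := fun e i => put2 ((sol e).1 i) + (sol e).2 i
      map_add' := fun e e' => by
        funext i
        simp only [map_add, Prod.fst_add, Prod.snd_add, Pi.add_apply]
        abel
      map_smul' := fun r e => by
        funext i
        simp only [map_smul, Prod.smul_fst, Prod.smul_snd, Pi.smul_apply, smul_add,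
          RingHom.id_apply] }
  have hzero : ∀ e q, full e 0 (σ 0 q.1).1 = e q := by
    intro e q
    show (putW W₁ ((sol e).1 0).1 + putW W₂ ((sol e).1 0).2 + (sol e).2 0 : HSp) (σ 0 q.1).1 = e q
    have hm : (σ 0 q.1).1 ∈ W₁ := (σ 0 q.1).2
    have hf := congrArg (fun x : HSp => x (σ 0 q.1).1) (hfar e 0)
    simp only [farP_apply, mem_union, hm, true_or, if_true] at hf
    simp only [lp.coeFn_add, Pi.add_apply, putW_apply, dif_pos hm,
      dif_neg (disjoint_left.1 hW hm), ← hf, add_zero, Subtype.coe_eta]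
    exact hproj e q
  refine ⟨full, fun e i => ?_, fun e i => ?_, hzero, fun e e' h => funext fun q => ?_⟩
  · set x := full e (i + 1) with hx
    have hxe : x = putW W₁ ((sol e).1 (i + 1)).1 + putW W₂ ((sol e).1 (i + 1)).2
        + (sol e).2 (i + 1) := rfl
    show putW W₁ ((sol e).1 i).1 + putW W₂ ((sol e).1 i).2 + (sol e).2 i = Q i x
    rw [← split_eq hW (Q i x)]
    congr 1
    · congr 1
      · congr 1
        rw [hr1 e i, hxe, map_add, map_add (pickW W₁), hQ₁]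
        congr 1
        show pickW W₁ (Q i (farP W₁ W₂ ((sol e).2 (i + 1)))) = _
        rw [hfar]
      · congr 1
        rw [hr2 e i, hxe, map_add, map_add (pickW W₂), hQ₂]
        congr 1
        show pickW W₂ (Q i (farP W₁ W₂ ((sol e).2 (i + 1)))) = _
        rw [hfar]
    · rw [hr3 e i, hxe, map_add (Q i), map_add (farP W₁ W₂)]
      congr 1
      show farP W₁ W₂ (Q i (farP W₁ W₂ ((sol e).2 (i + 1)))) = _
      rw [hfar]
  · set b := Real.exp (k' * S.start i + gainH L A k' * S.T7 i)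
    have hb : 0 ≤ b := (Real.exp_pos _).le
    calc ‖full e i‖ ≤ ‖put2 ((sol e).1 i)‖ + ‖(sol e).2 i‖ := norm_add_le _ _
      _ ≤ (W₁.card + W₂.card : ℝ) * (2 * ‖e‖ * b) + 2 * ‖e‖ * b :=
          add_le_add ((hput _).trans (mul_le_mul_of_nonneg_left (hb1 e i)
            (add_nonneg (Nat.cast_nonneg _) (Nat.cast_nonneg _)))) (hb2 e i)
      _ = 2 * (W₁.card + W₂.card + 1) * ‖e‖ * b := by ring
  · rw [← hzero e q, ← hzero e' q, h]

end

end Vale.Agent.P225
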