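import Vale.Agent.P225.Loop.Split

/-!
P225 (helper29): `exists_sequences` for monomial blocks with signs, removed by a change of sign of
the basis vectors along the chains.
-/

namespace Vale.Agent.P225

open Finset
open scoped lp ENNReal

noncomputable section

variable {W₁ : Finset St}

/-- Signs along the chains that absorb the signs `ρ` of the monomial maps. -/
def chainSign (σ : ℕ → Equiv.Perm {q : St // q ∈ W₁}) (ρ : ℕ → {q : St // q ∈ W₁} → ℝ) :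
    ℕ → {q : St // q ∈ W₁} → ℝ
  | 0 => fun _ => 1
  | i + 1 => fun q => chainSign σ ρ i (σ i ((σ (i + 1)).symm q)) * ρ i (σ i ((σ (i + 1)).symm q))

theorem abs_chainSign {σ : ℕ → Equiv.Perm {q : St // q ∈ W₁}}
    {ρ : ℕ → {q : St // q ∈ W₁} → ℝ} (hρ : ∀ i q, |ρ i q| = 1) (i : ℕ) :
    ∀ q, |chainSign σ ρ i q| = 1 := by
  induction i with
  | zero => intro q; simp [chainSign]
  | succ n ih => intro q; simp [chainSign, abs_mul, ih, hρ]

theorem sq_of_abs_one {x : ℝ} (h : |x| = 1) : x * x = 1 := by rw [← abs_mul_abs_self, h, mul_one]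

theorem chainSign_step {σ : ℕ → Equiv.Perm {q : St // q ∈ W₁}}
    {ρ : ℕ → {q : St // q ∈ W₁} → ℝ} (hρ : ∀ i q, |ρ i q| = 1) (i : ℕ)
    (q : {q : St // q ∈ W₁}) :
    chainSign σ ρ i q * ρ i q * chainSign σ ρ (i + 1) (σ (i + 1) ((σ i).symm q)) = 1 := by
  have e : σ i ((σ (i + 1)).symm (σ (i + 1) ((σ i).symm q))) = q := by simp
  simp only [chainSign, e]
  exact sq_of_abs_one (by simp [abs_mul, abs_chainSign hρ, hρ])

/-- Values of a function on `W₁`, `1` elsewhere. -/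
def extOne (f : {q : St // q ∈ W₁} → ℝ) (i : St) : ℝ := if h : i ∈ W₁ then f ⟨i, h⟩ else 1

theorem abs_extOne {f : {q : St // q ∈ W₁} → ℝ} (hf : ∀ q, |f q| = 1) (i : St) :
    |extOne f i| = 1 := by unfold extOne; split_ifs <;> simp [hf]

/-- **Sequences of states, signed monomial block.** -/
theorem exists_sequences_signed (S : Sched) {k' ε E : ℝ} {L : ℕ} {A : ℝ}
    (hk : 0 ≤ k') (hε : 0 < ε) (hε1 : ε ≤ 1) (hA : 0 ≤ A) (hE : 0 ≤ E)
    (hj0 : Sched.threshold k' ε E ≤ S.j0) (hlen : S.LenNear E)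
    {W₂ : Finset St} (hW : Disjoint W₁ W₂)
    (σ : ℕ → Equiv.Perm {q : St // q ∈ W₁}) (ρ : ℕ → {q : St // q ∈ W₁} → ℝ)
    (hρ : ∀ i q, |ρ i q| = 1) (c₁ : {q : St // q ∈ W₁} → ScalarChain)
    (a₁ : {q : St // q ∈ W₁} → ℕ → ℝ) (slow₁ : {q : St // q ∈ W₁} → Bool)
    (hc₁ : ∀ q, S.ExpNear (c₁ q) (a₁ q) E)
    (hs₁ : ∀ q, slow₁ q = true → SlowPeriodic (a₁ q) L A k' ε)
    (hf₁ : ∀ q, slow₁ q = false → ∀ i, k' + ε ≤ a₁ q i)
    (c₂ : {q : St // q ∈ W₂} → ScalarChain) (a₂ : {q : St // q ∈ W₂} → ℕ → ℝ)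
    (hc₂ : ∀ q, S.ExpNear (c₂ q) (a₂ q) E)
    (h₂ : ∀ q, (∀ i, a₂ q i ≤ k' - ε) ∨ ∀ i, k' + ε ≤ a₂ q i)
    (Eax : ℕ → ({q : St // q ∈ W₂} → ℝ) →L[ℝ] ({q : St // q ∈ W₂} → ℝ))
    (hEax : ∀ i, ‖Eax i‖ ≤ Real.exp (-(S.T6 i) / 4))
    (Q : ℕ → HSp →L[ℝ] HSp)
    (hQ₁ : ∀ i u v q, pickW W₁ (Q i (putW W₁ u + putW W₂ v)) q = ρ i q * chainMap σ c₁ i u q)
    (hQ₂ : ∀ i u v, pickW W₂ (Q i (putW W₁ u + putW W₂ v))
      = (1 + Eax i) (chainMap (fun _ => 1) c₂ i v))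
    {M : ℝ} (hM : decayM0 L A k' ≤ M)
    (hB₁ : ∀ i, ‖(pickW W₁).comp ((Q i).comp (farP W₁ W₂))‖ ≤ Real.exp (-M * S.T7 i))
    (hB₂ : ∀ i, ‖(pickW W₂).comp ((Q i).comp (farP W₁ W₂))‖ ≤ Real.exp (-M * S.T7 i))
    (hC : ∀ i, (W₁.card + W₂.card : ℝ) * ‖Q i‖ ≤ Real.exp (S.T7 i))
    (hD : ∀ i, ‖(farP W₁ W₂).comp ((Q i).comp (farP W₁ W₂))‖ ≤ Real.exp (-M * S.T7 i)) :
    ∃ sol : ({q : {q : St // q ∈ W₁} // slow₁ q = true} → ℝ) →ₗ[ℝ] ℕ → HSp,
      (∀ e i, sol e i = Q i (sol e (i + 1))) ∧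
      (∀ e i, ‖sol e i‖ ≤ 2 * (W₁.card + W₂.card + 1) * ‖e‖
        * Real.exp (k' * S.start i + gainH L A k' * S.T7 i)) ∧
      (∀ e q, sol e 0 (σ 0 q.1).1 = e q) ∧ Function.Injective sol := by
  have hd : ∀ i k, |extOne (chainSign σ ρ i) k| ≤ 1 := fun i k =>
    (abs_extOne (abs_chainSign hρ i) k).le
  let Sg : ℕ → HSp →L[ℝ] HSp := fun i =>
    diagOp (extOne (chainSign σ ρ i)) 1 zero_le_one (hd i)
  have hinv : ∀ i x, Sg i (Sg i x) = x := fun i x => by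
    ext k
    simp only [Sg, diagOp_apply]
    rw [← mul_assoc, sq_of_abs_one (abs_extOne (abs_chainSign hρ i) k), one_mul]
  have hn : ∀ i, ‖Sg i‖ ≤ 1 := fun i => norm_diagOp_le _ _ _ _
  have hput₁ : ∀ i u, Sg i (putW W₁ u) = putW W₁ fun q => chainSign σ ρ i q * u q := fun i u => by
    ext k
    simp only [Sg, diagOp_apply, putW_apply, extOne]
    split_ifs <;> simp
  have hput₂ : ∀ i v, Sg i (putW W₂ v) = putW W₂ v := fun i v => by
    ext k
    simp only [Sg, diagOp_apply, putW_apply, extOne]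
    split_ifs with h1 h2
    · exact absurd h2 (disjoint_left.1 hW h1)
    all_goals simp
  have hfarc : ∀ i x, Sg i (farP W₁ W₂ x) = farP W₁ W₂ (Sg i x) := fun i x => by
    ext k
    simp only [Sg, diagOp_apply, farP_apply]
    split_ifs <;> simp
  have hpick₂ : ∀ i x, pickW W₂ (Sg i x) = pickW W₂ x := fun i x => funext fun q => by
    simp [pickW_apply, Sg, extOne, dif_neg (disjoint_right.1 hW q.2)]
  let Q' : ℕ → HSp →L[ℝ] HSp := fun i => (Sg i).comp ((Q i).comp (Sg (i + 1)))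
  have hQ' : ∀ i x, Q' i x = Sg i (Q i (Sg (i + 1) x)) := fun _ _ => rfl
  have bound : ∀ {G : Type} [NormedAddCommGroup G] [NormedSpace ℝ G] (i : ℕ)
      (P P' : HSp →L[ℝ] G) (b : ℝ), 0 ≤ b → ‖P.comp ((Q i).comp (farP W₁ W₂))‖ ≤ b →
      (∀ x, ‖P' (Sg i x)‖ ≤ ‖P x‖) → ‖P'.comp ((Q' i).comp (farP W₁ W₂))‖ ≤ b := by
    intro G _ _ i P P' b hb hP hcomm
    refine ContinuousLinearMap.opNorm_le_bound _ hb fun x => ?_
    show ‖P' (Q' i (farP W₁ W₂ x))‖ ≤ _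
    rw [hQ', hfarc]
    refine (hcomm _).trans ((ContinuousLinearMap.le_of_opNorm_le
      (P.comp ((Q i).comp (farP W₁ W₂))) hP (Sg (i + 1) x)).trans ?_)
    exact mul_le_mul_of_nonneg_left
      (((Sg (i + 1)).le_of_opNorm_le (hn _) x).trans (one_mul _).le) hb
  obtain ⟨sol, h1, h2, h3, h4⟩ := exists_sequences S hk hε hε1 hA hE hj0 hlen hW σ c₁ a₁ slow₁
    hc₁ hs₁ hf₁ c₂ a₂ hc₂ h₂ Eax hEax Q'
    (fun i u v => funext fun q => by
      rw [pickW_apply, hQ', map_add (Sg (i + 1)), hput₁, hput₂]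
      simp only [Sg, diagOp_apply, extOne, dif_pos q.2, Subtype.coe_eta]
      rw [← pickW_apply W₁, hQ₁, chainMap_apply, chainMap_apply]
      linear_combination ((c₁ ((σ i).symm q)).a i * u (σ (i + 1) ((σ i).symm q))) *
        chainSign_step (σ := σ) hρ i q)
    (fun i u v => by rw [hQ', hpick₂, map_add (Sg (i + 1)), hput₁, hput₂, hQ₂])
    hM
    (fun i => bound i _ _ _ (Real.exp_pos _).le (hB₁ i) fun x => by
      refine (pi_norm_le_iff_of_nonneg (norm_nonneg _)).2 fun q => ?_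
      refine le_trans (le_of_eq ?_) (norm_le_pi_norm (pickW W₁ x) q)
      simp [pickW_apply, Sg, norm_mul, abs_extOne (abs_chainSign hρ i)])
    (fun i => bound i _ _ _ (Real.exp_pos _).le (hB₂ i) fun x => (hpick₂ i x).symm ▸ le_rfl)
    (fun i => le_trans (mul_le_mul_of_nonneg_left (ContinuousLinearMap.opNorm_le_bound _
        (norm_nonneg _) fun x => by
          rw [hQ']
          calc ‖Sg i (Q i (Sg (i + 1) x))‖ ≤ 1 * ‖Q i (Sg (i + 1) x)‖ :=
                (Sg i).le_of_opNorm_le (hn i) _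
            _ ≤ ‖Q i‖ * ‖x‖ := by
                rw [one_mul]
                exact ((Q i).le_opNorm _).trans (mul_le_mul_of_nonneg_left
                  (((Sg (i + 1)).le_of_opNorm_le (hn _) x).trans (one_mul _).le) (norm_nonneg _)))
      (add_nonneg (Nat.cast_nonneg _) (Nat.cast_nonneg _))) (hC i))
    (fun i => bound i _ _ _ (Real.exp_pos _).le (hD i) fun x => by
      rw [← hfarc]
      exact ((Sg i).le_of_opNorm_le (hn i) _).trans (one_mul _).le)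
  refine ⟨{ toFun := fun e i => Sg i (sol e i)
            map_add' := fun e e' => by funext i; simp
            map_smul' := fun r e => by funext i; simp }, fun e i => ?_, fun e i => ?_, fun e q => ?_,
    fun e e' h => h4 (funext fun i => ?_)⟩
  · show Sg i (sol e i) = Q i (Sg (i + 1) (sol e (i + 1)))
    rw [h1 e i, hQ', hinv]
  · exact (((Sg i).le_of_opNorm_le (hn i) _).trans (one_mul _).le).trans (h2 e i)
  · show (Sg 0 (sol e 0)) (σ 0 q.1).1 = e q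
    have hx : extOne (chainSign σ ρ 0) (σ 0 q.1).1 = 1 := by
      simp only [extOne, chainSign]; split_ifs <;> rfl
    simp only [Sg, diagOp_apply, hx, one_mul]
    exact h3 e q
  · rw [← hinv i (sol e i), ← hinv i (sol e' i)]
    exact congrArg (Sg i) (congrFun h i)

end

end Vale.Agent.P225
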