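import Vale.Agent.P225.Alg.Perm
import Vale.Agent.P225.Alg.Reach
import Vale.Agent.P225.Loop.LevelAlg

/-!
P225, module 10 (helper8): the target of the ideal control, a signed transposition of two states of
one level, is a word; and the matrix of a level-local operator determines it on basis vectors.
-/

namespace Vale.Agent.P225.Loop

open NormedSpace Alg Matrix
open scoped lp ENNReal Matrix.Norms.L2Operator

noncomputable section

theorem exp_of_sq_zero {A : Type*} [NormedRing A] [NormedAlgebra ℝ A] [CompleteSpace A] {N : A}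
    (h : N * N = 0) : exp N = 1 + N := by
  rw [exp_eq_tsum ℝ]
  dsimp only
  rw [tsum_eq_sum (s := Finset.range 2) fun n hn => ?_]
  · simp [Finset.sum_range_succ]
  · have hn2 : 2 ≤ n := by simp at hn; omega
    obtain ⟨k, rfl⟩ := Nat.exists_eq_add_of_le hn2
    rw [pow_add, pow_two, h, zero_mul, smul_zero]

variable {J : Fin 3} {Lv : Finset (ℕ × ℕ)}

/-- An elementary matrix on one level, in the algebra of levels. -/
def levSingle (L : Lv) (i j : Fib J L.1) (c : ℝ) : LevAlg J Lv :=
  Pi.single L (Matrix.single i j c)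

theorem levSingle_sq (L : Lv) {i j : Fib J L.1} (h : i ≠ j) (c : ℝ) :
    levSingle L i j c * levSingle L i j c = 0 := by
  funext L'
  rcases eq_or_ne L' L with rfl | hne
  · simp [levSingle, Matrix.single_mul_single_of_ne _ _ _ _ h.symm]
  · simp [levSingle, Pi.single_eq_of_ne hne]

theorem one_add_levSingle_apply (L : Lv) (i j : Fib J L.1) (c : ℝ) :
    (1 + levSingle L i j c) L = Matrix.transvection i j c ∧
      ∀ L', L' ≠ L → (1 + levSingle L i j c) L' = 1 :=
  ⟨by simp [levSingle, Matrix.transvection], fun L' h => by simp [levSingle, Pi.single_eq_of_ne h]⟩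

/-- The signed transposition of two states of one level is reached by the generators. -/
theorem exists_levSwap (W : Set (LevAlg J Lv))
    (hgen : ∀ P : Submodule ℝ (LevAlg J Lv), W ⊆ P →
      (∀ Y ∈ W, ∀ Z ∈ P, Y * Z - Z * Y ∈ P) → P = ⊤)
    (L : Lv) {i j : Fib J L.1} (h : i ≠ j) :
    ∃ g : (LevAlg J Lv)ˣ, (g : LevAlg J Lv) ∈ expMonoid W ∧
      (g : LevAlg J Lv) L = signedPerm (Equiv.swap i j) (fun k => if k = i then -1 else 1) ∧
      ∀ L', L' ≠ L → (g : LevAlg J Lv) L' = 1 := by
  have : CompleteSpace (LevAlg J Lv) := FiniteDimensional.complete ℝ _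
  set E := fun (p q : Fib J L.1) (c : ℝ) => expUnit (levSingle L p q c) 1
  have hE : ∀ (p q : Fib J L.1), p ≠ q → ∀ c,
      ((E p q c : (LevAlg J Lv)ˣ) : LevAlg J Lv) = 1 + levSingle L p q c := fun p q hpq c => by
    show exp ((1 : ℝ) • levSingle L p q c) = _
    rw [one_smul, exp_of_sq_zero (levSingle_sq L hpq c)]
  have hmem : ∀ (p q : Fib J L.1) (c : ℝ),
      ((E p q c : (LevAlg J Lv)ˣ) : LevAlg J Lv) ∈ expMonoid W := fun p q c => by
    show exp ((1 : ℝ) • levSingle L p q c) ∈ _
    exact exp_mem_expMonoid_of_gen W hgen _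
  refine ⟨E i j 1 * E j i (-1) * E i j 1, ?_, ?_, fun L' hL => ?_⟩
  · simp only [Units.val_mul]
    exact mul_mem (mul_mem (hmem _ _ _) (hmem _ _ _)) (hmem _ _ _)
  · simp only [Units.val_mul, Pi.mul_apply, hE i j h, hE j i h.symm,
      (one_add_levSingle_apply L _ _ _).1]
    exact transvection_swap_eq_signedPerm h
  · simp only [Units.val_mul, Pi.mul_apply, hE i j h, hE j i h.symm,
      (one_add_levSingle_apply L _ _ _).2 L' hL, mul_one]

/-- A level-local operator on a basis vector, from its matrix. -/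
theorem LevelLocal.apply_single {T : HSp →L[ℝ] HSp} (hT : LevelLocal J T) (L : Lv) (r : Fib J L.1)
    (i : St) : T (lp.single 2 r.1 1) i
      = if h : i.blk.level J = L.1 then levMat J Lv T L ⟨i, h⟩ r else 0 := by
  split_ifs with h
  · rw [levMat_apply]
  · have hf : ∀ k : St,
        |(fun L' => if L' = L.1 then (1 : ℝ) else 0) (k.blk.level J)| ≤ 1 := fun k => by
      dsimp only; split_ifs <;> simp
    have hP := congrArg (fun U : HSp →L[ℝ] HSp => U (lp.single 2 r.1 1) i)
      (hT (fun L' => if L' = L.1 then 1 else 0) 1 zero_le_one hf)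
    simp only [ContinuousLinearMap.comp_apply, diagOp_apply, if_neg h, zero_mul] at hP
    have e : diagOp (fun k => (fun L' => if L' = L.1 then (1 : ℝ) else 0) (k.blk.level J)) 1
        zero_le_one hf (lp.single 2 r.1 1) = lp.single 2 r.1 1 := by
      ext k
      rw [diagOp_apply]
      by_cases hk : k = r.1
      · subst hk; simp [r.2]
      · rw [lp.single_apply_ne _ _ _ hk, mul_zero]
    rwa [e] at hP

/-- Diagonal operators have diagonal matrices. -/
theorem levMat_diagOp (g : St → ℝ) (K : ℝ) (hK : 0 ≤ K) (hg : ∀ i, |g i| ≤ K) :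
    levMat J Lv (diagOp g K hK hg)
      = fun L : Lv => Matrix.diagonal fun i : Fib J L.1 => g i.1 := by
  funext L
  ext i j
  rw [levMat_apply, diagOp_apply]
  rcases eq_or_ne i j with rfl | h
  · simp
  · rw [Matrix.diagonal_apply_ne _ h, lp.single_apply_ne _ _ _ (Subtype.coe_injective.ne h),
      mul_zero]

end

end Vale.Agent.P225.Loop
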